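/- rid 227 (S0351): specification file, instalment 2c (stratum `h = 0`, characteristic zero:
   logarithms and period functionals). One Prop `Spec4.XXX` per module. -/
import Crest.Agent.LT3Spec2

set_option autoImplicit false
open Crest.LubinTate
open Crest Crest.GeometryTopology

namespace Crest.Agent.LT3

/-- `x : W[[X_0..X_{m-1}]] → C` is evaluation at `w` (along `ι : W → C`, `‖p‖ < 1`). -/
structure IsEvW (p : ℕ) [Fact p.Prime] (n : ℕ) {m : ℕ} {C : Type} [NormedField C]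
    (ι : WittVector p (GaloisField p n) →+* C) (w : Fin m → C)
    (x : MvPowerSeries (Fin m) (WittVector p (GaloisField p n)) →+* C) : Prop where
  hp : ‖(p : C)‖ < 1
  hι : ∀ c, ‖ι c‖ ≤ 1
  hw : ∀ i, ‖w i‖ < 1
  hx : ∀ f, x f = evm (MvPowerSeries.map ι f) w

/-- the invariant differential `1 / (∂_2 G)(T, 0)`. -/
noncomputable def om {R : Type} [CommRing R] (G : FormalGroup R) : PowerSeries R :=
  PowerSeries.invOfUnit (PowerSeries.mk fun i =>
    MvPowerSeries.coeff (Finsupp.single (0 : Fin 2) i + Finsupp.single 1 1) G.toPowerSeries) 1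

/-- the logarithm. -/
noncomputable def lg {C : Type} [Field C] (G : FormalGroup C) : PowerSeries C :=
  PowerSeries.mk fun i => PowerSeries.coeff (i - 1) (om G) / (i : C)

/-- `L_s(F) = z` with rate: `‖p^N coeff_{p^{s+nN}} F - z‖ ≤ B ‖p‖^N`. -/
def HasL (p n : ℕ) {C : Type} [NormedField C] (F : PowerSeries C) (s : ℕ) (z : C) : Prop :=
  ∃ B : ℝ, 0 < B ∧ ∀ N : ℕ, ‖(p : C) ^ N * PowerSeries.coeff (p ^ (s + n * N)) F - z‖ ≤
    B * ‖(p : C)‖ ^ N

/-- Gauss bound. -/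
def GB {m : ℕ} {C : Type} [NormedField C] (r B : ℝ) (f : MvPowerSeries (Fin m) C) : Prop :=
  ∀ e : Fin m →₀ ℕ, ‖MvPowerSeries.coeff e f‖ * r ^ (∑ i, e i) ≤ B

/-- API GB: series of finite Gauss norm. -/
structure ApiGB : Prop where
  hasSum : ∀ {C : Type} [NontriviallyNormedField C] [CompleteSpace C] [IsUltrametricDist C]
    {m : ℕ} {f : MvPowerSeries (Fin m) C} {r r₀ B : ℝ} {w : Fin m → C}, 0 < r → r₀ < r →
    (∀ i, ‖w i‖ ≤ r₀) → GB r B f →
    HasSum (fun e : Fin m →₀ ℕ => MvPowerSeries.coeff e f * ∏ i, w i ^ e i) (evm f w)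
  bound : ∀ {C : Type} [NontriviallyNormedField C] [CompleteSpace C] [IsUltrametricDist C]
    {m : ℕ} {f : MvPowerSeries (Fin m) C} {r r₀ B : ℝ} {w : Fin m → C}, 0 < r → r₀ < r →
    (∀ i, ‖w i‖ ≤ r₀) → 0 ≤ B → GB r B f → ‖evm f w‖ ≤ B
  taylor : ∀ {C : Type} [NontriviallyNormedField C] [CompleteSpace C] [IsUltrametricDist C]
    {m : ℕ} {f : MvPowerSeries (Fin m) C} {r r₀ B ε : ℝ} {w w' : Fin m → C}, 0 < r → r₀ < r →
    (∀ i, ‖w i‖ ≤ r₀) → (∀ i, ‖w' i‖ ≤ r₀) → 0 ≤ B → GB r B f → 0 ≤ ε →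
    (∀ i, ‖w' i - w i‖ ≤ ε) →
    ‖evm f w' - evm f w - ∑ i, evm (MvPowerSeries.pderiv C i f) w * (w' i - w i)‖ ≤
      B / r ^ 2 * ε ^ 2
  limit : ∀ {C : Type} [NontriviallyNormedField C] [CompleteSpace C] [IsUltrametricDist C]
    {m : ℕ} (g : ℕ → MvPowerSeries (Fin m) C) {r B q : ℝ}, 0 < r → 0 ≤ B → 0 ≤ q → q < 1 →
    (∀ N, GB r (B * q ^ N) (g (N + 1) - g N)) →
    ∃ g' : MvPowerSeries (Fin m) C, ∀ N, GB r (B * q ^ N) (g' - g N)
  sub : ∀ {C : Type} [NontriviallyNormedField C] [CompleteSpace C] [IsUltrametricDist C]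
    {m : ℕ} {f f' : MvPowerSeries (Fin m) C} {r r₀ B B' : ℝ} {w : Fin m → C}, 0 < r → r₀ < r →
    (∀ i, ‖w i‖ ≤ r₀) → GB r B f → GB r B' f' → evm (f - f') w = evm f w - evm f' w

/-- API W: evaluation points of `W[[X]]`. -/
structure ApiW : Prop where
  le_one : ∀ (p : ℕ) [Fact p.Prime] (n : ℕ) {m : ℕ} {C : Type} [NontriviallyNormedField C]
    [CompleteSpace C] [IsUltrametricDist C] {ι : WittVector p (GaloisField p n) →+* C}
    {w : Fin m → C} {x : MvPowerSeries (Fin m) (WittVector p (GaloisField p n)) →+* C},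
    IsEvW p n ι w x → ∀ f, ‖x f‖ ≤ 1
  x_X : ∀ (p : ℕ) [Fact p.Prime] (n : ℕ) {m : ℕ} {C : Type} [NontriviallyNormedField C]
    [CompleteSpace C] [IsUltrametricDist C] {ι : WittVector p (GaloisField p n) →+* C}
    {w : Fin m → C} {x : MvPowerSeries (Fin m) (WittVector p (GaloisField p n)) →+* C},
    IsEvW p n ι w x → ∀ i, x (MvPowerSeries.X i) = w i
  x_C : ∀ (p : ℕ) [Fact p.Prime] (n : ℕ) {m : ℕ} {C : Type} [NontriviallyNormedField C]
    [CompleteSpace C] [IsUltrametricDist C] {ι : WittVector p (GaloisField p n) →+* C}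
    {w : Fin m → C} {x : MvPowerSeries (Fin m) (WittVector p (GaloisField p n)) →+* C},
    IsEvW p n ι w x → ∀ c, x (MvPowerSeries.C c) = ι c
  /-- `x(𝔪^j)` is small -/
  mem_pow : ∀ (p : ℕ) [Fact p.Prime] (n : ℕ) {C : Type} [NontriviallyNormedField C]
    [CompleteSpace C] [IsUltrametricDist C] {ι : WittVector p (GaloisField p n) →+* C}
    {w : Fin (n - 1) → C} {x : LTRing p n →+* C}, IsEvW p n ι w x → ∀ r : ℝ, 0 ≤ r →
    ‖(p : C)‖ ≤ r → (∀ i, ‖w i‖ ≤ r) → ∀ (j : ℕ) f, f ∈ (mE p n) ^ j → ‖x f‖ ≤ r ^ j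
  /-- composition with a local `W`-endomorphism -/
  comp : ∀ (p : ℕ) [Fact p.Prime] (n : ℕ) {C : Type} [NontriviallyNormedField C]
    [CompleteSpace C] [IsUltrametricDist C] {ι : WittVector p (GaloisField p n) →+* C}
    {w : Fin (n - 1) → C} {x : LTRing p n →+* C}, IsEvW p n ι w x →
    ∀ φ : LTRing p n →ₐ[WittVector p (GaloisField p n)] LTRing p n,
    (∀ f ∈ mE p n, φ f ∈ mE p n) →
    IsEvW p n ι (fun i => x (φ (MvPowerSeries.X i))) (x.comp φ.toRingHom)
  taylor : ∀ (p : ℕ) [Fact p.Prime] (n : ℕ) {C : Type} [NontriviallyNormedField C]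
    [CompleteSpace C] [IsUltrametricDist C] {ι : WittVector p (GaloisField p n) →+* C}
    {w w' : Fin (n - 1) → C} {x x' : LTRing p n →+* C}, IsEvW p n ι w x → IsEvW p n ι w' x' →
    ∀ ε : ℝ, 0 ≤ ε → (∀ i, ‖w' i - w i‖ ≤ ε) → ∀ f,
    ‖x' f - x f - ∑ i, x (MvPowerSeries.pderiv _ i f) * (w' i - w i)‖ ≤ ε ^ 2
  ig : ∀ (p : ℕ) [Fact p.Prime] (n : ℕ) {C : Type} [NontriviallyNormedField C]
    [CompleteSpace C] [IsUltrametricDist C] {ι : WittVector p (GaloisField p n) →+* C}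
    {w : Fin (n - 1) → C} {x : LTRing p n →+* C}, IsEvW p n ι w x →
    ∀ H : FormalGroup (LTRing p n), H.IsComm → IG (H.map x)

namespace Spec4

/-- LOG: the logarithm. -/
def LOG : Prop :=
  (∀ (R S : Type) [CommRing R] [CommRing S] (r : R →+* S) (G : FormalGroup R),
    PowerSeries.map r (om G) = om (G.map r)) ∧
  (∀ (C : Type) [Field C] [CharZero C] (G : FormalGroup C),
    ZC (lg G) ∧ PowerSeries.coeff 1 (lg G) = 1 ∧
    (∀ (σ : Type) (f g : MvPowerSeries σ C), ZC f → ZC g →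
      cmp (lg G) (fadd G f g) = cmp (lg G) f + cmp (lg G) g) ∧
    (∀ (G' : FormalGroup C) (φ : PowerSeries C), IsFGHom G G' φ →
      (cmp (lg G') φ : PowerSeries C) = PowerSeries.C (PowerSeries.coeff 1 φ) * lg G))

/-- LGB: boundedness of `lg G (μ)` for `μ` with small coefficients. -/
def LGB : Prop :=
  ∀ (p : ℕ) [Fact p.Prime] (C : Type) [NontriviallyNormedField C] [CompleteSpace C]
    [IsUltrametricDist C] [CharZero C], ‖(p : C)‖ < 1 → ∀ r : ℝ, 0 ≤ r → r < 1 →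
    ∃ B : ℝ, 0 < B ∧ ∀ (G : FormalGroup C), IG G → ∀ μ : PowerSeries C, ZC μ →
      (∀ i, ‖PowerSeries.coeff i μ‖ ≤ r) →
      ∀ j, ‖PowerSeries.coeff j (cmp (lg G) μ : PowerSeries C)‖ ≤ B

/-- PER: the period series. -/
def PER : Prop :=
  ∀ (p : ℕ) [Fact p.Prime] (n : ℕ) (Γ : FormalGroup (GaloisField p n))
    (H : FormalGroup (LTRing p n)), 1 ≤ n → H.IsComm →
    mulSeries Γ p = PowerSeries.X ^ (p ^ n) → H.map (LTRing.residue p n) = Γ →
    ∀ (C : Type) [NontriviallyNormedField C] [CompleteSpace C] [IsUltrametricDist C]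
      [CharZero C] (ι : WittVector p (GaloisField p n) →+* C), (∀ c, ‖ι c‖ ≤ 1) →
      ∀ r : ℝ, ‖(p : C)‖ ≤ r → r < 1 →
      ∃ (B : ℝ) (L : Fin n → MvPowerSeries (Fin (n - 1)) C), 0 < B ∧ (∀ s, GB r B (L s)) ∧
        ∀ (w : Fin (n - 1) → C) (x : LTRing p n →+* C), IsEvW p n ι w x →
          ∀ r₀ : ℝ, r₀ < r → (∀ i, ‖w i‖ ≤ r₀) → ∀ (s : Fin n) (N : ℕ),
          ‖(p : C) ^ N * PowerSeries.coeff (p ^ (s.1 + n * N)) (lg (H.map x)) -
            evm (L s) w‖ ≤ B * ‖(p : C)‖ ^ N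

/-- LNZ: not all periods vanish. -/
def LNZ : Prop :=
  ∀ (p : ℕ) [Fact p.Prime] (n : ℕ) (Γ : FormalGroup (GaloisField p n))
    (H : FormalGroup (LTRing p n)), 1 ≤ n → H.IsComm →
    mulSeries Γ p = PowerSeries.X ^ (p ^ n) → H.map (LTRing.residue p n) = Γ →
    ∀ (C : Type) [NontriviallyNormedField C] [CompleteSpace C] [IsUltrametricDist C]
      [CharZero C] [IsAlgClosed C] (ι : WittVector p (GaloisField p n) →+* C)
      (w : Fin (n - 1) → C) (x : LTRing p n →+* C), IsEvW p n ι w x →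
      ∀ z : Fin n → C, (∀ s : Fin n, HasL p n (lg (H.map x)) s.1 (z s)) → ∃ s, z s ≠ 0

/-- CURVE: coefficients of `lg(c')` for a curve `c'` over `E` lifting `c` over `k`. -/
def CURVE : Prop :=
  ∀ (p : ℕ) [Fact p.Prime] (n : ℕ) (Γ : FormalGroup (GaloisField p n))
    (H : FormalGroup (LTRing p n)), 1 ≤ n → H.IsComm →
    H.map (LTRing.residue p n) = Γ →
    ∀ (C : Type) [NontriviallyNormedField C] [CompleteSpace C] [IsUltrametricDist C]
      [CharZero C] (ι : WittVector p (GaloisField p n) →+* C)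
      (w : Fin (n - 1) → C) (x : LTRing p n →+* C), IsEvW p n ι w x →
      ∃ B : ℝ, 0 < B ∧ ∀ (c : PowerSeries (GaloisField p n)) (M : ℕ), 1 ≤ M →
        (∀ i, i < M → PowerSeries.coeff i c = 0) →
        ∃ β : ℕ → GaloisField p n, (∀ i, i < M → β i = 0) ∧ β M = PowerSeries.coeff M c ∧
          ∀ c' : PowerSeries (LTRing p n), ZC c' →
            PowerSeries.map (LTRing.residue p n) c' = c → ∀ j, 1 ≤ j →
            ‖PowerSeries.coeff j (cmp (lg (H.map x)) (PowerSeries.map x c') : PowerSeries C) -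
              ∑ i ∈ j.divisors, PowerSeries.coeff (j / i) (lg (H.map x)) *
                ι (WittVector.teichmuller p (β i)) ^ (j / i)‖ ≤ B

/-- LOWER: uniform size of `Λ · L(lg(c'))`. -/
def LOWER : Prop :=
  ∀ (p : ℕ) [Fact p.Prime] (n : ℕ) (Γ : FormalGroup (GaloisField p n))
    (H : FormalGroup (LTRing p n)), 1 ≤ n → H.IsComm →
    mulSeries Γ p = PowerSeries.X ^ (p ^ n) → H.map (LTRing.residue p n) = Γ →
    ∀ (C : Type) [NontriviallyNormedField C] [CompleteSpace C] [IsUltrametricDist C]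
      [CharZero C] [IsAlgClosed C] (ι : WittVector p (GaloisField p n) →+* C)
      (w : Fin (n - 1) → C) (x : LTRing p n →+* C), IsEvW p n ι w x →
      ∀ z : Fin n → C, (∀ s : Fin n, HasL p n (lg (H.map x)) s.1 (z s)) → (∃ s, z s ≠ 0) →
      ∀ Λ : Fin n → C, (∃ s, Λ s ≠ 0) →
      ∃ (t : ℕ) (ω : GaloisField p n) (U : ℝ), t < n ∧ ω ≠ 0 ∧ 0 < U ∧
        ∀ c : PowerSeries (GaloisField p n), (∀ i, i < p ^ t → PowerSeries.coeff i c = 0) →
          PowerSeries.coeff (p ^ t) c = ω →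
          ∀ c' : PowerSeries (LTRing p n), ZC c' →
            PowerSeries.map (LTRing.residue p n) c' = c →
            ∃ z' : Fin n → C, (∀ s : Fin n,
              HasL p n (cmp (lg (H.map x)) (PowerSeries.map x c') : PowerSeries C) s.1 (z' s)) ∧
              ‖∑ s, Λ s * z' s‖ = U

/-- RELAT: the relation between the periods of `x` and `x ∘ φ`. -/
def RELAT : Prop :=
  ∀ (p : ℕ) [Fact p.Prime] (n : ℕ) (Γ : FormalGroup (GaloisField p n))
    (H : FormalGroup (LTRing p n)), 1 ≤ n → H.IsComm → Γ.IsComm →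
    mulSeries Γ p = PowerSeries.X ^ (p ^ n) → H.map (LTRing.residue p n) = Γ →
    ∀ (C : Type) [NontriviallyNormedField C] [CompleteSpace C] [IsUltrametricDist C]
      [CharZero C] (ι : WittVector p (GaloisField p n) →+* C)
      (w : Fin (n - 1) → C) (x : LTRing p n →+* C), IsEvW p n ι w x →
      ∀ (φ : LTRing p n →ₐ[WittVector p (GaloisField p n)] LTRing p n)
        (θ : PowerSeries (LTRing p n)), (∀ f ∈ mE p n, φ f ∈ mE p n) →
        IsFGHom (H.map φ.toRingHom) H θ →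
        ∀ (m : ℕ) (c : PowerSeries (GaloisField p n)), 1 ≤ m → ZC c →
          PowerSeries.map (LTRing.residue p n) θ =
            fadd Γ PowerSeries.X (cmp (mulSeries Γ (p ^ m)) c : PowerSeries (GaloisField p n)) →
          ‖x (PowerSeries.coeff 1 θ)‖ = 1 ∧
          ∀ (s : ℕ) (z z'' y : C), HasL p n (lg (H.map x)) s z →
            HasL p n (lg (H.map (x.comp φ.toRingHom))) s z'' →
            ∀ c' : PowerSeries (LTRing p n), ZC c' →
              PowerSeries.map (LTRing.residue p n) c' = c →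
              HasL p n (cmp (lg (H.map x)) (PowerSeries.map x c') : PowerSeries C) s y →
              x (PowerSeries.coeff 1 θ) * z'' - z = (p : C) ^ m * y

/-- GAUSS: iterates of a small endomorphism. -/
def GAUSS : Prop :=
  ∀ (p : ℕ) [Fact p.Prime] (n : ℕ) (C : Type) [NontriviallyNormedField C] [CompleteSpace C]
    [IsUltrametricDist C] [CharZero C] (ι : WittVector p (GaloisField p n) →+* C)
    (w : Fin (n - 1) → C) (x : LTRing p n →+* C), 1 ≤ n → IsEvW p n ι w x →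
    ∀ r : ℝ, ‖(p : C)‖ ≤ r → r < 1 → (∀ i, ‖w i‖ ≤ r) → ∀ K : ℕ, 1 ≤ K →
      r ^ (K * (p - 1)) ≤ ‖(p : C)‖ →
      ∀ φ : LTRing p n →ₐ[WittVector p (GaloisField p n)] LTRing p n,
        (∀ f, φ f - f ∈ (mE p n) ^ (K + 1)) →
        ∀ (j : ℕ) (i : Fin (n - 1)),
          ‖x ((φ ^ (p ^ j)) (MvPowerSeries.X i)) - w i‖ ≤ ‖(p : C)‖ ^ j

/-- ITER: iterating a move. -/
def ITER : Prop :=
  ∀ (p : ℕ) [Fact p.Prime] (n : ℕ) (Γ : FormalGroup (GaloisField p n))
    (H : FormalGroup (LTRing p n)), 1 ≤ n → H.IsComm → Γ.IsComm →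
    mulSeries Γ p = PowerSeries.X ^ (p ^ n) → H.map (LTRing.residue p n) = Γ →
    ∀ (K : ℕ), 2 ≤ K → ∀ a : PowerSeries (GaloisField p n), IsFGHom Γ Γ a →
    ∀ (φ : LTRing p n →ₐ[WittVector p (GaloisField p n)] LTRing p n)
      (θ : PowerSeries (LTRing p n)), (∀ f, φ f - f ∈ (mE p n) ^ (K + 1)) →
      IsFGHom (H.map φ.toRingHom) H θ →
      PowerSeries.map (LTRing.residue p n) θ =
        (fadd Γ PowerSeries.X (a ^ (p ^ (n * K))) : PowerSeries (GaloisField p n)) →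
      ∀ j : ℕ, ∃ (θj : PowerSeries (LTRing p n)) (a' : PowerSeries (GaloisField p n)),
        IsFGHom Γ Γ a' ∧ IsFGHom (H.map (φ ^ (p ^ j)).toRingHom) H θj ∧
        PowerSeries.map (LTRing.residue p n) θj =
          fadd Γ PowerSeries.X (cmp (mulSeries Γ (p ^ (K + j)))
            (fadd Γ a (cmp (mulSeries Γ p) a') : PowerSeries (GaloisField p n)) :
              PowerSeries (GaloisField p n))

/-- ALG0: a prime not containing `p` and closed under the derivations is zero. -/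
def ALG0 : Prop :=
  ∀ (p : ℕ) [Fact p.Prime] (n : ℕ), 1 ≤ n → ∀ P : Ideal (LTRing p n), P.IsPrime →
    (p : LTRing p n) ∉ P → (∀ F ∈ P, ∀ i, MvPowerSeries.pderiv _ i F ∈ P) → P = ⊥

/-- the ideal `(p, X_0, …, X_{h-2})`. -/
noncomputable def vI (p : ℕ) [Fact p.Prime] (n h : ℕ) : Ideal (LTRing p n) :=
  Ideal.span ({(p : LTRing p n)} ∪ {f | ∃ l : Fin (n - 1), l.1 + 1 < h ∧ f = MvPowerSeries.X l})

/-- FININJ0: `W[[X_{h-1}, …, X_{n-2}]] → E/P` is finite and injective. -/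
def FININJ0 : Prop :=
  ∀ (p : ℕ) [Fact p.Prime] (n h : ℕ), 1 ≤ h → h ≤ n → ∀ P : Ideal (LTRing p n), P.IsPrime →
    (p : LTRing p n) ∉ P → P ≤ vI p n h →
    vI p n h ≤ (P ⊔ Ideal.span {(p : LTRing p n)}).radical →
    ∃ β : MvPowerSeries (Fin (n - h)) (WittVector p (GaloisField p n)) →+* LTRing p n,
      (∀ c, β (MvPowerSeries.C c) = MvPowerSeries.C c) ∧
      (∀ (i : Fin (n - h)) (l : Fin (n - 1)), l.1 + 1 = h + i.1 →
        β (MvPowerSeries.X i) = MvPowerSeries.X l) ∧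
      Function.Injective ((Ideal.Quotient.mk P).comp β) ∧
      ((Ideal.Quotient.mk P).comp β).Finite

/-- WFIELD: `W(κ)` inside a complete field. -/
def WFIELD : Prop :=
  ∀ (p : ℕ) [Fact p.Prime] (κ : Type) [Field κ] [CharP κ p] [PerfectRing κ p],
    ∃ (K : Type) (_ : NontriviallyNormedField K) (_ : CompleteSpace K)
      (_ : IsUltrametricDist K) (j : WittVector p κ →+* K),
      ‖(p : K)‖ < 1 ∧ (∀ c, ‖j c‖ ≤ 1) ∧ (∀ c, WittVector.constantCoeff c ≠ 0 → ‖j c‖ = 1) ∧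
      CharZero K

/-- EMB0a: a generic point of `W[[X_0..X_{m-1}]]`. -/
def EMB0a : Prop :=
  ∀ (p : ℕ) [Fact p.Prime] (n m : ℕ), 1 ≤ n →
    ∃ (C : Type) (_ : NontriviallyNormedField C) (_ : CompleteSpace C) (_ : IsUltrametricDist C)
      (_ : IsAlgClosed C) (_ : CharZero C) (ι : WittVector p (GaloisField p n) →+* C)
      (w : Fin m → C) (x : MvPowerSeries (Fin m) (WittVector p (GaloisField p n)) →+* C),
      IsEvW p n ι w x ∧ Function.Injective x

/-- EMB0: an analytic point with kernel `P`. -/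
def EMB0 : Prop :=
  ∀ (p : ℕ) [Fact p.Prime] (n h : ℕ), 1 ≤ h → h ≤ n → ∀ P : Ideal (LTRing p n), P.IsPrime →
    ∀ β : MvPowerSeries (Fin (n - h)) (WittVector p (GaloisField p n)) →+* LTRing p n,
      (∀ c, β (MvPowerSeries.C c) = MvPowerSeries.C c) →
      (∀ (i : Fin (n - h)) (l : Fin (n - 1)), l.1 + 1 = h + i.1 →
        β (MvPowerSeries.X i) = MvPowerSeries.X l) →
      Function.Injective ((Ideal.Quotient.mk P).comp β) →
      ((Ideal.Quotient.mk P).comp β).Finite →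
    ∃ (C : Type) (_ : NontriviallyNormedField C) (_ : CompleteSpace C) (_ : IsUltrametricDist C)
      (_ : IsAlgClosed C) (_ : CharZero C) (ι : WittVector p (GaloisField p n) →+* C)
      (w : Fin (n - 1) → C) (x : LTRing p n →+* C),
      IsEvW p n ι w x ∧ ∀ f, x f = 0 ↔ f ∈ P

/-- FINAL0: a stable prime is closed under the derivations. -/
def FINAL0 : Prop :=
  ∀ (p : ℕ) [Fact p.Prime] (n : ℕ) (Γ : FormalGroup (GaloisField p n))
    (H : FormalGroup (LTRing p n)), 1 ≤ n → H.IsComm → Γ.IsComm →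
    mulSeries Γ p = PowerSeries.X ^ (p ^ n) → H.map (LTRing.residue p n) = Γ →
    ∀ P : Ideal (LTRing p n), HasMoves0 p n Γ H P →
    ∀ (C : Type) [NontriviallyNormedField C] [CompleteSpace C] [IsUltrametricDist C]
      [CharZero C] [IsAlgClosed C] (ι : WittVector p (GaloisField p n) →+* C)
      (w : Fin (n - 1) → C) (x : LTRing p n →+* C), IsEvW p n ι w x → (∀ f, x f = 0 ↔ f ∈ P) →
    ∀ F ∈ P, ∀ i, MvPowerSeries.pderiv _ i F ∈ P

end Spec4

end Crest.Agent.LT3
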