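/- rid 227 (S0351): a prime not containing `p` and closed under the derivations is zero. -/
import Crest.Agent.LT3Spec4
import Crest.Agent.LT3RINGE

set_option autoImplicit false
open Crest.LubinTate

namespace Crest.Agent.LT3ALG0
open Crest.Agent.LT3

/-- Hasse derivative of order `a` in the `i`-th variable. -/
noncomputable def hs {d : ℕ} {W : Type} [CommRing W] (i : Fin d) (a : ℕ)
    (F : MvPowerSeries (Fin d) W) : MvPowerSeries (Fin d) W :=
  fun k => ((k i + a).choose a : W) * MvPowerSeries.coeff (k + Finsupp.single i a) F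

theorem coeff_hs {d : ℕ} {W : Type} [CommRing W] (i : Fin d) (a : ℕ)
    (F : MvPowerSeries (Fin d) W) (k : Fin d →₀ ℕ) :
    MvPowerSeries.coeff k (hs i a F) =
      ((k i + a).choose a : W) * MvPowerSeries.coeff (k + Finsupp.single i a) F := rfl

theorem hs_zero {d : ℕ} {W : Type} [CommRing W] (i : Fin d) (F : MvPowerSeries (Fin d) W) :
    hs i 0 F = F := by
  ext k
  rw [coeff_hs]
  simp

theorem hs_succ {d : ℕ} {W : Type} [CommRing W] (i : Fin d) (a : ℕ)
    (F : MvPowerSeries (Fin d) W) :
    ((a + 1 : ℕ) : MvPowerSeries (Fin d) W) * hs i (a + 1) F =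
      MvPowerSeries.pderiv W i (hs i a F) := by
  ext k
  rw [MvPowerSeries.coeff_pderiv, coeff_hs,
    ← map_natCast (MvPowerSeries.C : W →+* MvPowerSeries (Fin d) W), MvPowerSeries.coeff_C_mul,
    coeff_hs]
  have h1 : k + Finsupp.single i 1 + Finsupp.single i a = k + Finsupp.single i (a + 1) := by
    rw [add_assoc, ← Finsupp.single_add, add_comm 1 a]
  have h2 : ((k + Finsupp.single i 1 : Fin d →₀ ℕ) i) = k i + 1 := by simp
  rw [h1, h2]
  have h3 : (a + 1) * (k i + (a + 1)).choose (a + 1) = (k i + 1 + a).choose a * (k i + 1) := by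
    have := Nat.choose_succ_right_eq (k i + 1 + a) a
    have h4 : k i + 1 + a - a = k i + 1 := by omega
    rw [h4] at this
    rw [← this, mul_comm]
    congr 2
    omega
  have h5 : ((a + 1 : ℕ) : W) * (((k i + (a + 1)).choose (a + 1) : ℕ) : W) =
      (((k i + 1 + a).choose a : ℕ) : W) * ((k i : W) + 1) := by
    rw [← Nat.cast_mul, h3]
    push_cast
    ring
  rw [← mul_assoc, h5]
  ring

theorem main (hR : Spec.RINGE) : Spec4.ALG0 := by
  intro p _ n hn P hP hp hD
  obtain ⟨hdom, hnoeth, hloc, hmax, -, -, -, -, -⟩ := hR p n hn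
  have hPm : P ≤ mE p n := by
    rw [← hmax hloc]
    exact IsLocalRing.le_maximalIdeal hP.ne_top
  -- nonzero integers are not in P
  have hnat : ∀ a : ℕ, a ≠ 0 → (a : LTRing p n) ∉ P := by
    intro a ha hmem
    obtain ⟨s, u, hu, rfl⟩ := Nat.exists_eq_pow_mul_and_not_dvd ha p (Fact.out : p.Prime).ne_one
    rw [Nat.cast_mul, Nat.cast_pow] at hmem
    rcases hP.mem_or_mem hmem with h | h
    · exact hp (hP.mem_of_pow_mem s h)
    · have h1 : LTRing.residue p n (u : LTRing p n) = 0 := hPm h
      rw [map_natCast] at h1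
      exact hu ((CharP.cast_eq_zero_iff (GaloisField p n) p u).mp h1)
  have hhs : ∀ (i : Fin (n - 1)) (a : ℕ), ∀ F ∈ P, hs i a F ∈ P := by
    intro i a F hF
    induction a with
    | zero => rw [hs_zero]; exact hF
    | succ a ih =>
      have h1 := hD _ ih i
      rw [← hs_succ] at h1
      exact (hP.mem_or_mem h1).resolve_left (hnat (a + 1) (Nat.succ_ne_zero a))
  have hcoef : ∀ s : Finset (Fin (n - 1)), ∀ F ∈ P, ∀ e : Fin (n - 1) →₀ ℕ, e.support ⊆ s →
      MvPowerSeries.coeff e F ∈ Ideal.span {(p : WittVector p (GaloisField p n))} := by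
    classical
    intro s
    induction s using Finset.induction_on with
    | empty =>
      intro F hF e he
      have h0 : e = 0 := by
        rw [Finset.subset_empty] at he
        exact Finsupp.support_eq_empty.mp he
      rw [h0, MvPowerSeries.coeff_zero_eq_constantCoeff_apply]
      exact (LT3RINGE.mem_mE p n F).mp (hPm hF)
    | insert i s hi ih =>
      intro F hF e he
      have h1 := ih (hs i (e i) F) (hhs i (e i) F hF) (e.erase i) (by
        intro j hj
        rw [Finsupp.support_erase, Finset.mem_erase] at hj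
        exact (Finset.mem_insert.mp (he hj.2)).resolve_left hj.1)
      rw [coeff_hs, Finsupp.erase_same, zero_add, Nat.choose_self, Nat.cast_one, one_mul,
        Finsupp.erase_add_single] at h1
      exact h1
  -- F = p F'
  have hdiv : P ≤ mE p n • P := by
    intro F hF
    have h1 : ∀ e, ∃ c, MvPowerSeries.coeff e F = (p : WittVector p (GaloisField p n)) * c :=
      fun e => Ideal.mem_span_singleton'.mp (hcoef e.support F hF e (Finset.Subset.refl _)) |>.imp
        fun c hc => by rw [← hc, mul_comm]
    choose c hc using h1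
    obtain ⟨F', hF'⟩ : ∃ F' : LTRing p n, ∀ e, MvPowerSeries.coeff e F' = c e :=
      ⟨fun e => c e, fun e => rfl⟩
    have h2 : F = (p : LTRing p n) * F' := by
      ext e
      rw [← map_natCast (MvPowerSeries.C : WittVector p (GaloisField p n) →+* LTRing p n),
        MvPowerSeries.coeff_C_mul, hF', hc]
    have h3 : F' ∈ P := by
      rw [h2] at hF
      exact (hP.mem_or_mem hF).resolve_left hp
    rw [h2]
    refine Submodule.smul_mem_smul ?_ h3
    rw [LT3RINGE.mem_mE, map_natCast]
    exact Ideal.mem_span_singleton_self _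
  refine Submodule.eq_bot_of_le_smul_of_le_jacobson_bot (mE p n) P
    (isNoetherianRing_iff_ideal_fg _ |>.mp hnoeth P) hdiv ?_
  rw [← hmax hloc]
  exact IsLocalRing.maximalIdeal_le_jacobson ⊥

end Crest.Agent.LT3ALG0
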