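import Crest.Agent.LT3Spec

set_option autoImplicit false
open Crest.LubinTate
open Crest Crest.GeometryTopology

namespace Crest.Agent.LT3APIA

open LT3 MvPowerSeries

section basics

variable {σ τ R S : Type} [CommRing R] [CommRing S]

lemma hs1 {f : MvPowerSeries σ R} (hf : ZC f) : PowerSeries.HasSubst f :=
  PowerSeries.HasSubst.of_constantCoeff_zero hf

lemma hs2 {f g : MvPowerSeries σ R} (hf : ZC f) (hg : ZC g) :
    MvPowerSeries.HasSubst ![f, g] :=
  hasSubst_of_constantCoeff_zero fun s => by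
    fin_cases s
    · exact hf
    · exact hg

lemma hsF [Finite σ] {a : σ → MvPowerSeries τ R} (ha : ∀ i, ZC (a i)) :
    MvPowerSeries.HasSubst a := hasSubst_of_constantCoeff_zero ha

lemma zc_zero : ZC (0 : MvPowerSeries σ R) := by simp [ZC]

lemma zc_X (s : σ) : ZC (MvPowerSeries.X s : MvPowerSeries σ R) := by simp [ZC]

lemma zc_PX : ZC (PowerSeries.X : PowerSeries R) := by simp [ZC, PowerSeries.X]

lemma zc_fadd (F : FormalGroup R) {f g : MvPowerSeries σ R} (hf : ZC f) (hg : ZC g) :
    ZC (fadd F f g) := by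
  refine constantCoeff_subst_eq_zero (hs2 hf hg) ?_ F.zero_constantCoeff
  intro i
  fin_cases i
  · exact hf
  · exact hg

lemma fadd_zero (F : FormalGroup R) {f : MvPowerSeries σ R} (hf : ZC f) : fadd F f 0 = f :=
  F.add_zero (hs1 hf)

lemma zero_fadd (F : FormalGroup R) {f : MvPowerSeries σ R} (hf : ZC f) : fadd F 0 f = f :=
  F.zero_add (hs1 hf)

lemma fadd_assoc (F : FormalGroup R) {f g h : MvPowerSeries σ R} (hf : ZC f) (hg : ZC g)
    (hh : ZC h) : fadd F (fadd F f g) h = fadd F f (fadd F g h) :=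
  F.assoc' (hs1 hf) (hs1 hg) (hs1 hh)

lemma fadd_comm (F : FormalGroup R) (hc : F.IsComm) {f g : MvPowerSeries σ R} (hf : ZC f)
    (hg : ZC g) : fadd F f g = fadd F g f :=
  F.comm' (hs1 hf) (hs1 hg)

lemma subst_fadd [Finite σ] (F : FormalGroup R) {f g : MvPowerSeries σ R}
    (a : σ → MvPowerSeries τ R) (hf : ZC f) (hg : ZC g) (ha : ∀ i, ZC (a i)) :
    MvPowerSeries.subst a (fadd F f g) =
      fadd F (MvPowerSeries.subst a f) (MvPowerSeries.subst a g) := by
  unfold fadd
  rw [subst_comp_subst_apply (hs2 hf hg) (hsF ha)]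
  congr! 2 with s
  fin_cases s <;> rfl

lemma cmp_fadd (F : FormalGroup R) {f g : PowerSeries R}
    {a : MvPowerSeries σ R} (hf : ZC f) (hg : ZC g) (ha : ZC a) :
    cmp (fadd F f g) a = fadd F (cmp f a) (cmp g a) :=
  subst_fadd F (fun _ => a) hf hg (fun _ => ha)

lemma map_fadd (r : R →+* S) (F : FormalGroup R)
    {f g : MvPowerSeries σ R} (hf : ZC f) (hg : ZC g) :
    MvPowerSeries.map r (fadd F f g) =
      fadd (F.map r) (MvPowerSeries.map r f) (MvPowerSeries.map r g) := by
  unfold fadd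
  rw [map_subst (hs2 hf hg)]
  congr! 2 with s
  fin_cases s <;> rfl

lemma map_zc (r : R →+* S) {f : MvPowerSeries σ R} (hf : ZC f) : ZC (MvPowerSeries.map r f) := by
  unfold ZC at *
  rw [constantCoeff_map, hf, map_zero]

lemma map_cmp (r : R →+* S) {φ : PowerSeries R} {a : MvPowerSeries σ R} (ha : ZC a) :
    MvPowerSeries.map r (cmp φ a) = cmp (PowerSeries.map r φ) (MvPowerSeries.map r a) :=
  PowerSeries.map_subst (hs1 ha) φ

end basics

section cong

variable {σ τ R S : Type} [CommRing R] [CommRing S]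

/-- general congruence lemma for substitution -/
lemma subst_congr [Finite σ] (P : MvPowerSeries σ R) (J : Ideal (MvPowerSeries τ R))
    (I : (τ →₀ ℕ) → Ideal R) (hJ : ∀ f, f ∈ J ↔ ∀ e, coeff e f ∈ I e)
    {a b : σ → MvPowerSeries τ R} (ha : ∀ i, ZC (a i)) (hb : ∀ i, ZC (b i))
    (hab : ∀ i, a i - b i ∈ J) :
    MvPowerSeries.subst a P - MvPowerSeries.subst b P ∈ J := by
  rw [hJ]
  intro e
  have hfa := coeff_subst_finite (hsF ha) P e
  have hfb := coeff_subst_finite (hsF hb) P e
  rw [map_sub, coeff_subst (hsF ha), coeff_subst (hsF hb), ← finsum_sub_distrib hfa hfb]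
  apply finsum_induction (fun x => x ∈ I e)
  · exact (I e).zero_mem
  · intro x y hx hy
    exact (I e).add_mem hx hy
  · intro d
    rw [← smul_sub, ← map_sub, smul_eq_mul]
    apply Ideal.mul_mem_left
    refine (hJ _).1 ?_ e
    have hq : ∀ i, Ideal.Quotient.mk J (a i) = Ideal.Quotient.mk J (b i) := fun i =>
      Ideal.Quotient.eq.2 (hab i)
    rw [← Ideal.Quotient.eq]
    simp only [Finsupp.prod, map_prod, map_pow, hq]

lemma eqM_iff_map (I : Ideal R) {f g : MvPowerSeries σ R} :
    EqM I f g ↔ MvPowerSeries.map (Ideal.Quotient.mk I) f =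
      MvPowerSeries.map (Ideal.Quotient.mk I) g := by
  rw [MvPowerSeries.ext_iff]
  refine forall_congr' fun e => ?_
  rw [coeff_map, coeff_map, Ideal.Quotient.eq]

lemma inI_iff_map (I : Ideal R) {f : MvPowerSeries σ R} :
    InI I f ↔ MvPowerSeries.map (Ideal.Quotient.mk I) f = 0 := by
  rw [MvPowerSeries.ext_iff]
  refine forall_congr' fun e => ?_
  rw [coeff_map, coeff_zero, Ideal.Quotient.eq_zero_iff_mem]

lemma fadd_congr (I : Ideal R) (F : FormalGroup R)
    {f f' g g' : MvPowerSeries σ R} (hf : ZC f) (hf' : ZC f') (hg : ZC g) (hg' : ZC g')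
    (h1 : EqM I f f') (h2 : EqM I g g') : EqM I (fadd F f g) (fadd F f' g') := by
  rw [eqM_iff_map] at *
  rw [map_fadd _ F hf hg, map_fadd _ F hf' hg', h1, h2]

lemma cmp_congr (I : Ideal R) {φ φ' : PowerSeries R}
    {a a' : MvPowerSeries σ R} (ha : ZC a) (ha' : ZC a') (h1 : EqM I φ φ') (h2 : EqM I a a') :
    EqM I (cmp φ a) (cmp φ' a') := by
  rw [eqM_iff_map] at *
  rw [map_cmp _ ha, map_cmp _ ha', h2]
  congr 1

lemma fin2_ext {e d : Fin 2 →₀ ℕ} (h0 : e 0 = d 0) (h1 : e 1 = d 1) : e = d := by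
  ext i
  fin_cases i
  · exact h0
  · exact h1

lemma coeff_left (F : FormalGroup R) (e : Fin 2 →₀ ℕ) (he : e 1 = 0) :
    coeff e F.toPowerSeries = coeff e (X 0 : MvPowerSeries (Fin 2) R) := by
  classical
  have h1 : MvPowerSeries.subst (![X 0, 0] : Fin 2 → MvPowerSeries (Fin 2) R) F.toPowerSeries
      = X 0 := F.add_zero (hs1 (zc_X _))
  rw [← h1, coeff_subst (hs2 (zc_X _) zc_zero), finsum_eq_single _ e]
  · rw [Finsupp.prod_fintype _ _ (by simp), Fin.prod_univ_two]
    simp only [Matrix.cons_val_zero, Matrix.cons_val_one, he, pow_zero, mul_one, coeff_X_pow]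
    rw [if_pos, smul_eq_mul, mul_one]
    refine fin2_ext ?_ ?_ <;> simp [he]
  · intro d hd
    rw [Finsupp.prod_fintype _ _ (by simp), Fin.prod_univ_two]
    simp only [Matrix.cons_val_zero, Matrix.cons_val_one]
    by_cases hd1 : d 1 = 0
    · rw [hd1, pow_zero, mul_one, coeff_X_pow, if_neg, smul_zero]
      intro h
      apply hd
      refine fin2_ext ?_ ?_
      · rw [h]; simp
      · rw [hd1, he]
    · rw [zero_pow hd1, mul_zero, coeff_zero, smul_zero]

lemma coeff_right (F : FormalGroup R) (e : Fin 2 →₀ ℕ) (he : e 0 = 0) :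
    coeff e F.toPowerSeries = coeff e (X 1 : MvPowerSeries (Fin 2) R) := by
  classical
  have h1 : MvPowerSeries.subst (![0, X 1] : Fin 2 → MvPowerSeries (Fin 2) R) F.toPowerSeries
      = X 1 := F.zero_add (hs1 (zc_X _))
  rw [← h1, coeff_subst (hs2 zc_zero (zc_X _)), finsum_eq_single _ e]
  · rw [Finsupp.prod_fintype _ _ (by simp), Fin.prod_univ_two]
    simp only [Matrix.cons_val_zero, Matrix.cons_val_one, he, pow_zero, one_mul, coeff_X_pow]
    rw [if_pos, smul_eq_mul, mul_one]
    refine fin2_ext ?_ ?_ <;> simp [he]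
  · intro d hd
    rw [Finsupp.prod_fintype _ _ (by simp), Fin.prod_univ_two]
    simp only [Matrix.cons_val_zero, Matrix.cons_val_one]
    by_cases hd1 : d 0 = 0
    · rw [hd1, pow_zero, one_mul, coeff_X_pow, if_neg, smul_zero]
      intro h
      apply hd
      refine fin2_ext ?_ ?_
      · rw [hd1, he]
      · rw [h]; simp
    · rw [zero_pow hd1, zero_mul, coeff_zero, smul_zero]

/-- `F = X + Y + X Y G` -/
lemma exists_factor (F : FormalGroup R) : ∃ G : MvPowerSeries (Fin 2) R,
    F.toPowerSeries = X 0 + X 1 + X 0 * (X 1 * G) := by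
  classical
  have hX : ∀ (s t : Fin 2) (e : Fin 2 →₀ ℕ), s ≠ t → e s = 0 →
      coeff e (X s : MvPowerSeries (Fin 2) R) = 0 := by
    intro s t e _ he
    rw [coeff_X, if_neg]
    intro h
    rw [h] at he
    simp at he
  obtain ⟨H, hH⟩ : (X 0 : MvPowerSeries (Fin 2) R) ∣ F.toPowerSeries - X 0 - X 1 := by
    rw [X_dvd_iff]
    intro m hm
    rw [map_sub, map_sub, coeff_right F m hm, hX 0 1 m (by decide) hm]
    ring
  obtain ⟨G, hG⟩ : (X 1 : MvPowerSeries (Fin 2) R) ∣ H := by
    rw [X_dvd_iff]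
    intro m hm
    have h1 : coeff (Finsupp.single 0 1 + m) (X 0 * H : MvPowerSeries (Fin 2) R) = coeff m H := by
      rw [X_def, coeff_add_monomial_mul, one_mul]
    rw [← h1, ← hH, map_sub, map_sub, coeff_left F _ (by simp [hm]),
      hX 1 0 _ (by decide) (by simp [hm])]
    ring
  refine ⟨G, ?_⟩
  rw [← hG, ← hH]
  ring

lemma fadd_eq (F : FormalGroup R) {G : MvPowerSeries (Fin 2) R}
    (hG : F.toPowerSeries = X 0 + X 1 + X 0 * (X 1 * G)) {f g : MvPowerSeries σ R}
    (hf : ZC f) (hg : ZC g) :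
    fadd F f g = f + g + f * (g * MvPowerSeries.subst ![f, g] G) := by
  unfold fadd
  have h := hs2 hf hg
  rw [hG, subst_add h, subst_add h, subst_mul h, subst_mul h, subst_X h, subst_X h]
  rfl

lemma coeff_one_fadd (F : FormalGroup R) {f g : PowerSeries R}
    (hf : ZC f) (hg : ZC g) : PowerSeries.coeff 1 (fadd F f g : PowerSeries R) =
      PowerSeries.coeff 1 f + PowerSeries.coeff 1 g := by
  obtain ⟨G, hG⟩ := exists_factor F
  have h := fadd_eq F hG hf hg
  have h2 : (fadd F f g : PowerSeries R) =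
      f + g + f * (g * (MvPowerSeries.subst ![f, g] G : PowerSeries R)) := h
  have hf' : PowerSeries.constantCoeff f = 0 := hf
  have hg' : PowerSeries.constantCoeff g = 0 := hg
  have hfX : (PowerSeries.X : PowerSeries R) ∣ f := PowerSeries.X_dvd_iff.2 hf'
  have hgX : (PowerSeries.X : PowerSeries R) ∣ g := PowerSeries.X_dvd_iff.2 hg'
  obtain ⟨f1, rfl⟩ := hfX
  obtain ⟨g1, rfl⟩ := hgX
  rw [h2, map_add, map_add, add_eq_left]
  have : (PowerSeries.X * f1 * (PowerSeries.X * g1 *
      (MvPowerSeries.subst ![PowerSeries.X * f1, PowerSeries.X * g1] G : PowerSeries R)) :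
      PowerSeries R) = PowerSeries.X ^ 2 * (f1 * g1 *
      (MvPowerSeries.subst ![PowerSeries.X * f1, PowerSeries.X * g1] G : PowerSeries R)) := by
    ring
  rw [this, PowerSeries.coeff_X_pow_mul']
  simp

/-- one step of the fixed point iteration for the inverse series. -/
noncomputable def Phi (G : MvPowerSeries (Fin 2) R) (i : PowerSeries R) : PowerSeries R :=
  -PowerSeries.X * PowerSeries.invOfUnit
    (1 + PowerSeries.X * (MvPowerSeries.subst ![PowerSeries.X, i] G : PowerSeries R)) 1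

lemma zc_Phi (G : MvPowerSeries (Fin 2) R) (i : PowerSeries R) : ZC (Phi G i) := by
  change PowerSeries.constantCoeff (Phi G i) = 0
  simp [Phi]

lemma Phi_mul (G : MvPowerSeries (Fin 2) R) (i : PowerSeries R) :
    Phi G i * (1 + PowerSeries.X * (MvPowerSeries.subst ![PowerSeries.X, i] G : PowerSeries R))
      = - PowerSeries.X := by
  unfold Phi
  rw [mul_assoc, PowerSeries.invOfUnit_mul, mul_one]
  simp

lemma Phi_congr (G : MvPowerSeries (Fin 2) R) {i j : PowerSeries R} (hi : ZC i) (hj : ZC j)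
    (k : ℕ) (h : PowerSeries.X ^ k ∣ i - j) : PowerSeries.X ^ (k + 1) ∣ Phi G i - Phi G j := by
  have h1 : (PowerSeries.X ^ k : PowerSeries R) ∣
      (MvPowerSeries.subst ![PowerSeries.X, i] G : PowerSeries R) -
      (MvPowerSeries.subst ![PowerSeries.X, j] G : PowerSeries R) := by
    rw [← Ideal.mem_span_singleton] at h ⊢
    refine subst_congr G (Ideal.span {(PowerSeries.X ^ k : PowerSeries R)})
      (fun e => if e () < k then ⊥ else ⊤) ?_ ?_ ?_ ?_
    · intro f
      rw [Ideal.mem_span_singleton, PowerSeries.X_pow_dvd_iff]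
      constructor
      · intro hf e
        split_ifs with he
        · have := hf (e ()) he
          rw [PowerSeries.coeff] at this
          have he' : Finsupp.single () (e ()) = e := by
            ext; simp
          rw [he'] at this
          exact this
        · trivial
      · intro hf m hm
        have := hf (Finsupp.single () m)
        rw [if_pos (by simpa using hm)] at this
        exact this
    · intro s; fin_cases s
      · exact zc_PX
      · exact hi
    · intro s; fin_cases s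
      · exact zc_PX
      · exact hj
    · intro s; fin_cases s
      · simp
      · exact h
  set a := (MvPowerSeries.subst ![PowerSeries.X, i] G : PowerSeries R)
  set b := (MvPowerSeries.subst ![PowerSeries.X, j] G : PowerSeries R)
  have e1 := Phi_mul G i
  have e2 := Phi_mul G j
  change Phi G i * (1 + PowerSeries.X * a) = _ at e1
  change Phi G j * (1 + PowerSeries.X * b) = _ at e2
  have hu : PowerSeries.invOfUnit (1 + PowerSeries.X * a) 1 * (1 + PowerSeries.X * a) = 1 := by
    apply PowerSeries.invOfUnit_mul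
    simp
  have : Phi G i - Phi G j = PowerSeries.X * (a - b) *
      (- (Phi G j) * PowerSeries.invOfUnit (1 + PowerSeries.X * a) 1) := by
    have h3 : (Phi G i - Phi G j) * (1 + PowerSeries.X * a) =
      PowerSeries.X * (a - b) * (- Phi G j) := by
      linear_combination e1 - e2
    calc Phi G i - Phi G j = (Phi G i - Phi G j) *
          (PowerSeries.invOfUnit (1 + PowerSeries.X * a) 1 * (1 + PowerSeries.X * a)) := by
          rw [hu, mul_one]
      _ = ((Phi G i - Phi G j) * (1 + PowerSeries.X * a)) *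
          PowerSeries.invOfUnit (1 + PowerSeries.X * a) 1 := by ring
      _ = _ := by rw [h3]; ring
  rw [this, pow_succ']
  exact (mul_dvd_mul_left _ h1).mul_right _

/-- the iteration -/
noncomputable def itr (G : MvPowerSeries (Fin 2) R) : ℕ → PowerSeries R
  | 0 => 0
  | k + 1 => Phi G (itr G k)

lemma zc_itr (G : MvPowerSeries (Fin 2) R) (k : ℕ) : ZC (itr G k) := by
  cases k with
  | zero => exact zc_zero
  | succ k => exact zc_Phi G _

lemma itr_step (G : MvPowerSeries (Fin 2) R) (k : ℕ) :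
    PowerSeries.X ^ (k + 1) ∣ itr G (k + 1) - itr G k := by
  induction k with
  | zero =>
    rw [zero_add, pow_one, PowerSeries.X_dvd_iff, map_sub]
    have h1 : PowerSeries.constantCoeff (itr G 1) = 0 := zc_itr G 1
    have h2 : PowerSeries.constantCoeff (itr G 0) = 0 := zc_itr G 0
    rw [h1, h2, sub_zero]
  | succ k ih => exact Phi_congr G (zc_itr G _) (zc_itr G _) _ ih

lemma itr_ge (G : MvPowerSeries (Fin 2) R) (k l : ℕ) (h : k ≤ l) :
    PowerSeries.X ^ (k + 1) ∣ itr G l - itr G k := by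
  induction l, h using Nat.le_induction with
  | base => simp
  | succ l hl ih =>
    have h1 := (pow_dvd_pow (PowerSeries.X : PowerSeries R)
      (Nat.succ_le_succ hl)).trans (itr_step G l)
    have := dvd_add h1 ih
    rwa [sub_add_sub_cancel] at this

/-- the limit -/
noncomputable def lim (G : MvPowerSeries (Fin 2) R) : PowerSeries R :=
  PowerSeries.mk fun n => PowerSeries.coeff n (itr G n)

lemma lim_sub (G : MvPowerSeries (Fin 2) R) (k : ℕ) :
    PowerSeries.X ^ (k + 1) ∣ lim G - itr G k := by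
  rw [PowerSeries.X_pow_dvd_iff]
  intro m hm
  have h := itr_ge G m k (by omega)
  rw [PowerSeries.X_pow_dvd_iff] at h
  have := h m (by omega)
  rw [map_sub] at this ⊢
  rw [lim, PowerSeries.coeff_mk]
  rw [sub_eq_zero] at this ⊢
  exact this.symm

lemma zc_lim (G : MvPowerSeries (Fin 2) R) : ZC (lim G) := by
  have h := lim_sub G 0
  rw [zero_add, pow_one, PowerSeries.X_dvd_iff, map_sub] at h
  have h1 : PowerSeries.constantCoeff (itr G 0) = 0 := zc_itr G 0
  rw [h1, sub_zero] at h
  exact h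

lemma Phi_lim (G : MvPowerSeries (Fin 2) R) : Phi G (lim G) = lim G := by
  rw [← sub_eq_zero]
  ext k
  rw [map_zero]
  have h1 := Phi_congr G (zc_lim G) (zc_itr G k) _ (lim_sub G k)
  have h2 := lim_sub G (k + 1)
  have h3 := dvd_sub h1 h2
  have h4 : Phi G (lim G) - Phi G (itr G k) - (lim G - itr G (k + 1)) =
      Phi G (lim G) - lim G := by
    change _ - _ - (_ - Phi G (itr G k)) = _
    ring
  rw [h4, PowerSeries.X_pow_dvd_iff] at h3
  exact h3 k (by omega)

/-- right inverse of the variable -/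
lemma exists_inv_X (F : FormalGroup R) : ∃ i : PowerSeries R, ZC i ∧
    fadd F (PowerSeries.X : PowerSeries R) i = 0 := by
  obtain ⟨G, hG⟩ := exists_factor F
  refine ⟨lim G, zc_lim G, ?_⟩
  have h := fadd_eq F hG zc_PX (zc_lim G)
  rw [h]
  have h1 := Phi_mul G (lim G)
  rw [Phi_lim] at h1
  change (PowerSeries.X + lim G + PowerSeries.X * (lim G *
    (MvPowerSeries.subst ![PowerSeries.X, lim G] G : PowerSeries R)) : PowerSeries R) = 0
  linear_combination h1

lemma zc_cmp {φ : PowerSeries R} {a : MvPowerSeries σ R} (hφ : ZC φ) (ha : ZC a) :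
    ZC (cmp φ a) :=
  PowerSeries.constantCoeff_subst_eq_zero ha φ hφ

lemma X_cmp {a : MvPowerSeries σ R} (ha : ZC a) : cmp PowerSeries.X a = a :=
  PowerSeries.subst_X (hs1 ha)

lemma zero_cmp {a : MvPowerSeries σ R} (ha : ZC a) : cmp (0 : PowerSeries R) a = 0 := by
  unfold LT3.cmp
  rw [← PowerSeries.coe_substAlgHom (hs1 ha), map_zero]

lemma exists_right_inv (F : FormalGroup R) {f : MvPowerSeries σ R} (hf : ZC f) :
    ∃ g, ZC g ∧ fadd F f g = 0 := by
  obtain ⟨i, hi, h⟩ := exists_inv_X F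
  refine ⟨cmp i f, zc_cmp hi hf, ?_⟩
  have h2 := cmp_fadd F (zc_PX (R := R)) hi hf
  rw [h, zero_cmp hf, X_cmp hf] at h2
  exact h2.symm

lemma exists_inv (F : FormalGroup R) {f : MvPowerSeries σ R} (hf : ZC f) :
    ∃ g, ZC g ∧ fadd F f g = 0 ∧ fadd F g f = 0 := by
  obtain ⟨g, hg, h1⟩ := exists_right_inv F hf
  obtain ⟨h, hh, h2⟩ := exists_right_inv F hg
  have h3 : f = h := by
    calc f = fadd F f 0 := (fadd_zero F hf).symm
      _ = fadd F f (fadd F g h) := by rw [h2]
      _ = fadd F (fadd F f g) h := (fadd_assoc F hf hg hh).symm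
      _ = h := by rw [h1, zero_fadd F hh]
  exact ⟨g, hg, h1, h3 ▸ h2⟩

lemma fneg_spec (F : FormalGroup R) {f : MvPowerSeries σ R} (hf : ZC f) :
    ZC (fneg F f) ∧ fadd F f (fneg F f) = 0 ∧ fadd F (fneg F f) f = 0 := by
  have h := exists_inv F hf
  unfold fneg
  rw [dif_pos h]
  exact h.choose_spec

lemma inv_unique (F : FormalGroup R) {f g h : MvPowerSeries σ R} (hf : ZC f) (hg : ZC g)
    (hh : ZC h) (h1 : fadd F f g = 0) (h2 : fadd F h f = 0) : g = h := by
  calc g = fadd F 0 g := (zero_fadd F hg).symm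
    _ = fadd F (fadd F h f) g := by rw [h2]
    _ = fadd F h (fadd F f g) := fadd_assoc F hh hf hg
    _ = h := by rw [h1, fadd_zero F hh]

lemma fneg_zero (F : FormalGroup R) : fneg F (0 : MvPowerSeries σ R) = 0 := by
  have h := fneg_spec F (zc_zero (σ := σ) (R := R))
  rw [← zero_fadd F h.1, h.2.1]

lemma fadd_cancel_right (F : FormalGroup R)
    {f f' g : MvPowerSeries σ R} (hf : ZC f) (hf' : ZC f') (hg : ZC g)
    (h : fadd F f g = fadd F f' g) : f = f' := by
  obtain ⟨hn, h1, h2⟩ := fneg_spec F hg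
  calc f = fadd F f 0 := (fadd_zero F hf).symm
    _ = fadd F f (fadd F g (fneg F g)) := by rw [h1]
    _ = fadd F (fadd F f g) (fneg F g) := (fadd_assoc F hf hg hn).symm
    _ = fadd F (fadd F f' g) (fneg F g) := by rw [h]
    _ = fadd F f' (fadd F g (fneg F g)) := fadd_assoc F hf' hg hn
    _ = f' := by rw [h1, fadd_zero F hf']

lemma zc_fsub (F : FormalGroup R) {f g : MvPowerSeries σ R} (hf : ZC f) (hg : ZC g) :
    ZC (fsub F f g) := zc_fadd F hf (fneg_spec F hg).1

lemma fsub_fadd (F : FormalGroup R) {f g : MvPowerSeries σ R} (hf : ZC f) (hg : ZC g) :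
    fadd F (fsub F f g) g = f := by
  obtain ⟨hn, h1, h2⟩ := fneg_spec F hg
  unfold fsub
  rw [fadd_assoc F hf hn hg, h2, fadd_zero F hf]

lemma fsub_self (F : FormalGroup R) {f g : MvPowerSeries σ R} (hf : ZC f) (hg : ZC g) :
    fsub F f g = 0 ↔ f = g := by
  constructor
  · intro h
    have := fsub_fadd F hf hg
    rw [h, zero_fadd F hg] at this
    exact this.symm
  · rintro rfl
    exact (fneg_spec F hf).2.1

lemma map_fneg (r : R →+* S) (F : FormalGroup R) {f : MvPowerSeries σ R} (hf : ZC f) :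
    MvPowerSeries.map r (fneg F f) = fneg (F.map r) (MvPowerSeries.map r f) := by
  obtain ⟨hn, h1, h2⟩ := fneg_spec F hf
  obtain ⟨hn', h1', h2'⟩ := fneg_spec (F.map r) (map_zc r hf)
  refine inv_unique (F.map r) (map_zc r hf) (map_zc r hn) hn' ?_ h2'
  rw [← map_fadd r F hf hn, h1, map_zero]

lemma map_fsub (r : R →+* S) (F : FormalGroup R) {f g : MvPowerSeries σ R} (hf : ZC f)
    (hg : ZC g) : MvPowerSeries.map r (fsub F f g) =
      fsub (F.map r) (MvPowerSeries.map r f) (MvPowerSeries.map r g) := by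
  unfold fsub
  rw [map_fadd r F hf (fneg_spec F hg).1, map_fneg r F hg]

lemma fneg_congr (I : Ideal R) (F : FormalGroup R)
    {f f' : MvPowerSeries σ R} (hf : ZC f) (hf' : ZC f') (h : EqM I f f') :
    EqM I (fneg F f) (fneg F f') := by
  rw [eqM_iff_map] at *
  rw [map_fneg _ F hf, map_fneg _ F hf', h]

lemma fneg_mem (I : Ideal R) (F : FormalGroup R)
    {f : MvPowerSeries σ R} (hf : ZC f) (h : InI I f) : InI I (fneg F f) := by
  rw [inI_iff_map] at *
  rw [map_fneg _ F hf, h, fneg_zero]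

lemma fsub_mem_iff (I : Ideal R) (F : FormalGroup R)
    {f g : MvPowerSeries σ R} (hf : ZC f) (hg : ZC g) :
    InI I (fsub F f g) ↔ EqM I f g := by
  rw [inI_iff_map, eqM_iff_map, map_fsub _ F hf hg,
    fsub_self _ (map_zc _ hf) (map_zc _ hg)]

lemma inI_mul {I J : Ideal R} {f g : MvPowerSeries σ R} (hf : InI I f) (hg : InI J g) :
    InI (I * J) (f * g) := by
  classical
  intro e
  rw [coeff_mul]
  exact Ideal.sum_mem _ fun x _ => Ideal.mul_mem_mul (hf _) (hg _)

lemma inI_mul_right {I : Ideal R} {f : MvPowerSeries σ R} (hf : InI I f)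
    (g : MvPowerSeries σ R) : InI I (f * g) := by
  classical
  intro e
  rw [coeff_mul]
  exact Ideal.sum_mem _ fun x _ => Ideal.mul_mem_right _ _ (hf _)

lemma fadd_sub_mem (I J : Ideal R) (F : FormalGroup R)
    {f g : MvPowerSeries σ R} (hf : ZC f) (hg : ZC g) (h1 : InI I f) (h2 : InI J g) :
    InI (I * J) (fadd F f g - f - g) := by
  obtain ⟨G, hG⟩ := exists_factor F
  rw [fadd_eq F hG hf hg]
  have : f + g + f * (g * MvPowerSeries.subst ![f, g] G) - f - g =
    f * (g * MvPowerSeries.subst ![f, g] G) := by ring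
  rw [this]
  exact inI_mul h1 (inI_mul_right h2 _)

end cong

theorem main : ApiA where
  zc_fadd := fun F _ _ hf hg => zc_fadd F hf hg
  fadd_zero := fun F _ hf => fadd_zero F hf
  zero_fadd := fun F _ hf => zero_fadd F hf
  fadd_assoc := fun F _ _ _ hf hg hh => fadd_assoc F hf hg hh
  fadd_comm := fun F hc _ _ hf hg => fadd_comm F hc hf hg
  zc_fneg := fun F _ hf => (fneg_spec F hf).1
  fadd_fneg := fun F _ hf => (fneg_spec F hf).2.1
  fneg_fadd := fun F _ hf => (fneg_spec F hf).2.2
  fadd_cancel_right := fun F _ _ _ hf hf' hg h => fadd_cancel_right F hf hf' hg h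
  fsub_fadd := fun F _ _ hf hg => fsub_fadd F hf hg
  fsub_self := fun F _ _ hf hg => fsub_self F hf hg
  subst_fadd := fun F _ _ a hf hg ha => subst_fadd F a hf hg ha
  cmp_fadd := fun F _ _ _ hf hg ha => cmp_fadd F hf hg ha
  map_fadd := fun r F _ _ hf hg => map_fadd r F hf hg
  map_fneg := fun r F _ hf => map_fneg r F hf
  coeff_one_fadd := fun F _ _ hf hg => coeff_one_fadd F hf hg
  fadd_congr := fun I F _ _ _ _ hf hf' hg hg' h1 h2 => fadd_congr I F hf hf' hg hg' h1 h2
  fneg_congr := fun I F _ _ hf hf' h => fneg_congr I F hf hf' h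
  cmp_congr := fun I _ _ _ _ ha ha' h1 h2 => cmp_congr I ha ha' h1 h2
  fadd_sub_mem := fun I J F _ _ hf hg h1 h2 => fadd_sub_mem I J F hf hg h1 h2
  fneg_mem := fun I F _ hf h => fneg_mem I F hf h
  fsub_mem_iff := fun I F _ _ hf hg => fsub_mem_iff I F hf hg

end Crest.Agent.LT3APIA
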