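import Crest.Agent.LT3Spec

set_option autoImplicit false
open Crest.LubinTate
open Crest Crest.GeometryTopology

namespace Crest.Agent.LT3APIB

open LT3

section basic

variable {σ τ R S : Type} [CommRing R] [CommRing S]

theorem hs {f : MvPowerSeries σ R} (h : ZC f) : PowerSeries.HasSubst f :=
  PowerSeries.HasSubst.of_constantCoeff_zero h

theorem hs2 {f g : MvPowerSeries σ R} (hf : ZC f) (hg : ZC g) :
    MvPowerSeries.HasSubst ![f, g] :=
  MvPowerSeries.hasSubst_of_constantCoeff_zero fun s => by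
    fin_cases s
    · exact hf
    · exact hg

theorem hsF [Finite σ] {a : σ → MvPowerSeries τ R} (ha : ∀ i, ZC (a i)) :
    MvPowerSeries.HasSubst a :=
  MvPowerSeries.hasSubst_of_constantCoeff_zero ha

theorem zc_X (i : σ) : ZC (MvPowerSeries.X i : MvPowerSeries σ R) :=
  MvPowerSeries.constantCoeff_X i

theorem zc_PX : ZC (PowerSeries.X : PowerSeries R) := MvPowerSeries.constantCoeff_X _

theorem zc_zero : ZC (0 : MvPowerSeries σ R) := map_zero _

theorem zc_F (F : FormalGroup R) : ZC F.toPowerSeries := F.zero_constantCoeff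

theorem zc_cmp {φ : PowerSeries R} {a : MvPowerSeries σ R} (hφ : ZC φ) (ha : ZC a) :
    ZC (cmp φ a) :=
  PowerSeries.constantCoeff_subst_eq_zero ha φ hφ

theorem cmp_assoc {φ ψ : PowerSeries R} {a : MvPowerSeries σ R} (hψ : ZC ψ) (ha : ZC a) :
    cmp φ (cmp ψ a) = cmp (cmp φ ψ : PowerSeries R) a :=
  (PowerSeries.subst_comp_subst_apply (hs hψ) (hs ha) φ).symm

theorem cmp_X (φ : PowerSeries R) : cmp φ (PowerSeries.X : PowerSeries R) = φ :=
  PowerSeries.X_subst φ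

theorem X_cmp {a : MvPowerSeries σ R} (ha : ZC a) : cmp PowerSeries.X a = a :=
  PowerSeries.subst_X (hs ha)

theorem cmp_zero {φ : PowerSeries R} (hφ : ZC φ) : cmp φ (0 : MvPowerSeries σ R) = 0 :=
  PowerSeries.subst_zero_of_constantCoeff_zero hφ

theorem cmp_map (r : R →+* S) {φ : PowerSeries R} {a : MvPowerSeries σ R} (ha : ZC a) :
    MvPowerSeries.map r (cmp φ a) = cmp (PowerSeries.map r φ) (MvPowerSeries.map r a) :=
  PowerSeries.map_subst (hs ha) φ

theorem subst_cmp {φ : PowerSeries R} {a : MvPowerSeries σ R} {b : σ → MvPowerSeries τ R}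
    (ha : ZC a) (hb : MvPowerSeries.HasSubst b) :
    MvPowerSeries.subst b (cmp φ a) = cmp φ (MvPowerSeries.subst b a) := by
  have := MvPowerSeries.subst_comp_subst_apply (R := R) (hs ha).const hb φ
  exact this

theorem zc_map (r : R →+* S) {f : MvPowerSeries σ R} (hf : ZC f) :
    ZC (MvPowerSeries.map r f) := by
  unfold ZC at *
  rw [MvPowerSeries.constantCoeff_map, hf, map_zero]

theorem fadd_X (F : FormalGroup R) :
    fadd F (MvPowerSeries.X 0 : MvPowerSeries (Fin 2) R) (MvPowerSeries.X 1) = F.toPowerSeries := by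
  unfold fadd
  have : (![MvPowerSeries.X 0, MvPowerSeries.X 1] : Fin 2 → MvPowerSeries (Fin 2) R) =
      MvPowerSeries.X := by
    funext s; fin_cases s <;> rfl
  rw [this, MvPowerSeries.subst_self]
  rfl

theorem subst_pair_F (F : FormalGroup R) (f g : MvPowerSeries σ R) :
    MvPowerSeries.subst ![f, g] F.toPowerSeries = fadd F f g := rfl

theorem coeff_one_cmp {φ a : PowerSeries R} (hφ : ZC φ) (ha : ZC a) :
    PowerSeries.coeff 1 (cmp φ a : PowerSeries R) =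
      PowerSeries.coeff 1 φ * PowerSeries.coeff 1 a := by
  have ha' : PowerSeries.constantCoeff a = 0 := ha
  have hφ' : PowerSeries.constantCoeff φ = 0 := hφ
  show PowerSeries.coeff 1 (PowerSeries.subst a φ) = _
  rw [PowerSeries.coeff_subst' (hs ha), finsum_eq_single _ 1]
  · simp
  · intro n hn
    rcases n with _ | _ | n
    · simp [hφ']
    · exact absurd rfl hn
    · have hX : (PowerSeries.X : PowerSeries R) ∣ a := PowerSeries.X_dvd_iff.2 ha'
      obtain ⟨b, rfl⟩ := hX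
      rw [mul_pow, PowerSeries.coeff_X_pow_mul']
      simp

theorem hom_zc {F G : FormalGroup R} {φ : PowerSeries R} (h : IsFGHom F G φ) : ZC φ := h.1

end basic

section main

set_option linter.unusedSectionVars false

variable (A : ApiA)
include A

section

variable {σ R S : Type} [CommRing R] [CommRing S]

theorem hom_eq {F G : FormalGroup R} {φ : PowerSeries R} (h : IsFGHom F G φ) :
    cmp φ F.toPowerSeries = fadd G (cmp φ (MvPowerSeries.X 0 : MvPowerSeries (Fin 2) R))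
      (cmp φ (MvPowerSeries.X 1 : MvPowerSeries (Fin 2) R)) := h.2

theorem hom_mk {F G : FormalGroup R} {φ : PowerSeries R} (h0 : ZC φ)
    (h : cmp φ F.toPowerSeries = fadd G (cmp φ (MvPowerSeries.X 0 : MvPowerSeries (Fin 2) R))
      (cmp φ (MvPowerSeries.X 1 : MvPowerSeries (Fin 2) R))) : IsFGHom F G φ := ⟨h0, h⟩

theorem hom_fadd {F G : FormalGroup R} {φ : PowerSeries R} (h : IsFGHom F G φ)
    {f g : MvPowerSeries σ R} (hf : ZC f) (hg : ZC g) :
    cmp φ (fadd F f g) = fadd G (cmp φ f) (cmp φ g) := by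
  have hb := hs2 hf hg
  have hbz : ∀ i, ZC ((![f, g] : Fin 2 → MvPowerSeries σ R) i) := by
    intro i; fin_cases i
    · exact hf
    · exact hg
  have e := congrArg (MvPowerSeries.subst ![f, g]) (hom_eq A h)
  rw [subst_cmp (zc_F F) hb, subst_pair_F,
    A.subst_fadd G _ (zc_cmp (hom_zc h) (zc_X 0)) (zc_cmp (hom_zc h) (zc_X 1)) hbz,
    subst_cmp (zc_X 0) hb, subst_cmp (zc_X 1) hb, MvPowerSeries.subst_X hb,
    MvPowerSeries.subst_X hb] at e
  exact e

theorem zc_fneg (F : FormalGroup R) {f : MvPowerSeries σ R} (hf : ZC f) : ZC (fneg F f) :=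
  A.zc_fneg F hf

theorem hom_fneg {F G : FormalGroup R} {φ : PowerSeries R} (h : IsFGHom F G φ)
    {f : MvPowerSeries σ R} (hf : ZC f) : cmp φ (fneg F f) = fneg G (cmp φ f) := by
  have h1 : fadd G (cmp φ (fneg F f)) (cmp φ f) = 0 := by
    rw [← hom_fadd A h (A.zc_fneg F hf) hf, A.fneg_fadd F hf, cmp_zero (hom_zc h)]
  have h2 : fadd G (fneg G (cmp φ f)) (cmp φ f) = 0 := A.fneg_fadd G (zc_cmp (hom_zc h) hf)
  exact A.fadd_cancel_right G (zc_cmp (hom_zc h) (A.zc_fneg F hf))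
    (A.zc_fneg G (zc_cmp (hom_zc h) hf)) (zc_cmp (hom_zc h) hf) (h1.trans h2.symm)

theorem hom_X (F : FormalGroup R) : IsFGHom F F PowerSeries.X := by
  refine hom_mk A zc_PX ?_
  rw [X_cmp (zc_F F), X_cmp (zc_X 0), X_cmp (zc_X 1), fadd_X]

theorem zero_cmp {a : MvPowerSeries σ R} (ha : ZC a) : cmp (0 : PowerSeries R) a = 0 := by
  show PowerSeries.subst a (0 : PowerSeries R) = 0
  rw [← PowerSeries.coe_substAlgHom (hs ha), map_zero]

theorem hom_zero (F G : FormalGroup R) : IsFGHom F G 0 := by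
  refine hom_mk A zc_zero ?_
  rw [zero_cmp A (zc_F F), zero_cmp A (zc_X 0), zero_cmp A (zc_X 1), A.fadd_zero G zc_zero]

theorem hom_comp {F G K : FormalGroup R} {φ ψ : PowerSeries R} (hφ : IsFGHom F G φ)
    (hψ : IsFGHom G K ψ) : IsFGHom F K (cmp ψ φ) := by
  refine hom_mk A (zc_cmp (hom_zc hψ) (hom_zc hφ)) ?_
  rw [← cmp_assoc (hom_zc hφ) (zc_F F), hom_eq A hφ,
    hom_fadd A hψ (zc_cmp (hom_zc hφ) (zc_X 0)) (zc_cmp (hom_zc hφ) (zc_X 1)),
    cmp_assoc (hom_zc hφ) (zc_X 0), cmp_assoc (hom_zc hφ) (zc_X 1)]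

/-- interchange -/
theorem fadd4 {G : FormalGroup R} (hG : G.IsComm) {a b c d : MvPowerSeries σ R}
    (ha : ZC a) (hb : ZC b) (hc : ZC c) (hd : ZC d) :
    fadd G (fadd G a b) (fadd G c d) = fadd G (fadd G a c) (fadd G b d) := by
  rw [A.fadd_assoc G ha hb (A.zc_fadd G hc hd), ← A.fadd_assoc G hb hc hd,
    A.fadd_comm G hG hb hc, A.fadd_assoc G hc hb hd, ← A.fadd_assoc G ha hc (A.zc_fadd G hb hd)]

theorem hom_add {F G : FormalGroup R} (hG : G.IsComm) {φ ψ : PowerSeries R}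
    (hφ : IsFGHom F G φ) (hψ : IsFGHom F G ψ) : IsFGHom F G (fadd G φ ψ) := by
  refine hom_mk A (A.zc_fadd G (hom_zc hφ) (hom_zc hψ)) ?_
  rw [A.cmp_fadd G (hom_zc hφ) (hom_zc hψ) (zc_F F),
    A.cmp_fadd G (hom_zc hφ) (hom_zc hψ) (zc_X 0),
    A.cmp_fadd G (hom_zc hφ) (hom_zc hψ) (zc_X 1), hom_eq A hφ, hom_eq A hψ,
    fadd4 A hG (zc_cmp (hom_zc hφ) (zc_X 0)) (zc_cmp (hom_zc hφ) (zc_X 1))
      (zc_cmp (hom_zc hψ) (zc_X 0)) (zc_cmp (hom_zc hψ) (zc_X 1))]

theorem cmp_fneg (G : FormalGroup R) {f : PowerSeries R} {a : MvPowerSeries σ R} (hf : ZC f)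
    (ha : ZC a) : cmp (fneg G f) a = fneg G (cmp f a) := by
  have h1 : fadd G (cmp (fneg G f) a) (cmp f a) = 0 := by
    rw [← A.cmp_fadd G (A.zc_fneg G hf) hf ha, A.fneg_fadd G hf, zero_cmp A ha]
  have h2 : fadd G (fneg G (cmp f a)) (cmp f a) = 0 := A.fneg_fadd G (zc_cmp hf ha)
  exact A.fadd_cancel_right G (zc_cmp (A.zc_fneg G hf) ha)
    (A.zc_fneg G (zc_cmp hf ha)) (zc_cmp hf ha) (h1.trans h2.symm)

theorem fneg_fadd_distrib {G : FormalGroup R} (hG : G.IsComm) {a b : MvPowerSeries σ R}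
    (ha : ZC a) (hb : ZC b) : fneg G (fadd G a b) = fadd G (fneg G a) (fneg G b) := by
  have h1 : fadd G (fneg G (fadd G a b)) (fadd G a b) = 0 := A.fneg_fadd G (A.zc_fadd G ha hb)
  have h2 : fadd G (fadd G (fneg G a) (fneg G b)) (fadd G a b) = 0 := by
    rw [fadd4 A hG (A.zc_fneg G ha) (A.zc_fneg G hb) ha hb, A.fneg_fadd G ha, A.fneg_fadd G hb,
      A.fadd_zero G zc_zero]
  exact A.fadd_cancel_right G (A.zc_fneg G (A.zc_fadd G ha hb))
    (A.zc_fadd G (A.zc_fneg G ha) (A.zc_fneg G hb)) (A.zc_fadd G ha hb) (h1.trans h2.symm)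

theorem hom_neg {F G : FormalGroup R} (hG : G.IsComm) {φ : PowerSeries R}
    (hφ : IsFGHom F G φ) : IsFGHom F G (fneg G φ) := by
  refine hom_mk A (A.zc_fneg G (hom_zc hφ)) ?_
  rw [cmp_fneg A G (hom_zc hφ) (zc_F F), cmp_fneg A G (hom_zc hφ) (zc_X 0),
    cmp_fneg A G (hom_zc hφ) (zc_X 1), hom_eq A hφ,
    fneg_fadd_distrib A hG (zc_cmp (hom_zc hφ) (zc_X 0)) (zc_cmp (hom_zc hφ) (zc_X 1))]

theorem hom_map (r : R →+* S) {F G : FormalGroup R} {φ : PowerSeries R} (h : IsFGHom F G φ) :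
    IsFGHom (F.map r) (G.map r) (PowerSeries.map r φ) := by
  refine hom_mk A (zc_map r (hom_zc h)) ?_
  have e := congrArg (MvPowerSeries.map r) (hom_eq A h)
  rw [cmp_map r (zc_F F), A.map_fadd r G (zc_cmp (hom_zc h) (zc_X 0))
    (zc_cmp (hom_zc h) (zc_X 1)), cmp_map r (zc_X 0), cmp_map r (zc_X 1),
    MvPowerSeries.map_X, MvPowerSeries.map_X] at e
  exact e

theorem exists_inv {φ : PowerSeries R} (h0 : ZC φ) (h1 : IsUnit (PowerSeries.coeff 1 φ)) :
    ∃ ψ : PowerSeries R, ZC ψ ∧ cmp φ ψ = PowerSeries.X ∧ cmp ψ φ = PowerSeries.X :=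
  ⟨φ.substInvOfIsUnit h1, PowerSeries.constantCoeff_substInvOfIsUnit φ h1,
    PowerSeries.subst_substInvOfIsUnit_right φ h0 h1,
    PowerSeries.subst_substInvOfIsUnit_left φ h0 h1⟩

theorem hom_inv {F G : FormalGroup R} {φ : PowerSeries R} (h : IsFGHom F G φ)
    (h1 : IsUnit (PowerSeries.coeff 1 φ)) :
    ∃ ψ : PowerSeries R, IsFGHom G F ψ ∧ cmp φ ψ = PowerSeries.X ∧ cmp ψ φ = PowerSeries.X := by
  obtain ⟨ψ, hψ, e1, e2⟩ := exists_inv A (hom_zc h) h1
  refine ⟨ψ, hom_mk A hψ ?_, e1, e2⟩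
  have h0 := hom_zc h
  have k0 : (MvPowerSeries.X 0 : MvPowerSeries (Fin 2) R) =
      cmp φ (cmp ψ (MvPowerSeries.X 0 : MvPowerSeries (Fin 2) R)) := by
    rw [cmp_assoc hψ (zc_X 0), e1, X_cmp (zc_X 0)]
  have k1 : (MvPowerSeries.X 1 : MvPowerSeries (Fin 2) R) =
      cmp φ (cmp ψ (MvPowerSeries.X 1 : MvPowerSeries (Fin 2) R)) := by
    rw [cmp_assoc hψ (zc_X 1), e1, X_cmp (zc_X 1)]
  have hz0 : ZC (cmp ψ (MvPowerSeries.X 0 : MvPowerSeries (Fin 2) R)) := zc_cmp hψ (zc_X 0)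
  have hz1 : ZC (cmp ψ (MvPowerSeries.X 1 : MvPowerSeries (Fin 2) R)) := zc_cmp hψ (zc_X 1)
  have hG : G.toPowerSeries = cmp φ (fadd F (cmp ψ (MvPowerSeries.X 0 : MvPowerSeries (Fin 2) R))
      (cmp ψ (MvPowerSeries.X 1 : MvPowerSeries (Fin 2) R))) := by
    rw [hom_fadd A h hz0 hz1, ← k0, ← k1, fadd_X]
  rw [hG, cmp_assoc h0 (A.zc_fadd F hz0 hz1), e2, X_cmp (A.zc_fadd F hz0 hz1)]

theorem coeff_single_zero (G : MvPowerSeries (Fin 2) R) :
    PowerSeries.coeff 1 (MvPowerSeries.subst ![PowerSeries.X, 0] G : PowerSeries R) =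
      MvPowerSeries.coeff (Finsupp.single 0 1) G := by
  rw [PowerSeries.coeff, MvPowerSeries.coeff_subst (hs2 zc_PX zc_zero),
    finsum_eq_single _ (Finsupp.single 0 1)]
  · simp
  · intro d hd
    by_cases hd₁ : d 1 = 0
    · by_cases hd₀ : d 0 = 0
      · simp [hd₀, hd₁]
      simp [hd₁, PowerSeries.coeff_X_pow]
      grind
    simp [hd₁]

theorem coeff_single_one (G : MvPowerSeries (Fin 2) R) :
    PowerSeries.coeff 1 (MvPowerSeries.subst ![0, PowerSeries.X] G : PowerSeries R) =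
      MvPowerSeries.coeff (Finsupp.single 1 1) G := by
  rw [PowerSeries.coeff, MvPowerSeries.coeff_subst (hs2 zc_zero zc_PX),
    finsum_eq_single _ (Finsupp.single 1 1)]
  · simp
  · intro d hd
    by_cases hd₁ : d 0 = 0
    · by_cases hd₀ : d 1 = 0
      · simp [hd₀, hd₁]
      simp [hd₁, PowerSeries.coeff_X_pow]
      grind
    simp [hd₁]

/-- the transported series -/
noncomputable def tr {R : Type} [CommRing R] (F : FormalGroup R) (s t : PowerSeries R) :
    MvPowerSeries (Fin 2) R :=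
  cmp t (fadd F (cmp s (MvPowerSeries.X 0 : MvPowerSeries (Fin 2) R))
    (cmp s (MvPowerSeries.X 1 : MvPowerSeries (Fin 2) R)))

theorem zc_tr (F : FormalGroup R) {s t : PowerSeries R} (hs' : ZC s) (ht : ZC t) :
    ZC (tr F s t) :=
  zc_cmp ht (A.zc_fadd F (zc_cmp hs' (zc_X 0)) (zc_cmp hs' (zc_X 1)))

theorem subst_tr (F : FormalGroup R) {s t : PowerSeries R} (hs' : ZC s)
    {f g : MvPowerSeries σ R} (hf : ZC f) (hg : ZC g) :
    MvPowerSeries.subst ![f, g] (tr F s t) = cmp t (fadd F (cmp s f) (cmp s g)) := by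
  have hb := hs2 hf hg
  have hbz : ∀ i, ZC ((![f, g] : Fin 2 → MvPowerSeries σ R) i) := by
    intro i; fin_cases i
    · exact hf
    · exact hg
  unfold tr
  rw [subst_cmp (A.zc_fadd F (zc_cmp hs' (zc_X 0)) (zc_cmp hs' (zc_X 1))) hb,
    A.subst_fadd F _ (zc_cmp hs' (zc_X 0)) (zc_cmp hs' (zc_X 1)) hbz,
    subst_cmp (zc_X 0) hb, subst_cmp (zc_X 1) hb, MvPowerSeries.subst_X hb,
    MvPowerSeries.subst_X hb]
  rfl

theorem tr_assoc (F : FormalGroup R) {s t : PowerSeries R} (hs' : ZC s) (ht : ZC t)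
    (e1 : cmp s t = PowerSeries.X)
    {f g h : MvPowerSeries σ R} (hf : ZC f) (hg : ZC g) (hh : ZC h) :
    MvPowerSeries.subst ![MvPowerSeries.subst ![f, g] (tr F s t), h] (tr F s t) =
      MvPowerSeries.subst ![f, MvPowerSeries.subst ![g, h] (tr F s t)] (tr F s t) := by
  have k : ∀ a b : MvPowerSeries σ R, ZC a → ZC b →
      cmp s (cmp t (fadd F (cmp s a) (cmp s b))) = fadd F (cmp s a) (cmp s b) := by
    intro a b ha hb
    have hz := A.zc_fadd F (zc_cmp hs' ha) (zc_cmp hs' hb)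
    rw [cmp_assoc ht hz, e1, X_cmp hz]
  have z : ∀ a b : MvPowerSeries σ R, ZC a → ZC b →
      ZC (cmp t (fadd F (cmp s a) (cmp s b))) := fun a b ha hb =>
    zc_cmp ht (A.zc_fadd F (zc_cmp hs' ha) (zc_cmp hs' hb))
  rw [subst_tr A F hs' hf hg, subst_tr A F hs' hg hh, subst_tr A F hs' (z f g hf hg) hh,
    subst_tr A F hs' hf (z g h hg hh), k f g hf hg, k g h hg hh,
    A.fadd_assoc F (zc_cmp hs' hf) (zc_cmp hs' hg) (zc_cmp hs' hh)]

theorem transport (F : FormalGroup R) {s : PowerSeries R} (hs' : ZC s)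
    (h1 : IsUnit (PowerSeries.coeff 1 s)) : ∃ F' : FormalGroup R, IsFGHom F' F s ∧
      (F.IsComm → F'.IsComm) := by
  obtain ⟨t, ht, e1, e2⟩ := exists_inv A hs' h1
  refine ⟨⟨tr F s t, zc_tr A F hs' ht, ?_, ?_, ?_⟩, ?_, ?_⟩
  · rw [← coeff_single_zero A, subst_tr A F hs' zc_PX zc_zero, cmp_zero hs', cmp_X,
      A.fadd_zero F hs', e2, PowerSeries.coeff_one_X]
  · rw [← coeff_single_one A, subst_tr A F hs' zc_zero zc_PX, cmp_zero hs', cmp_X,
      A.zero_fadd F hs', e2, PowerSeries.coeff_one_X]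
  · exact tr_assoc A F hs' ht e1 (zc_X 0) (zc_X 1) (zc_X 2)
  · refine hom_mk A hs' ?_
    show cmp s (tr F s t) = _
    have hz := A.zc_fadd F (zc_cmp hs' (zc_X (R := R) (0 : Fin 2))) (zc_cmp hs' (zc_X 1))
    unfold tr
    rw [cmp_assoc ht hz, e1, X_cmp hz]
  · intro hF
    constructor
    show tr F s t = MvPowerSeries.subst ![MvPowerSeries.X 1, MvPowerSeries.X 0] (tr F s t)
    rw [subst_tr A F hs' (zc_X 1) (zc_X 0),
      A.fadd_comm F hF (zc_cmp hs' (zc_X 1)) (zc_cmp hs' (zc_X 0))]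
    rfl

theorem transport_unique {F F' F'' : FormalGroup R} {s : PowerSeries R}
    (h1 : IsUnit (PowerSeries.coeff 1 s)) (h' : IsFGHom F' F s) (h'' : IsFGHom F'' F s) :
    F' = F'' := by
  obtain ⟨t, ht, e1, e2⟩ := exists_inv A (hom_zc h') h1
  apply FormalGroup.ext
  have e : cmp s F'.toPowerSeries = cmp s F''.toPowerSeries := by
    rw [hom_eq A h', hom_eq A h'']
  have e' := congrArg (cmp t) e
  rwa [cmp_assoc (hom_zc h') (zc_F F'), cmp_assoc (hom_zc h') (zc_F F''), e2,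
    X_cmp (zc_F F'), X_cmp (zc_F F'')] at e'

theorem comm_map (r : R →+* S) (F : FormalGroup R) (hF : F.IsComm) : (F.map r).IsComm := by
  constructor
  have e := congrArg (MvPowerSeries.map r) hF.comm
  rw [MvPowerSeries.map_subst (hs2 (zc_X 1) (zc_X 0))] at e
  refine e.trans ?_
  show MvPowerSeries.subst _ (F.map r).toPowerSeries = MvPowerSeries.subst _ (F.map r).toPowerSeries
  congr 1
  funext i
  fin_cases i
  · exact MvPowerSeries.map_X r 1
  · exact MvPowerSeries.map_X r 0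

end

end main

theorem main (A : ApiA) : ApiB where
  hom_fadd := fun h _ _ hf hg => hom_fadd A h hf hg
  hom_fneg := fun h _ hf => hom_fneg A h hf
  hom_iff := fun {R} _ {F G φ} h0 => by
    rw [fadd_X]
    exact ⟨fun h => hom_eq A h, fun h => hom_mk A h0 h⟩
  hom_X := hom_X A
  hom_zero := hom_zero A
  hom_comp := hom_comp A
  hom_add := fun hG _ _ h h' => hom_add A hG h h'
  hom_neg := fun hG _ h => hom_neg A hG h
  hom_map := fun r _ _ _ h => hom_map A r h
  hom_inv := hom_inv A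
  transport := transport A
  transport_unique := transport_unique A
  comm_map := comm_map A
  cmp_map := fun r _ _ ha => cmp_map r ha
  cmp_assoc := cmp_assoc
  zc_cmp := zc_cmp
  cmp_X := cmp_X
  X_cmp := X_cmp
  coeff_one_cmp := coeff_one_cmp

end Crest.Agent.LT3APIB
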