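/- rid 227 (S0351), module APIC: the series `[m]_F` (helper7). -/
import Crest.Agent.LT3Spec

set_option autoImplicit false
open Crest.LubinTate
open Crest Crest.GeometryTopology

namespace Crest.Agent.LT3APIC

open Crest.Agent.LT3

theorem zc_X {R : Type} [CommRing R] : ZC (PowerSeries.X : PowerSeries R) :=
  PowerSeries.constantCoeff_X

theorem zc_zero {σ R : Type} [CommRing R] : ZC (0 : MvPowerSeries σ R) := by
  simp [ZC]

theorem mul_zero' {R : Type} [CommRing R] (F : FormalGroup R) : mulSeries F 0 = 0 := rfl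

theorem mul_succ' {R : Type} [CommRing R] (F : FormalGroup R) (m : ℕ) :
    mulSeries F (m + 1) = fadd F (mulSeries F m) (PowerSeries.X : PowerSeries R) := rfl

theorem hasSubst_of_zc {σ R : Type} [CommRing R] {a : MvPowerSeries σ R} (ha : ZC a) :
    PowerSeries.HasSubst a := PowerSeries.HasSubst.of_constantCoeff_zero ha

theorem cmp_zero_left {σ R : Type} [CommRing R] {a : MvPowerSeries σ R} (ha : ZC a) :
    cmp (0 : PowerSeries R) a = 0 := by
  unfold LT3.cmp
  rw [← PowerSeries.coe_substAlgHom (hasSubst_of_zc ha), map_zero]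

theorem cmp_zero_right {σ R : Type} [CommRing R] {φ : PowerSeries R} (h : ZC φ) :
    cmp φ (0 : MvPowerSeries σ R) = 0 :=
  PowerSeries.subst_zero_of_constantCoeff_zero h

theorem InI_mul {σ R : Type} [CommRing R] {I J : Ideal R} {f g : MvPowerSeries σ R}
    (hf : InI I f) (hg : InI J g) : InI (I * J) (f * g) := by
  classical
  intro e
  rw [MvPowerSeries.coeff_mul]
  exact Ideal.sum_mem _ fun x _ => Ideal.mul_mem_mul (hf _) (hg _)

theorem InI_pow {σ R : Type} [CommRing R] {I : Ideal R} {f : MvPowerSeries σ R}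
    (hf : InI I f) (j : ℕ) : InI (I ^ j) (f ^ j) := by
  induction j with
  | zero =>
    intro e
    simp
  | succ j ih =>
    rw [pow_succ, pow_succ]
    exact InI_mul ih hf

theorem finsum_mem_ideal {ι R : Type} [CommRing R] (I : Ideal R) (f : ι → R)
    (h : ∀ i, f i ∈ I) : ∑ᶠ i, f i ∈ I := by
  classical
  by_cases hf : (Function.support f).Finite
  · rw [finsum_eq_sum f hf]
    exact Ideal.sum_mem _ fun i _ => h i
  · rw [finsum_of_infinite_support hf]
    exact I.zero_mem

theorem zc_mul (A : ApiA) {R : Type} [CommRing R] (F : FormalGroup R) (m : ℕ) :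
    ZC (mulSeries F m) := by
  induction m with
  | zero => rw [mul_zero']; exact zc_zero
  | succ m ih => rw [mul_succ']; exact A.zc_fadd F ih zc_X

theorem mul_one' (A : ApiA) {R : Type} [CommRing R] (F : FormalGroup R) :
    mulSeries F 1 = PowerSeries.X := by
  rw [mul_succ', mul_zero']
  exact A.zero_fadd F zc_X

theorem mul_hom (B : ApiB) {R : Type} [CommRing R] {F : FormalGroup R}
    (hF : F.IsComm) (m : ℕ) : IsFGHom F F (mulSeries F m) := by
  induction m with
  | zero => exact B.hom_zero F F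
  | succ m ih => rw [mul_succ']; exact B.hom_add hF ih (B.hom_X F)

theorem mul_add' (A : ApiA) {R : Type} [CommRing R] (F : FormalGroup R) (a b : ℕ) :
    mulSeries F (a + b) = fadd F (mulSeries F a) (mulSeries F b) := by
  induction b with
  | zero => rw [mul_zero', add_zero]; exact (A.fadd_zero F (zc_mul A F a)).symm
  | succ b ih =>
    rw [← add_assoc, mul_succ', mul_succ', ih]
    exact A.fadd_assoc F (zc_mul A F a) (zc_mul A F b) zc_X

theorem mul_mul' (A : ApiA) (B : ApiB) {R : Type} [CommRing R] (F : FormalGroup R) (a b : ℕ) :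
    mulSeries F (a * b) = cmp (mulSeries F a) (mulSeries F b) := by
  induction a with
  | zero => rw [zero_mul, mul_zero', cmp_zero_left (zc_mul A F b)]
  | succ a ih =>
    rw [add_mul, one_mul, mul_add' A, ih, mul_succ' F a,
      A.cmp_fadd F (zc_mul A F a) zc_X (zc_mul A F b), B.X_cmp (zc_mul A F b)]

theorem mul_map (A : ApiA) {R S : Type} [CommRing R] [CommRing S] (r : R →+* S)
    (F : FormalGroup R) (m : ℕ) :
    PowerSeries.map r (mulSeries F m) = mulSeries (F.map r) m := by
  induction m with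
  | zero => rw [mul_zero', mul_zero', map_zero]
  | succ m ih =>
    rw [mul_succ', mul_succ', ← ih]
    have h := A.map_fadd r F (zc_mul A F m) (zc_X (R := R))
    have h2 : MvPowerSeries.map r (PowerSeries.X : PowerSeries R) = (PowerSeries.X : PowerSeries S) :=
      PowerSeries.map_X r
    rw [h2] at h
    exact h

theorem coeff_one_mul (A : ApiA) {R : Type} [CommRing R] (F : FormalGroup R) (m : ℕ) :
    PowerSeries.coeff 1 (mulSeries F m) = (m : R) := by
  induction m with
  | zero => rw [mul_zero']; simp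
  | succ m ih =>
    rw [mul_succ', A.coeff_one_fadd F (zc_mul A F m) zc_X, ih, PowerSeries.coeff_one_X]
    push_cast
    ring

theorem hom_mul (A : ApiA) (B : ApiB) {R : Type} [CommRing R] {F G : FormalGroup R}
    {φ : PowerSeries R} (h : IsFGHom F G φ) (m : ℕ) :
    cmp φ (mulSeries F m) = cmp (mulSeries G m) φ := by
  have hz : ZC φ := h.1
  induction m with
  | zero => rw [mul_zero', mul_zero', cmp_zero_left hz, cmp_zero_right hz]
  | succ m ih =>
    rw [mul_succ', mul_succ', B.hom_fadd h (zc_mul A F m) zc_X, ih,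
      A.cmp_fadd G (zc_mul A G m) zc_X hz, B.X_cmp hz, B.cmp_X φ]

theorem cmp_mul_mem (A : ApiA) {σ R : Type} [CommRing R] (I : Ideal R) (F : FormalGroup R)
    (p : ℕ) (hp : (p : R) ∈ I) (i : ℕ) (hi : 1 ≤ i) {f : MvPowerSeries σ R} (hf : ZC f)
    (hfi : InI (I ^ i) f) : InI (I ^ (i + 1)) (cmp (mulSeries F p) f) := by
  intro e
  unfold LT3.cmp
  rw [PowerSeries.coeff_subst (hasSubst_of_zc hf)]
  refine finsum_mem_ideal _ _ fun j => ?_
  rw [smul_eq_mul]
  match j with
  | 0 =>
    have h0 : PowerSeries.coeff 0 (mulSeries F p) = 0 := by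
      rw [PowerSeries.coeff_zero_eq_constantCoeff_apply]; exact zc_mul A F p
    rw [h0, zero_mul]
    exact Ideal.zero_mem _
  | 1 =>
    rw [coeff_one_mul A, pow_one, pow_succ']
    exact Ideal.mul_mem_mul hp (hfi e)
  | (j + 2) =>
    have h1 := InI_pow hfi (j + 2) e
    rw [← pow_mul] at h1
    refine Ideal.mul_mem_left _ _ (Ideal.pow_le_pow_right ?_ h1)
    nlinarith

theorem cmp_mul_pow_mem (A : ApiA) (B : ApiB) {σ R : Type} [CommRing R] (I : Ideal R)
    (F : FormalGroup R) (p k : ℕ) (hp : (p : R) ∈ I) (i : ℕ) (hi : 1 ≤ i)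
    {f : MvPowerSeries σ R} (hf : ZC f) (hfi : InI (I ^ i) f) :
    InI (I ^ (i + k)) (cmp (mulSeries F (p ^ k)) f) := by
  induction k with
  | zero =>
    rw [pow_zero, mul_one' A, B.X_cmp hf]
    exact hfi
  | succ k ih =>
    have e1 : mulSeries F (p ^ (k + 1)) = cmp (mulSeries F p) (mulSeries F (p ^ k)) := by
      rw [pow_succ', mul_mul' A B]
    rw [e1, ← B.cmp_assoc (zc_mul A F _) hf, ← add_assoc]
    exact cmp_mul_mem A I F p hp (i + k) (by omega) (B.zc_cmp (zc_mul A F _) hf) ih

theorem main (A : ApiA) (B : ApiB) : ApiC where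
  zc_mul := fun F m => zc_mul A F m
  mul_one := fun F => mul_one' A F
  mul_hom := fun h m => mul_hom B h m
  mul_add := fun F a b => mul_add' A F a b
  mul_mul := fun F a b => mul_mul' A B F a b
  mul_map := fun r F m => mul_map A r F m
  coeff_one_mul := fun F m => coeff_one_mul A F m
  hom_mul := fun h m => hom_mul A B h m
  cmp_mul_mem := fun I F p hp i hi _ hf hfi => cmp_mul_mem A I F p hp i hi hf hfi
  cmp_mul_pow_mem := fun I F p k hp i hi _ hf hfi => cmp_mul_pow_mem A B I F p k hp i hi hf hfi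

end Crest.Agent.LT3APIC
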