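/- rid 227 (S0351), module APID: rigidity of homomorphisms of formal group laws (helper25). -/
import Crest.Agent.LT3Spec

set_option autoImplicit false
open Crest.LubinTate
open Crest Crest.GeometryTopology

namespace Crest.Agent.LT3APID

open Crest.Agent.LT3

theorem eqM_iff_map {σ R : Type} [CommRing R] (I : Ideal R) (f g : MvPowerSeries σ R) :
    EqM I f g ↔ MvPowerSeries.map (Ideal.Quotient.mk I) f =
      MvPowerSeries.map (Ideal.Quotient.mk I) g := by
  constructor
  · intro h
    ext e
    rw [MvPowerSeries.coeff_map, MvPowerSeries.coeff_map]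
    exact Ideal.Quotient.eq.2 (h e)
  · intro h e
    have := congrArg (MvPowerSeries.coeff e) h
    rw [MvPowerSeries.coeff_map, MvPowerSeries.coeff_map] at this
    exact Ideal.Quotient.eq.1 this

theorem eqM_pow {σ R : Type} [CommRing R] (I : Ideal R) {f g : MvPowerSeries σ R}
    (h : EqM I f g) (m : ℕ) : EqM I (f ^ m) (g ^ m) := by
  rw [eqM_iff_map] at h ⊢
  rw [map_pow, map_pow, h]

/-- `δ(a) ≡ δ(a')` modulo `I^(i+1)` when `δ` has coefficients in `I^i` and `a ≡ a'` mod `I`. -/
theorem cmp_congr_small {R : Type} [CommRing R] (I : Ideal R) (i : ℕ) {δ a a' : PowerSeries R}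
    (ha : ZC a) (ha' : ZC a') (hδ : InI (I ^ i) δ) (h : EqM I a a') (e : ℕ) :
    PowerSeries.coeff e (cmp δ a : PowerSeries R) - PowerSeries.coeff e (cmp δ a' : PowerSeries R)
      ∈ I ^ (i + 1) := by
  have hs : PowerSeries.HasSubst a := PowerSeries.HasSubst.of_constantCoeff_zero ha
  have hs' : PowerSeries.HasSubst a' := PowerSeries.HasSubst.of_constantCoeff_zero ha'
  have e1 : PowerSeries.coeff e (cmp δ a : PowerSeries R) =
      finsum (fun d : ℕ => PowerSeries.coeff d δ • PowerSeries.coeff e (a ^ d)) :=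
    PowerSeries.coeff_subst' hs δ e
  have e2 : PowerSeries.coeff e (cmp δ a' : PowerSeries R) =
      finsum (fun d : ℕ => PowerSeries.coeff d δ • PowerSeries.coeff e (a' ^ d)) :=
    PowerSeries.coeff_subst' hs' δ e
  rw [e1, e2, ← finsum_sub_distrib (PowerSeries.coeff_subst_finite' hs δ e)
    (PowerSeries.coeff_subst_finite' hs' δ e)]
  refine finsum_induction (p := fun x => x ∈ I ^ (i + 1)) (Submodule.zero_mem _)
    (fun x y hx hy => Submodule.add_mem _ hx hy) ?_
  intro d
  have : PowerSeries.coeff d δ • PowerSeries.coeff e (a ^ d) -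
      PowerSeries.coeff d δ • PowerSeries.coeff e (a' ^ d) =
      PowerSeries.coeff d δ * (PowerSeries.coeff e (a ^ d) - PowerSeries.coeff e (a' ^ d)) := by
    simp only [smul_eq_mul]; ring
  rw [this, pow_succ]
  exact Ideal.mul_mem_mul (hδ _) (eqM_pow I h d _)

theorem rigid (C : ApiC) {R : Type} [CommRing R] (I : Ideal R) (p q : ℕ) (hp : (p : R) ∈ I)
    (hq : 1 ≤ q) (hI : (⨅ i : ℕ, I ^ i) = ⊥) (F G : FormalGroup R)
    (hF : EqM I (mulSeries F p) (PowerSeries.X ^ q : PowerSeries R))
    (δ : PowerSeries R) (hδ : IsFGHom F G δ) (hδI : InI I δ) : δ = 0 := by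
  have hz : ZC δ := hδ.1
  have key : ∀ i : ℕ, InI (I ^ (i + 1)) δ := by
    intro i
    induction i with
    | zero => simpa using hδI
    | succ i ih =>
      intro e
      obtain ⟨m, rfl⟩ : ∃ m : ℕ, e = Finsupp.single () m :=
        ⟨e (), by ext; simp⟩
      show PowerSeries.coeff m δ ∈ I ^ (i + 1 + 1)
      have hXq : ZC (PowerSeries.X ^ q : PowerSeries R) := by
        show PowerSeries.constantCoeff (PowerSeries.X ^ q : PowerSeries R) = 0
        rw [map_pow, PowerSeries.constantCoeff_X, zero_pow (by omega)]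
      have h1 := cmp_congr_small I (i + 1) (C.zc_mul F p) hXq ih hF (q * m)
      have h2 : PowerSeries.coeff (q * m) (cmp δ (mulSeries F p) : PowerSeries R) ∈
          I ^ (i + 1 + 1) := by
        rw [C.hom_mul hδ p]
        exact C.cmp_mul_mem I G p hp (i + 1) (by omega) hz ih _
      have h3 : PowerSeries.coeff (q * m)
          (cmp δ (PowerSeries.X ^ q : PowerSeries R) : PowerSeries R) = PowerSeries.coeff m δ := by
        have := PowerSeries.coeff_subst_X_pow (R := R) (S := R) (k := q) (by omega) δ (q * m)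
        rw [if_pos (dvd_mul_right q m), Nat.mul_div_cancel_left m (by omega)] at this
        exact this
      rw [h3] at h1
      have := Submodule.sub_mem _ h2 h1
      simpa using this
  ext m
  have hm : PowerSeries.coeff m δ ∈ (⨅ i : ℕ, I ^ i) := by
    rw [Submodule.mem_iInf]
    intro i
    exact Ideal.pow_le_pow_right (Nat.le_succ i) (key i (Finsupp.single () m))
  rw [hI] at hm
  simpa using hm

theorem main (A : ApiA) (B : ApiB) (C : ApiC) : ApiD where
  rigid := by
    intro R _ I p q hp hq hI F G hF δ hδ hδI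
    exact rigid C I p q hp hq hI F G hF δ hδ hδI
  rigid₂ := by
    intro R _ I p q hp hq hI F G hG hF δ δ' hδ hδ' h
    have hz : ZC δ := hδ.1
    have hz' : ZC δ' := hδ'.1
    have h1 : IsFGHom F G (fsub G δ δ' : PowerSeries R) := B.hom_add hG hδ (B.hom_neg hG hδ')
    have h2 : InI I (fsub G δ δ') := (A.fsub_mem_iff I G hz hz').2 h
    have h3 := rigid C I p q hp hq hI F G hF _ h1 h2
    exact (A.fsub_self G hz hz').1 h3

end Crest.Agent.LT3APID
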