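/- rid 227 (S0351): module B5 (in characteristic `p` a homomorphism of formal group laws with
   vanishing coefficients at `p^i`, `i < h`, factors through the `h`-fold Frobenius). -/
import Crest.Agent.LT3Spec

set_option autoImplicit false
open Crest.LubinTate

namespace Crest.Agent.LT3B5

open MvPowerSeries Finsupp

section A

variable {R : Type} [CommRing R]

theorem hsF (F : FormalGroup R) : PowerSeries.HasSubst F.toPowerSeries :=
  PowerSeries.HasSubst.of_constantCoeff_zero F.zero_constantCoeff

theorem order_sub (F : FormalGroup R) :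
    ((2 : ℕ) : ℕ∞) ≤ (F.toPowerSeries - (X 0 + X 1)).order := by
  classical
  apply nat_le_order
  intro d hd
  rw [Finsupp.degree_eq_sum, Fin.sum_univ_two] at hd
  have hd' : d = 0 ∨ d = single 0 1 ∨ d = single 1 1 := by
    rcases Nat.eq_zero_or_pos (d 0) with h0 | h0
    · rcases Nat.eq_zero_or_pos (d 1) with h1 | h1
      · left; ext i; fin_cases i <;> simp [h0, h1]
      · right; right
        have : d 1 = 1 := by omega
        ext i; fin_cases i <;> simp [h0, this]
    · right; left
      have h1 : d 1 = 0 := by omega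
      have : d 0 = 1 := by omega
      ext i; fin_cases i <;> simp [h1, this]
  rcases hd' with rfl | rfl | rfl
  · have := F.zero_constantCoeff
    simp [this]
  · simp [F.lin_coeff_X, coeff_X, Finsupp.single_left_inj]
  · simp [F.lin_coeff_Y, coeff_X, Finsupp.single_left_inj]

theorem one_le_order (F : FormalGroup R) : ((1 : ℕ) : ℕ∞) ≤ F.toPowerSeries.order := by
  have := (one_le_order_iff_constCoeff_eq_zero (f := F.toPowerSeries)).2 F.zero_constantCoeff
  simpa using this

theorem one_le_orderL : ((1 : ℕ) : ℕ∞) ≤ (X 0 + X 1 : MvPowerSeries (Fin 2) R).order := by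
  have := (one_le_order_iff_constCoeff_eq_zero (f := (X 0 + X 1 : MvPowerSeries (Fin 2) R))).2
    (by simp)
  simpa using this

theorem order_pow_sub (F : FormalGroup R) (j : ℕ) :
    ((j + 1 : ℕ) : ℕ∞) ≤ (F.toPowerSeries ^ j - (X 0 + X 1) ^ j).order := by
  induction j with
  | zero => simp
  | succ j ih =>
    have e : F.toPowerSeries ^ (j + 1) - (X 0 + X 1) ^ (j + 1) =
        F.toPowerSeries ^ j * (F.toPowerSeries - (X 0 + X 1)) +
          (F.toPowerSeries ^ j - (X 0 + X 1) ^ j) * (X 0 + X 1) := by ring
    rw [e]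
    refine le_trans ?_ min_order_le_add
    have h1 : ((j : ℕ) : ℕ∞) ≤ (F.toPowerSeries ^ j).order :=
      le_order_pow_of_constantCoeff_eq_zero j F.zero_constantCoeff
    have h2 : ((j + 2 : ℕ) : ℕ∞) ≤
        (F.toPowerSeries ^ j * (F.toPowerSeries - (X 0 + X 1))).order := by
      refine le_trans ?_ le_order_mul
      push_cast
      exact add_le_add h1 (order_sub F)
    have h3 : ((j + 2 : ℕ) : ℕ∞) ≤
        ((F.toPowerSeries ^ j - (X 0 + X 1) ^ j) * (X 0 + X 1)).order := by
      refine le_trans ?_ le_order_mul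
      have := add_le_add ih (one_le_orderL (R := R))
      refine le_trans ?_ this
      norm_cast
    exact le_min h2 h3

theorem coeff_L0 (j : ℕ) :
    coeff (single 0 j) ((X 0 + X 1 : MvPowerSeries (Fin 2) R) ^ j) = 1 := by
  classical
  induction j with
  | zero => simp
  | succ j ih =>
    rw [pow_succ, mul_add, map_add]
    have h1 : coeff (single 0 (j + 1)) ((X 0 + X 1 : MvPowerSeries (Fin 2) R) ^ j * X 0) = 1 := by
      rw [X, Finsupp.single_add, coeff_add_mul_monomial, mul_one]
      exact ih
    have h2 : coeff (single 0 (j + 1)) ((X 0 + X 1 : MvPowerSeries (Fin 2) R) ^ j * X 1) = 0 := by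
      change coeff (single 0 (j + 1)) ((X 0 + X 1 : MvPowerSeries (Fin 2) R) ^ j *
        monomial (single 1 1) 1) = 0
      rw [coeff_mul_monomial, if_neg]
      intro h
      have := h 1
      simp at this
    rw [h1, h2, add_zero]

theorem coeff_L1 (j : ℕ) :
    coeff (single 0 j + single 1 1) ((X 0 + X 1 : MvPowerSeries (Fin 2) R) ^ (j + 1)) =
      ((j + 1 : ℕ) : R) := by
  classical
  induction j with
  | zero => simp [coeff_X, Finsupp.single_left_inj]
  | succ j ih =>
    rw [pow_succ, mul_add, map_add]
    have h1 : coeff (single 0 (j + 1) + single 1 1)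
        ((X 0 + X 1 : MvPowerSeries (Fin 2) R) ^ (j + 1) * X 0) = ((j + 1 : ℕ) : R) := by
      rw [X, Finsupp.single_add, add_right_comm, coeff_add_mul_monomial, mul_one]
      exact ih
    have h2 : coeff (single 0 (j + 1) + single 1 1)
        ((X 0 + X 1 : MvPowerSeries (Fin 2) R) ^ (j + 1) * X 1) = 1 := by
      change coeff (single 0 (j + 1) + single 1 1)
        ((X 0 + X 1 : MvPowerSeries (Fin 2) R) ^ (j + 1) * monomial (single 1 1) 1) = 1
      rw [coeff_add_mul_monomial, mul_one]
      exact coeff_L0 (j + 1)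
    rw [h1, h2]
    push_cast
    ring

theorem coeff_F (F : FormalGroup R) (j : ℕ) :
    coeff (single 0 j + single 1 1) (F.toPowerSeries ^ (j + 1)) = ((j + 1 : ℕ) : R) := by
  rw [← coeff_L1 (R := R) j, ← sub_eq_zero, ← map_sub]
  apply coeff_of_lt_order
  refine lt_of_lt_of_le ?_ (order_pow_sub F (j + 1))
  rw [Finsupp.degree_eq_sum, Fin.sum_univ_two]
  simp
  norm_cast
  omega

theorem coeff_F_big (F : FormalGroup R) (j d : ℕ) (h : j + 1 < d) :
    coeff (single 0 j + single 1 1) (F.toPowerSeries ^ d) = 0 := by
  apply coeff_of_lt_order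
  refine lt_of_lt_of_le ?_ (le_order_pow_of_constantCoeff_eq_zero d F.zero_constantCoeff)
  rw [Finsupp.degree_eq_sum, Fin.sum_univ_two]
  simp
  norm_cast

/-- the right-hand side has no terms which are linear in `Y`. -/
theorem rhs_zero (G : FormalGroup R) (f : PowerSeries R) (h0 : PowerSeries.constantCoeff f = 0)
    (h1 : PowerSeries.coeff 1 f = 0) (j : ℕ) :
    coeff (single 0 j + single 1 1) (G.toPowerSeries.subst
      ![PowerSeries.subst (X 0 : MvPowerSeries (Fin 2) R) f,
        PowerSeries.subst (X 1 : MvPowerSeries (Fin 2) R) f]) = 0 := by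
  classical
  have hX0 : PowerSeries.HasSubst (X 0 : MvPowerSeries (Fin 2) R) := PowerSeries.HasSubst.X 0
  have hX1 : PowerSeries.HasSubst (X 1 : MvPowerSeries (Fin 2) R) := PowerSeries.HasSubst.X 1
  have hs : MvPowerSeries.HasSubst ![PowerSeries.subst (X 0 : MvPowerSeries (Fin 2) R) f,
        PowerSeries.subst (X 1 : MvPowerSeries (Fin 2) R) f] := by
    apply hasSubst_of_constantCoeff_zero
    intro s
    fin_cases s
    · exact PowerSeries.constantCoeff_subst_eq_zero (by simp) f h0
    · exact PowerSeries.constantCoeff_subst_eq_zero (by simp) f h0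
  rw [MvPowerSeries.coeff_subst hs]
  apply finsum_eq_zero_of_forall_eq_zero
  intro d
  rw [Finsupp.prod_fintype _ _ (by intro i; simp), Fin.prod_univ_two]
  simp only [Matrix.cons_val_zero, Matrix.cons_val_one]
  rw [← PowerSeries.subst_pow hX0, ← PowerSeries.subst_pow hX1]
  have hdvd : (PowerSeries.X : PowerSeries R) ^ 2 ∣ f := by
    rw [PowerSeries.X_pow_dvd_iff]
    intro m hm
    interval_cases m
    · simpa using h0
    · exact h1
  by_cases hd : d 1 = 0
  · rw [hd, pow_zero]
    have e1 : PowerSeries.subst (X 1 : MvPowerSeries (Fin 2) R) (1 : PowerSeries R) = 1 := by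
      rw [← PowerSeries.coe_substAlgHom hX1, map_one]
    rw [e1, mul_one, PowerSeries.coeff_subst_single, if_neg, smul_zero]
    intro h
    have := DFunLike.congr_fun h 1
    simp at this
  · rw [coeff_mul, Finset.sum_eq_zero, smul_zero]
    rintro ⟨u, v⟩ huv
    rw [Finset.HasAntidiagonal.mem_antidiagonal] at huv
    have hv : v 1 ≤ 1 := by
      have := DFunLike.congr_fun huv 1
      simp at this
      omega
    rw [PowerSeries.coeff_subst_single 1 (f ^ d 1) v]
    split_ifs with h
    · have h2 : (PowerSeries.X : PowerSeries R) ^ 2 ∣ f ^ d 1 := dvd_pow hdvd hd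
      rw [PowerSeries.X_pow_dvd_iff] at h2
      rw [h2 (v 1) (by omega), mul_zero]
    · rw [mul_zero]

end A

section B

variable (p : ℕ) [hp : Fact p.Prime] {R : Type} [CommRing R] [CharP R p]

omit hp [CharP R p] in
theorem expand_inj {σ : Type} {f g : MvPowerSeries σ R} {hp0 : p ≠ 0}
    (h : expand p hp0 f = expand p hp0 g) : f = g := by
  ext m
  rw [← coeff_expand_smul p hp0 f m, ← coeff_expand_smul p hp0 g m, h]

theorem pow_eq (f : MvPowerSeries (Fin 2) R) :
    f ^ p = expand p hp.out.ne_zero (map (frobenius R p) f) := by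
  have : ExpChar R p := ExpChar.prime hp.out
  rw [← map_expand, map_frobenius_expand p hp.out.ne_zero]

theorem coeff_F_mul (F : FormalGroup R) (j d : ℕ) (h : p ∣ d) :
    coeff (single 0 j + single 1 1) (F.toPowerSeries ^ d) = 0 := by
  obtain ⟨k, rfl⟩ := h
  rw [pow_mul, pow_eq p, ← map_pow]
  apply coeff_expand_of_not_dvd (i := 1)
  simp
  exact hp.out.one_lt.ne'

theorem vanish {F G : FormalGroup R} {f : PowerSeries R} (hf : IsFGHom F G f)
    (h1 : PowerSeries.coeff 1 f = 0) : ∀ j, ¬ p ∣ j → PowerSeries.coeff j f = 0 := by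
  intro j
  induction j using Nat.strong_induction_on with
  | _ j ih =>
    intro hj
    obtain ⟨i, rfl⟩ : ∃ i, j = i + 1 := by
      cases j with
      | zero => exact absurd (dvd_zero p) hj
      | succ i => exact ⟨i, rfl⟩
    have h2 := congrArg (coeff (single 0 i + single 1 1)) hf.2
    rw [rhs_zero G f hf.1 h1 i, PowerSeries.coeff_subst (hsF F), finsum_eq_single _ (i + 1)] at h2
    · rw [coeff_F, smul_eq_mul] at h2
      have hu : IsUnit ((i + 1 : ℕ) : R) := (CharP.isUnit_natCast_iff hp.out).2 hj
      exact (hu.mul_left_eq_zero).1 h2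
    · intro d hd
      by_cases hpd : p ∣ d
      · rw [coeff_F_mul p F i d hpd, smul_zero]
      · rcases lt_or_gt_of_ne hd with h | h
        · rw [ih d h hpd, zero_smul]
        · rw [coeff_F_big F i d h, smul_zero]

theorem step {F G : FormalGroup R} {f : PowerSeries R} (hf : IsFGHom F G f)
    (h1 : PowerSeries.coeff 1 f = 0) :
    ∃ g : PowerSeries R, IsFGHom (F.map (frobenius R p)) G g ∧
      f = PowerSeries.expand p hp.out.ne_zero g := by
  have hp0 : p ≠ 0 := hp.out.ne_zero
  have hv := vanish p hf h1
  refine ⟨PowerSeries.mk fun j => PowerSeries.coeff (p * j) f, ⟨?_, ?_⟩, ?_⟩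
  · rw [← PowerSeries.coeff_zero_eq_constantCoeff_apply, PowerSeries.coeff_mk, mul_zero,
      PowerSeries.coeff_zero_eq_constantCoeff_apply]
    exact hf.1
  · set g : PowerSeries R := PowerSeries.mk fun j => PowerSeries.coeff (p * j) f with hg
    have hfg : f = PowerSeries.expand p hp0 g := by
      ext j
      rw [PowerSeries.coeff_expand]
      split_ifs with h
      · rw [hg, PowerSeries.coeff_mk, Nat.mul_div_cancel' h]
      · exact hv j h
    have hg0 : PowerSeries.constantCoeff g = 0 := by
      rw [← PowerSeries.coeff_zero_eq_constantCoeff_apply, PowerSeries.coeff_mk, mul_zero,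
        PowerSeries.coeff_zero_eq_constantCoeff_apply]
      exact hf.1
    have key := hf.2
    have sub_exp : ∀ a : MvPowerSeries (Fin 2) R, constantCoeff a = 0 →
        PowerSeries.subst a f = PowerSeries.subst (a ^ p) g := by
      intro a ha
      have hsa : PowerSeries.HasSubst a := PowerSeries.HasSubst.of_constantCoeff_zero ha
      rw [hfg, PowerSeries.expand_apply,
        PowerSeries.subst_comp_subst_apply (PowerSeries.HasSubst.X_pow hp0) hsa,
        PowerSeries.subst_pow hsa, PowerSeries.subst_X hsa]
    have sub_exp2 : ∀ a : MvPowerSeries (Fin 2) R, constantCoeff a = 0 →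
        PowerSeries.subst (expand p hp0 a) g = expand p hp0 (PowerSeries.subst a g) := by
      intro a ha
      have hsa : PowerSeries.HasSubst a := PowerSeries.HasSubst.of_constantCoeff_zero ha
      rw [PowerSeries.subst, PowerSeries.subst, MvPowerSeries.expand_subst _ hp0 hsa.const]
    apply expand_inj p (hp0 := hp0)
    have hsub : MvPowerSeries.HasSubst ![PowerSeries.subst (X 0 : MvPowerSeries (Fin 2) R) g,
        PowerSeries.subst (X 1 : MvPowerSeries (Fin 2) R) g] := by
      apply hasSubst_of_constantCoeff_zero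
      intro s
      fin_cases s
      · exact PowerSeries.constantCoeff_subst_eq_zero (by simp) g hg0
      · exact PowerSeries.constantCoeff_subst_eq_zero (by simp) g hg0
    rw [MvPowerSeries.expand_subst _ hp0 hsub, ← sub_exp2 _ (by
      simp [F.zero_constantCoeff])]
    have e1 : expand p hp0 (F.map (frobenius R p)).toPowerSeries = F.toPowerSeries ^ p := by
      rw [pow_eq p]; rfl
    rw [e1, ← sub_exp _ F.zero_constantCoeff, key]
    congr 1
    funext s
    fin_cases s
    · change PowerSeries.subst (X 0 : MvPowerSeries (Fin 2) R) f =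
        expand p hp0 (PowerSeries.subst (X 0 : MvPowerSeries (Fin 2) R) g)
      rw [sub_exp _ (by simp), ← sub_exp2 _ (by simp), expand_X]
    · change PowerSeries.subst (X 1 : MvPowerSeries (Fin 2) R) f =
        expand p hp0 (PowerSeries.subst (X 1 : MvPowerSeries (Fin 2) R) g)
      rw [sub_exp _ (by simp), ← sub_exp2 _ (by simp), expand_X]
  · ext j
    rw [PowerSeries.coeff_expand]
    split_ifs with h
    · rw [PowerSeries.coeff_mk, Nat.mul_div_cancel' h]
    · exact hv j h

theorem main : LT3.Spec.B5 := by
  intro p hp R _ _ F G f hf h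
  induction h with
  | zero =>
    intro _
    refine ⟨f, ?_, ?_⟩
    · have e : F.map (iterateFrobenius R p 0) = F := by
        ext : 1
        rw [FormalGroup.map_toPowerSeries, iterateFrobenius_zero, map_id]
        rfl
      rw [e]; exact hf
    · simp [LT3.cmp]
  | succ h ih =>
    intro hv
    obtain ⟨g, hg, hfg⟩ := ih (fun i hi => hv i (by omega))
    have hph : p ^ h ≠ 0 := pow_ne_zero h hp.out.ne_zero
    rw [LT3.cmp, ← PowerSeries.expand_apply _ hph] at hfg
    have h1 : PowerSeries.coeff 1 g = 0 := by
      have := hv h (by omega)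
      rw [hfg] at this
      have e := PowerSeries.coeff_expand_mul (p ^ h) hph g 1
      rw [mul_one] at e
      rw [← e]; exact this
    obtain ⟨g', hg', hgg'⟩ := step p hg h1
    refine ⟨g', ?_, ?_⟩
    · have e : (F.map (iterateFrobenius R p h)).map (frobenius R p) =
          F.map (iterateFrobenius R p (h + 1)) := by
        ext : 1
        rw [FormalGroup.map_toPowerSeries, FormalGroup.map_toPowerSeries,
          FormalGroup.map_toPowerSeries, map_map]
        congr 1
        rw [add_comm h 1, iterateFrobenius_add, iterateFrobenius_one]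
      rw [← e]; exact hg'
    · have hph' : p ^ (h + 1) ≠ 0 := pow_ne_zero (h + 1) hp.out.ne_zero
      rw [LT3.cmp, ← PowerSeries.expand_apply _ hph', hfg, hgg', ← PowerSeries.expand_mul]
      rfl

theorem main' : LT3.Spec.B5' := by
  intro p hp R _ _ F G f hf h hv j hj
  obtain ⟨g, hg, hfg⟩ := main p R F G f hf h hv
  have hph : p ^ h ≠ 0 := pow_ne_zero h hp.out.ne_zero
  rw [LT3.cmp, ← PowerSeries.expand_apply _ hph] at hfg
  rw [hfg]
  exact PowerSeries.coeff_expand_of_not_dvd _ hph g hj

end B

end Crest.Agent.LT3B5
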