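/- rid 227 (S0351), module COORD/PI: change of coordinates on the Lubin-Tate ring. -/
import Crest.Agent.LT3Spec

set_option autoImplicit false
open Crest.LubinTate
open Crest Crest.GeometryTopology

namespace Crest.Agent.LT3COORD

open Crest.Agent.LT3

/-- a surjective endomorphism of a Noetherian ring is injective -/
theorem inj_of_surj {R : Type} [CommRing R] [IsNoetherianRing R] (f : R →+* R)
    (hf : Function.Surjective f) : Function.Injective f := by
  let K : ℕ →o Ideal R :=
    { toFun := fun n => RingHom.ker (f ^ n)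
      monotone' := by
        apply monotone_nat_of_le_succ
        intro n x hx
        rw [RingHom.mem_ker] at hx ⊢
        rw [pow_succ', RingHom.mul_def, RingHom.comp_apply, hx, map_zero] }
  obtain ⟨N, hN⟩ := monotone_stabilizes_iff_noetherian.mpr
    (inferInstance : IsNoetherian R R) K
  have hs : ∀ n : ℕ, Function.Surjective (f ^ n : R →+* R) := by
    intro n
    induction n with
    | zero => intro x; exact ⟨x, by simp⟩
    | succ n ih =>
      intro x
      obtain ⟨y, hy⟩ := hf x
      obtain ⟨z, hz⟩ := ih y
      exact ⟨z, by rw [pow_succ', RingHom.mul_def, RingHom.comp_apply, hz, hy]⟩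
  rw [injective_iff_map_eq_zero]
  intro x hx
  obtain ⟨y, hy⟩ := hs N x
  have h1 : y ∈ K (N + 1) := by
    change y ∈ RingHom.ker (f ^ (N + 1))
    rw [RingHom.mem_ker, pow_succ', RingHom.mul_def, RingHom.comp_apply, hy, hx]
  rw [← hN (N + 1) (Nat.le_succ N)] at h1
  change y ∈ RingHom.ker (f ^ N) at h1
  rw [RingHom.mem_ker] at h1
  rw [← hy, h1]

theorem heightIdeal_eq (p : ℕ) [Fact p.Prime] (n : ℕ) (H : FormalGroup (LTRing p n)) (h : ℕ) :
    heightIdeal p n H h = Ideal.span {f | ∃ i, i < h ∧ f = uu H i} := by
  induction h with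
  | zero => simp [heightIdeal]
  | succ h ih =>
    rw [heightIdeal, ih, ← Ideal.span_union]
    congr 1
    ext f
    simp only [Set.mem_union, Set.mem_ofPred_eq, Set.mem_singleton_iff]
    constructor
    · rintro (⟨i, hi, rfl⟩ | rfl)
      · exact ⟨i, by omega, rfl⟩
      · exact ⟨h, by omega, rfl⟩
    · rintro ⟨i, hi, rfl⟩
      rcases Nat.lt_succ_iff_lt_or_eq.mp hi with h1 | h1
      · exact Or.inl ⟨i, h1, rfl⟩
      · right; rw [h1]; rfl


theorem uu_zero (hC : ApiC) {p : ℕ} [Fact p.Prime] {n : ℕ} (H : FormalGroup (LTRing p n)) :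
    uu H 0 = (p : LTRing p n) := by
  unfold uu
  rw [pow_zero]
  exact hC.coeff_one_mul H p

theorem residue_C (p : ℕ) [Fact p.Prime] (n : ℕ) (w : WittVector p (GaloisField p n)) :
    LTRing.residue p n (MvPowerSeries.C w) = WittVector.constantCoeff w := by
  simp [LTRing.residue]

theorem residue_X (p : ℕ) [Fact p.Prime] (n : ℕ) (j : Fin (n - 1)) :
    LTRing.residue p n (MvPowerSeries.X j) = 0 := by
  simp [LTRing.residue]

theorem exists_p_mul (p : ℕ) [Fact p.Prime] (n : ℕ) (w : WittVector p (GaloisField p n))
    (hw : WittVector.constantCoeff w = 0) : ∃ v, w = (p : WittVector p (GaloisField p n)) * v := by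
  have h1 : w ∈ Ideal.span {(p : WittVector p (GaloisField p n))} := by
    rw [← WittVector.ker_constantCoeff, RingHom.mem_ker, hw]
  rw [Ideal.mem_span_singleton] at h1
  exact h1

theorem residue_eq_of_const (p : ℕ) [Fact p.Prime] (n : ℕ) (f g : LTRing p n)
    (h : MvPowerSeries.constantCoeff f = MvPowerSeries.constantCoeff g) :
    LTRing.residue p n f = LTRing.residue p n g := by
  simp [LTRing.residue, h]

theorem coord (hR : Spec.RINGE) (hMax : Spec.MAXGEN) (hC : ApiC) : Spec.COORD := by
  intro p _ n Γ H hS
  obtain ⟨hdom, hnoeth, hloc, hmax, hcompl, hrsurj, hralg, hinf, hspan⟩ := hR p n hS.hn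
  have hres : ∀ i, i < n → LTRing.residue p n (uu H i) = 0 := by
    intro i hi
    have : uu H i ∈ mE p n := by
      rw [← hMax p n Γ H hS, heightIdeal_eq]
      exact Ideal.subset_span ⟨i, hi, rfl⟩
    exact this
  let c : Fin (n - 1) → WittVector p (GaloisField p n) :=
    fun j => MvPowerSeries.constantCoeff (uu H (j.1 + 1))
  have hc : ∀ j, WittVector.constantCoeff (c j) = 0 := fun j => hres (j.1 + 1) (by omega)
  let a : Fin (n - 1) → LTRing p n := fun j => uu H (j.1 + 1) - MvPowerSeries.C (c j)
  have ha0 : ∀ j, MvPowerSeries.constantCoeff (a j) = 0 := by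
    intro j
    simp [a, c]
  have ha : MvPowerSeries.HasSubst a := MvPowerSeries.hasSubst_of_constantCoeff_zero ha0
  let σ : LTRing p n →ₐ[WittVector p (GaloisField p n)] LTRing p n :=
    MvPowerSeries.substAlgHom ha
  have hσX : ∀ j, σ (MvPowerSeries.X j) = a j := fun j => MvPowerSeries.substAlgHom_X ha j
  have hσC : ∀ w, σ (MvPowerSeries.C w) = MvPowerSeries.C w := fun w => σ.commutes w
  have hσc : ∀ f, MvPowerSeries.constantCoeff (σ f) = MvPowerSeries.constantCoeff f := by
    intro f
    have h1 : MvPowerSeries.constantCoeff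
        (f - MvPowerSeries.C (MvPowerSeries.constantCoeff f)) = 0 := by simp
    have h2 := MvPowerSeries.constantCoeff_subst_eq_zero ha ha0 h1
    have h3 : MvPowerSeries.subst a (f - MvPowerSeries.C (MvPowerSeries.constantCoeff f)) =
        σ (f - MvPowerSeries.C (MvPowerSeries.constantCoeff f)) := by
      rw [← MvPowerSeries.coe_substAlgHom ha]
    rw [h3, map_sub, hσC, map_sub, sub_eq_zero] at h2
    rw [h2]
    simp
  have hσr : ∀ f, LTRing.residue p n (σ f) = LTRing.residue p n f := fun f =>
    residue_eq_of_const p n _ _ (hσc f)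
  have hmap : (mE p n).map (σ : LTRing p n →+* LTRing p n) = mE p n := by
    apply le_antisymm
    · rw [Ideal.map_le_iff_le_comap]
      intro f hf
      rw [Ideal.mem_comap]
      change LTRing.residue p n (σ f) = 0
      rw [hσr]
      exact hf
    · conv_lhs => rw [← hMax p n Γ H hS, heightIdeal_eq]
      rw [Ideal.span_le]
      rintro f ⟨i, hi, rfl⟩
      have hpm : ((p : ℕ) : LTRing p n) ∈ (mE p n).map (σ : LTRing p n →+* LTRing p n) := by
        have h1 : ((p : ℕ) : LTRing p n) = (σ : LTRing p n →+* LTRing p n) ((p : ℕ) : LTRing p n) := by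
          rw [map_natCast]
        rw [h1]
        apply Ideal.mem_map_of_mem
        rw [hspan]
        exact Ideal.subset_span (Or.inl rfl)
      rcases i with _ | i
      · rw [uu_zero hC]
        exact hpm
      · obtain ⟨w, hw⟩ := exists_p_mul p n (c ⟨i, by omega⟩) (hc ⟨i, by omega⟩)
        have h1 : uu H (i + 1) = (σ : LTRing p n →+* LTRing p n)
            (MvPowerSeries.X (⟨i, by omega⟩ : Fin (n - 1))) +
            MvPowerSeries.C (c ⟨i, by omega⟩) := by
          change _ = σ (MvPowerSeries.X (⟨i, by omega⟩ : Fin (n - 1))) + _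
          rw [hσX]
          simp [a]
        rw [h1]
        apply Ideal.add_mem
        · apply Ideal.mem_map_of_mem
          rw [hspan]
          exact Ideal.subset_span (Or.inr ⟨_, rfl⟩)
        · rw [hw, map_mul, map_natCast]
          exact Ideal.mul_mem_right _ _ hpm
  have hsurj : Function.Surjective (σ : LTRing p n →+* LTRing p n) := by
    have := hcompl
    have : IsHausdorff ((mE p n).map (σ : LTRing p n →+* LTRing p n)) (LTRing p n) := by
      rw [hmap]; infer_instance
    apply surjective_of_mk_map_comp_surjective (I := mE p n)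
    intro x
    obtain ⟨e, rfl⟩ := Ideal.Quotient.mk_surjective x
    refine ⟨MvPowerSeries.C (MvPowerSeries.constantCoeff e), ?_⟩
    rw [RingHom.comp_apply, Ideal.Quotient.eq, hmap]
    change LTRing.residue p n (σ _ - e) = 0
    rw [map_sub, sub_eq_zero, hσC]
    apply residue_eq_of_const
    simp
  have hinj : Function.Injective (σ : LTRing p n →+* LTRing p n) := inj_of_surj _ hsurj
  let e : LTRing p n ≃ₐ[WittVector p (GaloisField p n)] LTRing p n :=
    AlgEquiv.ofBijective σ ⟨hinj, hsurj⟩
  refine ⟨e.symm, c, hc, ?_, ?_⟩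
  · intro j
    rw [AlgEquiv.symm_apply_eq]
    change _ = σ (MvPowerSeries.X j + MvPowerSeries.C (c j))
    rw [map_add, hσX, hσC]
    simp [a]
  · intro f
    have h1 : f = σ (e.symm f) := (e.apply_symm_apply f).symm
    conv_rhs => rw [h1]
    rw [hσr]


/-- a power series from its coefficients -/
def mkS {σ R : Type} (g : (σ →₀ ℕ) → R) : MvPowerSeries σ R := g

theorem coeff_mkS {σ R : Type} [CommRing R] (g : (σ →₀ ℕ) → R) (d : σ →₀ ℕ) :
    MvPowerSeries.coeff d (mkS g) = g d := rfl

open Classical in
theorem sub_restrict_mem {R : Type} [CommRing R] {σ : Type} (s : Finset σ)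
    (f : MvPowerSeries σ R) :
    f - mkS (fun d => if (∀ l ∈ s, d l = 0) then MvPowerSeries.coeff d f else 0) ∈
      Ideal.span ((fun l => (MvPowerSeries.X l : MvPowerSeries σ R)) '' (s : Set σ)) := by
  induction s using Finset.induction_on with
  | empty =>
    have : mkS (fun d => if (∀ l ∈ (∅ : Finset σ), d l = 0) then MvPowerSeries.coeff d f else 0) = f := by
      ext d
      rw [coeff_mkS]
      simp
    rw [this, sub_self]
    exact Ideal.zero_mem _
  | insert l s hl ih =>
    have h1 : f - mkS (fun d => if (∀ l' ∈ insert l s, d l' = 0) then MvPowerSeries.coeff d f else 0) =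
        (f - mkS (fun d => if (∀ l ∈ s, d l = 0) then MvPowerSeries.coeff d f else 0)) +
        (mkS (fun d => if (∀ l ∈ s, d l = 0) then MvPowerSeries.coeff d f else 0) -
          mkS (fun d => if (∀ l' ∈ insert l s, d l' = 0) then MvPowerSeries.coeff d f else 0)) := by
      ring
    rw [h1]
    apply Ideal.add_mem
    · refine Ideal.span_mono ?_ ih
      apply Set.image_mono
      intro x hx
      simp only [Finset.coe_insert]
      exact Set.mem_insert_of_mem _ hx
    · have h2 : (MvPowerSeries.X l : MvPowerSeries σ R) ∣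
          (mkS (fun d => if (∀ l ∈ s, d l = 0) then MvPowerSeries.coeff d f else 0) -
          mkS (fun d => if (∀ l' ∈ insert l s, d l' = 0) then MvPowerSeries.coeff d f else 0)) := by
        rw [MvPowerSeries.X_dvd_iff]
        intro m hm
        rw [map_sub, coeff_mkS, coeff_mkS]
        have : (∀ l' ∈ insert l s, m l' = 0) ↔ (∀ l ∈ s, m l = 0) := by
          constructor
          · intro h l' hl'
            exact h l' (Finset.mem_insert_of_mem hl')
          · intro h l' hl'
            rcases Finset.mem_insert.mp hl' with rfl | h3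
            · exact hm
            · exact h l' h3
        rw [if_congr this rfl rfl, sub_self]
      obtain ⟨q, hq⟩ := h2
      rw [hq]
      apply Ideal.mul_mem_right
      apply Ideal.subset_span
      exact ⟨l, by simp, rfl⟩

theorem pi_ (hC : ApiC) (hCo : Spec.COORD) : Spec.PI := by
  intro p _ n Γ H hS h hh1 hhn
  obtain ⟨Ψ, c, hc, hΨ, hres⟩ := hCo p n Γ H hS
  let k := GaloisField p n
  let e : Fin (n - h) ↪ Fin (n - 1) :=
    { toFun := fun i => ⟨i.1 + (h - 1), by omega⟩
      inj' := by
        intro i j hij
        simp only [Fin.mk.injEq] at hij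
        ext
        omega }
  have he : ∀ l : Fin (n - 1), l ∉ Set.range e ↔ l.1 < h - 1 := by
    intro l
    constructor
    · intro h1
      by_contra h2
      push Not at h2
      apply h1
      refine ⟨⟨l.1 - (h - 1), by omega⟩, ?_⟩
      ext
      change l.1 - (h - 1) + (h - 1) = l.1
      omega
    · rintro h1 ⟨i, rfl⟩
      have : (e i).1 = i.1 + (h - 1) := rfl
      omega
  let π : LTRing p n →+* MvPowerSeries (Fin (n - h)) k :=
    ((MvPowerSeries.killCompl (R := k) e : MvPowerSeries (Fin (n - 1)) k →+* MvPowerSeries (Fin (n - h)) k).comp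
      (MvPowerSeries.map (WittVector.constantCoeff : WittVector p k →+* k))).comp
      (Ψ : LTRing p n →+* LTRing p n)
  have hπ : ∀ f, π f = MvPowerSeries.killCompl (R := k) e
    (MvPowerSeries.map (WittVector.constantCoeff : WittVector p k →+* k) (Ψ f)) := fun f => rfl
  have hp0 : ((p : ℕ) : MvPowerSeries (Fin (n - h)) k) = 0 := by
    have h1 : ((p : ℕ) : MvPowerSeries (Fin (n - h)) k) = MvPowerSeries.C ((p : ℕ) : k) := by
      rw [map_natCast]
    rw [h1, CharP.cast_eq_zero k p, map_zero]
  have hXl : ∀ j : Fin (n - 1), j.1 < h - 1 → π (uu H (j.1 + 1)) = 0 := by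
    intro j hj
    rw [hπ, hΨ, map_add, map_add, MvPowerSeries.map_X, MvPowerSeries.map_C, hc, map_zero, map_zero,
      add_zero]
    exact MvPowerSeries.killCompl_X_eq_zero ((he j).mpr hj)
  have hpw : ∀ j, ∃ w, c j = (p : WittVector p k) * w := fun j => exists_p_mul p n _ (hc j)
  refine ⟨π, ?_, ?_, ?_, ?_, ?_⟩
  · intro g
    obtain ⟨f1, hf1⟩ : ∃ f1, MvPowerSeries.killCompl (R := k) e f1 = g :=
      ⟨MvPowerSeries.rename e g, MvPowerSeries.killCompl_rename_app g⟩
    obtain ⟨f2, hf2⟩ : ∃ f2 : LTRing p n,
        MvPowerSeries.map (WittVector.constantCoeff : WittVector p k →+* k) f2 = f1 := by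
      refine ⟨mkS (fun d => (WittVector.constantCoeff_surjective (R := k) p
        (MvPowerSeries.coeff d f1)).choose), ?_⟩
      ext d
      rw [MvPowerSeries.coeff_map, coeff_mkS]
      exact (WittVector.constantCoeff_surjective (R := k) p (MvPowerSeries.coeff d f1)).choose_spec
    refine ⟨Ψ.symm f2, ?_⟩
    rw [hπ, AlgEquiv.apply_symm_apply, hf2, hf1]
  · apply le_antisymm
    · intro f hf
      rw [RingHom.mem_ker, hπ] at hf
      set g := Ψ f with hg
      have hfg : f = Ψ.symm g := by rw [hg, AlgEquiv.symm_apply_apply]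
      have hpm : ((p : ℕ) : LTRing p n) ∈ heightIdeal p n H h := by
        rw [← uu_zero hC H, heightIdeal_eq]
        exact Ideal.subset_span ⟨0, by omega, rfl⟩
      classical
      have h1 := sub_restrict_mem (Finset.univ.filter (fun l : Fin (n - 1) => l.1 < h - 1)) g
      set g' : LTRing p n := mkS (fun d => if (∀ l ∈ (Finset.univ.filter
        (fun l : Fin (n - 1) => l.1 < h - 1)), d l = 0) then MvPowerSeries.coeff d g else 0) with hg'
      have h2 : (MvPowerSeries.C ((p : ℕ) : WittVector p k) : LTRing p n) ∣ g' := by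
        have h3 : ∀ d, ∃ w : WittVector p k, MvPowerSeries.coeff d g' = (p : WittVector p k) * w := by
          intro d
          apply exists_p_mul
          rw [hg', coeff_mkS]
          split_ifs with h4
          · have h5 : d ∈ Set.range (Finsupp.embDomain (M := ℕ) e) := by
              rw [Finsupp.mem_range_embDomain_iff]
              intro l hl
              by_contra h6
              rw [he] at h6
              have h7 := h4 l (by simp [h6])
              rw [Finset.mem_coe, Finsupp.mem_support_iff] at hl
              exact hl h7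
            obtain ⟨x, rfl⟩ := h5
            have h6 := congrArg (MvPowerSeries.coeff x) hf
            rw [MvPowerSeries.coeff_killCompl, MvPowerSeries.coeff_map, map_zero] at h6
            exact h6
          · exact map_zero _
        choose w hw using h3
        refine ⟨mkS (fun d => w d), ?_⟩
        ext1 d
        rw [MvPowerSeries.coeff_C_mul, hw d, coeff_mkS]
      have h8 : Ψ.symm g' ∈ heightIdeal p n H h := by
        obtain ⟨q, hq⟩ := h2
        rw [hq, map_mul]
        apply Ideal.mul_mem_right
        have : Ψ.symm (MvPowerSeries.C ((p : ℕ) : WittVector p k)) = ((p : ℕ) : LTRing p n) := by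
          rw [map_natCast, map_natCast]
        rw [this]
        exact hpm
      have h9 : Ψ.symm (g - g') ∈ heightIdeal p n H h := by
        have h10 : Ideal.span ((fun l => (MvPowerSeries.X l : LTRing p n)) ''
            ((Finset.univ.filter (fun l : Fin (n - 1) => l.1 < h - 1) : Finset (Fin (n - 1))) :
              Set (Fin (n - 1)))) ≤
            (heightIdeal p n H h).comap (Ψ.symm : LTRing p n →+* LTRing p n) := by
          rw [Ideal.span_le]
          rintro _ ⟨l, hl, rfl⟩
          rw [Finset.mem_coe, Finset.mem_filter] at hl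
          rw [SetLike.mem_coe, Ideal.mem_comap]
          change Ψ.symm (MvPowerSeries.X l) ∈ _
          have h11 : Ψ.symm (MvPowerSeries.X l) = uu H (l.1 + 1) - MvPowerSeries.C (c l) := by
            rw [AlgEquiv.symm_apply_eq, map_sub, hΨ]
            have : Ψ (MvPowerSeries.C (c l)) = MvPowerSeries.C (c l) := Ψ.commutes (c l)
            rw [this, add_sub_cancel_right]
          rw [h11]
          apply Ideal.sub_mem
          · rw [heightIdeal_eq]
            exact Ideal.subset_span ⟨l.1 + 1, by omega, rfl⟩
          · obtain ⟨w, hw⟩ := hpw l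
            rw [hw, map_mul, map_natCast]
            exact Ideal.mul_mem_right _ _ hpm
        apply h10
        rw [hg']
        convert h1
      have h12 : f = Ψ.symm (g - g') + Ψ.symm g' := by
        rw [← map_add, sub_add_cancel, hfg]
      rw [h12]
      exact Ideal.add_mem _ h9 h8
    · rw [heightIdeal_eq, Ideal.span_le]
      rintro _ ⟨i, hi, rfl⟩
      rw [SetLike.mem_coe, RingHom.mem_ker]
      rcases i with _ | i
      · rw [uu_zero hC, map_natCast, hp0]
      · exact hXl ⟨i, by omega⟩ (by change i < h - 1; omega)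
  · intro w
    rw [hπ]
    have : Ψ (MvPowerSeries.C w) = MvPowerSeries.C w := Ψ.commutes w
    rw [this, MvPowerSeries.map_C, MvPowerSeries.killCompl_C]
  · intro i
    have h1 : h + i.1 = (e i).1 + 1 := by
      change h + i.1 = i.1 + (h - 1) + 1
      omega
    rw [h1, hπ, hΨ, map_add, map_add, MvPowerSeries.map_X, MvPowerSeries.map_C, hc, map_zero, map_zero,
      add_zero, MvPowerSeries.killCompl_X]
  · intro f
    rw [hπ, ← MvPowerSeries.coeff_zero_eq_constantCoeff_apply, MvPowerSeries.coeff_killCompl,
      Finsupp.embDomain_zero, MvPowerSeries.coeff_map, MvPowerSeries.coeff_zero_eq_constantCoeff_apply]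
    have := hres f
    exact this

theorem main (hR : Spec.RINGE) (hMax : Spec.MAXGEN) (hC : ApiC) : Spec.COORD ∧ Spec.PI :=
  ⟨coord hR hMax hC, pi_ hC (coord hR hMax hC)⟩

end Crest.Agent.LT3COORD
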