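/- rid 227 (S0351): module END (endomorphisms of the Honda law with prescribed leading term). -/
import Crest.Agent.LT3Spec

set_option autoImplicit false
open Crest.LubinTate
open MvPowerSeries

namespace Crest.Agent.LT3END

open Crest.Agent.LT3

section OG

variable {σ : Type} {R : Type} [CommRing R]

/-- all coefficients of degree `< m` vanish. -/
def OG (m : ℕ) (f : MvPowerSeries σ R) : Prop := ∀ e : σ →₀ ℕ, e.degree < m → coeff e f = 0

theorem OG.zero (m : ℕ) : OG m (0 : MvPowerSeries σ R) := fun e _ => by simp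

theorem OG.add {m : ℕ} {f g : MvPowerSeries σ R} (hf : OG m f) (hg : OG m g) : OG m (f + g) :=
  fun e he => by rw [map_add, hf e he, hg e he, add_zero]

theorem OG.neg {m : ℕ} {f : MvPowerSeries σ R} (hf : OG m f) : OG m (-f) :=
  fun e he => by rw [map_neg, hf e he, neg_zero]

theorem OG.sub {m : ℕ} {f g : MvPowerSeries σ R} (hf : OG m f) (hg : OG m g) : OG m (f - g) :=
  fun e he => by rw [map_sub, hf e he, hg e he, sub_zero]

theorem OG.mono {m m' : ℕ} {f : MvPowerSeries σ R} (hf : OG m f) (h : m' ≤ m) : OG m' f :=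
  fun e he => hf e (lt_of_lt_of_le he h)

theorem OG.triv (f : MvPowerSeries σ R) : OG 0 f := fun e he => absurd he (by omega)

theorem OG.mul {a b : ℕ} {f g : MvPowerSeries σ R} (hf : OG a f) (hg : OG b g) :
    OG (a + b) (f * g) := by
  classical
  intro e he
  rw [coeff_mul]
  refine Finset.sum_eq_zero fun x hx => ?_
  rw [Finset.HasAntidiagonal.mem_antidiagonal] at hx
  have hd : x.1.degree + x.2.degree = e.degree := by rw [← hx, map_add]
  rcases lt_or_ge x.1.degree a with h | h
  · rw [hf _ h, zero_mul]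
  · rw [hg x.2 (by omega), mul_zero]

theorem OG.mul_left {b : ℕ} (f : MvPowerSeries σ R) {g : MvPowerSeries σ R} (hg : OG b g) :
    OG b (f * g) := by
  simpa using (OG.triv f).mul hg

theorem OG.mul_right {b : ℕ} {f : MvPowerSeries σ R} (hf : OG b f) (g : MvPowerSeries σ R) :
    OG b (f * g) := by
  simpa using hf.mul (OG.triv g)

theorem OG.pow {f : MvPowerSeries σ R} (hf : OG 1 f) (i : ℕ) : OG i (f ^ i) := by
  induction i with
  | zero => exact OG.triv _
  | succ i ih => rw [pow_succ]; exact ih.mul hf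

theorem OG.sum {ι : Type} {s : Finset ι} {m : ℕ} {f : ι → MvPowerSeries σ R}
    (h : ∀ i ∈ s, OG m (f i)) : OG m (∑ i ∈ s, f i) := by
  intro e he
  rw [map_sum]
  exact Finset.sum_eq_zero fun i hi => h i hi e he

theorem OG.of_zc {f : MvPowerSeries σ R} (hf : constantCoeff f = 0) : OG 1 f := by
  intro e he
  have : e.degree = 0 := by omega
  rw [Finsupp.degree_eq_zero_iff] at this
  subst this
  exact hf

theorem OG.zc {f : MvPowerSeries σ R} (hf : OG 1 f) : constantCoeff f = 0 := by
  have := hf 0 (by simp)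
  simpa using this

theorem OG.hasSubst {f : MvPowerSeries σ R} (hf : OG 1 f) : PowerSeries.HasSubst f :=
  PowerSeries.HasSubst.of_constantCoeff_zero hf.zc

theorem OG.hasSubst2 {f g : MvPowerSeries σ R} (hf : OG 1 f) (hg : OG 1 g) :
    HasSubst ![f, g] :=
  hasSubst_of_constantCoeff_zero fun s => by
    fin_cases s
    · exact hf.zc
    · exact hg.zc

theorem OG.pow_sub {t : ℕ} {u v : MvPowerSeries σ R} (hu : OG 1 u) (hv : OG 1 v)
    (h : OG (1 + t) (u - v)) (i : ℕ) : OG (i + t) (u ^ i - v ^ i) := by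
  induction i with
  | zero => simpa using OG.zero _
  | succ i ih =>
    have e : u ^ (i + 1) - v ^ (i + 1) = u ^ i * (u - v) + (u ^ i - v ^ i) * v := by ring
    rw [e]
    have h1 := (hu.pow i).mul h
    have h2 := ih.mul hv
    exact (h1.mono (by omega)).add (h2.mono (by omega))

theorem OG.pow2_sub {t : ℕ} {u u' v v' : MvPowerSeries σ R} (hu : OG 1 u) (hu' : OG 1 u')
    (hv : OG 1 v) (hv' : OG 1 v')
    (h : OG (1 + t) (u - u')) (h' : OG (1 + t) (v - v')) (i j : ℕ) :
    OG (i + j + t) (u ^ i * v ^ j - u' ^ i * v' ^ j) := by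
  have e : u ^ i * v ^ j - u' ^ i * v' ^ j =
      u ^ i * (v ^ j - v' ^ j) + (u ^ i - u' ^ i) * v' ^ j := by ring
  rw [e]
  have h1 := (hu.pow i).mul (hv.pow_sub hv' h' j)
  have h2 := (hu.pow_sub hu' h i).mul (hv'.pow j)
  exact (h1.mono (by omega)).add (h2.mono (by omega))

theorem prod2 (u v : MvPowerSeries σ R) (d : Fin 2 →₀ ℕ) :
    (d.prod fun s e => (![u, v] s) ^ e) = u ^ d 0 * v ^ d 1 := by
  rw [Finsupp.prod_fintype _ _ (by intro i; simp)]
  simp [Fin.prod_univ_two]

theorem degree2 (d : Fin 2 →₀ ℕ) : d.degree = d 0 + d 1 := by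
  rw [Finsupp.degree_eq_sum]
  simp [Fin.sum_univ_two]

theorem OG_subst2_sub {φ : MvPowerSeries (Fin 2) R} {r t : ℕ} (hφ : OG r φ)
    {u u' v v' : MvPowerSeries σ R} (hu : OG 1 u) (hu' : OG 1 u') (hv : OG 1 v) (hv' : OG 1 v')
    (h1 : OG (1 + t) (u - u')) (h2 : OG (1 + t) (v - v')) :
    OG (r + t) (subst ![u, v] φ - subst ![u', v'] φ) := by
  intro e he
  have hs := hu.hasSubst2 hv
  have hs' := hu'.hasSubst2 hv'
  rw [map_sub, coeff_subst hs, coeff_subst hs',
    ← finsum_sub_distrib (coeff_subst_finite hs φ e) (coeff_subst_finite hs' φ e)]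
  refine finsum_eq_zero_of_forall_eq_zero fun d => ?_
  rw [prod2, prod2, ← smul_sub, ← map_sub]
  rcases lt_or_ge d.degree r with h | h
  · rw [hφ d h, zero_smul]
  · rw [(OG.pow2_sub hu hu' hv hv' h1 h2 (d 0) (d 1)) e (by rw [degree2] at h; omega), smul_zero]

theorem OG_subst2 {φ : MvPowerSeries (Fin 2) R} {r : ℕ} (hφ : OG r φ)
    {u v : MvPowerSeries σ R} (hu : OG 1 u) (hv : OG 1 v) : OG r (subst ![u, v] φ) := by
  intro e he
  have hs := hu.hasSubst2 hv
  rw [coeff_subst hs]
  refine finsum_eq_zero_of_forall_eq_zero fun d => ?_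
  rw [prod2]
  rcases lt_or_ge d.degree r with h | h
  · rw [hφ d h, zero_smul]
  · rw [((hu.pow (d 0)).mul (hv.pow (d 1))) e (by rw [degree2] at h; omega), smul_zero]

theorem OG_cmp_sub {φ : PowerSeries R} {r t : ℕ} (hφ : ∀ i < r, PowerSeries.coeff i φ = 0)
    {u u' : MvPowerSeries σ R} (hu : OG 1 u) (hu' : OG 1 u') (h1 : OG (1 + t) (u - u')) :
    OG (r + t) (cmp φ u - cmp φ u') := by
  intro e he
  have hs := hu.hasSubst
  have hs' := hu'.hasSubst
  unfold LT3.cmp
  rw [map_sub, PowerSeries.coeff_subst hs, PowerSeries.coeff_subst hs',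
    ← finsum_sub_distrib (PowerSeries.coeff_subst_finite hs φ e)
      (PowerSeries.coeff_subst_finite hs' φ e)]
  refine finsum_eq_zero_of_forall_eq_zero fun d => ?_
  rw [← smul_sub, ← map_sub]
  rcases lt_or_ge d r with h | h
  · rw [hφ d h, zero_smul]
  · rw [(OG.pow_sub hu hu' h1 d) e (by omega), smul_zero]

theorem OG_cmp {φ : PowerSeries R} {r : ℕ} (hφ : ∀ i < r, PowerSeries.coeff i φ = 0)
    {u : MvPowerSeries σ R} (hu : OG 1 u) : OG r (cmp φ u) := by
  intro e he
  have hs := hu.hasSubst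
  unfold LT3.cmp
  rw [PowerSeries.coeff_subst hs]
  refine finsum_eq_zero_of_forall_eq_zero fun d => ?_
  rcases lt_or_ge d r with h | h
  · rw [hφ d h, zero_smul]
  · rw [(hu.pow d) e (by omega), smul_zero]

theorem OG_X (s : σ) : OG 1 (X s : MvPowerSeries σ R) := OG.of_zc (by simp)

end OG

section FG

variable {σ : Type} {R : Type} [CommRing R]

theorem OG_of_coeff {r : ℕ} {φ : PowerSeries R} (h : ∀ i < r, PowerSeries.coeff i φ = 0) :
    OG r (φ : MvPowerSeries Unit R) := by
  intro e he
  have h1 : e = Finsupp.single () (e ()) := by ext; simp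
  have h2 : e.degree = e () := by rw [Finsupp.degree_eq_sum]; simp
  rw [h1]
  exact h _ (by omega)

theorem coeff_of_OG {r : ℕ} {φ : PowerSeries R} (h : OG r (φ : MvPowerSeries Unit R)) :
    ∀ i < r, PowerSeries.coeff i φ = 0 := by
  intro i hi
  exact h (Finsupp.single () i) (by rw [Finsupp.degree_single]; exact hi)

/-- higher part of the law -/
noncomputable def hi (G : FormalGroup R) : MvPowerSeries (Fin 2) R :=
  G.toPowerSeries - X 0 - X 1

theorem OG_hi (G : FormalGroup R) : OG 2 (hi G) := by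
  classical
  intro e he
  rw [degree2] at he
  have h0 : e = Finsupp.single 0 (e 0) + Finsupp.single 1 (e 1) := by
    ext s; fin_cases s <;> simp
  unfold hi
  rw [map_sub, map_sub, coeff_X, coeff_X]
  have hne : (Finsupp.single (0 : Fin 2) 1 : Fin 2 →₀ ℕ) ≠ Finsupp.single 1 1 := by
    intro h
    have := DFunLike.congr_fun h 0
    simp at this
  rcases Nat.lt_or_ge (e 0 + e 1) 1 with h | h
  · have h1 : e 0 = 0 := by omega
    have h2 : e 1 = 0 := by omega
    rw [h1, h2] at h0
    have h3 : e = 0 := by rw [h0]; simp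
    subst h3
    have h4 : (0 : Fin 2 →₀ ℕ) ≠ Finsupp.single 0 1 := by
      intro h; have := DFunLike.congr_fun h 0; simp at this
    have h5 : (0 : Fin 2 →₀ ℕ) ≠ Finsupp.single 1 1 := by
      intro h; have := DFunLike.congr_fun h 1; simp at this
    rw [if_neg h4, if_neg h5]
    simpa using G.zero_constantCoeff
  · rcases Nat.eq_zero_or_pos (e 0) with h1 | h1
    · have h2 : e 1 = 1 := by omega
      rw [h1, h2] at h0
      have h3 : e = Finsupp.single 1 1 := by rw [h0]; simp
      rw [h3, if_neg (Ne.symm hne), if_pos rfl, G.lin_coeff_Y]; simp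
    · have h2 : e 0 = 1 := by omega
      have h3 : e 1 = 0 := by omega
      rw [h2, h3] at h0
      have h3 : e = Finsupp.single 0 1 := by rw [h0]; simp
      rw [h3, if_pos rfl, if_neg hne, G.lin_coeff_X]; simp

theorem fadd_eq (G : FormalGroup R) {u v : MvPowerSeries σ R} (hu : OG 1 u) (hv : OG 1 v) :
    fadd G u v = u + v + subst ![u, v] (hi G) := by
  have hs := hu.hasSubst2 hv
  unfold fadd hi
  rw [subst_sub hs, subst_sub hs, subst_X hs, subst_X hs]
  simp

theorem OG_fadd (G : FormalGroup R) {u v : MvPowerSeries σ R} {m : ℕ} (hm : 1 ≤ m)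
    (hu : OG m u) (hv : OG m v) : OG m (fadd G u v) := by
  unfold fadd
  intro e he
  have h1 := hu.mono hm
  have h2 := hv.mono hm
  have hs := h1.hasSubst2 h2
  rw [coeff_subst hs]
  refine finsum_eq_zero_of_forall_eq_zero fun d => ?_
  rw [prod2]
  rcases Nat.eq_zero_or_pos (d 0) with h | h
  · rcases Nat.eq_zero_or_pos (d 1) with h' | h'
    · have hd : d = 0 := by ext s; fin_cases s <;> simp [h, h']
      rw [hd]
      have : coeff (0 : Fin 2 →₀ ℕ) G.toPowerSeries = 0 := by simpa using G.zero_constantCoeff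
      rw [this, zero_smul]
    · obtain ⟨j, hj⟩ := Nat.exists_eq_succ_of_ne_zero (Nat.pos_iff_ne_zero.mp h')
      rw [hj, pow_succ]
      rw [((hv.mul_left (v ^ j)).mul_left (u ^ d 0)) e he, smul_zero]
  · obtain ⟨j, hj⟩ := Nat.exists_eq_succ_of_ne_zero (Nat.pos_iff_ne_zero.mp h)
    rw [hj, pow_succ]
    rw [((hu.mul_left (u ^ j)).mul_right (v ^ d 1)) e he, smul_zero]

/-- the basic congruence -/
theorem fadd_sub_fadd (G : FormalGroup R) {t : ℕ} {u u' v v' : MvPowerSeries σ R}
    (hu : OG 1 u) (hu' : OG 1 u') (hv : OG 1 v) (hv' : OG 1 v')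
    (h1 : OG (1 + t) (u - u')) (h2 : OG (1 + t) (v - v')) :
    OG (2 + t) (fadd G u v - fadd G u' v' - (u - u') - (v - v')) := by
  have e : fadd G u v - fadd G u' v' - (u - u') - (v - v') =
      subst ![u, v] (hi G) - subst ![u', v'] (hi G) := by
    rw [fadd_eq G hu hv, fadd_eq G hu' hv']; ring
  rw [e]
  exact OG_subst2_sub (OG_hi G) hu hu' hv hv' h1 h2

/-- the defect -/
noncomputable def dft (G : FormalGroup R) (a : PowerSeries R) : MvPowerSeries (Fin 2) R :=
  PowerSeries.subst G.toPowerSeries a -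
    G.toPowerSeries.subst ![PowerSeries.subst (X 0 : MvPowerSeries (Fin 2) R) a,
      PowerSeries.subst (X 1 : MvPowerSeries (Fin 2) R) a]

theorem OG_G (G : FormalGroup R) : OG 1 G.toPowerSeries := OG.of_zc G.zero_constantCoeff

theorem subst_cmp {u v : MvPowerSeries σ R} (hu : OG 1 u) (hv : OG 1 v) (a : PowerSeries R)
    {w : MvPowerSeries (Fin 2) R} (hw : OG 1 w) :
    subst ![u, v] (LT3.cmp a w) = LT3.cmp a (subst ![u, v] w) := by
  have hs := hu.hasSubst2 hv
  unfold LT3.cmp PowerSeries.subst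
  rw [subst_comp_subst_apply hw.hasSubst.const hs]

theorem dft_eq (G : FormalGroup R) (a : PowerSeries R) :
    dft G a = LT3.cmp a G.toPowerSeries - fadd G (LT3.cmp a (X 0)) (LT3.cmp a (X 1)) := rfl

theorem OG1_cmp {a : PowerSeries R} (ha : PowerSeries.constantCoeff a = 0)
    {u : MvPowerSeries σ R} (hu : OG 1 u) : OG 1 (LT3.cmp a u) :=
  OG_cmp (fun i hi => by
    have : i = 0 := by omega
    subst this
    simpa using ha) hu

theorem subst_dft (G : FormalGroup R) {a : PowerSeries R} (ha : PowerSeries.constantCoeff a = 0)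
    {u v : MvPowerSeries σ R} (hu : OG 1 u) (hv : OG 1 v) :
    subst ![u, v] (dft G a) = LT3.cmp a (fadd G u v) - fadd G (LT3.cmp a u) (LT3.cmp a v) := by
  have hs := hu.hasSubst2 hv
  have h0 := OG1_cmp ha (OG_X (R := R) (0 : Fin 2))
  have h1 := OG1_cmp ha (OG_X (R := R) (1 : Fin 2))
  rw [dft_eq, subst_sub hs, subst_cmp hu hv a (OG_G G)]
  congr 1
  unfold fadd
  rw [subst_comp_subst_apply (h0.hasSubst2 h1) hs]
  congr 1
  funext s
  fin_cases s
  · simp only [Fin.zero_eta, Fin.isValue, Matrix.cons_val_zero]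
    rw [subst_cmp hu hv a (OG_X 0), subst_X hs]; rfl
  · simp only [Fin.mk_one, Fin.isValue, Matrix.cons_val_one, Matrix.cons_val_fin_one]
    rw [subst_cmp hu hv a (OG_X 1), subst_X hs]; rfl

end FG

section Mon

variable {σ : Type} {R : Type} [CommRing R]

noncomputable def pr2 (i j : ℕ) : Fin 2 →₀ ℕ := Finsupp.single 0 i + Finsupp.single 1 j

noncomputable def pr3 (i j l : ℕ) : Fin 3 →₀ ℕ :=
  Finsupp.single 0 i + Finsupp.single 1 j + Finsupp.single 2 l

theorem eq_pr2 (e : Fin 2 →₀ ℕ) (i j : ℕ) : e = pr2 i j ↔ (e 0 = i ∧ e 1 = j) := by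
  constructor
  · rintro rfl; simp [pr2]
  · rintro ⟨rfl, rfl⟩
    ext s; fin_cases s <;> simp [pr2]

theorem eq_pr3 (e : Fin 3 →₀ ℕ) (i j l : ℕ) : e = pr3 i j l ↔ (e 0 = i ∧ e 1 = j ∧ e 2 = l) := by
  constructor
  · rintro rfl; simp [pr3]
  · rintro ⟨rfl, rfl, rfl⟩
    ext s; fin_cases s <;> simp [pr3]

theorem coeff_mon2 (e : Fin 2 →₀ ℕ) (i j : ℕ) (c : R) :
    coeff e (C c * ((X 0 : MvPowerSeries (Fin 2) R) ^ i * X 1 ^ j)) =
      if e 0 = i ∧ e 1 = j then c else 0 := by
  classical
  have : (Finsupp.single 0 i + Finsupp.single 1 j : Fin 2 →₀ ℕ) = pr2 i j := rfl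
  rw [X_pow_eq, X_pow_eq, monomial_mul_monomial, coeff_C_mul, coeff_monomial, this]
  by_cases h : e = pr2 i j
  · rw [if_pos h, if_pos ((eq_pr2 e i j).mp h)]; simp
  · rw [if_neg h, if_neg (fun h' => h ((eq_pr2 e i j).mpr h'))]; simp

theorem coeff_mon3 (e : Fin 3 →₀ ℕ) (i j l : ℕ) (c : R) :
    coeff e (C c * ((X 0 : MvPowerSeries (Fin 3) R) ^ i * X 1 ^ j * X 2 ^ l)) =
      if e 0 = i ∧ e 1 = j ∧ e 2 = l then c else 0 := by
  classical
  have : (Finsupp.single 0 i + Finsupp.single 1 j + Finsupp.single 2 l : Fin 3 →₀ ℕ) =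
    pr3 i j l := rfl
  rw [X_pow_eq, X_pow_eq, X_pow_eq, monomial_mul_monomial, monomial_mul_monomial, coeff_C_mul,
    coeff_monomial, this]
  by_cases h : e = pr3 i j l
  · rw [if_pos h, if_pos ((eq_pr3 e i j l).mp h)]; simp
  · rw [if_neg h, if_neg (fun h' => h ((eq_pr3 e i j l).mpr h'))]; simp

/-- homogeneous form with coefficients `c`. -/
noncomputable def Del (m : ℕ) (c : ℕ → R) (u v : MvPowerSeries σ R) : MvPowerSeries σ R :=
  ∑ i ∈ Finset.range (m + 1), C (c i) * (u ^ i * v ^ (m - i))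

theorem OG_sub_Del {m : ℕ} {D : MvPowerSeries (Fin 2) R} (hD : OG m D) :
    OG (m + 1) (D - Del m (fun i => coeff (pr2 i (m - i)) D) (X 0) (X 1)) := by
  intro e he
  rw [degree2] at he
  unfold Del
  rw [map_sub, map_sum]
  simp only [coeff_mon2]
  rcases Nat.lt_or_ge (e 0 + e 1) m with h | h
  · rw [hD e (by rw [degree2]; exact h), zero_sub, neg_eq_zero]
    refine Finset.sum_eq_zero fun i hi => ?_
    rw [Finset.mem_range] at hi
    rw [if_neg (by omega)]
  · have h1 : e 0 + e 1 = m := by omega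
    rw [Finset.sum_eq_single (e 0)]
    · rw [if_pos (by omega)]
      have : e = pr2 (e 0) (m - e 0) := (eq_pr2 _ _ _).mpr ⟨rfl, by omega⟩
      rw [← this, sub_self]
    · intro b _ hb
      rw [if_neg (by omega)]
    · intro hn
      rw [Finset.mem_range] at hn
      omega

theorem subst_Del {m : ℕ} {c : ℕ → R} {u v : MvPowerSeries σ R} (hu : OG 1 u) (hv : OG 1 v) :
    subst ![u, v] (Del m c (X 0) (X 1)) = Del m c u v := by
  have hs := hu.hasSubst2 hv
  unfold Del
  rw [← coe_substAlgHom hs, map_sum]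
  refine Finset.sum_congr rfl fun i _ => ?_
  rw [map_mul, map_mul, map_pow, map_pow, coe_substAlgHom hs, subst_X hs, subst_X hs, subst_C]
  simp

theorem subst_expand {m : ℕ} {D : MvPowerSeries (Fin 2) R} (hD : OG m D)
    {u u' v v' : MvPowerSeries σ R} (hu : OG 1 u) (hu' : OG 1 u') (hv : OG 1 v) (hv' : OG 1 v')
    (h1 : OG 2 (u - u')) (h2 : OG 2 (v - v')) :
    OG (m + 1) (subst ![u, v] D - Del m (fun i => coeff (pr2 i (m - i)) D) u' v') := by
  have hs := hu.hasSubst2 hv
  have e1 := OG_subst2 (OG_sub_Del hD) hu hv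
  rw [subst_sub hs, subst_Del hu hv] at e1
  have e2 : OG (m + 1) (Del m (fun i => coeff (pr2 i (m - i)) D) u v -
      Del m (fun i => coeff (pr2 i (m - i)) D) u' v') := by
    unfold Del
    rw [← Finset.sum_sub_distrib]
    refine OG.sum fun i hi => ?_
    rw [Finset.mem_range] at hi
    rw [← mul_sub]
    refine OG.mul_left _ ((OG.pow2_sub (t := 1) hu hu' hv hv' h1 h2 i (m - i)).mono (by omega))
  have := e1.add e2
  rwa [sub_add_sub_cancel] at this

theorem coeff_Del_swap (m : ℕ) (c : ℕ → R) (i : ℕ) (hi : i ≤ m) :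
    coeff (pr2 i (m - i)) (Del m c (X 1) (X 0)) = c (m - i) := by
  unfold Del
  rw [map_sum]
  have : ∀ t, coeff (pr2 i (m - i)) (C (c t) * ((X 1 : MvPowerSeries (Fin 2) R) ^ t *
      X 0 ^ (m - t))) = if i = m - t ∧ m - i = t then c t else 0 := by
    intro t
    rw [mul_comm (X 1 ^ t : MvPowerSeries (Fin 2) R), coeff_mon2]
    simp [pr2]
  simp only [this]
  rw [Finset.sum_eq_single (m - i)]
  · rw [if_pos (by omega)]
  · intro b hb hb'
    rw [if_neg (by omega)]
  · intro hn
    rw [Finset.mem_range] at hn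
    omega

theorem coeff3_a (i j l m : ℕ) (hl : 1 ≤ l) (c : ℕ → R) :
    coeff (pr3 i j l) (Del m c (X 0) (X 1)) = 0 := by
  unfold Del
  rw [map_sum]
  refine Finset.sum_eq_zero fun t _ => ?_
  have := coeff_mon3 (pr3 i j l) t (m - t) 0 (c t)
  rw [pow_zero, mul_one] at this
  rw [this, if_neg]
  simp [pr3]
  omega

theorem coeff3_b (i j l m : ℕ) (hl : 1 ≤ i) (c : ℕ → R) :
    coeff (pr3 i j l) (Del m c (X 1) (X 2)) = 0 := by
  unfold Del
  rw [map_sum]
  refine Finset.sum_eq_zero fun t _ => ?_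
  have := coeff_mon3 (pr3 i j l) 0 t (m - t) (c t)
  rw [pow_zero, one_mul] at this
  rw [this, if_neg]
  simp [pr3]
  omega

theorem coeff3_c (i j l m : ℕ) (h : i + j + l = m) (c : ℕ → R) :
    coeff (pr3 i j l) (Del m c (X 0 + X 1) (X 2)) = c (i + j) * ((i + j).choose i : R) := by
  unfold Del
  rw [map_sum]
  have key : ∀ t, coeff (pr3 i j l) (C (c t) * (((X 0 + X 1 : MvPowerSeries (Fin 3) R)) ^ t *
      X 2 ^ (m - t))) = ∑ q ∈ Finset.range (t + 1),
        if i = q ∧ j = t - q ∧ l = m - t then c t * (t.choose q : R) else 0 := by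
    intro t
    rw [add_pow, Finset.sum_mul, Finset.mul_sum, map_sum]
    refine Finset.sum_congr rfl fun q _ => ?_
    have h1 := coeff_mon3 (pr3 i j l) q (t - q) (m - t) (c t * (t.choose q : R))
    have h2 : C (c t * (t.choose q : R)) * ((X 0 : MvPowerSeries (Fin 3) R) ^ q * X 1 ^ (t - q) *
        X 2 ^ (m - t)) = C (c t) * (X 0 ^ q * X 1 ^ (t - q) * (t.choose q : MvPowerSeries (Fin 3) R)
          * X 2 ^ (m - t)) := by
      rw [map_mul, map_natCast]; ring
    rw [h2] at h1
    rw [h1]
    simp [pr3]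
  simp only [key]
  rw [Finset.sum_eq_single (i + j)]
  · rw [Finset.sum_eq_single i]
    · rw [if_pos (by omega)]
    · intro b _ hb
      rw [if_neg (by omega)]
    · intro hn
      rw [Finset.mem_range] at hn
      omega
  · intro t ht hb
    refine Finset.sum_eq_zero fun q hq => ?_
    rw [Finset.mem_range] at hq ht
    rw [if_neg (by omega)]
  · intro hn
    rw [Finset.mem_range] at hn
    omega

theorem coeff3_d (i j l m : ℕ) (h : i + j + l = m) (c : ℕ → R) :
    coeff (pr3 i j l) (Del m c (X 0) (X 1 + X 2)) = c i * ((j + l).choose j : R) := by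
  unfold Del
  rw [map_sum]
  have key : ∀ t, coeff (pr3 i j l) (C (c t) * ((X 0 : MvPowerSeries (Fin 3) R) ^ t *
      (X 1 + X 2) ^ (m - t))) = ∑ q ∈ Finset.range (m - t + 1),
        if i = t ∧ j = q ∧ l = m - t - q then c t * ((m - t).choose q : R) else 0 := by
    intro t
    rw [add_pow, Finset.mul_sum, Finset.mul_sum, map_sum]
    refine Finset.sum_congr rfl fun q _ => ?_
    have h1 := coeff_mon3 (pr3 i j l) t q (m - t - q) (c t * ((m - t).choose q : R))
    have h2 : C (c t * ((m - t).choose q : R)) * ((X 0 : MvPowerSeries (Fin 3) R) ^ t * X 1 ^ q *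
        X 2 ^ (m - t - q)) = C (c t) * (X 0 ^ t * (X 1 ^ q * X 2 ^ (m - t - q) *
          ((m - t).choose q : MvPowerSeries (Fin 3) R))) := by
      rw [map_mul, map_natCast]; ring
    rw [h2] at h1
    rw [h1]
    simp [pr3]
  simp only [key]
  rw [Finset.sum_eq_single i]
  · rw [Finset.sum_eq_single j]
    · rw [if_pos (by omega)]
      have : m - i = j + l := by omega
      rw [this]
    · intro b _ hb
      rw [if_neg (by omega)]
    · intro hn
      rw [Finset.mem_range] at hn
      omega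
  · intro t ht hb
    refine Finset.sum_eq_zero fun q hq => ?_
    rw [if_neg (by omega)]
  · intro hn
    rw [Finset.mem_range] at hn
    omega

end Mon

section Rel

variable {σ : Type} {R : Type} [CommRing R]

theorem fadd_add_left (G : FormalGroup R) {m : ℕ} (hm : 1 ≤ m) {x y e : MvPowerSeries σ R}
    (hx : OG 1 x) (hy : OG 1 y) (he : OG m e) :
    OG (m + 1) (fadd G (x + e) y - fadd G x y - e) := by
  have h := fadd_sub_fadd G (t := m - 1) (hx.add (he.mono hm)) hx hy hy
    (by rw [add_sub_cancel_left]; exact he.mono (by omega)) (by rw [sub_self]; exact OG.zero _)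
  rw [add_sub_cancel_left, sub_self, sub_zero] at h
  exact h.mono (by omega)

theorem fadd_add_right (G : FormalGroup R) {m : ℕ} (hm : 1 ≤ m) {x y e : MvPowerSeries σ R}
    (hx : OG 1 x) (hy : OG 1 y) (he : OG m e) :
    OG (m + 1) (fadd G x (y + e) - fadd G x y - e) := by
  have h := fadd_sub_fadd G (t := m - 1) hx hx (hy.add (he.mono hm)) hy
    (by rw [sub_self]; exact OG.zero _) (by rw [add_sub_cancel_left]; exact he.mono (by omega))
  rw [add_sub_cancel_left, sub_self, sub_zero] at h
  exact h.mono (by omega)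

theorem OG1_fadd (G : FormalGroup R) {x y : MvPowerSeries σ R} (hx : OG 1 x) (hy : OG 1 y) :
    OG 1 (fadd G x y) := OG_fadd G le_rfl hx hy

theorem fadd_sub_add (G : FormalGroup R) {x y : MvPowerSeries σ R} (hx : OG 1 x) (hy : OG 1 y) :
    OG 2 (fadd G x y - (x + y)) := by
  rw [fadd_eq G hx hy, add_sub_cancel_left]
  exact OG_subst2 (OG_hi G) hx hy

/-- the cocycle relation up to degree `m`. -/
theorem cocycle (G : FormalGroup R) {a : PowerSeries R} (ha : PowerSeries.constantCoeff a = 0)
    {m : ℕ} (hm : 1 ≤ m) (hD : OG m (dft G a)) {u v w : MvPowerSeries σ R}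
    (hu : OG 1 u) (hv : OG 1 v) (hw : OG 1 w) :
    OG (m + 1) (subst ![u, v] (dft G a) + subst ![fadd G u v, w] (dft G a) -
      subst ![v, w] (dft G a) - subst ![u, fadd G v w] (dft G a)) := by
  have huv := OG1_fadd G hu hv
  have hvw := OG1_fadd G hv hw
  have Au := OG1_cmp ha hu
  have Av := OG1_cmp ha hv
  have Aw := OG1_cmp ha hw
  have e1 := subst_dft G ha hu hv
  have e2 := subst_dft G ha huv hw
  have e3 := subst_dft G ha hv hw
  have e4 := subst_dft G ha hu hvw
  have o1 := OG_subst2 hD hu hv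
  have o3 := OG_subst2 hD hv hw
  have q1 := fadd_add_left G hm (OG1_fadd G Au Av) Aw o1
  have q2 := fadd_add_right G hm Au (OG1_fadd G Av Aw) o3
  have s1 : fadd G (LT3.cmp a u) (LT3.cmp a v) + subst ![u, v] (dft G a) =
      LT3.cmp a (fadd G u v) := by rw [e1]; ring
  have s3 : fadd G (LT3.cmp a v) (LT3.cmp a w) + subst ![v, w] (dft G a) =
      LT3.cmp a (fadd G v w) := by rw [e3]; ring
  rw [s1] at q1
  rw [s3] at q2
  have as1 : fadd G (fadd G (LT3.cmp a u) (LT3.cmp a v)) (LT3.cmp a w) =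
      fadd G (LT3.cmp a u) (fadd G (LT3.cmp a v) (LT3.cmp a w)) :=
    G.assoc' Au.hasSubst Av.hasSubst Aw.hasSubst
  have as2 : fadd G (fadd G u v) w = fadd G u (fadd G v w) :=
    G.assoc' hu.hasSubst hv.hasSubst hw.hasSubst
  have := q2.sub q1
  convert this using 1
  rw [e2, e4, as2, as1]
  ring

theorem OG_eq_Del {m : ℕ} {c : ℕ → R} {u v : MvPowerSeries σ R} (hu : OG 1 u) (hv : OG 1 v) :
    OG m (Del m c u v) := by
  unfold Del
  refine OG.sum fun i hi => ?_
  rw [Finset.mem_range] at hi
  exact OG.mul_left _ (((hu.pow i).mul (hv.pow (m - i))).mono (by omega))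

theorem cocycle_coeff (G : FormalGroup R) {a : PowerSeries R}
    (ha : PowerSeries.constantCoeff a = 0) {m : ℕ} (hm : 1 ≤ m) (hD : OG m (dft G a))
    (i j l : ℕ) (hi : 1 ≤ i) (hl : 1 ≤ l) (h : i + j + l = m) :
    coeff (pr2 (i + j) (m - (i + j))) (dft G a) * ((i + j).choose i : R) =
      coeff (pr2 i (m - i)) (dft G a) * ((j + l).choose j : R) := by
  have hX0 := OG_X (R := R) (0 : Fin 3)
  have hX1 := OG_X (R := R) (1 : Fin 3)
  have hX2 := OG_X (R := R) (2 : Fin 3)
  have h0 := cocycle G ha hm hD hX0 hX1 hX2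
  have z : ∀ x : MvPowerSeries (Fin 3) R, OG 2 (x - x) := fun x => by
    rw [sub_self]; exact OG.zero _
  have h1 := subst_expand hD hX0 hX0 hX1 hX1 (z _) (z _)
  have h2 := subst_expand hD (OG1_fadd G hX0 hX1) (hX0.add hX1) hX2 hX2
    (fadd_sub_add G hX0 hX1) (z _)
  have h3 := subst_expand hD hX1 hX1 hX2 hX2 (z _) (z _)
  have h4 := subst_expand hD hX0 hX0 (OG1_fadd G hX1 hX2) (hX1.add hX2)
    (z _) (fadd_sub_add G hX1 hX2)
  have h5 := (((h0.sub h1).sub h2).add h3).add h4
  have hdeg : (pr3 i j l).degree < m + 1 := by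
    have : (pr3 i j l).degree = i + j + l := by
      unfold pr3
      rw [map_add, map_add, Finsupp.degree_single, Finsupp.degree_single, Finsupp.degree_single]
    omega
  have h6 := h5 (pr3 i j l) hdeg
  have h7 : ∀ (A B C D a' b' c' d' : MvPowerSeries (Fin 3) R),
      ((((A + B - C - D) - (A - a')) - (B - b')) + (C - c')) + (D - d') = a' + b' - c' - d' := by
    intros; ring
  rw [h7, map_sub, map_sub, map_add, coeff3_a _ _ _ _ hl, coeff3_b _ _ _ _ hi,
    coeff3_c _ _ _ _ h, coeff3_d _ _ _ _ h] at h6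
  have h8 := sub_eq_zero.mp h6
  simpa using h8

theorem subst_dft_self (G : FormalGroup R) {a : PowerSeries R}
    (ha : PowerSeries.constantCoeff a = 0) :
    dft G a = LT3.cmp a (fadd G (X 0 : MvPowerSeries (Fin 2) R) (X 1)) -
      fadd G (LT3.cmp a (X 0 : MvPowerSeries (Fin 2) R)) (LT3.cmp a (X 1)) := by
  rw [← subst_dft G ha (OG_X 0) (OG_X 1)]
  have : (![X 0, X 1] : Fin 2 → MvPowerSeries (Fin 2) R) = X := by
    funext s; fin_cases s <;> rfl
  rw [this, subst_self]; rfl

theorem symm_coeff (G : FormalGroup R) (hG : G.IsComm) {a : PowerSeries R}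
    (ha : PowerSeries.constantCoeff a = 0) {m : ℕ} (hD : OG m (dft G a))
    (i : ℕ) (hi : i ≤ m) :
    coeff (pr2 i (m - i)) (dft G a) = coeff (pr2 (m - i) i) (dft G a) := by
  have hX0 := OG_X (R := R) (0 : Fin 2)
  have hX1 := OG_X (R := R) (1 : Fin 2)
  have z : ∀ x : MvPowerSeries (Fin 2) R, OG 2 (x - x) := fun x => by
    rw [sub_self]; exact OG.zero _
  have h1 := subst_expand hD hX1 hX1 hX0 hX0 (z _) (z _)
  have h2 : subst ![X 1, X 0] (dft G a) = dft G a := by
    rw [subst_dft G ha hX1 hX0]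
    conv_rhs => rw [subst_dft_self G ha]
    have c1 : fadd G (X 1 : MvPowerSeries (Fin 2) R) (X 0) = fadd G (X 0) (X 1) :=
      G.comm' hX1.hasSubst hX0.hasSubst
    have c2 : fadd G (LT3.cmp a (X 1 : MvPowerSeries (Fin 2) R)) (LT3.cmp a (X 0)) =
        fadd G (LT3.cmp a (X 0)) (LT3.cmp a (X 1)) :=
      G.comm' (OG1_cmp ha hX1).hasSubst (OG1_cmp ha hX0).hasSubst
    rw [c1, c2]
  rw [h2] at h1
  have hdeg : (pr2 i (m - i)).degree < m + 1 := by
    have : (pr2 i (m - i)).degree = i + (m - i) := by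
      unfold pr2
      rw [map_add, Finsupp.degree_single, Finsupp.degree_single]
    omega
  have h3 := h1 _ hdeg
  rw [map_sub, coeff_Del_swap _ _ _ hi, sub_eq_zero] at h3
  rw [h3]
  have h4 : m - (m - i) = i := by omega
  show coeff (pr2 (m - i) (m - (m - i))) (dft G a) = _
  rw [h4]

theorem coeff_top (G : FormalGroup R) {a : PowerSeries R}
    (ha : PowerSeries.constantCoeff a = 0) {m : ℕ} (hD : OG m (dft G a)) :
    coeff (pr2 m 0) (dft G a) = 0 := by
  have hX : OG 1 (PowerSeries.X : MvPowerSeries Unit R) := OG_X ()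
  have h0 : OG 1 (0 : MvPowerSeries Unit R) := OG.zero 1
  have z : ∀ x : MvPowerSeries Unit R, OG 2 (x - x) := fun x => by
    rw [sub_self]; exact OG.zero _
  have h1 := subst_expand hD hX hX h0 h0 (z _) (z _)
  have h2 : subst ![(PowerSeries.X : MvPowerSeries Unit R), 0] (dft G a) = 0 := by
    rw [subst_dft G ha hX h0]
    have e1 : fadd G (PowerSeries.X : MvPowerSeries Unit R) 0 = PowerSeries.X :=
      G.add_zero hX.hasSubst
    have e2 : LT3.cmp a (0 : MvPowerSeries Unit R) = 0 :=
      PowerSeries.subst_zero_of_constantCoeff_zero ha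
    have e3 : fadd G (LT3.cmp a (PowerSeries.X : MvPowerSeries Unit R)) 0 =
        LT3.cmp a (PowerSeries.X : MvPowerSeries Unit R) :=
      G.add_zero (OG1_cmp ha hX).hasSubst
    rw [e1, e2, e3, sub_self]
  rw [h2, zero_sub] at h1
  have h3 : Del m (fun i => coeff (pr2 i (m - i)) (dft G a))
      (PowerSeries.X : MvPowerSeries Unit R) 0 =
      C (coeff (pr2 m 0) (dft G a)) * (PowerSeries.X : MvPowerSeries Unit R) ^ m := by
    unfold Del
    rw [Finset.sum_eq_single m]
    · simp
    · intro b hb hb'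
      rw [Finset.mem_range] at hb
      rw [zero_pow (by omega), mul_zero, mul_zero]
    · intro hn
      rw [Finset.mem_range] at hn
      omega
  rw [h3] at h1
  have h4 := h1.neg
  rw [neg_neg] at h4
  have h5 := h4 (Finsupp.single () m) (by rw [Finsupp.degree_single]; omega)
  rw [coeff_C_mul] at h5
  have h6 : coeff (Finsupp.single () m) ((PowerSeries.X : MvPowerSeries Unit R) ^ m) = (1 : R) := by
    have := PowerSeries.coeff_X_pow_self (R := R) m
    exact this
  rwa [h6, mul_one] at h5

theorem OG_mulSeries (G : FormalGroup R) (t : ℕ) : OG 1 (mulSeries G t : MvPowerSeries Unit R) := by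
  induction t with
  | zero => exact OG.zero 1
  | succ t ih => exact OG1_fadd G ih (OG_X ())

theorem OG_mulSeries_sub (G : FormalGroup R) (t : ℕ) :
    OG 2 ((mulSeries G t : MvPowerSeries Unit R) -
      C (t : R) * (PowerSeries.X : MvPowerSeries Unit R)) := by
  induction t with
  | zero =>
    have : (mulSeries G 0 : MvPowerSeries Unit R) -
      C ((0 : ℕ) : R) * (PowerSeries.X : MvPowerSeries Unit R) = 0 := by
      simp [mulSeries]
    rw [this]; exact OG.zero _
  | succ t ih =>
    have h1 := fadd_sub_add G (OG_mulSeries G t) (OG_X (R := R) ())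
    have h2 := h1.add ih
    convert h2 using 1
    have : (mulSeries G (t + 1) : MvPowerSeries Unit R) =
      fadd G (mulSeries G t) (PowerSeries.X : MvPowerSeries Unit R) := rfl
    rw [this]
    push_cast
    rw [map_add, map_one]
    change _ = fadd G (mulSeries G t) (PowerSeries.X : MvPowerSeries Unit R) -
      (mulSeries G t + (PowerSeries.X : MvPowerSeries Unit R)) + _
    ring

theorem cmp_fadd' (G : FormalGroup R) {f g : PowerSeries R} {a : MvPowerSeries σ R}
    (hf : OG 1 (f : MvPowerSeries Unit R)) (hg : OG 1 (g : MvPowerSeries Unit R)) (ha : OG 1 a) :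
    LT3.cmp (fadd G (f : MvPowerSeries Unit R) g : PowerSeries R) a =
      fadd G (LT3.cmp f a) (LT3.cmp g a) := by
  have hs := hf.hasSubst2 hg
  unfold LT3.cmp fadd PowerSeries.subst
  rw [subst_comp_subst_apply hs ha.hasSubst.const]
  congr 1
  funext s
  fin_cases s <;> rfl

/-- `a([t]X) - [t](aX)` modulo degree `m+1`. -/
theorem mul_rel (G : FormalGroup R) {a : PowerSeries R} (ha : PowerSeries.constantCoeff a = 0)
    {m : ℕ} (hm : 1 ≤ m) (hD : OG m (dft G a)) (t : ℕ) :
    OG (m + 1) ((LT3.cmp a (mulSeries G t : MvPowerSeries Unit R)) -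
      LT3.cmp (mulSeries G t) (a : MvPowerSeries Unit R) -
      ∑ s ∈ Finset.range t, Del m (fun i => coeff (pr2 i (m - i)) (dft G a))
        (C (s : R) * (PowerSeries.X : MvPowerSeries Unit R)) PowerSeries.X) := by
  have hX : OG 1 (PowerSeries.X : MvPowerSeries Unit R) := OG_X ()
  have hA : OG 1 (a : MvPowerSeries Unit R) := OG.of_zc ha
  induction t with
  | zero =>
    have e1 : LT3.cmp a (mulSeries G 0 : MvPowerSeries Unit R) = 0 :=
      PowerSeries.subst_zero_of_constantCoeff_zero ha
    have e2 : LT3.cmp (mulSeries G 0) (a : MvPowerSeries Unit R) = 0 := by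
      unfold LT3.cmp mulSeries
      rw [← PowerSeries.coe_substAlgHom hA.hasSubst, map_zero]
    rw [e1, e2, Finset.range_zero, Finset.sum_empty, sub_zero, sub_zero]
    exact OG.zero _
  | succ t ih =>
    have hP := OG_mulSeries G t
    have oA := OG1_cmp ha hP
    have oB : OG 1 (LT3.cmp (mulSeries G t) (a : MvPowerSeries Unit R)) :=
      OG1_cmp hP.zc hA
    set Sm := ∑ s ∈ Finset.range t, Del m (fun i => coeff (pr2 i (m - i)) (dft G a))
        (C (s : R) * (PowerSeries.X : MvPowerSeries Unit R)) PowerSeries.X with hSm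
    have oS : OG m Sm := OG.sum fun s _ => OG_eq_Del (OG.mul_left _ hX) hX
    have oAB : OG m (LT3.cmp a (mulSeries G t : MvPowerSeries Unit R) -
        LT3.cmp (mulSeries G t) (a : MvPowerSeries Unit R)) := by
      have := (ih.mono (Nat.le_succ m)).add oS
      rwa [sub_add_cancel] at this
    have e1 := subst_dft G ha hP hX
    have h1 := subst_expand hD hP (OG.mul_left (C (t : R)) hX) hX hX
      (OG_mulSeries_sub G t) (by rw [sub_self]; exact OG.zero _)
    have h2 := fadd_sub_fadd G (t := m - 1) oA oB hA hA (oAB.mono (by omega))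
      (by rw [sub_self]; exact OG.zero _)
    have h2' := h2.mono (show m + 1 ≤ 2 + (m - 1) by omega)
    have e2 : LT3.cmp a (PowerSeries.X : MvPowerSeries Unit R) = a := by
      unfold LT3.cmp
      have := PowerSeries.map_algebraMap_eq_subst_X (R := R) (S := R) a
      rw [← this]; simp
    have e3 : (mulSeries G (t + 1) : MvPowerSeries Unit R) =
      fadd G (mulSeries G t) (PowerSeries.X : MvPowerSeries Unit R) := rfl
    have e4 : LT3.cmp (mulSeries G (t + 1)) (a : MvPowerSeries Unit R) =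
        fadd G (LT3.cmp (mulSeries G t) (a : MvPowerSeries Unit R)) a := by
      have := cmp_fadd' G (g := PowerSeries.X) hP hX hA
      have e5 : LT3.cmp (PowerSeries.X : PowerSeries R) (a : MvPowerSeries Unit R) = a :=
        PowerSeries.subst_X hA.hasSubst
      rw [e5] at this
      exact this
    rw [e2] at e1
    have h3 := (ih.add h1).add h2'
    convert h3 using 1
    rw [Finset.sum_range_succ, e4, e3, e1, ← hSm, sub_self]
    ring

end Rel

section Comb

theorem comb (p : ℕ) [hp : Fact p.Prime] (m r : ℕ) (hm : 2 ≤ m) (hr : m = p ^ r) :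
    (∑ s ∈ Finset.range p, ∑ i ∈ Finset.range (m + 1),
      (if 1 ≤ i ∧ i < m then m.choose i / p else 0) * s ^ i) + 1 = p ^ (m - 1) := by
  set g : ℕ → ℕ := fun i => if 1 ≤ i ∧ i < m then m.choose i / p else 0 with hg
  have hp0 : 0 < p := hp.out.pos
  have h1 : ∀ i, p * g i = if 1 ≤ i ∧ i < m then m.choose i else 0 := by
    intro i
    simp only [hg]
    split_ifs with h
    · refine Nat.mul_div_cancel' ?_
      rw [hr]
      exact hp.out.dvd_choose_pow (by omega) (by omega)
    · simp
  have h2 : ∀ s : ℕ, (s + 1) ^ m = (∑ i ∈ Finset.range (m + 1), p * g i * s ^ i) + s ^ m + 1 := by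
    intro s
    rw [add_pow]
    simp only [Nat.cast_id]
    have h3 : ∀ i ∈ Finset.range (m + 1), s ^ i * 1 ^ (m - i) * (m.choose i) =
        p * g i * s ^ i + (if i = m then s ^ m else 0) + (if i = 0 then 1 else 0) := by
      intro i hi
      rw [Finset.mem_range] at hi
      rw [h1]
      rcases Nat.eq_zero_or_pos i with h0 | h0
      · subst h0
        rw [if_neg (by omega), if_neg (by omega), if_pos rfl]
        simp
      · rcases Nat.lt_or_ge i m with h4 | h4
        · rw [if_pos ⟨h0, h4⟩, if_neg (by omega), if_neg (by omega)]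
          ring
        · have : i = m := by omega
          subst this
          rw [if_neg (by omega), if_pos rfl, if_neg (by omega)]
          simp
    rw [Finset.sum_congr rfl h3, Finset.sum_add_distrib, Finset.sum_add_distrib,
      Finset.sum_ite_eq', Finset.sum_ite_eq', if_pos (by simp), if_pos (by simp)]
  have h5 : ∀ q : ℕ, p * (∑ s ∈ Finset.range q, ∑ i ∈ Finset.range (m + 1), g i * s ^ i) + q =
      q ^ m := by
    intro q
    induction q with
    | zero => rw [Finset.range_zero, Finset.sum_empty, zero_pow (by omega), mul_zero, add_zero]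
    | succ q ih =>
      rw [Finset.sum_range_succ, mul_add, h2 q, ← ih, Finset.mul_sum (s := Finset.range (m + 1))]
      simp only [mul_assoc]
      ring
  have h6 := h5 p
  have h7 : p ^ m = p * p ^ (m - 1) := by
    rw [← pow_succ']; congr 1; omega
  rw [h7] at h6
  have h8 : p * ((∑ s ∈ Finset.range p, ∑ i ∈ Finset.range (m + 1), g i * s ^ i) + 1) =
      p * p ^ (m - 1) := by rw [← h6]; ring
  exact Nat.eq_of_mul_eq_mul_left hp0 h8

end Comb

section Step

variable {p : ℕ} [hp : Fact p.Prime] {n : ℕ}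

theorem frob_expand (hn : 1 ≤ n) (a : PowerSeries (GaloisField p n)) :
    LT3.cmp a (PowerSeries.X ^ (p ^ n) : PowerSeries (GaloisField p n)) = a ^ (p ^ n) := by
  have hQ : p ^ n ≠ 0 := pow_ne_zero _ hp.out.ne_zero
  have h1 := PowerSeries.expand_apply (p ^ n) hQ a
  have h2 := MvPowerSeries.map_iterateFrobenius_expand (σ := Unit) (R := GaloisField p n) p
    hp.out.ne_zero a n
  have h3 : iterateFrobenius (GaloisField p n) p n = RingHom.id _ := by
    ext x
    rw [iterateFrobenius_def, RingHom.id_apply]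
    have hcard := GaloisField.card p n (by omega)
    have := Fintype.ofFinite (GaloisField p n)
    have h4 := FiniteField.pow_card (K := GaloisField p n) x
    rw [← Nat.card_eq_fintype_card, hcard] at h4
    exact h4
  rw [h3, MvPowerSeries.map_id] at h2
  unfold LT3.cmp
  rw [← h1]
  exact h2

theorem sum_coeff_zero (hn : 1 ≤ n) (G : FormalGroup (GaloisField p n))
    (hG : mulSeries G p = PowerSeries.X ^ (p ^ n))
    {a : PowerSeries (GaloisField p n)} (ha : PowerSeries.constantCoeff a = 0)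
    {m : ℕ} (hm : 1 ≤ m) (hD : OG m (dft G a)) :
    ∑ s ∈ Finset.range p, ∑ i ∈ Finset.range (m + 1),
      coeff (pr2 i (m - i)) (dft G a) * (s : GaloisField p n) ^ i = 0 := by
  have hA : OG 1 (a : MvPowerSeries Unit (GaloisField p n)) := OG.of_zc ha
  have h1 := mul_rel G ha hm hD p
  rw [hG] at h1
  have e1 := frob_expand hn a
  have e2 : LT3.cmp (PowerSeries.X ^ (p ^ n) : PowerSeries (GaloisField p n))
      (a : MvPowerSeries Unit (GaloisField p n)) = a ^ (p ^ n) := by
    unfold LT3.cmp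
    rw [PowerSeries.subst_pow hA.hasSubst, PowerSeries.subst_X hA.hasSubst]
  have e3 : LT3.cmp a ((PowerSeries.X ^ (p ^ n) : PowerSeries (GaloisField p n)) :
      MvPowerSeries Unit (GaloisField p n)) -
      LT3.cmp (PowerSeries.X ^ (p ^ n) : PowerSeries (GaloisField p n))
      (a : MvPowerSeries Unit (GaloisField p n)) = 0 := by
    rw [e2]
    exact sub_eq_zero.mpr e1
  rw [e3, zero_sub] at h1
  have h2 := h1.neg
  rw [neg_neg] at h2
  have h3 := h2 (Finsupp.single () m) (by rw [Finsupp.degree_single]; omega)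
  rw [map_sum] at h3
  rw [← h3]
  refine Finset.sum_congr rfl fun s _ => ?_
  unfold Del
  rw [map_sum]
  refine Finset.sum_congr rfl fun i hi => ?_
  rw [Finset.mem_range] at hi
  have e4 : C (coeff (pr2 i (m - i)) (dft G a)) *
      ((C (s : GaloisField p n) * (PowerSeries.X : MvPowerSeries Unit (GaloisField p n))) ^ i *
        (PowerSeries.X : MvPowerSeries Unit (GaloisField p n)) ^ (m - i)) =
      C (coeff (pr2 i (m - i)) (dft G a) * (s : GaloisField p n) ^ i) *
        (PowerSeries.X : MvPowerSeries Unit (GaloisField p n)) ^ m := by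
    have : (PowerSeries.X : MvPowerSeries Unit (GaloisField p n)) ^ m =
      PowerSeries.X ^ i * PowerSeries.X ^ (m - i) := by
      rw [← pow_add]; congr 1; omega
    rw [this, map_mul, map_pow, mul_pow]; ring
  rw [e4, coeff_C_mul]
  have h6 : coeff (Finsupp.single () m)
      ((PowerSeries.X : MvPowerSeries Unit (GaloisField p n)) ^ m) = (1 : GaloisField p n) :=
    PowerSeries.coeff_X_pow_self (R := GaloisField p n) m
  rw [h6, mul_one]

/-- the correction constant -/
theorem exists_b (hLAZ : LT3.Spec.LAZ) (hn : 1 ≤ n) (G : FormalGroup (GaloisField p n))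
    (hcomm : G.IsComm) (hG : mulSeries G p = PowerSeries.X ^ (p ^ n))
    {a : PowerSeries (GaloisField p n)} (ha : PowerSeries.constantCoeff a = 0)
    {m : ℕ} (hm : 2 ≤ m) (hD : OG m (dft G a)) :
    ∃ b : GaloisField p n, ∀ i, 1 ≤ i → i < m →
      coeff (pr2 i (m - i)) (dft G a) = b * (m.choose i : GaloisField p n) := by
  set c : ℕ → GaloisField p n := fun i => coeff (pr2 i (m - i)) (dft G a) with hc
  have hsymm : ∀ i, 1 ≤ i → i < m → c i = c (m - i) := by
    intro i _ hi
    simp only [hc]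
    have h4 : m - (m - i) = i := by omega
    rw [symm_coeff G hcomm ha hD i hi.le, h4]
  have hcoc : ∀ i j l : ℕ, 1 ≤ i → 1 ≤ j → 1 ≤ l → i + j + l = m →
      c (i + j) * ((i + j).choose i : GaloisField p n) =
        c i * ((j + l).choose j : GaloisField p n) := by
    intro i j l hi _ hl h
    exact cocycle_coeff G ha (by omega) hD i j l hi hl h
  obtain ⟨hl1, hl2⟩ := hLAZ p (GaloisField p n) m hm c hsymm hcoc
  by_cases hr : ∃ r : ℕ, m = p ^ r
  · obtain ⟨r, hr⟩ := hr
    obtain ⟨b, hb⟩ := hl2 r hr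
    have h0 : c m = 0 := by
      have := coeff_top G ha hD
      simp only [hc]
      rw [Nat.sub_self]; exact this
    have h0' : c 0 = 0 := by
      have h1 := symm_coeff G hcomm ha hD 0 (by omega)
      have h2 := coeff_top G ha hD
      simp only [hc]
      rw [h1, Nat.sub_zero]; exact h2
    have h1 := sum_coeff_zero hn G hG ha (by omega) hD
    have h2 := comb p m r hm hr
    have h3 : ∀ i ∈ Finset.range (m + 1), c i =
        b * ((if 1 ≤ i ∧ i < m then m.choose i / p else 0 : ℕ) : GaloisField p n) := by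
      intro i hi
      rw [Finset.mem_range] at hi
      split_ifs with h
      · exact hb i h.1 h.2
      · rcases Nat.eq_zero_or_pos i with h4 | h4
        · rw [h4, h0']; simp
        · have : i = m := by omega
          rw [this, h0]; simp
    have h4 : ∑ s ∈ Finset.range p, ∑ i ∈ Finset.range (m + 1), c i * (s : GaloisField p n) ^ i =
        b * ((∑ s ∈ Finset.range p, ∑ i ∈ Finset.range (m + 1),
          (if 1 ≤ i ∧ i < m then m.choose i / p else 0) * s ^ i : ℕ) : GaloisField p n) := by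
      rw [Nat.cast_sum, Finset.mul_sum]
      refine Finset.sum_congr rfl fun s _ => ?_
      rw [Nat.cast_sum, Finset.mul_sum]
      refine Finset.sum_congr rfl fun i hi => ?_
      rw [h3 i hi, Nat.cast_mul, Nat.cast_pow]; ring
    rw [h4] at h1
    have h5 : ((∑ s ∈ Finset.range p, ∑ i ∈ Finset.range (m + 1),
          (if 1 ≤ i ∧ i < m then m.choose i / p else 0) * s ^ i : ℕ) : GaloisField p n) + 1 = 0 := by
      have h6 := congrArg (Nat.cast (R := GaloisField p n)) h2
      rw [Nat.cast_add, Nat.cast_one, Nat.cast_pow,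
        CharP.cast_eq_zero (GaloisField p n) p, zero_pow (by omega)] at h6
      exact h6
    have h7 : b = 0 := by
      have h8 := eq_neg_of_add_eq_zero_left h5
      rw [h8] at h1
      simpa using h1
    refine ⟨0, fun i h1 h2 => ?_⟩
    rw [zero_mul]
    have := hb i h1 h2
    rw [h7, zero_mul] at this
    exact this
  · obtain ⟨b, hb⟩ := hl1 (fun r hr' => hr ⟨r, hr'⟩)
    exact ⟨b, hb⟩

theorem step (hLAZ : LT3.Spec.LAZ) (hn : 1 ≤ n) (G : FormalGroup (GaloisField p n))
    (hcomm : G.IsComm) (hG : mulSeries G p = PowerSeries.X ^ (p ^ n))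
    {a : PowerSeries (GaloisField p n)} (ha : PowerSeries.constantCoeff a = 0)
    {m : ℕ} (hm : 2 ≤ m) (hD : OG m (dft G a)) :
    ∃ b : GaloisField p n, OG (m + 1) (dft G (a - PowerSeries.C b * PowerSeries.X ^ m)) := by
  obtain ⟨b, hb⟩ := exists_b hLAZ hn G hcomm hG ha hm hD
  refine ⟨b, ?_⟩
  set a' := a - PowerSeries.C b * PowerSeries.X ^ m with ha'
  have hcmp : ∀ {u : MvPowerSeries (Fin 2) (GaloisField p n)}, OG 1 u →
      LT3.cmp a' u = LT3.cmp a u - C b * u ^ m := by
    intro u hu
    unfold LT3.cmp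
    rw [ha', PowerSeries.subst_sub hu.hasSubst, PowerSeries.subst_mul hu.hasSubst,
      PowerSeries.subst_pow hu.hasSubst, PowerSeries.subst_X hu.hasSubst,
      PowerSeries.subst_C]
  have hX0 := OG_X (R := GaloisField p n) (0 : Fin 2)
  have hX1 := OG_X (R := GaloisField p n) (1 : Fin 2)
  have c0 := OG1_cmp ha hX0
  have c1 := OG1_cmp ha hX1
  have p0 : OG m (C b * (X 0 : MvPowerSeries (Fin 2) (GaloisField p n)) ^ m) :=
    OG.mul_left _ (hX0.pow m)
  have p1 : OG m (C b * (X 1 : MvPowerSeries (Fin 2) (GaloisField p n)) ^ m) :=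
    OG.mul_left _ (hX1.pow m)
  have c0' : OG 1 (LT3.cmp a (X 0 : MvPowerSeries (Fin 2) (GaloisField p n)) - C b * X 0 ^ m) :=
    c0.sub (p0.mono (by omega))
  have c1' : OG 1 (LT3.cmp a (X 1 : MvPowerSeries (Fin 2) (GaloisField p n)) - C b * X 1 ^ m) :=
    c1.sub (p1.mono (by omega))
  have k1 := fadd_sub_fadd G (t := m - 1) c0' c0 c1' c1
    (by rw [sub_sub_cancel_left]; exact p0.neg.mono (by omega))
    (by rw [sub_sub_cancel_left]; exact p1.neg.mono (by omega))
  have k1' := k1.mono (show m + 1 ≤ 2 + (m - 1) by omega)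
  have k2 : OG (m + 1) (C b * (G.toPowerSeries ^ m - (X 0 + X 1) ^ m)) := by
    refine OG.mul_left _ ((OG.pow_sub (t := 1) (OG_G G) (hX0.add hX1) ?_ m))
    have := OG_hi G
    unfold hi at this
    rwa [sub_sub] at this
  have key : OG (m + 1) (dft G a' - (dft G a - C b * (X 0 + X 1) ^ m + C b * X 0 ^ m +
      C b * X 1 ^ m)) := by
    have := (k1'.neg).sub k2
    convert this using 1
    rw [dft_eq, dft_eq, hcmp (OG_G G), hcmp hX0, hcmp hX1]
    ring
  have key2 : OG (m + 1) (dft G a - C b * (X 0 + X 1) ^ m + C b * X 0 ^ m + C b * X 1 ^ m) := by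
    intro e he
    rcases Nat.lt_or_ge e.degree m with h | h
    · have h1 := (((hD.sub (OG.mul_left (C b) ((hX0.add hX1).pow m))).add p0).add p1) e h
      exact h1
    · have h1 : e.degree = m := by omega
      rw [degree2] at h1
      have he' : e = pr2 (e 0) (m - e 0) := (eq_pr2 _ _ _).mpr ⟨rfl, by omega⟩
      have h2 : coeff e (C b * ((X 0 + X 1 : MvPowerSeries (Fin 2) (GaloisField p n)) ^ m)) =
          b * (m.choose (e 0) : GaloisField p n) := by
        rw [add_pow, Finset.mul_sum, map_sum]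
        have h3 : ∀ t, coeff e (C b * ((X 0 : MvPowerSeries (Fin 2) (GaloisField p n)) ^ t *
            X 1 ^ (m - t) * (m.choose t : MvPowerSeries (Fin 2) (GaloisField p n)))) =
            if e 0 = t ∧ e 1 = m - t then b * (m.choose t : GaloisField p n) else 0 := by
          intro t
          rw [← coeff_mon2]
          congr 1
          rw [map_mul, map_natCast]; ring
        simp only [h3]
        rw [Finset.sum_eq_single (e 0)]
        · rw [if_pos (by omega)]
        · intro t _ ht
          rw [if_neg (by omega)]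
        · intro hn'
          rw [Finset.mem_range] at hn'
          omega
      have h4 : coeff e (C b * (X 0 : MvPowerSeries (Fin 2) (GaloisField p n)) ^ m) =
          if e 0 = m ∧ e 1 = 0 then b else 0 := by
        have := coeff_mon2 e m 0 b
        rwa [pow_zero, mul_one] at this
      have h5 : coeff e (C b * (X 1 : MvPowerSeries (Fin 2) (GaloisField p n)) ^ m) =
          if e 0 = 0 ∧ e 1 = m then b else 0 := by
        have := coeff_mon2 e 0 m b
        rwa [pow_zero, one_mul] at this
      rw [map_add, map_add, map_sub, h2, h4, h5]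
      rcases Nat.eq_zero_or_pos (e 0) with h6 | h6
      · have h7 : coeff e (dft G a) = 0 := by
          rw [he', h6]
          rw [symm_coeff G hcomm ha hD 0 (by omega), Nat.sub_zero]
          exact coeff_top G ha hD
        rw [h7, h6, if_neg (by omega), if_pos (by omega)]
        simp
      · rcases Nat.lt_or_ge (e 0) m with h7 | h7
        · have h8 : coeff e (dft G a) = b * (m.choose (e 0) : GaloisField p n) := by
            have := hb (e 0) h6 h7
            rwa [← he'] at this
          rw [h8, if_neg (by omega), if_neg (by omega)]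
          simp
        · have h8 : e 0 = m := by omega
          have h9 : coeff e (dft G a) = 0 := by
            rw [he', h8, Nat.sub_self]
            exact coeff_top G ha hD
          rw [h9, h8, if_pos (by omega), if_neg (by omega)]
          simp
  have := key.add key2
  rwa [sub_add_cancel] at this

end Step

section Final

variable {p : ℕ} [hp : Fact p.Prime] {n : ℕ}

theorem start (G : FormalGroup (GaloisField p n)) (ω : GaloisField p n) (s : ℕ) :
    OG (p ^ s + 1) (dft G (PowerSeries.C ω * PowerSeries.X ^ (p ^ s))) := by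
  have hq : 1 ≤ p ^ s := Nat.one_le_pow _ _ hp.out.pos
  set q := p ^ s with hqd
  have hcmp : ∀ {u : MvPowerSeries (Fin 2) (GaloisField p n)}, OG 1 u →
      LT3.cmp (PowerSeries.C ω * PowerSeries.X ^ q) u = C ω * u ^ q := by
    intro u hu
    unfold LT3.cmp
    rw [PowerSeries.subst_mul hu.hasSubst,
      PowerSeries.subst_pow hu.hasSubst, PowerSeries.subst_X hu.hasSubst,
      PowerSeries.subst_C]
  have hX0 := OG_X (R := GaloisField p n) (0 : Fin 2)
  have hX1 := OG_X (R := GaloisField p n) (1 : Fin 2)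
  have o0 : OG q (C ω * (X 0 : MvPowerSeries (Fin 2) (GaloisField p n)) ^ q) :=
    OG.mul_left _ (hX0.pow q)
  have o1 : OG q (C ω * (X 1 : MvPowerSeries (Fin 2) (GaloisField p n)) ^ q) :=
    OG.mul_left _ (hX1.pow q)
  have k1 := fadd_sub_fadd G (t := q - 1) (o0.mono hq) (OG.zero 1) (o1.mono hq) (OG.zero 1)
    (by rw [sub_zero]; exact o0.mono (by omega)) (by rw [sub_zero]; exact o1.mono (by omega))
  have e0 : fadd G (0 : MvPowerSeries (Fin 2) (GaloisField p n)) 0 = 0 :=
    G.add_zero (OG.zero 1).hasSubst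
  rw [e0, sub_zero, sub_zero, sub_zero] at k1
  have k1' := k1.mono (show q + 1 ≤ 2 + (q - 1) by omega)
  haveI : CharP (MvPowerSeries (Fin 2) (GaloisField p n)) p :=
    charP_of_injective_ringHom (f := (C : GaloisField p n →+* _)) MvPowerSeries.C_injective p
  have e1 : G.toPowerSeries ^ q = X 0 ^ q + X 1 ^ q + (hi G) ^ q := by
    have : G.toPowerSeries = X 0 + X 1 + hi G := by unfold hi; ring
    rw [this, hqd, add_pow_char_pow, add_pow_char_pow]
  have k2 : OG (q + 1) ((hi G) ^ q) := by
    obtain ⟨j, hj⟩ := Nat.exists_eq_add_of_le hq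
    have h2 := OG_hi G
    rw [hj, add_comm 1 j, pow_succ]
    exact (((h2.mono (by omega)).pow j).mul h2).mono (by omega)
  have := (OG.mul_left (C ω) k2).sub k1'
  convert this using 1
  rw [dft_eq, hcmp (OG_G G), hcmp hX0, hcmp hX1, e1]
  ring

theorem cmp_sub' {R : Type} [CommRing R] (a b : PowerSeries R) {u : MvPowerSeries (Fin 2) R}
    (hu : OG 1 u) : LT3.cmp a u - LT3.cmp b u = LT3.cmp (a - b) u := by
  unfold LT3.cmp
  rw [PowerSeries.subst_sub hu.hasSubst]

theorem dft_sub {R : Type} [CommRing R] (G : FormalGroup R) {a b : PowerSeries R}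
    (ha : PowerSeries.constantCoeff a = 0) (hb : PowerSeries.constantCoeff b = 0)
    {j : ℕ} (h : ∀ i < j + 1, PowerSeries.coeff i a = PowerSeries.coeff i b) :
    OG (j + 1) (dft G a - dft G b) := by
  have h' : ∀ i < j + 1, PowerSeries.coeff i (a - b) = 0 := by
    intro i hi
    rw [map_sub, h i hi, sub_self]
  have hX0 := OG_X (R := R) (0 : Fin 2)
  have hX1 := OG_X (R := R) (1 : Fin 2)
  have d0 : OG (j + 1) (LT3.cmp a (X 0 : MvPowerSeries (Fin 2) R) - LT3.cmp b (X 0)) := by
    rw [cmp_sub' a b hX0]; exact OG_cmp h' hX0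
  have d1 : OG (j + 1) (LT3.cmp a (X 1 : MvPowerSeries (Fin 2) R) - LT3.cmp b (X 1)) := by
    rw [cmp_sub' a b hX1]; exact OG_cmp h' hX1
  have dG : OG (j + 1) (LT3.cmp a G.toPowerSeries - LT3.cmp b G.toPowerSeries) := by
    rw [cmp_sub' a b (OG_G G)]; exact OG_cmp h' (OG_G G)
  have k := (fadd_sub_fadd G (t := j) (OG1_cmp ha hX0) (OG1_cmp hb hX0) (OG1_cmp ha hX1)
    (OG1_cmp hb hX1) (d0.mono (by omega)) (d1.mono (by omega))).mono
    (show j + 1 ≤ 2 + j by omega)
  have := ((dG.sub k).sub d0).sub d1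
  convert this using 1
  rw [dft_eq, dft_eq]
  ring

/-- END -/
theorem main (hLAZ : LT3.Spec.LAZ) (_hA : LT3.ApiA) (_hB : LT3.ApiB) (_hC : LT3.ApiC) :
    LT3.Spec.END := by
  intro p hp n hn Γ hcomm hΓ ω s
  have hq : 1 ≤ p ^ s := Nat.one_le_pow _ _ hp.out.pos
  set q := p ^ s with hqd
  let Good : ℕ → PowerSeries (GaloisField p n) → Prop := fun j a =>
    PowerSeries.constantCoeff a = 0 ∧ (∀ i < q, PowerSeries.coeff i a = 0) ∧
      PowerSeries.coeff q a = ω ∧ OG (q + 1 + j) (dft Γ a)
  have hzc : ∀ (b : GaloisField p n) (m : ℕ), m ≠ 0 →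
      PowerSeries.constantCoeff (PowerSeries.C b * PowerSeries.X ^ m) = 0 := by
    intro b m hm
    rw [map_mul, map_pow, PowerSeries.constantCoeff_X, zero_pow hm, mul_zero]
  have hcf : ∀ (b : GaloisField p n) (m i : ℕ),
      PowerSeries.coeff i (PowerSeries.C b * PowerSeries.X ^ m) = if i = m then b else 0 := by
    intro b m i
    rw [PowerSeries.coeff_C_mul, PowerSeries.coeff_X_pow]
    split_ifs <;> simp
  have h0 : Good 0 (PowerSeries.C ω * PowerSeries.X ^ q) := by
    refine ⟨hzc _ _ (by omega), fun i hi => ?_, ?_, ?_⟩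
    · rw [hcf, if_neg (by omega)]
    · rw [hcf, if_pos rfl]
    · exact start Γ ω s
  have hstep : ∀ (j : ℕ) (x : {a // Good j a}), ∃ y : {a // Good (j + 1) a},
      ∀ i < q + 1 + j, PowerSeries.coeff i y.1 = PowerSeries.coeff i x.1 := by
    rintro j ⟨a, ha0, ha1, ha2, ha3⟩
    obtain ⟨b, hb⟩ := step hLAZ hn Γ hcomm hΓ ha0 (m := q + 1 + j) (by omega) ha3
    have hc : ∀ i < q + 1 + j, PowerSeries.coeff i
        (a - PowerSeries.C b * PowerSeries.X ^ (q + 1 + j)) = PowerSeries.coeff i a := by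
      intro i hi
      rw [map_sub, hcf, if_neg (by omega), sub_zero]
    refine ⟨⟨a - PowerSeries.C b * PowerSeries.X ^ (q + 1 + j), ?_, ?_, ?_, ?_⟩, hc⟩
    · rw [map_sub, ha0, hzc _ _ (by omega), sub_zero]
    · intro i hi
      rw [hc i (by omega), ha1 i hi]
    · rw [hc q (by omega), ha2]
    · exact hb
  choose f hf using hstep
  let A : ∀ j, {a // Good j a} := fun j =>
    Nat.rec (motive := fun j => {a // Good j a}) ⟨_, h0⟩ (fun j x => f j x) j
  have hA : ∀ j i, i < q + 1 + j →
      PowerSeries.coeff i (A (j + 1)).1 = PowerSeries.coeff i (A j).1 :=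
    fun j i hi => hf j (A j) i hi
  have hA' : ∀ d j i, i < q + 1 + j →
      PowerSeries.coeff i (A (j + d)).1 = PowerSeries.coeff i (A j).1 := by
    intro d
    induction d with
    | zero => intro j i _; rfl
    | succ d ih =>
      intro j i hi
      rw [← add_assoc, hA (j + d) i (by omega), ih j i hi]
  set a : PowerSeries (GaloisField p n) :=
    PowerSeries.mk (fun i => PowerSeries.coeff i (A i).1) with had
  have hc : ∀ j i, i < j + 1 → PowerSeries.coeff i a = PowerSeries.coeff i (A j).1 := by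
    intro j i hi
    obtain ⟨d, rfl⟩ := Nat.exists_eq_add_of_le (show i ≤ j by omega)
    rw [had, PowerSeries.coeff_mk]
    exact (hA' d i i (by omega)).symm
  have ha0 : PowerSeries.constantCoeff a = 0 := by
    rw [← PowerSeries.coeff_zero_eq_constantCoeff_apply, hc 0 0 (by omega),
      PowerSeries.coeff_zero_eq_constantCoeff_apply]
    exact (A 0).2.1
  refine ⟨a, ⟨ha0, ?_⟩, ?_, ?_⟩
  · refine sub_eq_zero.mp ?_
    change dft Γ a = 0
    ext e
    have h1 := dft_sub Γ ha0 (A e.degree).2.1 (hc e.degree) e (by omega)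
    have h2 := (A e.degree).2.2.2.2 e (by omega)
    rw [map_sub, h2, sub_zero] at h1
    rw [h1, map_zero]
  · intro i hi
    rw [hc i i (by omega)]
    exact (A i).2.2.1 i hi
  · rw [hc q q (by omega)]
    exact (A q).2.2.2.1

end Final

end Crest.Agent.LT3END
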