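/- rid 227 (S0351), module HSTAB: vanishing of coefficients of `[p]_H` modulo the height ideals
and stability of the height ideals. -/
import Crest.Agent.LT3Spec

set_option autoImplicit false
open Crest.LubinTate
open Crest Crest.GeometryTopology
open Crest.Agent.LT3

namespace Crest.Agent.LT3HSTAB

/-- coefficient `N` of `φ ∘ A` when `A = O(X^N)`. -/
lemma coeff_cmp_right {R : Type} [CommRing R] (φ A : PowerSeries R) (N : ℕ) (hN : 1 ≤ N)
    (hA : ∀ j, j < N → PowerSeries.coeff j A = 0) :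
    PowerSeries.coeff N (LT3.cmp φ A : PowerSeries R) =
      PowerSeries.coeff 1 φ * PowerSeries.coeff N A := by
  have h0 : PowerSeries.constantCoeff A = 0 := by
    rw [← PowerSeries.coeff_zero_eq_constantCoeff_apply]; exact hA 0 (by omega)
  have hdvd : (PowerSeries.X : PowerSeries R) ^ N ∣ A := PowerSeries.X_pow_dvd_iff.2 hA
  unfold LT3.cmp
  rw [PowerSeries.coeff_subst' (PowerSeries.HasSubst.of_constantCoeff_zero' h0),
    finsum_eq_single _ 1]
  · simp
  · intro d hd
    rcases Nat.lt_or_ge d 1 with h | h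
    · have : d = 0 := by omega
      subst this
      rw [pow_zero, PowerSeries.coeff_one, if_neg (by omega), smul_zero]
    · have hd2 : 2 ≤ d := by omega
      have h1 : (PowerSeries.X : PowerSeries R) ^ (N * d) ∣ A ^ d := by
        rw [pow_mul]; exact pow_dvd_pow_of_dvd hdvd d
      have h2 := PowerSeries.X_pow_dvd_iff.1 h1 N (by nlinarith)
      rw [h2, smul_zero]

/-- coefficient `N` of `a ^ N` when `a` has zero constant coefficient. -/
lemma coeff_pow_self {R : Type} [CommRing R] (a : PowerSeries R) (N : ℕ)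
    (ha : PowerSeries.constantCoeff a = 0) :
    PowerSeries.coeff N (a ^ N) = (PowerSeries.coeff 1 a) ^ N := by
  obtain ⟨b, rfl⟩ := PowerSeries.X_dvd_iff.2 ha
  have h1 : PowerSeries.coeff 1 (PowerSeries.X * b) = PowerSeries.coeff 0 b := by
    have := PowerSeries.coeff_succ_X_mul 0 b
    simpa using this
  rw [h1, mul_pow]
  have h2 : PowerSeries.coeff N (PowerSeries.X ^ N * b ^ N) = PowerSeries.coeff 0 (b ^ N) := by
    have := PowerSeries.coeff_X_pow_mul (b ^ N) N 0
    rwa [Nat.zero_add] at this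
  rw [h2]
  simp

/-- coefficient `N` of `B ∘ a` when `B = O(X^N)`. -/
lemma coeff_cmp_left {R : Type} [CommRing R] (B a : PowerSeries R) (N : ℕ)
    (ha : PowerSeries.constantCoeff a = 0)
    (hB : ∀ j, j < N → PowerSeries.coeff j B = 0) :
    PowerSeries.coeff N (LT3.cmp B a : PowerSeries R) =
      PowerSeries.coeff N B * (PowerSeries.coeff 1 a) ^ N := by
  unfold LT3.cmp
  rw [PowerSeries.coeff_subst' (PowerSeries.HasSubst.of_constantCoeff_zero' ha),
    finsum_eq_single _ N]
  · rw [coeff_pow_self a N ha, smul_eq_mul]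
  · intro d hd
    rcases Nat.lt_or_ge d N with h | h
    · rw [hB d h, zero_smul]
    · have hdN : N < d := by omega
      have h1 : (PowerSeries.X : PowerSeries R) ^ d ∣ a ^ d :=
        pow_dvd_pow_of_dvd (PowerSeries.X_dvd_iff.2 ha) d
      have h2 := PowerSeries.X_pow_dvd_iff.1 h1 N hdN
      rw [h2, smul_zero]

lemma charP_of_nontrivial {R : Type} [CommRing R] [Nontrivial R] (p : ℕ) (hp : p.Prime)
    (h : (p : R) = 0) : CharP R p := by
  constructor
  intro x
  constructor
  · intro hx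
    by_contra hnd
    have hc : Nat.Coprime p x := (Nat.Prime.coprime_iff_not_dvd hp).2 hnd
    have hc' : IsCoprime (p : ℤ) (x : ℤ) := Nat.isCoprime_iff_coprime.2 hc
    obtain ⟨a, b, hab⟩ := hc'
    have h1 := congrArg (Int.cast : ℤ → R) hab
    push_cast at h1
    rw [h, hx] at h1
    simp at h1
  · rintro ⟨c, rfl⟩
    rw [Nat.cast_mul, h, zero_mul]

variable {p : ℕ} [Fact p.Prime] {n : ℕ} {Γ : FormalGroup (GaloisField p n)}
  {H : FormalGroup (LTRing p n)}

lemma heightIdeal_succ (h : ℕ) : heightIdeal p n H (h + 1) =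
    heightIdeal p n H h ⊔ Ideal.span {uu H h} := rfl

lemma heightIdeal_le_succ (h : ℕ) : heightIdeal p n H h ≤ heightIdeal p n H (h + 1) := by
  rw [heightIdeal_succ]; exact le_sup_left

lemma heightIdeal_mono {h h' : ℕ} (hh : h ≤ h') :
    heightIdeal p n H h ≤ heightIdeal p n H h' :=
  monotone_nat_of_le_succ (fun h => heightIdeal_le_succ h) hh

lemma uu_mem {i h : ℕ} (hi : i < h) : uu H i ∈ heightIdeal p n H h := by
  apply heightIdeal_mono (show i + 1 ≤ h from hi)
  rw [heightIdeal_succ]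
  exact Ideal.mem_sup_right (Ideal.subset_span rfl)

lemma uu_zero (C : ApiC) : uu H 0 = (p : LTRing p n) := by
  unfold uu
  rw [pow_zero]
  exact C.coeff_one_mul H p

/-- HVAN for every `h`. -/
lemma hvan_all (B : ApiB) (C : ApiC) (hB5 : Spec.B5') (hc : H.IsComm) (h j : ℕ)
    (hj : ¬ p ^ h ∣ j) : PowerSeries.coeff j (mulSeries H p) ∈ heightIdeal p n H h := by
  have hh : 1 ≤ h := by
    rcases Nat.eq_zero_or_pos h with h0 | h0
    · subst h0
      exact absurd (by simp) hj
    · exact h0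
  by_cases htop : heightIdeal p n H h = ⊤
  · rw [htop]; trivial
  let I := heightIdeal p n H h
  let mk : LTRing p n →+* LTRing p n ⧸ I := Ideal.Quotient.mk I
  have : Nontrivial (LTRing p n ⧸ I) := Ideal.Quotient.nontrivial_iff.2 htop
  have hp0 : ((p : ℕ) : LTRing p n ⧸ I) = 0 := by
    have h1 : uu H 0 ∈ I := uu_mem hh
    rw [uu_zero C] at h1
    have h2 := Ideal.Quotient.eq_zero_iff_mem.2 h1
    simpa using h2
  have : CharP (LTRing p n ⧸ I) p := charP_of_nontrivial p Fact.out hp0
  have hcm : (H.map mk).IsComm := B.comm_map mk H hc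
  have hhom : IsFGHom (H.map mk) (H.map mk) (mulSeries (H.map mk) p) := C.mul_hom hcm p
  have hz := hB5 p (LTRing p n ⧸ I) (H.map mk) (H.map mk) (mulSeries (H.map mk) p) hhom h
    (by
      intro i hi
      rw [← C.mul_map, PowerSeries.coeff_map]
      exact Ideal.Quotient.eq_zero_iff_mem.2 (uu_mem hi)) j hj
  rw [← C.mul_map, PowerSeries.coeff_map] at hz
  exact Ideal.Quotient.eq_zero_iff_mem.1 hz

/-- HVAN. -/
theorem hvan (_ : ApiA) (B : ApiB) (C : ApiC) (hB5 : Spec.B5') : Spec.HVAN := by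
  intro p _ n Γ H S
  exact ⟨uu_zero C, fun h _ j hj => hvan_all B C hB5 S.commH h j hj⟩

/-- one step: if `φ` maps `I_h` into `I_h` then `θ₁ φ(u_h) ≡ u_h θ₁^{p^h}` modulo `I_h`. -/
lemma step (B : ApiB) (C : ApiC) (hB5 : Spec.B5') (hc : H.IsComm)
    (φ : LTRing p n →+* LTRing p n) (θ : PowerSeries (LTRing p n))
    (hθ : IsFGHom (H.map φ) H θ) (h : ℕ)
    (hφ : ∀ f ∈ heightIdeal p n H h, φ f ∈ heightIdeal p n H h) :
    PowerSeries.coeff 1 θ * φ (uu H h) - uu H h * (PowerSeries.coeff 1 θ) ^ (p ^ h) ∈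
      heightIdeal p n H h := by
  have hp : 1 ≤ p ^ h := Nat.one_le_pow _ _ (Nat.Prime.pos Fact.out)
  let I := heightIdeal p n H h
  let mk : LTRing p n →+* LTRing p n ⧸ I := Ideal.Quotient.mk I
  let θ' : PowerSeries (LTRing p n ⧸ I) := PowerSeries.map mk θ
  have hθ' : IsFGHom ((H.map φ).map mk) (H.map mk) θ' := B.hom_map mk hθ
  have hm := C.hom_mul hθ' p
  have hz : PowerSeries.constantCoeff θ' = 0 := hθ'.1
  have hdvd : ∀ j, j < p ^ h → j ≠ 0 → ¬ p ^ h ∣ j := by
    intro j hj hj0 hd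
    exact absurd (Nat.le_of_dvd (Nat.pos_of_ne_zero hj0) hd) (by omega)
  have hc0 : PowerSeries.coeff 0 (mulSeries H p) = 0 := by
    rw [PowerSeries.coeff_zero_eq_constantCoeff_apply]; exact C.zc_mul H p
  have hvan : ∀ j, j < p ^ h → PowerSeries.coeff j (mulSeries H p) ∈ I := by
    intro j hj
    by_cases hj0 : j = 0
    · subst hj0
      rw [hc0]; exact I.zero_mem
    · exact hvan_all B C hB5 hc h j (hdvd j hj hj0)
  have hA : ∀ j, j < p ^ h → PowerSeries.coeff j (mulSeries ((H.map φ).map mk) p) = 0 := by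
    intro j hj
    rw [← C.mul_map, ← C.mul_map, PowerSeries.coeff_map, PowerSeries.coeff_map]
    exact Ideal.Quotient.eq_zero_iff_mem.2 (hφ _ (hvan j hj))
  have hB : ∀ j, j < p ^ h → PowerSeries.coeff j (mulSeries (H.map mk) p) = 0 := by
    intro j hj
    rw [← C.mul_map, PowerSeries.coeff_map]
    exact Ideal.Quotient.eq_zero_iff_mem.2 (hvan j hj)
  have hL := coeff_cmp_right θ' _ (p ^ h) hp hA
  have hR := coeff_cmp_left _ θ' (p ^ h) hz hB
  have hE : PowerSeries.coeff 1 θ' * PowerSeries.coeff (p ^ h) (mulSeries ((H.map φ).map mk) p) =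
      PowerSeries.coeff (p ^ h) (mulSeries (H.map mk) p) * (PowerSeries.coeff 1 θ') ^ (p ^ h) := by
    rw [← hL, ← hR]
    exact congrArg (PowerSeries.coeff (p ^ h)) hm
  rw [← C.mul_map, ← C.mul_map, ← C.mul_map, PowerSeries.coeff_map, PowerSeries.coeff_map,
    PowerSeries.coeff_map, PowerSeries.coeff_map] at hE
  rw [← map_pow, ← map_mul, ← map_mul] at hE
  exact (Ideal.Quotient.eq).1 hE

/-- HSTABLE. -/
theorem hstable (_ : ApiA) (B : ApiB) (C : ApiC) (hB5 : Spec.B5') (hRg : Spec.RINGE)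
    (hS : Spec.STAB) : Spec.HSTABLE := by
  intro p _ n Γ H S h hhn g φ hg hφ
  obtain ⟨hdom, hnoeth, hloc, hmax, -⟩ := hRg p n S.hn
  have hbij : Function.Bijective φ := (hS p n Γ H S).2.2.2 g hg φ hφ
  obtain ⟨hres, θ, hθ, hθg⟩ := hφ
  -- `θ₁` is a unit
  have hu : IsUnit (PowerSeries.coeff 1 θ) := by
    by_contra hnu
    have h1 : PowerSeries.coeff 1 θ ∈ IsLocalRing.maximalIdeal (LTRing p n) :=
      (IsLocalRing.mem_maximalIdeal _).2 hnu
    rw [hmax hloc] at h1
    have h2 : LTRing.residue p n (PowerSeries.coeff 1 θ) = 0 := h1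
    have h3 : PowerSeries.coeff 1 g = 0 := by
      rw [← hθg, PowerSeries.coeff_map, h2]
    have h4 := hg.2
    rw [h3] at h4
    exact not_isUnit_zero h4
  -- the congruence with a unit
  have hcong : ∀ h, (∀ f ∈ heightIdeal p n H h, φ f ∈ heightIdeal p n H h) →
      φ (uu H h) - (PowerSeries.coeff 1 θ) ^ (p ^ h - 1) * uu H h ∈ heightIdeal p n H h := by
    intro h hf
    have hp : 1 ≤ p ^ h := Nat.one_le_pow _ _ (Nat.Prime.pos Fact.out)
    have h1 := step B C hB5 S.commH φ.toRingHom θ hθ h hf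
    have h2 : (PowerSeries.coeff 1 θ) * (φ (uu H h) -
        (PowerSeries.coeff 1 θ) ^ (p ^ h - 1) * uu H h) ∈ heightIdeal p n H h := by
      have h3 : (PowerSeries.coeff 1 θ) ^ (p ^ h) =
          PowerSeries.coeff 1 θ * (PowerSeries.coeff 1 θ) ^ (p ^ h - 1) := by
        rw [← pow_succ', Nat.sub_add_cancel hp]
      rw [h3] at h1
      have h4 : (PowerSeries.coeff 1 θ) * (φ (uu H h) -
          (PowerSeries.coeff 1 θ) ^ (p ^ h - 1) * uu H h) =
          PowerSeries.coeff 1 θ * φ.toRingHom (uu H h) -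
          uu H h * (PowerSeries.coeff 1 θ * (PowerSeries.coeff 1 θ) ^ (p ^ h - 1)) := by
        have h5 : φ.toRingHom (uu H h) = φ (uu H h) := rfl
        rw [h5]; ring
      rw [h4]; exact h1
    exact (Ideal.unit_mul_mem_iff_mem _ hu).1 h2
  have hunit : ∀ h, IsUnit ((PowerSeries.coeff 1 θ) ^ (p ^ h - 1)) := fun h => hu.pow _
  -- `map φ I_h = I_h`
  have hmap : ∀ h, Ideal.map φ.toRingHom (heightIdeal p n H h) = heightIdeal p n H h := by
    intro h
    induction h with
    | zero => exact Ideal.map_bot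
    | succ h ih =>
      have hf : ∀ f ∈ heightIdeal p n H h, φ f ∈ heightIdeal p n H h := by
        intro f hf
        have := Ideal.mem_map_of_mem φ.toRingHom hf
        rw [ih] at this
        exact this
      have hc := hcong h hf
      rw [heightIdeal_succ, Ideal.map_sup, ih, Ideal.map_span, Set.image_singleton]
      apply le_antisymm
      · apply sup_le le_sup_left
        rw [Ideal.span_singleton_le_iff_mem]
        have h1 : φ.toRingHom (uu H h) = (φ (uu H h) -
            (PowerSeries.coeff 1 θ) ^ (p ^ h - 1) * uu H h) +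
            (PowerSeries.coeff 1 θ) ^ (p ^ h - 1) * uu H h := by
          have h5 : φ.toRingHom (uu H h) = φ (uu H h) := rfl
          rw [h5]; ring
        rw [h1]
        exact Ideal.add_mem _ (Ideal.mem_sup_left hc)
          (Ideal.mem_sup_right (Ideal.mul_mem_left _ _ (Ideal.subset_span rfl)))
      · apply sup_le le_sup_left
        rw [Ideal.span_singleton_le_iff_mem]
        rw [← Ideal.unit_mul_mem_iff_mem _ (hunit h)]
        have h1 : (PowerSeries.coeff 1 θ) ^ (p ^ h - 1) * uu H h =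
            φ.toRingHom (uu H h) - (φ (uu H h) -
            (PowerSeries.coeff 1 θ) ^ (p ^ h - 1) * uu H h) := by
          have h5 : φ.toRingHom (uu H h) = φ (uu H h) := rfl
          rw [h5]; ring
        rw [h1]
        exact Ideal.sub_mem _ (Ideal.mem_sup_right (Ideal.subset_span rfl))
          (Ideal.mem_sup_left hc)
  refine ⟨?_, fun _ => ⟨_, hunit h, hcong h ?_⟩⟩
  · have h1 := Ideal.comap_map_of_bijective φ.toRingHom hbij (I := heightIdeal p n H h)
    rwa [hmap h] at h1
  · intro f hf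
    have := Ideal.mem_map_of_mem φ.toRingHom hf
    rw [hmap h] at this
    exact this

/-- module HSTAB. -/
theorem main (A : ApiA) (B : ApiB) (C : ApiC) (hB5 : Spec.B5') (hRg : Spec.RINGE)
    (hS : Spec.STAB) : Spec.HVAN ∧ Spec.HSTABLE :=
  ⟨hvan A B C hB5, hstable A B C hB5 hRg hS⟩

end Crest.Agent.LT3HSTAB
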