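/- rid 227 (S0351): module LAZ (Lazard's 2-cocycle lemma over a field of characteristic p,
   coefficient form). -/
import Crest.Agent.LT3Spec

set_option autoImplicit false

namespace Crest.Agent.LT3LAZ

theorem choose_pow (p : ℕ) [hp : Fact p.Prime] (s n : ℕ) : n.choose (p ^ s) ≡ n / p ^ s [MOD p] := by
  induction s generalizing n with
  | zero => simp; rfl
  | succ s ih =>
    have h := Choose.choose_modEq_choose_mod_mul_choose_div_nat (n := n) (k := p ^ (s + 1)) (p := p)
    have h1 : p ^ (s + 1) % p = 0 := by simp [pow_succ]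
    have h2 : p ^ (s + 1) / p = p ^ s := by
      rw [pow_succ]; exact Nat.mul_div_cancel _ hp.out.pos
    rw [h1, h2, Nat.choose_zero_right, one_mul] at h
    refine h.trans ((ih (n / p)).trans ?_)
    rw [Nat.div_div_eq_div_mul, pow_succ, mul_comm]

/-- F1 -/
theorem choose_top (p : ℕ) [hp : Fact p.Prime] (s n : ℕ) (h1 : p ^ s ≤ n) (h2 : n < p ^ (s + 1)) :
    ¬ p ∣ n.choose (p ^ s) := by
  intro h
  have h3 := (choose_pow p s n)
  have h4 : n / p ^ s ≡ 0 [MOD p] := h3.symm.trans ((Nat.modEq_zero_iff_dvd).2 h)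
  have h5 : p ∣ n / p ^ s := (Nat.modEq_zero_iff_dvd).1 h4
  have hpos : 0 < p ^ s := pow_pos hp.out.pos s
  have h6 : 1 ≤ n / p ^ s := (Nat.one_le_div_iff hpos).2 h1
  have h7 : n / p ^ s < p := by
    rw [Nat.div_lt_iff_lt_mul hpos]
    rwa [pow_succ, mul_comm] at h2
  exact absurd (Nat.le_of_dvd h6 h5) (not_le.2 h7)

/-- F2 -/
theorem choose_val (p : ℕ) [hp : Fact p.Prime] (v N : ℕ) (h1 : p ^ v ∣ N)
    (h2 : ¬ p ^ (v + 1) ∣ N) : ¬ p ∣ N.choose (p ^ v) := by
  intro h
  have h3 := (choose_pow p v N)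
  have h4 : N / p ^ v ≡ 0 [MOD p] := h3.symm.trans ((Nat.modEq_zero_iff_dvd).2 h)
  have h5 : p ∣ N / p ^ v := (Nat.modEq_zero_iff_dvd).1 h4
  apply h2
  obtain ⟨t, ht⟩ := h5
  refine ⟨t, ?_⟩
  have h6 := Nat.div_mul_cancel h1
  rw [ht] at h6
  rw [← h6, pow_succ]; ring

/-- F3 -/
theorem choose_div (p : ℕ) [hp : Fact p.Prime] (q r : ℕ) (hq : q = p ^ r) :
    (p * q).choose q = p * (p * q - 1).choose (q - 1) ∧ ¬ p ∣ (p * q - 1).choose (q - 1) := by
  have hp2 : 2 ≤ p := hp.out.two_le
  have hq0 : 0 < q := by rw [hq]; exact pow_pos hp.out.pos r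
  have hpq : 0 < p * q := Nat.mul_pos hp.out.pos hq0
  have e1 : p * q - 1 + 1 = p * q := Nat.sub_add_cancel hpq
  have e2 : q - 1 + 1 = q := Nat.sub_add_cancel hq0
  constructor
  · have h := Nat.add_one_mul_choose_eq (p * q - 1) (q - 1)
    rw [e1, e2] at h
    -- p * q * choose = choose * q
    have h' : q * (p * q).choose q = q * (p * (p * q - 1).choose (q - 1)) := by
      rw [mul_comm q ((p * q).choose q), ← h]; ring
    exact Nat.eq_of_mul_eq_mul_left hq0 h'
  · intro h
    have h3 : (p * q).choose q = (p * q - 1).choose (q - 1) + (p * q - 1).choose q := by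
      have := Nat.choose_succ_succ (p * q - 1) (q - 1)
      rw [Nat.succ_eq_add_one, Nat.succ_eq_add_one, e1, e2] at this
      exact this
    have h4 : p ∣ (p * q).choose q := by
      have := choose_pow p r (p * q)
      rw [← hq] at this
      rw [Nat.mul_div_cancel _ hq0] at this
      exact (Nat.modEq_zero_iff_dvd).1 (this.trans (by simp [Nat.ModEq]))
    have h5 : p ∣ (p * q - 1).choose q := by
      rw [h3] at h4
      exact (Nat.dvd_add_right h).1 h4
    have h6 := choose_top p r (p * q - 1) (by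
      rw [← hq]
      have : 2 * q ≤ p * q := Nat.mul_le_mul_right q hp2
      omega) (by
      rw [pow_succ, ← hq, mul_comm q p]; omega)
    rw [← hq] at h6
    exact h6 h5

variable {p : ℕ} [hp : Fact p.Prime] {k : Type} [Field k] [CharP k p]

omit hp in
theorem cast_ne {n : ℕ} (h : ¬ p ∣ n) : (n : k) ≠ 0 := by
  intro h'
  exact h ((CharP.cast_eq_zero_iff k p n).1 h')

/-- the upper part vanishes. -/
theorem upper {m s : ℕ} (hs' : m ≤ p ^ (s + 1)) {d : ℕ → k}
    (coc : ∀ i j l : ℕ, 1 ≤ i → 1 ≤ j → 1 ≤ l → i + j + l = m →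
      d (i + j) * ((i + j).choose i : k) = d i * ((j + l).choose j : k))
    (h0 : d (p ^ s) = 0) : ∀ i, p ^ s ≤ i → i < m → d i = 0 := by
  intro i hi him
  rcases Nat.eq_or_lt_of_le hi with h | h
  · rw [← h]; exact h0
  · have hpos : 1 ≤ p ^ s := pow_pos hp.out.pos s
    have h1 := coc (p ^ s) (i - p ^ s) (m - i) hpos (by omega) (by omega) (by omega)
    have e : p ^ s + (i - p ^ s) = i := by omega
    rw [e, h0, zero_mul] at h1
    exact (mul_eq_zero.1 h1).resolve_right (cast_ne (choose_top p s i hi (by omega)))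

theorem vanish1 {m s : ℕ} (hs : p ^ s < m) (hs' : m < p ^ (s + 1)) {d : ℕ → k}
    (sym : ∀ i, 1 ≤ i → i < m → d i = d (m - i))
    (coc : ∀ i j l : ℕ, 1 ≤ i → 1 ≤ j → 1 ≤ l → i + j + l = m →
      d (i + j) * ((i + j).choose i : k) = d i * ((j + l).choose j : k))
    (h0 : d (p ^ s) = 0) : ∀ i, 1 ≤ i → i < m → d i = 0 := by
  have up := upper (p := p) (s := s) hs'.le coc h0
  have hpos : 1 ≤ p ^ s := pow_pos hp.out.pos s
  -- the key: if N has a small power exactly dividing it, then `d (m - N) = 0`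
  have key : ∀ N v, N < m → p ^ v ∣ N → ¬ p ^ (v + 1) ∣ N → p ^ v < N → p ^ s + p ^ v ≤ m →
      d (m - N) = 0 := by
    intro N v hN h1 h2 h3 h4
    have hv : 1 ≤ p ^ v := pow_pos hp.out.pos v
    have h5 := coc (m - N) (N - p ^ v) (p ^ v) (by omega) (by omega) hv (by omega)
    have e1 : m - N + (N - p ^ v) = m - p ^ v := by omega
    have e2 : N - p ^ v + p ^ v = N := by omega
    rw [e1, e2, up (m - p ^ v) (by omega) (by omega), zero_mul] at h5
    have e3 : N.choose (N - p ^ v) = N.choose (p ^ v) := Nat.choose_symm h3.le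
    rw [e3] at h5
    exact (mul_eq_zero.1 h5.symm).resolve_right (cast_ne (choose_val p v N h1 h2))
  intro i hi him
  by_cases hA : p ^ s ≤ i
  · exact up i hA him
  by_cases hB : p ^ s ≤ m - i
  · rw [sym i hi him]; exact up (m - i) hB (by omega)
  -- now `i < p ^ s` and `m - i < p ^ s`
  have hm0 : m ≠ 0 := by omega
  have hi0 : i ≠ 0 := by omega
  have hmi0 : m - i ≠ 0 := by omega
  -- valuation of m
  obtain ⟨w, hw, hw'⟩ : ∃ w, p ^ w ∣ m ∧ ¬ p ^ (w + 1) ∣ m := by
    refine ⟨padicValNat p m, pow_padicValNat_dvd, ?_⟩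
    exact pow_succ_padicValNat_not_dvd hm0
  have hws : w < s := by
    by_contra hcon
    push Not at hcon
    -- p ^ s ∣ m, `p ^ s < m < 2 p ^ s`
    have h1 : p ^ s ∣ m := (pow_dvd_pow p hcon).trans hw
    obtain ⟨t, ht⟩ := h1
    have h2 : m < p ^ s * 2 := by omega
    rw [ht] at h2 hs
    have h3 : t < 2 := Nat.lt_of_mul_lt_mul_left h2
    have h4 : 1 < t := by
      have : p ^ s * 1 < p ^ s * t := by simpa using hs
      exact Nat.lt_of_mul_lt_mul_left this
    omega
  -- `p ^ w ≤ m - p ^ s`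
  have hwt : p ^ s + p ^ w ≤ m := by
    have h1 : p ^ w ∣ m - p ^ s := Nat.dvd_sub hw (pow_dvd_pow p hws.le)
    have := Nat.le_of_dvd (by omega) h1
    omega
  -- either v(i) ≤ w or v(m-i) ≤ w
  have hor : ∃ N, (N = i ∨ N = m - i) ∧ ¬ p ^ (w + 1) ∣ N := by
    by_contra hcon
    push Not at hcon
    have h1 := hcon i (Or.inl rfl)
    have h2 := hcon (m - i) (Or.inr rfl)
    have h3 : p ^ (w + 1) ∣ i + (m - i) := dvd_add h1 h2
    rw [show i + (m - i) = m by omega] at h3
    exact hw' h3
  obtain ⟨N, hN, hNw⟩ := hor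
  have hN0 : N ≠ 0 := by rcases hN with h | h <;> omega
  set v := padicValNat p N with hv
  have hv1 : p ^ v ∣ N := pow_padicValNat_dvd
  have hv2 : ¬ p ^ (v + 1) ∣ N := pow_succ_padicValNat_not_dvd hN0
  have hvw : v ≤ w := by
    by_contra hcon
    push Not at hcon
    exact hNw ((pow_dvd_pow p hcon).trans hv1)
  have hpvw : p ^ v ≤ p ^ w := Nat.pow_le_pow_right hp.out.pos hvw
  have hNlt : N < m := by rcases hN with h | h <;> omega
  have hNt : m < N + p ^ s := by rcases hN with h | h <;> omega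
  have hz := key N v hNlt hv1 hv2 (by omega) (by omega)
  rcases hN with h | h
  · rw [sym i hi him, ← h]; exact hz
  · rw [h] at hz
    rwa [show m - (m - i) = i by omega] at hz

theorem vanish2 {m r : ℕ} (hm : m = p ^ (r + 1)) {d : ℕ → k}
    (sym : ∀ i, 1 ≤ i → i < m → d i = d (m - i))
    (coc : ∀ i j l : ℕ, 1 ≤ i → 1 ≤ j → 1 ≤ l → i + j + l = m →
      d (i + j) * ((i + j).choose i : k) = d i * ((j + l).choose j : k))
    (h0 : d (p ^ r) = 0) : ∀ i, 1 ≤ i → i < m → d i = 0 := by
  have up := upper (p := p) (s := r) hm.le coc h0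
  intro i hi him
  by_cases hA : p ^ r ≤ i
  · exact up i hA him
  · rw [sym i hi him]
    refine up (m - i) ?_ (by omega)
    have : 2 * p ^ r ≤ p * p ^ r := Nat.mul_le_mul_right _ hp.out.two_le
    have e : m = p * p ^ r := by rw [hm, pow_succ, mul_comm]
    omega

theorem main : LT3.Spec.LAZ := by
  intro p hp k _ _ m hm2 c sym coc
  -- the binomial identity
  have binom : ∀ i j l : ℕ, i + j + l = m →
      m.choose (i + j) * (i + j).choose i = m.choose i * (j + l).choose j := by
    intro i j l h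
    have h1 := Nat.choose_mul (n := m) (k := i + j) (s := i) (by omega)
    rw [h1]
    congr 2 <;> omega
  constructor
  · intro hnp
    -- the top power
    obtain ⟨s, hs, hs'⟩ : ∃ s, p ^ s ≤ m ∧ m < p ^ (s + 1) :=
      ⟨Nat.log p m, Nat.pow_log_le_self p (by omega), Nat.lt_pow_succ_log_self hp.out.one_lt m⟩
    have hlt : p ^ s < m := lt_of_le_of_ne hs (fun h => hnp s h.symm)
    have hne : ((m.choose (p ^ s) : ℕ) : k) ≠ 0 := cast_ne (p := p) (choose_top p s m hs hs')
    refine ⟨c (p ^ s) / (m.choose (p ^ s) : ℕ), ?_⟩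
    set b : k := c (p ^ s) / (m.choose (p ^ s) : ℕ) with hb
    have hv := vanish1 (p := p) (k := k) (d := fun i => c i - b * (m.choose i : ℕ)) hlt hs'
      (by
        intro i h1 h2
        rw [sym i h1 h2, Nat.choose_symm h2.le])
      (by
        intro i j l h1 h2 h3 h4
        have e1 := coc i j l h1 h2 h3 h4
        have e2 : ((m.choose (i + j) : ℕ) : k) * ((i + j).choose i : ℕ) =
            ((m.choose i : ℕ) : k) * ((j + l).choose j : ℕ) := by
          exact_mod_cast congrArg (Nat.cast : ℕ → k) (binom i j l h4)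
        linear_combination e1 - b * e2)
      (by
        rw [hb, div_mul_cancel₀ _ hne, sub_self])
    intro i h1 h2
    have := hv i h1 h2
    linear_combination this
  · intro r hr
    obtain ⟨r', rfl⟩ : ∃ r', r = r' + 1 := by
      cases r with
      | zero => simp at hr; omega
      | succ r' => exact ⟨r', rfl⟩
    have hm' : m = p * p ^ r' := by rw [hr, pow_succ, mul_comm]
    -- divisibility
    have hdvd : ∀ i, 1 ≤ i → i < m → p ∣ m.choose i := by
      intro i h1 h2
      rw [hr]
      exact hp.out.dvd_choose_pow (by omega) (by omega)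
    obtain ⟨f1, f2⟩ := choose_div p (p ^ r') r' rfl
    have hval : m.choose (p ^ r') / p = (p * p ^ r' - 1).choose (p ^ r' - 1) := by
      rw [hm', f1]
      exact Nat.mul_div_cancel_left _ hp.out.pos
    have hne : ((m.choose (p ^ r') / p : ℕ) : k) ≠ 0 := by
      rw [hval]; exact cast_ne (p := p) f2
    refine ⟨c (p ^ r') / (m.choose (p ^ r') / p : ℕ), ?_⟩
    set b : k := c (p ^ r') / (m.choose (p ^ r') / p : ℕ) with hb
    have hv := vanish2 (p := p) (k := k) (d := fun i => c i - b * (m.choose i / p : ℕ)) hr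
      (by
        intro i h1 h2
        rw [sym i h1 h2, Nat.choose_symm h2.le])
      (by
        intro i j l h1 h2 h3 h4
        have e1 := coc i j l h1 h2 h3 h4
        have e2' : (m.choose (i + j) / p) * (i + j).choose i =
            (m.choose i / p) * (j + l).choose j := by
          have h5 := binom i j l h4
          obtain ⟨x, hx⟩ := hdvd (i + j) (by omega) (by omega)
          obtain ⟨y, hy⟩ := hdvd i (by omega) (by omega)
          rw [hx, hy] at h5 ⊢
          rw [Nat.mul_div_cancel_left _ hp.out.pos, Nat.mul_div_cancel_left _ hp.out.pos]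
          have h6 : p * (x * (i + j).choose i) = p * (y * (j + l).choose j) := by
            rw [← mul_assoc, ← mul_assoc]; exact h5
          exact Nat.eq_of_mul_eq_mul_left hp.out.pos h6
        have e2 : ((m.choose (i + j) / p : ℕ) : k) * ((i + j).choose i : ℕ) =
            ((m.choose i / p : ℕ) : k) * ((j + l).choose j : ℕ) := by
          exact_mod_cast congrArg (Nat.cast : ℕ → k) e2'
        linear_combination e1 - b * e2)
      (by
        rw [hb, div_mul_cancel₀ _ hne, sub_self])
    intro i h1 h2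
    have := hv i h1 h2
    linear_combination this

end Crest.Agent.LT3LAZ
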