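/- rid 227 (S0351), module MAXGEN: `I_n = 𝔪` (helper25). -/
import Crest.Agent.LT3Spec

set_option autoImplicit false
open Crest.LubinTate
open Crest Crest.GeometryTopology

namespace Crest.Agent.LT3MAXGEN

open Crest.Agent.LT3

theorem map_map_fg {R S T : Type} [CommRing R] [CommRing S] [CommRing T] (F : FormalGroup R)
    (f : R →+* S) (g : S →+* T) : (F.map f).map g = F.map (g.comp f) := by
  apply FormalGroup.ext
  ext e
  simp [FormalGroup.map]

variable {p : ℕ} [Fact p.Prime] {n : ℕ} {Γ : FormalGroup (GaloisField p n)}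
  {H : FormalGroup (LTRing p n)}

/-- the coefficients `u_i`, `i < n`, lie in `𝔪`. -/
theorem uu_mem (C : ApiC) (hs : Setup p n Γ H) (i : ℕ) (hi : i < n) : uu H i ∈ mE p n := by
  show LTRing.residue p n (PowerSeries.coeff (p ^ i) (mulSeries H p)) = 0
  rw [← PowerSeries.coeff_map, C.mul_map, hs.hH.1, hs.hΓ, PowerSeries.coeff_X_pow, if_neg]
  intro h
  have := Nat.pow_right_injective (Fact.out (p := p.Prime)).two_le h
  omega

theorem height_le (C : ApiC) (hs : Setup p n Γ H) (i : ℕ) (hi : i ≤ n) :
    heightIdeal p n H i ≤ mE p n := by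
  induction i with
  | zero => exact bot_le
  | succ i ih =>
    show heightIdeal p n H i ⊔ Ideal.span {PowerSeries.coeff (p ^ i) (mulSeries H p)} ≤ _
    refine sup_le (ih (by omega)) ?_
    rw [Ideal.span_le, Set.singleton_subset_iff]
    exact uu_mem C hs i (by omega)

theorem height_mono {i j : ℕ} (h : i ≤ j) : heightIdeal p n H i ≤ heightIdeal p n H j := by
  induction j, h using Nat.le_induction with
  | base => exact le_rfl
  | succ j _ ih => exact ih.trans le_sup_left

theorem uu_mem_height {i j : ℕ} (h : i < j) : uu H i ∈ heightIdeal p n H j := by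
  refine height_mono (H := H) h ?_
  exact (le_sup_right : Ideal.span {PowerSeries.coeff (p ^ i) (mulSeries H p)} ≤
    heightIdeal p n H (i + 1)) (Ideal.subset_span rfl)

theorem maxgen (Bi : ApiB) (C : ApiC) (hR : LT3.Spec.RINGE) (hB5 : LT3.Spec.B5)
    (hQ : LT3.Spec.QUOTR) (hs : Setup p n Γ H) : heightIdeal p n H n = mE p n := by
  obtain ⟨h1, h2, h3, h4, h5, h6, h7, h8, h9⟩ := hR p n hs.hn
  have h4' := h4 h3
  have hn := hs.hn
  have hpp : p.Prime := Fact.out
  refine le_antisymm (height_le C hs n le_rfl) ?_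
  set J : Ideal (LTRing p n) := heightIdeal p n H n ⊔ mE p n ^ 2 with hJ
  have hJm : J ≤ mE p n := sup_le (height_le C hs n le_rfl) (Ideal.pow_le_self (by norm_num))
  -- residue map of the quotient
  let r : (LTRing p n ⧸ J) →+* GaloisField p n :=
    Ideal.Quotient.lift J (LTRing.residue p n) (fun a ha => hJm ha)
  have hr : r.comp (Ideal.Quotient.mk J) = LTRing.residue p n := by
    ext a; rfl
  have hJne : J ≠ ⊤ := by
    intro h
    have h1J : (1 : LTRing p n) ∈ mE p n := hJm (h ▸ Submodule.mem_top)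
    have : LTRing.residue p n 1 = 0 := h1J
    rw [map_one] at this
    exact one_ne_zero this
  have : Nontrivial (LTRing p n ⧸ J) := Ideal.Quotient.nontrivial_iff.2 hJne
  -- `p = 0` in the quotient
  have hp0 : ((p : ℕ) : LTRing p n) ∈ J := by
    have : uu H 0 = (p : LTRing p n) := by
      show PowerSeries.coeff (p ^ 0) (mulSeries H p) = _
      rw [pow_zero]; exact C.coeff_one_mul H p
    rw [← this]
    exact Ideal.mem_sup_left (uu_mem_height (by omega))
  have hchar : CharP (LTRing p n ⧸ J) p := by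
    rw [CharP.charP_iff_prime_eq_zero hpp]
    have := Ideal.Quotient.eq_zero_iff_mem.2 hp0
    simpa using this
  -- the pushed forward law
  set HB : FormalGroup (LTRing p n ⧸ J) := H.map (Ideal.Quotient.mk J) with hHB
  have hHBc : HB.IsComm := Bi.comm_map _ _ hs.commH
  obtain ⟨g, hg, hg2⟩ := hB5 p (LTRing p n ⧸ J) HB HB (mulSeries HB p) (C.mul_hom hHBc p) n (by
    intro i hi
    rw [hHB, ← C.mul_map, PowerSeries.coeff_map]
    exact Ideal.Quotient.eq_zero_iff_mem.2 (Ideal.mem_sup_left (uu_mem_height hi)))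
  have hpn : p ^ n ≠ 0 := pow_ne_zero n hpp.ne_zero
  have hpn' : 0 < p ^ n := Nat.pos_of_ne_zero hpn
  -- reduction of `g`
  have hgX : PowerSeries.map r g = PowerSeries.X := by
    have e1 : PowerSeries.map r (mulSeries HB p) = PowerSeries.X ^ (p ^ n) := by
      rw [C.mul_map, hHB, map_map_fg, hr, hs.hH.1, hs.hΓ]
    have hXz : ZC (PowerSeries.X ^ (p ^ n) : PowerSeries (LTRing p n ⧸ J)) := by
      show PowerSeries.constantCoeff (PowerSeries.X ^ (p ^ n) : PowerSeries (LTRing p n ⧸ J)) = 0
      rw [map_pow, PowerSeries.constantCoeff_X, zero_pow hpn]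
    have e2 : PowerSeries.map r (cmp g (PowerSeries.X ^ (p ^ n) : PowerSeries (LTRing p n ⧸ J)) :
        PowerSeries (LTRing p n ⧸ J)) = cmp (PowerSeries.map r g)
          (PowerSeries.map r (PowerSeries.X ^ (p ^ n) : PowerSeries (LTRing p n ⧸ J))) :=
      Bi.cmp_map r (φ := g) hXz
    rw [hg2, e2, map_pow, PowerSeries.map_X] at e1
    ext m
    have e3 := congrArg (PowerSeries.coeff (p ^ n * m)) e1
    have e4 := PowerSeries.coeff_subst_X_pow (R := GaloisField p n) (S := GaloisField p n)
      (k := p ^ n) hpn (PowerSeries.map r g) (p ^ n * m)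
    rw [if_pos (dvd_mul_right _ m), Nat.mul_div_cancel_left m hpn'] at e4
    have e5 : PowerSeries.coeff m (PowerSeries.map r g) =
        PowerSeries.coeff (p ^ n * m) (PowerSeries.X ^ (p ^ n) : PowerSeries (GaloisField p n)) := by
      rw [← e3]; exact e4.symm
    rw [e5, PowerSeries.coeff_X_pow, PowerSeries.coeff_X]
    have : (p ^ n * m = p ^ n) ↔ m = 1 := by
      constructor
      · intro h
        have : p ^ n * m = p ^ n * 1 := by rw [h, mul_one]
        exact Nat.eq_of_mul_eq_mul_left hpn' this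
      · rintro rfl; rw [mul_one]
    simp only [this]
  -- Frobenius fixes the image of `W`
  have hfrobk : ∀ x : GaloisField p n, x ^ (p ^ n) = x := by
    intro x
    have : Fintype (GaloisField p n) := Fintype.ofFinite _
    have hc : Fintype.card (GaloisField p n) = p ^ n := by
      rw [← Nat.card_eq_fintype_card]
      exact GaloisField.card p n (by omega)
    rw [← hc]; exact FiniteField.pow_card x
  have hfrobW : ∀ c : WittVector p (GaloisField p n),
      (Ideal.Quotient.mk J (algebraMap _ (LTRing p n) c)) ^ (p ^ n) =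
        Ideal.Quotient.mk J (algebraMap _ (LTRing p n) c) := by
    intro c
    rw [← map_pow, ← map_pow, Ideal.Quotient.eq, ← map_sub]
    have hk : c ^ (p ^ n) - c ∈ RingHom.ker (WittVector.constantCoeff :
        WittVector p (GaloisField p n) →+* GaloisField p n) := by
      rw [RingHom.mem_ker, map_sub, map_pow, hfrobk, sub_self]
    rw [WittVector.ker_constantCoeff, Ideal.mem_span_singleton] at hk
    obtain ⟨y, hy⟩ := hk
    rw [hy, map_mul, map_natCast]
    exact Ideal.mul_mem_right _ _ hp0
  -- the Frobenius-twisted algebra map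
  let φ' : LTRing p n →ₐ[WittVector p (GaloisField p n)] (LTRing p n ⧸ J) :=
    { toRingHom := (iterateFrobenius (LTRing p n ⧸ J) p n).comp (Ideal.Quotient.mk J)
      commutes' := by
        intro c
        show iterateFrobenius (LTRing p n ⧸ J) p n (Ideal.Quotient.mk J (algebraMap _ _ c)) = _
        rw [iterateFrobenius_def, hfrobW]
        rfl }
  have hφ' : φ'.toRingHom = (iterateFrobenius (LTRing p n ⧸ J) p n).comp (Ideal.Quotient.mk J) :=
    rfl
  let φ0 : LTRing p n →ₐ[WittVector p (GaloisField p n)] (LTRing p n ⧸ J) :=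
    Ideal.Quotient.mkₐ _ J
  have hφ0 : φ0.toRingHom = Ideal.Quotient.mk J := rfl
  have hU := hQ p n Γ H hs J hJm HB r hr (by rw [hHB, map_map_fg, hr, hs.hH.1])
  have heq : φ0 = φ' := by
    refine hU.unique ⟨?_, PowerSeries.X, ?_, ?_⟩ ⟨?_, g, ?_, hgX⟩
    · rw [hφ0]; exact hr
    · rw [hφ0]; exact Bi.hom_X _
    · simp
    · rw [hφ']
      ext x
      show r (iterateFrobenius (LTRing p n ⧸ J) p n (Ideal.Quotient.mk J x)) = _
      rw [iterateFrobenius_def, map_pow, hfrobk]
      rfl
    · rw [hφ', ← map_map_fg]; exact hg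
  -- `𝔪 ≤ J`
  have hmJ : mE p n ≤ heightIdeal p n H n ⊔ mE p n • mE p n := by
    intro x hx
    have e := congrArg (fun f => f x) heq
    have e' : Ideal.Quotient.mk J x = iterateFrobenius (LTRing p n ⧸ J) p n
      (Ideal.Quotient.mk J x) := e
    rw [iterateFrobenius_def, ← map_pow] at e'
    have hxp : x ^ (p ^ n) ∈ mE p n ^ 2 := by
      have : 2 ≤ p ^ n := le_trans hpp.two_le (Nat.le_self_pow (by omega) p)
      exact Ideal.pow_le_pow_right this (Ideal.pow_mem_pow hx _)
    rw [Ideal.Quotient.eq_zero_iff_mem.2 (Ideal.mem_sup_right hxp)] at e'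
    have := Ideal.Quotient.eq_zero_iff_mem.1 e'
    rw [hJ, pow_two] at this
    exact this
  have hjac : mE p n ≤ Ideal.jacobson ⊥ := by
    rw [IsLocalRing.jacobson_eq_maximalIdeal ⊥ bot_ne_top, h4']
  exact Submodule.le_of_le_smul_of_le_jacobson_bot (IsNoetherian.noetherian (mE p n)) hjac hmJ

theorem main (Bi : ApiB) (C : ApiC) (hR : LT3.Spec.RINGE) (hB5 : LT3.Spec.B5)
    (hQ : LT3.Spec.QUOTR) : LT3.Spec.MAXGEN := by
  intro p _ n Γ H hs
  exact maxgen Bi C hR hB5 hQ hs

end Crest.Agent.LT3MAXGEN
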