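import Crest.Agent.LT3Spec

/-!
rid 227 (S0351), module MOVEE (Spec.MOVEE and Spec.CONT).
-/

set_option autoImplicit false
open Crest.LubinTate
open Crest Crest.GeometryTopology
open Crest.Agent.LT3

namespace Crest.Agent.LT3MOVEE

section basic

variable {σ R S : Type} [CommRing R] [CommRing S]

theorem hasSubst_of_ZC {a : MvPowerSeries σ R} (ha : ZC a) : PowerSeries.HasSubst a :=
  PowerSeries.HasSubst.of_constantCoeff_zero ha

theorem zc_X : ZC (PowerSeries.X : PowerSeries R) := PowerSeries.constantCoeff_X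

theorem zc_Xi (i : σ) : ZC (MvPowerSeries.X i : MvPowerSeries σ R) :=
  MvPowerSeries.constantCoeff_X i

theorem zc_zero : ZC (0 : MvPowerSeries σ R) := map_zero _

theorem zc_map (r : R →+* S) {f : MvPowerSeries σ R} (h : ZC f) : ZC (MvPowerSeries.map r f) := by
  rw [ZC, MvPowerSeries.constantCoeff_map, h, map_zero]

theorem eqM_ker_iff (r : R →+* S) (f g : MvPowerSeries σ R) :
    EqM (RingHom.ker r) f g ↔ MvPowerSeries.map r f = MvPowerSeries.map r g := by
  constructor
  · intro h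
    ext e
    rw [MvPowerSeries.coeff_map, MvPowerSeries.coeff_map]
    have := h e
    rwa [RingHom.mem_ker, map_sub, sub_eq_zero] at this
  · intro h e
    have := congrArg (MvPowerSeries.coeff e) h
    rw [MvPowerSeries.coeff_map, MvPowerSeries.coeff_map] at this
    rw [RingHom.mem_ker, map_sub, this, sub_self]

theorem eqM_mk_iff (J : Ideal R) (f g : MvPowerSeries σ R) :
    EqM J f g ↔ MvPowerSeries.map (Ideal.Quotient.mk J) f =
      MvPowerSeries.map (Ideal.Quotient.mk J) g := by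
  rw [← eqM_ker_iff, Ideal.mk_ker]

theorem cmp_X_pow (j : ℕ) {a : MvPowerSeries σ R} (ha : ZC a) :
    cmp (PowerSeries.X ^ j : PowerSeries R) a = a ^ j := by
  rw [LT3.cmp, PowerSeries.subst_pow (hasSubst_of_ZC ha), PowerSeries.subst_X (hasSubst_of_ZC ha)]

theorem map_map_fg (F : FormalGroup R) (r : R →+* S) {T : Type} [CommRing T] (s : S →+* T) :
    (F.map r).map s = F.map (s.comp r) := by
  apply FormalGroup.ext
  change MvPowerSeries.map s (MvPowerSeries.map r F.toPowerSeries) =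
    MvPowerSeries.map (s.comp r) F.toPowerSeries
  ext e
  rw [MvPowerSeries.coeff_map, MvPowerSeries.coeff_map, MvPowerSeries.coeff_map]
  rfl

theorem mulSeries_pow (C : ApiC) (F : FormalGroup R) (p Q : ℕ)
    (h : mulSeries F p = PowerSeries.X ^ Q) (K : ℕ) :
    mulSeries F (p ^ K) = PowerSeries.X ^ (Q ^ K) := by
  induction K with
  | zero => rw [pow_zero, pow_zero, pow_one, C.mul_one]
  | succ K ih =>
    have hz : ZC (mulSeries F p) := C.zc_mul F p
    rw [pow_succ, C.mul_mul, ih, cmp_X_pow _ hz, h, ← pow_mul, mul_comm, ← pow_succ]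

end basic

section main

variable (p : ℕ) [Fact p.Prime] (n : ℕ)

/-- the commutation defect: over `E`, `[p^K] ∘ a'` is a hom modulo `𝔪^{K+1}` -/
theorem eta_hom (A : ApiA) (B : ApiB) (C : ApiC) {R k : Type} [CommRing R] [CommRing k]
    (res : R →+* k) (H : FormalGroup R) (hc : H.IsComm) (p K : ℕ)
    (hp : (p : R) ∈ RingHom.ker res) (a' : PowerSeries R) (hz : ZC a')
    (ha : IsFGHom (H.map res) (H.map res) (PowerSeries.map res a')) :
    IsFGHom (H.map (Ideal.Quotient.mk (RingHom.ker res ^ (K + 1))))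
      (H.map (Ideal.Quotient.mk (RingHom.ker res ^ (K + 1))))
      (PowerSeries.map (Ideal.Quotient.mk (RingHom.ker res ^ (K + 1)))
        (LT3.cmp (mulSeries H (p ^ K)) a')) := by
  set m := RingHom.ker res with hm
  set mk := Ideal.Quotient.mk (m ^ (K + 1)) with hmk
  set P := mulSeries H (p ^ K) with hP
  have zP : ZC P := C.zc_mul H _
  have z0 : ZC (MvPowerSeries.X 0 : MvPowerSeries (Fin 2) R) := zc_Xi 0
  have z1 : ZC (MvPowerSeries.X 1 : MvPowerSeries (Fin 2) R) := zc_Xi 1
  set S : MvPowerSeries (Fin 2) R := fadd H (MvPowerSeries.X 0) (MvPowerSeries.X 1) with hS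
  have zS : ZC S := A.zc_fadd H z0 z1
  set u := LT3.cmp a' S with hu
  set v := LT3.cmp a' (MvPowerSeries.X 0 : MvPowerSeries (Fin 2) R) with hv
  set w := LT3.cmp a' (MvPowerSeries.X 1 : MvPowerSeries (Fin 2) R) with hw
  have zu : ZC u := B.zc_cmp hz zS
  have zv : ZC v := B.zc_cmp hz z0
  have zw : ZC w := B.zc_cmp hz z1
  have zvw : ZC (fadd H v w) := A.zc_fadd H zv zw
  have key : EqM m u (fadd H v w) := by
    rw [hm, eqM_ker_iff, A.map_fadd res H zv zw, hu, hv, hw, B.cmp_map res zS, B.cmp_map res z0,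
      B.cmp_map res z1, hS, A.map_fadd res H z0 z1, MvPowerSeries.map_X, MvPowerSeries.map_X]
    exact (B.hom_iff (zc_map res hz)).1 ha
  have hD : InI m (fsub H u (fadd H v w)) := (A.fsub_mem_iff m H zu zvw).2 key
  have zD : ZC (fsub H u (fadd H v w)) := A.zc_fadd H zu (A.zc_fneg H zvw)
  have hPD : InI (m ^ (K + 1)) (LT3.cmp P (fsub H u (fadd H v w))) := by
    have := C.cmp_mul_pow_mem m H p K hp 1 le_rfl zD (by rwa [pow_one])
    rwa [add_comm] at this
  have e1 : LT3.cmp P u = fadd H (LT3.cmp P (fsub H u (fadd H v w)))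
      (fadd H (LT3.cmp P v) (LT3.cmp P w)) := by
    rw [← B.hom_fadd (C.mul_hom hc (p ^ K)) zv zw, ← B.hom_fadd (C.mul_hom hc (p ^ K)) zD zvw,
      A.fsub_fadd H zu zvw]
  have zPv : ZC (LT3.cmp P v) := B.zc_cmp zP zv
  have zPw : ZC (LT3.cmp P w) := B.zc_cmp zP zw
  have zz : ZC (fadd H (LT3.cmp P v) (LT3.cmp P w)) := A.zc_fadd H zPv zPw
  have e2 : EqM (m ^ (K + 1)) (LT3.cmp P u) (fadd H (LT3.cmp P v) (LT3.cmp P w)) := by
    have h1 : EqM (m ^ (K + 1)) (fadd H (LT3.cmp P (fsub H u (fadd H v w)))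
        (fadd H (LT3.cmp P v) (LT3.cmp P w)))
        (fadd H 0 (fadd H (LT3.cmp P v) (LT3.cmp P w))) := by
      refine A.fadd_congr (m ^ (K + 1)) H (B.zc_cmp zP zD) zc_zero zz zz ?_ ?_
      · intro e
        rw [map_zero, sub_zero]
        exact hPD e
      · intro e
        rw [sub_self]
        exact Ideal.zero_mem _
    rw [A.zero_fadd H zz, ← e1] at h1
    exact h1
  have zPa : ZC (LT3.cmp P a' : PowerSeries R) := B.zc_cmp zP hz
  refine (B.hom_iff (φ := PowerSeries.map mk (LT3.cmp P a' : PowerSeries R)) (zc_map mk zPa)).2 ?_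
  have c0 : LT3.cmp (PowerSeries.map mk (LT3.cmp P a' : PowerSeries R))
      (MvPowerSeries.X 0 : MvPowerSeries (Fin 2) (R ⧸ m ^ (K + 1))) =
      MvPowerSeries.map mk (LT3.cmp P v) := by
    rw [hv, B.cmp_assoc hz z0, B.cmp_map mk z0, MvPowerSeries.map_X]
  have c1 : LT3.cmp (PowerSeries.map mk (LT3.cmp P a' : PowerSeries R))
      (MvPowerSeries.X 1 : MvPowerSeries (Fin 2) (R ⧸ m ^ (K + 1))) =
      MvPowerSeries.map mk (LT3.cmp P w) := by
    rw [hw, B.cmp_assoc hz z1, B.cmp_map mk z1, MvPowerSeries.map_X]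
  have c2 : LT3.cmp (PowerSeries.map mk (LT3.cmp P a' : PowerSeries R))
      (fadd (H.map mk) (MvPowerSeries.X 0) (MvPowerSeries.X 1)) =
      MvPowerSeries.map mk (LT3.cmp P u) := by
    rw [hu, B.cmp_assoc hz zS, B.cmp_map mk zS, hS, A.map_fadd mk H z0 z1, MvPowerSeries.map_X,
      MvPowerSeries.map_X]
  rw [c0, c1, c2, ← A.map_fadd mk H zPv zPw]
  exact (eqM_mk_iff _ _ _).1 e2

/-- abstract form of the main step -/
theorem core (A : ApiA) (B : ApiB) (C : ApiC) (D : ApiD) (hQ : Spec.QUOTR)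
    (Γ : FormalGroup (GaloisField p n)) (H : FormalGroup (LTRing p n)) (hs : Setup p n Γ H)
    (K : ℕ) (hK : 1 ≤ K) (a : PowerSeries (GaloisField p n)) (ha : IsFGHom Γ Γ a)
    (φ : LTRing p n →ₐ[WittVector p (GaloisField p n)] LTRing p n)
    (hφ : (LTRing.residue p n).comp φ.toRingHom = LTRing.residue p n)
    (θ : PowerSeries (LTRing p n)) (hθ : IsFGHom (H.map φ.toRingHom) H θ)
    (hθr : PowerSeries.map (LTRing.residue p n) θ = fadd Γ PowerSeries.X (a ^ (p ^ (n * K))))
    (a' : PowerSeries (LTRing p n)) (hz : ZC a')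
    (ha' : PowerSeries.map (LTRing.residue p n) a' = a) :
    (∀ f, φ f - f ∈ (mE p n) ^ (K + 1)) ∧
      EqM ((mE p n) ^ (K + 1)) θ
        (fadd H PowerSeries.X (LT3.cmp (mulSeries H (p ^ K)) a' : PowerSeries (LTRing p n))) := by
  have hHΓ : H.map (LTRing.residue p n) = Γ := hs.hH.1
  set res := LTRing.residue p n with hres
  set m := mE p n with hm
  have hmk : m = RingHom.ker res := rfl
  set J : Ideal (LTRing p n) := m ^ (K + 1) with hJ
  have hJm : J ≤ m := Ideal.pow_le_self (by omega)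
  set mk : LTRing p n →+* LTRing p n ⧸ J := Ideal.Quotient.mk J with hmkdef
  let r : (LTRing p n ⧸ J) →+* GaloisField p n :=
    Ideal.Quotient.lift J res (fun x hx => RingHom.mem_ker.1 (hJm hx))
  have hr : r.comp mk = res := Ideal.Quotient.lift_comp_mk _ _ _
  have hpm : (p : LTRing p n) ∈ RingHom.ker res := by
    rw [RingHom.mem_ker, map_natCast]
    exact CharP.cast_eq_zero _ p
  -- the endomorphism eta
  have zP : ZC (mulSeries H (p ^ K)) := C.zc_mul H _
  have zη₀ : ZC (LT3.cmp (mulSeries H (p ^ K)) a' : PowerSeries (LTRing p n)) := B.zc_cmp zP hz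
  have hη : IsFGHom (H.map mk) (H.map mk)
      (PowerSeries.map mk (LT3.cmp (mulSeries H (p ^ K)) a')) :=
    eta_hom A B C res H hs.commH p K hpm a' hz (by rw [ha', hHΓ]; exact ha)
  set η : PowerSeries (LTRing p n ⧸ J) := PowerSeries.map mk (LT3.cmp (mulSeries H (p ^ K)) a')
    with hηdef
  have zη : ZC η := hη.1
  set HB := H.map mk with hHB
  have hcB : HB.IsComm := B.comm_map mk H hs.commH
  set θ₀ : PowerSeries (LTRing p n ⧸ J) := fadd HB PowerSeries.X η with hθ₀def
  have hθ₀ : IsFGHom HB HB θ₀ := B.hom_add hcB (B.hom_X HB) hη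
  have hHBr : HB.map r = Γ := by rw [hHB, map_map_fg, hr, hHΓ]
  have hpow : mulSeries Γ (p ^ K) = PowerSeries.X ^ ((p ^ n) ^ K) :=
    mulSeries_pow C Γ p (p ^ n) hs.hΓ K
  have za : ZC a := ha.1
  have hηr : MvPowerSeries.map r η = a ^ (p ^ (n * K)) := by
    have e1 : MvPowerSeries.map r η =
        MvPowerSeries.map res (LT3.cmp (mulSeries H (p ^ K)) a' : PowerSeries (LTRing p n)) := by
      rw [← hr]
      ext e
      rfl
    have e2 : PowerSeries.map res (mulSeries H (p ^ K)) = mulSeries Γ (p ^ K) := by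
      rw [C.mul_map, hHΓ]
    rw [e1, B.cmp_map res hz, e2, hpow, pow_mul, ← cmp_X_pow _ za]
    congr 1
  have hθ₀r : MvPowerSeries.map r θ₀ = fadd Γ PowerSeries.X (a ^ (p ^ (n * K))) := by
    rw [hθ₀def, A.map_fadd r HB zc_X zη, hHBr, hηr]
    congr 1
    exact PowerSeries.map_X r
  -- θ₀ is invertible
  have hunit : IsUnit (PowerSeries.coeff 1 θ₀) := by
    rw [hθ₀def, A.coeff_one_fadd HB zc_X zη, PowerSeries.coeff_one_X]
    refine IsNilpotent.isUnit_one_add ?_
    have e : PowerSeries.coeff 1 η = mk ((p : LTRing p n) ^ K * PowerSeries.coeff 1 a') := by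
      rw [hηdef, PowerSeries.coeff_map, B.coeff_one_cmp zP hz, C.coeff_one_mul, Nat.cast_pow]
    rw [e]
    refine ⟨K + 1, ?_⟩
    rw [← map_pow, Ideal.Quotient.eq_zero_iff_mem, mul_pow]
    refine Ideal.mul_mem_right _ _ (Ideal.pow_mem_pow ?_ _)
    exact Ideal.pow_mem_of_mem m hpm K hK
  obtain ⟨ψ, hψ, hψ1, hψ2⟩ := B.hom_inv hθ₀ hunit
  set θB : PowerSeries (LTRing p n ⧸ J) := PowerSeries.map mk θ with hθB
  have hθBhom : IsFGHom ((H.map φ.toRingHom).map mk) HB θB := B.hom_map mk hθ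
  have zθB : ZC θB := hθBhom.1
  have zψ : ZC ψ := hψ.1
  have zθ₀ : ZC θ₀ := hθ₀.1
  have hθBr : MvPowerSeries.map r θB = fadd Γ PowerSeries.X (a ^ (p ^ (n * K))) := by
    rw [← hθr, ← hr]
    ext e
    rfl
  have hχ : IsFGHom ((H.map φ.toRingHom).map mk) HB (LT3.cmp ψ θB) := B.hom_comp hθBhom hψ
  have hχr : PowerSeries.map r (LT3.cmp ψ θB : PowerSeries (LTRing p n ⧸ J)) = PowerSeries.X := by
    have e1 : MvPowerSeries.map r (LT3.cmp ψ θB) = MvPowerSeries.map r (LT3.cmp ψ θ₀) := by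
      rw [B.cmp_map r zθB, B.cmp_map r zθ₀, hθBr, hθ₀r]
    have e2 : MvPowerSeries.map r (LT3.cmp ψ θ₀) = PowerSeries.X := by
      rw [hψ2]; exact PowerSeries.map_X r
    exact e1.trans e2
  -- uniqueness
  obtain ⟨φ', -, huniq⟩ := hQ p n Γ H hs J hJm HB r hr hHBr
  have h1 : (Ideal.Quotient.mkₐ (WittVector p (GaloisField p n)) J).comp φ = φ' := by
    refine huniq _ ⟨?_, LT3.cmp ψ θB, ?_, hχr⟩
    · have : ((Ideal.Quotient.mkₐ (WittVector p (GaloisField p n)) J).comp φ).toRingHom =
          mk.comp φ.toRingHom := rfl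
      rw [this, ← RingHom.comp_assoc, hr, hφ]
    · have : H.map ((Ideal.Quotient.mkₐ (WittVector p (GaloisField p n)) J).comp φ).toRingHom =
          (H.map φ.toRingHom).map mk := by
        rw [map_map_fg]; rfl
      rw [this]; exact hχ
  have h2 : Ideal.Quotient.mkₐ (WittVector p (GaloisField p n)) J = φ' := by
    refine huniq _ ⟨hr, PowerSeries.X, B.hom_X HB, PowerSeries.map_X r⟩
  have h3 : (Ideal.Quotient.mkₐ (WittVector p (GaloisField p n)) J).comp φ =
      Ideal.Quotient.mkₐ (WittVector p (GaloisField p n)) J := h1.trans h2.symm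
  refine ⟨fun f => ?_, ?_⟩
  · have := DFunLike.congr_fun h3 f
    exact Ideal.Quotient.eq.1 this
  · have e1 : (H.map φ.toRingHom).map mk = HB := by
      rw [map_map_fg]
      have : mk.comp φ.toRingHom = mk := by
        ext f
        exact DFunLike.congr_fun h3 f
      rw [this]
    rw [e1] at hθBhom
    have hker : RingHom.ker r = Ideal.map mk m := by
      apply le_antisymm
      · intro x hx
        obtain ⟨y, rfl⟩ := Ideal.Quotient.mk_surjective x
        rw [RingHom.mem_ker] at hx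
        have : res y = 0 := by rw [← hr]; exact hx
        exact Ideal.mem_map_of_mem mk this
      · rw [Ideal.map_le_iff_le_comap]
        intro y hy
        rw [Ideal.mem_comap, RingHom.mem_ker]
        have : r (mk y) = res y := by rw [← hr]; rfl
        rw [this]; exact hy
    have hbot : (⨅ i : ℕ, RingHom.ker r ^ i) = ⊥ := by
      rw [eq_bot_iff]
      refine (iInf_le _ (K + 1)).trans ?_
      rw [hker, ← Ideal.map_pow, ← hJ, Ideal.map_quotient_self]
    have hpr : (p : LTRing p n ⧸ J) ∈ RingHom.ker r := by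
      rw [RingHom.mem_ker, map_natCast]
      exact CharP.cast_eq_zero _ p
    have hX : EqM (RingHom.ker r) (mulSeries HB p) (PowerSeries.X ^ (p ^ n) : PowerSeries _) := by
      rw [eqM_ker_iff]
      have e2 : MvPowerSeries.map r (mulSeries HB p) = mulSeries Γ p := by
        rw [← hHBr]; exact C.mul_map r HB p
      rw [e2, hs.hΓ]
      have e3 : PowerSeries.map r (PowerSeries.X ^ (p ^ n)) = PowerSeries.X ^ (p ^ n) := by
        rw [map_pow, PowerSeries.map_X]
      exact e3.symm
    have hEq : EqM (RingHom.ker r) θB θ₀ := by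
      rw [eqM_ker_iff, hθBr, hθ₀r]
    have hfin : θB = θ₀ := D.rigid₂ (RingHom.ker r) p (p ^ n) hpr
      (Nat.one_le_pow _ _ (Fact.out : p.Prime).pos) hbot HB HB hcB hX θB θ₀ hθBhom hθ₀ hEq
    rw [eqM_mk_iff]
    have e4 : MvPowerSeries.map mk (fadd H PowerSeries.X
        (LT3.cmp (mulSeries H (p ^ K)) a' : PowerSeries (LTRing p n))) = θ₀ := by
      rw [A.map_fadd mk H zc_X zη₀, hθ₀def]
      congr 1
      exact PowerSeries.map_X mk
    exact hfin.trans e4.symm

theorem main (A : ApiA) (B : ApiB) (C : ApiC) (D : ApiD) (hQ : Spec.QUOTR) : Spec.MOVEE := by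
  intro p _ n Γ H hs K hK a ha
  have za : ZC a := ha.1
  have hpow : mulSeries Γ (p ^ K) = PowerSeries.X ^ ((p ^ n) ^ K) :=
    mulSeries_pow C Γ p (p ^ n) hs.hΓ K
  have hQ2 : 1 < (p ^ n) ^ K := by
    rw [← pow_mul]
    refine Nat.one_lt_pow ?_ (Fact.out : p.Prime).one_lt
    have := hs.hn
    positivity
  have e : a ^ (p ^ (n * K)) = (LT3.cmp (mulSeries Γ (p ^ K)) a : PowerSeries _) := by
    rw [hpow, cmp_X_pow _ za, pow_mul]
  have zP : ZC (mulSeries Γ (p ^ K)) := C.zc_mul Γ _
  refine ⟨⟨?_, ?_⟩, ?_⟩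
  · rw [e]
    exact B.hom_add hs.commΓ (B.hom_X Γ) (B.hom_comp ha (C.mul_hom hs.commΓ _))
  · have h1 := A.coeff_one_fadd Γ (zc_X (R := GaloisField p n)) (B.zc_cmp zP za)
    rw [e]
    erw [h1]
    rw [PowerSeries.coeff_one_X, B.coeff_one_cmp zP za, hpow, PowerSeries.coeff_X_pow,
      if_neg hQ2.ne, zero_mul, add_zero]
    exact isUnit_one
  · intro φ hφ θ hθ hθr
    constructor
    · -- choose a lift
      have hsurj : Function.Surjective (LTRing.residue p n) := by
        intro x
        refine ⟨MvPowerSeries.C (WittVector.teichmuller p x), ?_⟩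
        rw [LTRing.residue, RingHom.comp_apply, MvPowerSeries.constantCoeff_C]
        exact WittVector.teichmuller_coeff_zero p x
      choose l hl using hsurj
      let a' : PowerSeries (LTRing p n) :=
        PowerSeries.mk (fun j => if j = 0 then 0 else l (PowerSeries.coeff j a))
      have hz : ZC a' := by
        change PowerSeries.constantCoeff a' = 0
        rw [← PowerSeries.coeff_zero_eq_constantCoeff_apply, PowerSeries.coeff_mk, if_pos rfl]
      have ha' : PowerSeries.map (LTRing.residue p n) a' = a := by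
        ext j
        rw [PowerSeries.coeff_map, PowerSeries.coeff_mk]
        by_cases hj : j = 0
        · subst hj
          rw [if_pos rfl, map_zero, PowerSeries.coeff_zero_eq_constantCoeff_apply]
          exact za.symm
        · rw [if_neg hj, hl]
      exact (core p n A B C D hQ Γ H hs K hK a ha φ hφ θ hθ hθr a' hz ha').1
    · intro a' hz ha'
      exact (core p n A B C D hQ Γ H hs K hK a ha φ hφ θ hθ hθr a' hz ha').2

/-- if `g ≡ X` modulo `X^N` then `g -_Γ X ≡ 0` modulo `X^N`. -/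
theorem coeff_fsub_X (A : ApiA) (B : ApiB) {k : Type} [Field k] (Γ : FormalGroup k)
    (g : PowerSeries k) (hg : ZC g) (N : ℕ)
    (h : ∀ i, i < N → PowerSeries.coeff i g = PowerSeries.coeff i PowerSeries.X) :
    ∀ i, i < N → PowerSeries.coeff i (fsub Γ g PowerSeries.X : PowerSeries k) = 0 := by
  have zX : ZC (PowerSeries.X : PowerSeries k) := zc_X
  set b : PowerSeries k := fsub Γ g PowerSeries.X with hb
  have zb : ZC b := A.zc_fadd Γ hg (A.zc_fneg Γ zX)
  have hbX : fadd Γ b PowerSeries.X = g := A.fsub_fadd Γ hg zX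
  let c : k →+* PowerSeries k := PowerSeries.C
  set Γ' := Γ.map c with hΓ'
  obtain ⟨T, hT⟩ : ∃ T : PowerSeries k, T = PowerSeries.X := ⟨_, rfl⟩
  set t : PowerSeries (PowerSeries k) := PowerSeries.C T * PowerSeries.X with ht
  have zt : ZC t := by
    change PowerSeries.constantCoeff t = 0
    rw [ht, map_mul, PowerSeries.constantCoeff_X, mul_zero]
  set b' : PowerSeries (PowerSeries k) := PowerSeries.map c b with hb'
  set g' : PowerSeries (PowerSeries k) := PowerSeries.map c g with hg'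
  have zb' : ZC b' := zc_map c zb
  have zg' : ZC g' := zc_map c hg
  have zX' : ZC (PowerSeries.X : PowerSeries (PowerSeries k)) := zc_X
  have e1 : fadd Γ' b' PowerSeries.X = g' := by
    have := A.map_fadd c Γ zb zX
    rw [hbX] at this
    have e : MvPowerSeries.map c (PowerSeries.X : PowerSeries k) = PowerSeries.X :=
      PowerSeries.map_X c
    rw [e] at this
    exact this.symm
  have e2 : fadd Γ' (LT3.cmp b' t) t = LT3.cmp g' t := by
    rw [← e1, A.cmp_fadd Γ' zb' zX' zt, B.X_cmp zt]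
  have zf : ZC (LT3.cmp g' t) := B.zc_cmp zg' zt
  have e3 : LT3.cmp b' t = fsub Γ' (LT3.cmp g' t) t := by
    refine A.fadd_cancel_right Γ' (B.zc_cmp zb' zt)
      (A.zc_fadd Γ' zf (A.zc_fneg Γ' zt)) zt ?_
    rw [e2]
    exact (A.fsub_fadd Γ' zf zt).symm
  have hres : ∀ (f : PowerSeries (PowerSeries k)) (i : ℕ),
      PowerSeries.coeff i (LT3.cmp f t : PowerSeries (PowerSeries k)) =
        T ^ i * PowerSeries.coeff i f := by
    intro f i
    have : (LT3.cmp f t : PowerSeries (PowerSeries k)) = PowerSeries.rescale T f := by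
      rw [PowerSeries.rescale_eq_subst, PowerSeries.smul_eq_C_mul]; rfl
    rw [this, PowerSeries.coeff_rescale]
  have hE : EqM (Ideal.span {T ^ N}) (LT3.cmp g' t) t := by
    intro e
    obtain ⟨i, rfl⟩ : ∃ i : ℕ, Finsupp.single () i = e := ⟨e (), (Finsupp.unique_single e).symm⟩
    have e4 : t = (LT3.cmp (PowerSeries.X) t : PowerSeries (PowerSeries k)) := (B.X_cmp zt).symm
    have e5 : MvPowerSeries.coeff (Finsupp.single () i) (LT3.cmp g' t) -
        MvPowerSeries.coeff (Finsupp.single () i) t =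
        T ^ i * PowerSeries.coeff i g' - T ^ i * PowerSeries.coeff i PowerSeries.X := by
      rw [← hres g' i, ← hres PowerSeries.X i]
      congr 1
      exact congrArg (PowerSeries.coeff i) e4
    rw [e5, ← mul_sub]
    by_cases hi : i < N
    · have : PowerSeries.coeff i g' = PowerSeries.coeff i PowerSeries.X := by
        rw [hg', PowerSeries.coeff_map, h i hi, ← PowerSeries.coeff_map, PowerSeries.map_X]
      rw [this, sub_self, mul_zero]
      exact Ideal.zero_mem _
    · rw [Ideal.mem_span_singleton]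
      exact Dvd.dvd.mul_right (pow_dvd_pow T (not_lt.1 hi)) _
  have hI : InI (Ideal.span {T ^ N}) (LT3.cmp b' t) := by
    rw [e3]
    exact (A.fsub_mem_iff _ Γ' zf zt).2 hE
  intro i hi
  have h1 := hI (Finsupp.single () i)
  have h2 : MvPowerSeries.coeff (Finsupp.single () i) (LT3.cmp b' t) =
      T ^ i * PowerSeries.C (PowerSeries.coeff i b) := by
    have := hres b' i
    rw [hb', PowerSeries.coeff_map] at this
    exact this
  rw [h2, Ideal.mem_span_singleton, hT, PowerSeries.X_pow_dvd_iff] at h1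
  have h3 := h1 i hi
  rw [PowerSeries.coeff_X_pow_mul', if_pos le_rfl, Nat.sub_self,
    PowerSeries.coeff_zero_eq_constantCoeff_apply, PowerSeries.constantCoeff_C] at h3
  exact h3

theorem cont (A : ApiA) (B : ApiB) (C : ApiC) (D : ApiD) (hQ : Spec.QUOTR)
    (hS : Spec.SMALL) : Spec.CONT := by
  intro p _ n Γ H hs K hK g φ hg hcoef hstab
  obtain ⟨hφ, θ, hθ, hθr⟩ := hstab
  have zX : ZC (PowerSeries.X : PowerSeries (GaloisField p n)) := zc_X
  have zg : ZC g := hg.1.1
  set b : PowerSeries (GaloisField p n) := fsub Γ g PowerSeries.X with hb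
  have zb : ZC b := A.zc_fadd Γ zg (A.zc_fneg Γ zX)
  have hbhom : IsFGHom Γ Γ b :=
    B.hom_add hs.commΓ hg.1 (B.hom_neg hs.commΓ (B.hom_X Γ))
  obtain ⟨a, ha, hba⟩ := hS p n hs.hn Γ K b hbhom
    (coeff_fsub_X A B Γ g zg (p ^ (n * K)) hcoef)
  have hgb : g = fadd Γ PowerSeries.X (a ^ (p ^ (n * K))) := by
    rw [← hba, A.fadd_comm Γ hs.commΓ zX zb]
    exact (A.fsub_fadd Γ zg zX).symm
  exact (((main A B C D hQ) p n Γ H hs K hK a ha).2 φ hφ θ hθ (hθr.trans hgb)).1

end main

end Crest.Agent.LT3MOVEE
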