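/- rid 227 (S0351), module MOVES: transport of the stabilizer moves to `E/I_h` and to the
   normalised coordinates (helper22). -/
import Crest.Agent.LT3Spec

set_option autoImplicit false
open Crest.LubinTate
open Crest Crest.GeometryTopology

namespace Crest.Agent.LT3MOVES

open Crest.Agent.LT3

theorem map_map_fg {R S T : Type} [CommRing R] [CommRing S] [CommRing T] (F : FormalGroup R)
    (f : R →+* S) (g : S →+* T) : (F.map f).map g = F.map (g.comp f) := by
  apply FormalGroup.ext
  ext e
  simp [FormalGroup.map]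

theorem map_map_ps {R S T : Type} [CommRing R] [CommRing S] [CommRing T] (F : PowerSeries R)
    (f : R →+* S) (g : S →+* T) :
    PowerSeries.map g (PowerSeries.map f F) = PowerSeries.map (g.comp f) F := by
  ext e
  simp

/-- `X +_F b ≡ X` modulo `X^M` if `b ≡ 0`. -/
theorem coeff_fadd_X {R : Type} [CommRing R] (A : ApiA) (F : FormalGroup R) (M : ℕ)
    (b : PowerSeries R) (hz : ZC b) (hb : ∀ i, i < M → PowerSeries.coeff i b = 0) (i : ℕ)
    (hi : i < M) : PowerSeries.coeff i (fadd F PowerSeries.X b) =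
      PowerSeries.coeff i PowerSeries.X := by
  have hX : ZC (PowerSeries.X : PowerSeries R) := PowerSeries.constantCoeff_X
  have h0 : fadd F (PowerSeries.X : PowerSeries R) 0 = PowerSeries.X := A.fadd_zero F hX
  conv_rhs => rw [← h0]
  unfold fadd
  have s1 : MvPowerSeries.HasSubst ![(PowerSeries.X : PowerSeries R), b] := by
    apply MvPowerSeries.hasSubst_of_constantCoeff_zero
    intro s
    fin_cases s
    · exact hX
    · exact hz
  have s2 : MvPowerSeries.HasSubst ![(PowerSeries.X : PowerSeries R), 0] := by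
    apply MvPowerSeries.hasSubst_of_constantCoeff_zero
    intro s
    fin_cases s
    · exact hX
    · simp
  unfold PowerSeries.coeff
  erw [MvPowerSeries.coeff_subst s1, MvPowerSeries.coeff_subst s2]
  apply finsum_congr
  intro e
  congr 1
  simp only [Finsupp.prod_fintype, pow_zero, implies_true, Fin.prod_univ_two, Matrix.cons_val_zero,
    Matrix.cons_val_one]
  by_cases he : e 1 = 0
  · rw [he]; simp
  · rw [zero_pow he, mul_zero, LinearMap.map_zero]
    have hdvd : (PowerSeries.X : PowerSeries R) ^ M ∣ PowerSeries.X ^ (e 0) * b ^ (e 1) := by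
      apply Dvd.dvd.mul_left
      have : (PowerSeries.X : PowerSeries R) ^ M ∣ b := PowerSeries.X_pow_dvd_iff.2 hb
      exact this.trans (dvd_pow_self b he)
    exact PowerSeries.X_pow_dvd_iff.1 hdvd i hi

theorem small_pow {R : Type} [CommRing R] (a : PowerSeries R) (hz : ZC a) (N : ℕ) (i : ℕ)
    (hi : i < N) : PowerSeries.coeff i (a ^ N) = 0 := by
  have h1 : (PowerSeries.X : PowerSeries R) ∣ a := PowerSeries.X_dvd_iff.2 hz
  exact PowerSeries.X_pow_dvd_iff.1 (pow_dvd_pow_of_dvd h1 N) i hi

theorem M_le (p : ℕ) [hp : Fact p.Prime] (n M K : ℕ) (hn : 1 ≤ n) (hK : M + 1 ≤ K) :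
    M ≤ p ^ (n * K) := by
  have h1 : K < p ^ K := Nat.lt_pow_self hp.out.one_lt
  have h2 : p ^ K ≤ p ^ (n * K) :=
    Nat.pow_le_pow_right hp.out.pos (Nat.le_mul_of_pos_left K hn)
  omega

/-- the basic moves over `E`. -/
theorem basic (A : ApiA) (hS : LT3.Spec.STAB) (hM : LT3.Spec.MOVEE)
    (p : ℕ) [Fact p.Prime] (n : ℕ) (Γ : FormalGroup (GaloisField p n))
    (H : FormalGroup (LTRing p n)) (hs : Setup p n Γ H) (M : ℕ) (P : Ideal (LTRing p n))
    (hP : IsStableIdeal p n Γ H M P) (K : ℕ) (hK : M + 1 ≤ K)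
    (a : PowerSeries (GaloisField p n)) (ha : IsFGHom Γ Γ a) :
    ∃ (φ : LTRing p n →ₐ[WittVector p (GaloisField p n)] LTRing p n)
      (θ : PowerSeries (LTRing p n)),
      IsFGAut Γ (fadd Γ PowerSeries.X (a ^ (p ^ (n * K)))) ∧
      IsStabilizerMap p n H (fadd Γ PowerSeries.X (a ^ (p ^ (n * K)))) φ ∧
      (∀ f, φ f ∈ P ↔ f ∈ P) ∧
      (∀ f, φ f - f ∈ (mE p n) ^ (K + 1)) ∧
      (LTRing.residue p n).comp φ.toRingHom = LTRing.residue p n ∧
      IsFGHom (H.map φ.toRingHom) H θ ∧
      PowerSeries.map (LTRing.residue p n) θ =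
        (fadd Γ PowerSeries.X (a ^ (p ^ (n * K))) : PowerSeries (GaloisField p n)) ∧
      ∀ a' : PowerSeries (LTRing p n), ZC a' → PowerSeries.map (LTRing.residue p n) a' = a →
        EqM ((mE p n) ^ (K + 1)) θ
          (fadd H PowerSeries.X (cmp (mulSeries H (p ^ K)) a' : PowerSeries (LTRing p n))) := by
  have hK1 : 1 ≤ K := by omega
  obtain ⟨hg, hmove⟩ := hM p n Γ H hs K hK1 a ha
  obtain ⟨φ, hφ⟩ := (hS p n Γ H hs).1 _ hg
  have hφ' := hφ
  obtain ⟨hres, θ, hθ, hθr⟩ := hφ
  obtain ⟨m1, m2⟩ := hmove φ hres θ hθ hθr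
  have hsm : ∀ i : ℕ, i < M → PowerSeries.coeff i
      (fadd Γ PowerSeries.X (a ^ (p ^ (n * K))) : PowerSeries (GaloisField p n)) =
      PowerSeries.coeff i PowerSeries.X := by
    intro i hi
    have hle := M_le p n M K hs.hn hK
    refine coeff_fadd_X A Γ M _ ?_ ?_ i hi
    · show PowerSeries.constantCoeff (a ^ (p ^ (n * K))) = 0
      rw [map_pow, ha.1]
      exact zero_pow (pow_ne_zero _ (Fact.out : p.Prime).ne_zero)
    · intro j hj
      exact small_pow a ha.1 _ j (lt_of_lt_of_le hj hle)
  have hcomap := hP _ φ hg hsm hφ'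
  refine ⟨φ, θ, hg, hφ', ?_, m1, hres, hθ, hθr, m2⟩
  intro f
  have : f ∈ Ideal.comap φ.toRingHom P ↔ f ∈ P := by rw [hcomap]
  rw [← this, Ideal.mem_comap]
  rfl

theorem mul_map' (C : ApiC) {R S : Type} [CommRing R] [CommRing S] (r : R →+* S)
    (F : FormalGroup R) (m j : ℕ) :
    PowerSeries.coeff j (mulSeries (F.map r) m) = r (PowerSeries.coeff j (mulSeries F m)) := by
  rw [← C.mul_map, PowerSeries.coeff_map]

/-- image of the congruence for `θ`. -/
theorem map_eqM (A : ApiA) (B : ApiB) (C : ApiC) {R S : Type} [CommRing R] [CommRing S]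
    (r : R →+* S) (F : FormalGroup R) (I : Ideal R) (J : Ideal S) (hIJ : ∀ x ∈ I, r x ∈ J)
    (N : ℕ) (θ a' : PowerSeries R) (hz : ZC a')
    (h : EqM I θ (fadd F PowerSeries.X (cmp (mulSeries F N) a' : PowerSeries R))) :
    EqM J (PowerSeries.map r θ) (fadd (F.map r) PowerSeries.X
      (cmp (mulSeries (F.map r) N) (PowerSeries.map r a') : PowerSeries S)) := by
  have hX : ZC (PowerSeries.X : PowerSeries R) := PowerSeries.constantCoeff_X
  have hc : ZC (cmp (mulSeries F N) a' : PowerSeries R) := B.zc_cmp (C.zc_mul F N) hz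
  have e1 : (PowerSeries.map r (fadd F PowerSeries.X (cmp (mulSeries F N) a' : PowerSeries R)) :
      PowerSeries S) = fadd (F.map r) (PowerSeries.map r PowerSeries.X)
        (PowerSeries.map r (cmp (mulSeries F N) a' : PowerSeries R)) :=
    A.map_fadd r F hX hc
  have e2 : (PowerSeries.map r (cmp (mulSeries F N) a' : PowerSeries R) : PowerSeries S) =
      cmp (PowerSeries.map r (mulSeries F N)) (PowerSeries.map r a') :=
    B.cmp_map r (φ := mulSeries F N) (a := a') hz
  rw [e2, C.mul_map, PowerSeries.map_X] at e1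
  rw [← e1]
  intro e
  have := hIJ _ (h e)
  rw [map_sub] at this
  exact this

theorem mem_mE {p : ℕ} [Fact p.Prime] {n : ℕ} {x : LTRing p n} :
    x ∈ mE p n ↔ LTRing.residue p n x = 0 := RingHom.mem_ker

theorem moves (A : ApiA) (B : ApiB) (C : ApiC) (hS : LT3.Spec.STAB) (hM : LT3.Spec.MOVEE)
    (hV : LT3.Spec.HVAN) (hH : LT3.Spec.HSTABLE) : LT3.Spec.MOVES := by
  intro p _ n Γ H hs h d hh hd hhd π hπ hker hπC hπu hπc M P hPp hP hle
  have hcc : (MvPowerSeries.constantCoeff :
      MvPowerSeries (Fin d) (GaloisField p n) →+* GaloisField p n).comp π =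
      LTRing.residue p n := by
    ext f
    exact hπc f
  constructor
  · refine ⟨hh, hd, hhd, hs.commΓ, B.comm_map π H hs.commH, hs.hΓ, ?_, ?_, ?_⟩
    · rw [map_map_fg, hcc, hs.hH.1]
    · intro i
      rw [mul_map' C]
      exact hπu i
    · have key : ∀ i, i ≤ d → ∀ x ∈ heightIdeal p n H (h + i),
          π x ∈ varIdeal (GaloisField p n) d i := by
        intro i
        induction i with
        | zero =>
          intro _ x hx
          have : x ∈ RingHom.ker π := by rw [hker]; exact hx
          rw [RingHom.mem_ker.1 this]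
          exact Ideal.zero_mem _
        | succ i ih =>
          intro hi x hx
          have hmono : varIdeal (GaloisField p n) d i ≤ varIdeal (GaloisField p n) d (i + 1) := by
            apply Ideal.span_mono
            rintro f ⟨l, hl, rfl⟩
            exact ⟨l, by omega, rfl⟩
          have hx' : x ∈ heightIdeal p n H (h + i) ⊔
              Ideal.span {PowerSeries.coeff (p ^ (h + i)) (mulSeries H p)} := hx
          obtain ⟨y, hy, z, hz, rfl⟩ := Submodule.mem_sup.1 hx'
          obtain ⟨w, rfl⟩ := Ideal.mem_span_singleton'.1 hz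
          rw [map_add, map_mul]
          refine Ideal.add_mem _ (hmono (ih (by omega) y hy)) (Ideal.mul_mem_left _ _ ?_)
          have hlt : i < d := by omega
          have := hπu ⟨i, hlt⟩
          rw [uu] at this
          rw [this]
          exact Ideal.subset_span ⟨⟨i, hlt⟩, Nat.lt_succ_self i, rfl⟩
      intro i hi j hj
      rw [mul_map' C]
      exact key i hi _ ((hV p n Γ H hs).2 (h + i) (by omega) j hj)
  · refine ⟨M + 1, fun K hK a ha => ?_⟩
    obtain ⟨φ, θ, hg, hφ, hφP, hφm, hres, hθ, hθr, hθe⟩ :=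
      basic A hS hM p n Γ H hs M P hP K hK a ha
    have hst := ((hH p n Γ H hs h (by omega) _ φ hg hφ).1)
    have hkerle : RingHom.ker π ≤ RingHom.ker (π.comp φ.toRingHom) := by
      intro x hx
      rw [hker, ← hst, Ideal.mem_comap, ← hker, RingHom.mem_ker] at hx
      exact hx
    let φb : MvPowerSeries (Fin d) (GaloisField p n) →+* MvPowerSeries (Fin d) (GaloisField p n) :=
      RingHom.liftOfSurjective π hπ ⟨π.comp φ.toRingHom, hkerle⟩
    have hφb : ∀ x, φb (π x) = π (φ x) := by
      intro x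
      exact RingHom.liftOfRightInverse_comp_apply π (Function.surjInv hπ)
        (Function.rightInverse_surjInv hπ) ⟨π.comp φ.toRingHom, hkerle⟩ x
    have hmP : ∀ x, π x ∈ P.map π ↔ x ∈ P := by
      intro x
      constructor
      · intro hx
        obtain ⟨y, hy, hyx⟩ := (Ideal.mem_map_iff_of_surjective π hπ).1 hx
        have : x - y ∈ RingHom.ker π := by
          rw [RingHom.mem_ker, map_sub, hyx, sub_self]
        rw [hker] at this
        have := P.add_mem (hle this) hy
        simpa using this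
      · exact fun hx => Ideal.mem_map_of_mem π hx
    have hπm : ∀ N, ∀ x ∈ (mE p n) ^ N, π x ∈ (mR (GaloisField p n) d) ^ N := by
      intro N x hx
      have h1 : (mE p n).map π ≤ mR (GaloisField p n) d := by
        rw [Ideal.map_le_iff_le_comap]
        intro y hy
        rw [Ideal.mem_comap]
        show MvPowerSeries.constantCoeff (π y) = 0
        rw [hπc]
        exact mem_mE.1 hy
      have h2 : π x ∈ ((mE p n) ^ N).map π := Ideal.mem_map_of_mem π hx
      rw [Ideal.map_pow] at h2
      exact Ideal.pow_right_mono h1 N h2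
    refine ⟨φb, PowerSeries.map π θ, ?_, ?_, ?_, ?_, ?_, ?_⟩
    · intro c
      obtain ⟨c', rfl⟩ : ∃ c' : WittVector p (GaloisField p n), WittVector.constantCoeff c' = c :=
        ⟨WittVector.teichmuller p c, WittVector.teichmuller_coeff_zero p c⟩
      rw [← hπC c', hφb]
      congr 1
      exact φ.commutes c'
    · intro f
      obtain ⟨f', rfl⟩ := hπ f
      rw [hφb, hmP, hmP]
      exact hφP f'
    · intro f
      obtain ⟨f', rfl⟩ := hπ f
      rw [hφb, ← map_sub]
      exact hπm _ _ (hφm f')
    · have e1 : (H.map π).map φb = (H.map φ.toRingHom).map π := by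
        rw [map_map_fg, map_map_fg]
        congr 1
        ext1 x
        exact hφb x
      rw [e1]
      exact B.hom_map π hθ
    · rw [map_map_ps, hcc, hθr]
    · -- the lift
      let a' : PowerSeries (LTRing p n) := PowerSeries.mk (fun i =>
        (MvPowerSeries.C (WittVector.teichmuller p (PowerSeries.coeff i a)) : LTRing p n))
      have hza : ZC a' := by
        show PowerSeries.constantCoeff a' = 0
        rw [← PowerSeries.coeff_zero_eq_constantCoeff_apply, PowerSeries.coeff_mk,
          PowerSeries.coeff_zero_eq_constantCoeff_apply, ha.1, WittVector.teichmuller_zero,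
          map_zero]
      have hra : PowerSeries.map (LTRing.residue p n) a' = a := by
        ext i
        rw [PowerSeries.coeff_map, PowerSeries.coeff_mk]
        show WittVector.constantCoeff (MvPowerSeries.constantCoeff
          (MvPowerSeries.C (WittVector.teichmuller p (PowerSeries.coeff i a)) : LTRing p n)) = _
        rw [MvPowerSeries.constantCoeff_C]
        exact WittVector.teichmuller_coeff_zero p _
      have hpa : PowerSeries.map π a' = PowerSeries.map MvPowerSeries.C a := by
        ext1 i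
        rw [PowerSeries.coeff_map, PowerSeries.coeff_map, PowerSeries.coeff_mk, hπC]
        exact congrArg _ (WittVector.teichmuller_coeff_zero p _)
      have := map_eqM A B C π H ((mE p n) ^ (K + 1)) ((mR (GaloisField p n) d) ^ (K + 1))
        (hπm (K + 1)) (p ^ K) θ a' hza (hθe a' hza hra)
      rw [hpa] at this
      exact this

theorem height_map (C : ApiC) {p : ℕ} [Fact p.Prime] {n : ℕ} (H : FormalGroup (LTRing p n))
    (Ψ : LTRing p n →+* LTRing p n) (i : ℕ) :
    heightIdeal p n (H.map Ψ) i = (heightIdeal p n H i).map Ψ := by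
  induction i with
  | zero =>
    show (⊥ : Ideal (LTRing p n)) = (⊥ : Ideal (LTRing p n)).map Ψ
    rw [Ideal.map_bot]
  | succ i ih =>
    show heightIdeal p n (H.map Ψ) i ⊔
      Ideal.span {PowerSeries.coeff (p ^ i) (mulSeries (H.map Ψ) p)} =
      (heightIdeal p n H i ⊔ Ideal.span {PowerSeries.coeff (p ^ i) (mulSeries H p)}).map Ψ
    rw [Ideal.map_sup, ih, Ideal.map_span, Set.image_singleton, mul_map' C]

theorem moves0 (A : ApiA) (B : ApiB) (C : ApiC) (hS : LT3.Spec.STAB) (hM : LT3.Spec.MOVEE)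
    (hV : LT3.Spec.HVAN) (hCo : LT3.Spec.COORD) : LT3.Spec.MOVES0 := by
  intro p _ n Γ H hs M P hPp hP
  obtain ⟨Ψ, c, hc, hΨu, hΨr⟩ := hCo p n Γ H hs
  have hrc : (LTRing.residue p n).comp (Ψ : LTRing p n →+* LTRing p n) = LTRing.residue p n := by
    ext f
    exact hΨr f
  have hΨr' : ∀ f, LTRing.residue p n (Ψ.symm f) = LTRing.residue p n f := by
    intro f
    rw [← hΨr, AlgEquiv.apply_symm_apply]
  have hhm := fun i => height_map C H (Ψ : LTRing p n →+* LTRing p n) i
  have hmP : ∀ (I : Ideal (LTRing p n)) x, Ψ x ∈ I.map (Ψ : LTRing p n →+* LTRing p n) ↔ x ∈ I := by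
    intro I x
    constructor
    · intro hx
      obtain ⟨y, hy, hyx⟩ := (Ideal.mem_map_iff_of_surjective
        (Ψ : LTRing p n →+* LTRing p n) Ψ.surjective).1 hx
      have : y = x := Ψ.injective hyx
      exact this ▸ hy
    · exact fun hx => Ideal.mem_map_of_mem (Ψ : LTRing p n →+* LTRing p n) hx
  have hΨm : ∀ N, ∀ x ∈ (mE p n) ^ N, Ψ x ∈ (mE p n) ^ N := by
    intro N x hx
    have h1 : (mE p n).map (Ψ : LTRing p n →+* LTRing p n) ≤ mE p n := by
      rw [Ideal.map_le_iff_le_comap]
      intro y hy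
      rw [Ideal.mem_comap]
      apply mem_mE.2
      have := hΨr y
      rw [mem_mE.1 hy] at this
      exact this
    have h2 : Ψ x ∈ ((mE p n) ^ N).map (Ψ : LTRing p n →+* LTRing p n) :=
      Ideal.mem_map_of_mem (Ψ : LTRing p n →+* LTRing p n) hx
    rw [Ideal.map_pow] at h2
    exact Ideal.pow_right_mono h1 N h2
  refine ⟨Ψ, c, ?_, ?_, hhm⟩
  · refine ⟨hs.hn, hs.commΓ, B.comm_map _ H hs.commH, hs.hΓ, ?_, hc, ?_, ?_⟩
    · rw [map_map_fg, hrc, hs.hH.1]
    · intro j
      rw [← hΨu j]
      show PowerSeries.coeff _ (mulSeries (H.map _) p) = _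
      rw [mul_map' C]
      rfl
    · intro i hi j hj
      rw [mul_map' C, hhm]
      exact Ideal.mem_map_of_mem _ ((hV p n Γ H hs).2 i hi j hj)
  · refine ⟨M + 1, fun K hK a ha => ?_⟩
    obtain ⟨φ, θ, hg, hφ, hφP, hφm, hres, hθ, hθr, hθe⟩ :=
      basic A hS hM p n Γ H hs M P hP K hK a ha
    let φ' : LTRing p n →ₐ[WittVector p (GaloisField p n)] LTRing p n :=
      (Ψ : LTRing p n →ₐ[WittVector p (GaloisField p n)] LTRing p n).comp
        (φ.comp (Ψ.symm : LTRing p n →ₐ[WittVector p (GaloisField p n)] LTRing p n))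
    have hφ' : ∀ x, φ' (Ψ x) = Ψ (φ x) := by
      intro x
      show Ψ (φ (Ψ.symm (Ψ x))) = Ψ (φ x)
      rw [AlgEquiv.symm_apply_apply]
    refine ⟨φ', PowerSeries.map (Ψ : LTRing p n →+* LTRing p n) θ, ?_, ?_, ?_, ?_, ?_⟩
    · intro f
      obtain ⟨f', rfl⟩ := Ψ.surjective f
      rw [hφ', hmP, hmP]
      exact hφP f'
    · intro f
      obtain ⟨f', rfl⟩ := Ψ.surjective f
      rw [hφ', ← map_sub]
      exact hΨm _ _ (hφm f')
    · have e1 : (H.map (Ψ : LTRing p n →+* LTRing p n)).map φ'.toRingHom =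
          (H.map φ.toRingHom).map (Ψ : LTRing p n →+* LTRing p n) := by
        rw [map_map_fg, map_map_fg]
        congr 1
        ext1 x
        exact hφ' x
      rw [e1]
      exact B.hom_map _ hθ
    · rw [map_map_ps, hrc, hθr]
    · intro a' hza hra
      have hza' : ZC (PowerSeries.map (Ψ.symm : LTRing p n →+* LTRing p n) a') := by
        show PowerSeries.constantCoeff (PowerSeries.map _ a') = 0
        have : PowerSeries.constantCoeff a' = 0 := hza
        rw [← PowerSeries.coeff_zero_eq_constantCoeff_apply, PowerSeries.coeff_map,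
          PowerSeries.coeff_zero_eq_constantCoeff_apply, this, map_zero]
      have hra' : PowerSeries.map (LTRing.residue p n)
          (PowerSeries.map (Ψ.symm : LTRing p n →+* LTRing p n) a') = a := by
        have hcc : (LTRing.residue p n).comp (Ψ.symm : LTRing p n →+* LTRing p n) =
            LTRing.residue p n := RingHom.ext hΨr'
        rw [← hra, map_map_ps, hcc]
      have hback : PowerSeries.map (Ψ : LTRing p n →+* LTRing p n)
          (PowerSeries.map (Ψ.symm : LTRing p n →+* LTRing p n) a') = a' := by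
        ext1 i
        rw [PowerSeries.coeff_map, PowerSeries.coeff_map]
        exact Ψ.apply_symm_apply _
      have := map_eqM A B C (Ψ : LTRing p n →+* LTRing p n) H ((mE p n) ^ (K + 1))
        ((mE p n) ^ (K + 1)) (hΨm (K + 1)) (p ^ K) θ _ hza' (hθe _ hza' hra')
      rw [hback] at this
      exact this

theorem main (A : ApiA) (B : ApiB) (C : ApiC) (hS : LT3.Spec.STAB) (hM : LT3.Spec.MOVEE)
    (hV : LT3.Spec.HVAN) (hH : LT3.Spec.HSTABLE) : LT3.Spec.MOVES :=
  moves A B C hS hM hV hH

theorem main0 (A : ApiA) (B : ApiB) (C : ApiC) (hS : LT3.Spec.STAB) (hM : LT3.Spec.MOVEE)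
    (hV : LT3.Spec.HVAN) (hCo : LT3.Spec.COORD) : LT3.Spec.MOVES0 :=
  moves0 A B C hS hM hV hCo

end Crest.Agent.LT3MOVES
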