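import Crest.Agent.LT3Spec

set_option autoImplicit false
open Crest.LubinTate
open Crest Crest.GeometryTopology

namespace Crest.Agent.LT3QUOTR

open LT3

/-- quotients of complete rings are precomplete -/
theorem precomplete_quot {E : Type} [CommRing E] (m J : Ideal E) (h : IsPrecomplete m E)
    (M : Ideal (E ⧸ J)) (hM : M = m.map (Ideal.Quotient.mk J)) :
    IsPrecomplete M (E ⧸ J) := by
  subst hM
  have hpow : ∀ k : ℕ, (m.map (Ideal.Quotient.mk J)) ^ k = (m ^ k).map (Ideal.Quotient.mk J) :=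
    fun k => (Ideal.map_pow _ _ _).symm
  have key : ∀ (k : ℕ) (x : E ⧸ J), x ∈ (m.map (Ideal.Quotient.mk J)) ^ k →
      ∃ y ∈ m ^ k, Ideal.Quotient.mk J y = x := by
    intro k x hx
    rw [hpow, Ideal.mem_map_iff_of_surjective _ Ideal.Quotient.mk_surjective] at hx
    exact hx
  rw [isPrecomplete_iff]
  intro f hf
  have hstep : ∀ k : ℕ, ∃ y ∈ m ^ k, Ideal.Quotient.mk J y = f (k + 1) - f k := by
    intro k
    apply key
    have := hf (Nat.le_succ k)
    rw [SModEq.sub_mem] at this
    have h2 : f (k+1) - f k = -(f k - f (k+1)) := by ring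
    rw [h2]
    have h3 := neg_mem this
    simpa using h3
  choose d hd hd' using hstep
  obtain ⟨g0, hg0⟩ := Ideal.Quotient.mk_surjective (f 0)
  let g : ℕ → E := fun k => g0 + ∑ i ∈ Finset.range k, d i
  have hg : ∀ k, Ideal.Quotient.mk J (g k) = f k := by
    intro k
    induction k with
    | zero => simp [g, hg0]
    | succ k ih =>
      have : g (k+1) = g k + d k := by simp [g, Finset.sum_range_succ, add_assoc]
      rw [this, map_add, ih, hd']; ring
  have hcau : ∀ {a b : ℕ}, a ≤ b → g a ≡ g b [SMOD (m ^ a • ⊤ : Submodule E E)] := by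
    intro a b hab
    rw [SModEq.sub_mem]
    have hmem : g a - g b ∈ m ^ a := by
      have : g a - g b = -(∑ i ∈ Finset.Ico a b, d i) := by
        have := Finset.sum_range_add_sum_Ico d hab
        simp only [g]
        rw [← this]; ring
      rw [this]
      apply neg_mem
      apply Ideal.sum_mem
      intro i hi
      exact Ideal.pow_le_pow_right (Finset.mem_Ico.1 hi).1 (hd i)
    simpa using hmem
  obtain ⟨L, hL⟩ := (isPrecomplete_iff.1 h) g hcau
  refine ⟨Ideal.Quotient.mk J L, fun k => ?_⟩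
  have := hL k
  rw [SModEq.sub_mem] at this ⊢
  have h1 : g k - L ∈ m ^ k := by simpa using this
  have h2 : f k - Ideal.Quotient.mk J L ∈ (m.map (Ideal.Quotient.mk J)) ^ k := by
    rw [← hg k, ← map_sub, hpow]
    exact Ideal.mem_map_of_mem _ h1
  simpa using h2

theorem main (hR : Spec.RINGE) : Spec.QUOTR := by
  intro p _ n Γ H S J hJ G r hr hG
  obtain ⟨hdom, hnoe, hloc, hmax, hadic, hsurj, hcomp, _, _⟩ := hR p n S.hn
  haveI := hdom
  haveI := hnoe
  haveI := hloc
  have hm := hmax hloc
  have hJtop : J ≠ ⊤ := by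
    intro h
    rw [h, ← hm] at hJ
    exact (IsLocalRing.maximalIdeal.isMaximal (LTRing p n)).ne_top (top_le_iff.1 hJ)
  haveI : Nontrivial (LTRing p n ⧸ J) := Ideal.Quotient.nontrivial_iff.2 hJtop
  haveI : IsLocalRing (LTRing p n ⧸ J) :=
    IsLocalRing.of_surjective' (Ideal.Quotient.mk J) Ideal.Quotient.mk_surjective
  have hrs : Function.Surjective r := by
    intro x
    obtain ⟨y, hy⟩ := hsurj x
    exact ⟨Ideal.Quotient.mk J y, by rw [← hy, ← hr]; rfl⟩
  have hker : RingHom.ker r = IsLocalRing.maximalIdeal (LTRing p n ⧸ J) := by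
    haveI := RingHom.ker_isMaximal_of_surjective r hrs
    exact IsLocalRing.eq_maximalIdeal this
  have hkm : RingHom.ker r = (mE p n).map (Ideal.Quotient.mk J) := by
    have h1 : (RingHom.ker r).comap (Ideal.Quotient.mk J) = mE p n := by
      ext x
      simp only [Ideal.mem_comap, RingHom.mem_ker, mE]
      rw [← hr]; rfl
    rw [← h1, Ideal.map_comap_of_surjective _ Ideal.Quotient.mk_surjective]
  haveI hpre : IsPrecomplete (IsLocalRing.maximalIdeal (LTRing p n ⧸ J)) (LTRing p n ⧸ J) :=
    precomplete_quot (mE p n) J hadic.toIsPrecomplete _ (hker.symm.trans hkm)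
  have hcompl : IsAdicComplete (IsLocalRing.maximalIdeal (LTRing p n ⧸ J)) (LTRing p n ⧸ J) :=
    { (inferInstance : IsHausdorff (IsLocalRing.maximalIdeal (LTRing p n ⧸ J)) (LTRing p n ⧸ J)),
      hpre with }
  refine S.hH.2 (LTRing p n ⧸ J) hcompl r hrs hker ?_ G hG
  rw [← hcomp, ← hr, RingHom.comp_assoc]
  rfl

end Crest.Agent.LT3QUOTR
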