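/- rid 227 (S0351): assembly modulo the modules of `LT3Spec`. -/
import Crest.Agent.LT3Spec

set_option autoImplicit false
open Crest.LubinTate
open Crest Crest.GeometryTopology
open Crest.Agent.LT3

namespace Crest.Agent.LT3SKEL

section
variable {p : ℕ} [Fact p.Prime] {n : ℕ} {Γ : FormalGroup (GaloisField p n)}
  {H : FormalGroup (LTRing p n)}

theorem hI_succ (h : ℕ) : heightIdeal p n H (h + 1) =
    heightIdeal p n H h ⊔ Ideal.span {uu H h} := rfl

theorem hI_mono : Monotone (heightIdeal p n H) :=
  monotone_nat_of_le_succ fun h => by rw [hI_succ]; exact le_sup_left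

theorem uu_mem {h h' : ℕ} (hh : h < h') : uu H h ∈ heightIdeal p n H h' := by
  apply hI_mono (Nat.succ_le_of_lt hh)
  rw [hI_succ]
  exact Ideal.mem_sup_right (Ideal.mem_span_singleton_self _)

/-- only one minimal prime if all of them lie in a chain. -/
theorem radical_of_chain {R : Type} [CommRing R] {I : ℕ → Ideal R} (hI : Monotone I) {n h₀ : ℕ}
    (J : Ideal R) (hJ : J ≠ ⊤) (hmin : ∀ P ∈ J.minimalPrimes, ∃ h, h₀ ≤ h ∧ h ≤ n ∧ P = I h) :
    ∃ h, h₀ ≤ h ∧ h ≤ n ∧ J.radical = I h := by
  obtain ⟨Q, hQ⟩ := Ideal.nonempty_minimalPrimes hJ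
  obtain ⟨h, h0, h1, rfl⟩ := hmin Q hQ
  refine ⟨h, h0, h1, ?_⟩
  have huniq : ∀ P ∈ J.minimalPrimes, P = I h := by
    intro P hP
    obtain ⟨h', _, _, rfl⟩ := hmin P hP
    rcases le_total h h' with hle | hle
    · exact le_antisymm (hP.2 hQ.1 (hI hle)) (hI hle)
    · exact le_antisymm (hI hle) (hQ.2 hP.1 (hI hle))
  rw [← Ideal.sInf_minimalPrimes]
  apply le_antisymm
  · exact sInf_le hQ
  · exact le_sInf fun P hP => (huniq P hP).ge

theorem map_var (h d : ℕ) (hd : 1 ≤ d) (π : LTRing p n →+* MvPowerSeries (Fin d) (GaloisField p n))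
    (hker : RingHom.ker π = heightIdeal p n H h)
    (hX : ∀ i : Fin d, π (uu H (h + i.1)) = MvPowerSeries.X i) :
    ∀ i, i ≤ d → (heightIdeal p n H (h + i)).map π = varIdeal (GaloisField p n) d i := by
  intro i
  induction i with
  | zero =>
    intro _
    rw [Nat.add_zero, ← hker]
    have h1 : (RingHom.ker π).map π = ⊥ := by
      rw [eq_bot_iff, Ideal.map_le_iff_le_comap]
      intro x hx
      rw [Ideal.mem_comap, Ideal.mem_bot]
      exact hx
    have h2 : varIdeal (GaloisField p n) d 0 = ⊥ := by
      unfold varIdeal
      rw [Ideal.span_eq_bot]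
      rintro x ⟨l, hl, -⟩
      omega
    rw [h1, h2]
  | succ i ih =>
    intro hi
    have e1 : h + (i + 1) = (h + i) + 1 := by ring
    rw [e1, hI_succ, Ideal.map_sup, ih (by omega), Ideal.map_span, Set.image_singleton,
      hX ⟨i, by omega⟩]
    unfold varIdeal
    rw [← Ideal.span_union]
    congr 1
    ext f
    simp only [Set.mem_union, Set.mem_ofPred_eq, Set.mem_singleton_iff]
    constructor
    · rintro (⟨l, hl, rfl⟩ | rfl)
      · exact ⟨l, by omega, rfl⟩
      · exact ⟨⟨i, by omega⟩, by simp, rfl⟩
    · rintro ⟨l, hl, rfl⟩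
      rcases Nat.lt_succ_iff_lt_or_eq.mp hl with hl | hl
      · exact Or.inl ⟨l, hl, rfl⟩
      · right
        congr 1
        exact Fin.ext hl

end

/-- data bundled for the final theorem -/
theorem main (hRing : Spec.RINGE) (hStab : Spec.STAB) (hH : Spec.HVAN ∧ Spec.HSTABLE)
    (hMax : Spec.MAXGEN) (hPI : Spec.PI) (hMin : Spec.MINPR) (hMov : Spec.MOVES)
    (hMov0 : Spec.MOVES0) (hKp : Spec.KEYp) (hK0 : Spec.KEY0)
    (p : ℕ) [Fact p.Prime] (n : ℕ) (hn : 1 ≤ n)
    (Γ : FormalGroup (GaloisField p n)) [Γ.IsComm]
    (hΓ : mulSeries Γ p = PowerSeries.X ^ (p ^ n))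
    (H : FormalGroup (LTRing p n)) [H.IsComm] (hU : IsUniversalDeformation p n Γ H)
    (M : ℕ) :
    (∀ P : Ideal (LTRing p n),
        (P.IsPrime ∧ IsStableIdeal p n Γ H M P) ↔ ∃ h : ℕ, h ≤ n ∧ P = heightIdeal p n H h) ∧
    (∀ J : Ideal (LTRing p n),
        (J.IsRadical ∧ IsStableIdeal p n Γ H M J) ↔
          (∃ h : ℕ, h ≤ n ∧ J = heightIdeal p n H h) ∨ J = ⊤) := by
  have hS : Setup p n Γ H := ⟨hn, inferInstance, inferInstance, hΓ, hU⟩
  obtain ⟨hdom, hnoeth, hloc, hmax, hcomplete, hsurj, hres, hinf, hmE⟩ := hRing p n hn
  haveI := hdom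
  obtain ⟨hu0, hvan⟩ := hH.1 p n Γ H hS
  have hstab := hH.2 p n Γ H hS
  have hIn : heightIdeal p n H n = mE p n := hMax p n Γ H hS
  have hmEmax : (mE p n).IsMaximal := RingHom.ker_isMaximal_of_surjective _ hsurj
  have hmE' : IsLocalRing.maximalIdeal (LTRing p n) = mE p n := hmax _
  -- proper ideals are contained in mE
  have hle_mE : ∀ J : Ideal (LTRing p n), J ≠ ⊤ → J ≤ mE p n := by
    intro J hJ
    rw [← hmE']
    exact IsLocalRing.le_maximalIdeal hJ
  have hIle : ∀ h, h ≤ n → heightIdeal p n H h ≤ mE p n := by
    intro h hh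
    rw [← hIn]
    exact hI_mono hh
  -- p ≠ 0
  have hp0 : (p : LTRing p n) ≠ 0 := by
    intro h0
    have h1 : (MvPowerSeries.constantCoeff (p : LTRing p n) : WittVector p (GaloisField p n)) = 0 := by
      rw [h0, map_zero]
    rw [map_natCast] at h1
    exact WittVector.p_nonzero p (GaloisField p n) h1
  -- the height ideals are prime
  have hprime : ∀ h, h ≤ n → (heightIdeal p n H h).IsPrime := by
    intro h hh
    rcases Nat.eq_zero_or_pos h with rfl | hpos
    · change (⊥ : Ideal (LTRing p n)).IsPrime
      exact Ideal.isPrime_bot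
    · rcases Nat.lt_or_ge h n with hlt | hge
      · obtain ⟨π, hπs, hπk, -, -, -⟩ := hPI p n Γ H hS h hpos hlt
        rw [← hπk]
        haveI : IsDomain (MvPowerSeries (Fin (n - h)) (GaloisField p n)) :=
          NoZeroDivisors.to_isDomain _
        exact RingHom.ker_isPrime π
      · have : h = n := le_antisymm hh hge
        subst this
        rw [hIn]
        exact hmEmax.isPrime
  -- stability of the height ideals
  have hIstab : ∀ h, h ≤ n → ∀ M, IsStableIdeal p n Γ H M (heightIdeal p n H h) := by
    intro h hh M g φ hg _ hφ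
    exact (hstab h hh g φ hg hφ).1
  -- classification of stable primes
  have hclass : ∀ j h, h + j = n → ∀ (M : ℕ) (P : Ideal (LTRing p n)), P.IsPrime →
      IsStableIdeal p n Γ H M P → heightIdeal p n H h ≤ P →
      ∃ h', h ≤ h' ∧ h' ≤ n ∧ P = heightIdeal p n H h' := by
    intro j
    induction j with
    | zero =>
      intro h hh M P hP hPs hle
      have : h = n := by omega
      subst this
      refine ⟨h, le_refl _, le_refl _, ?_⟩
      rw [hIn] at hle ⊢
      exact (hmEmax.eq_of_le hP.ne_top hle).symm
    | succ j ih =>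
      intro h hh M P hP hPs hle
      have hhn : h < n := by omega
      by_cases hu : uu H h ∈ P
      · have hle' : heightIdeal p n H (h + 1) ≤ P := by
          rw [hI_succ]
          exact sup_le hle ((Ideal.span_singleton_le_iff_mem _).mpr hu)
        obtain ⟨h', h1, h2, h3⟩ := ih (h + 1) (by omega) M P hP hPs hle'
        exact ⟨h', by omega, h2, h3⟩
      · -- the ideal P + (u_h)
        set J : Ideal (LTRing p n) := P ⊔ Ideal.span {uu H h} with hJ
        have hPm : P ≤ mE p n := hle_mE P hP.ne_top
        have huh : uu H h ∈ mE p n := by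
          rw [← hIn]; exact uu_mem hhn
        have hJm : J ≤ mE p n := sup_le hPm ((Ideal.span_singleton_le_iff_mem _).mpr huh)
        have hJtop : J ≠ ⊤ := fun h0 => hmEmax.ne_top (top_le_iff.mp (h0 ▸ hJm))
        have hJstab : IsStableIdeal p n Γ H M J := by
          intro g φ hg hgM hφ
          have hbij := (hStab p n Γ H hS).2.2.2 g hg φ hφ
          have hbij' : Function.Bijective φ.toRingHom := hbij
          have hPφ : Ideal.comap φ.toRingHom P = P := hPs g φ hg hgM hφ
          have hPmap : P.map φ.toRingHom = P := by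
            conv_lhs => rw [← hPφ]
            exact Ideal.map_comap_of_surjective _ hbij'.2 P
          obtain ⟨c, hc, hcu⟩ := (hstab h hhn.le g φ hg hφ).2 hhn
          have hcuP : φ (uu H h) - c * uu H h ∈ P := hle hcu
          have hJmap : J.map φ.toRingHom = J := by
            rw [hJ, Ideal.map_sup, hPmap, Ideal.map_span, Set.image_singleton]
            apply le_antisymm
            · refine sup_le le_sup_left ((Ideal.span_singleton_le_iff_mem _).mpr ?_)
              have : φ.toRingHom (uu H h) = (φ (uu H h) - c * uu H h) + c * uu H h := by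
                change φ (uu H h) = _
                ring
              rw [this]
              exact add_mem (Ideal.mem_sup_left hcuP)
                (Ideal.mem_sup_right (Ideal.mul_mem_left _ _ (Ideal.mem_span_singleton_self _)))
            · refine sup_le le_sup_left ((Ideal.span_singleton_le_iff_mem _).mpr ?_)
              obtain ⟨c', hc'⟩ := hc.exists_left_inv
              have : uu H h = c' * φ.toRingHom (uu H h) -
                  c' * (φ (uu H h) - c * uu H h) := by
                change _ = c' * φ (uu H h) - _
                have : c' * c * uu H h = uu H h := by rw [hc', one_mul]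
                linear_combination -this
              have key : c' * φ.toRingHom (uu H h) - c' * (φ (uu H h) - c * uu H h) ∈
                  P ⊔ Ideal.span {φ.toRingHom (uu H h)} :=
                sub_mem (Ideal.mem_sup_right (Ideal.mul_mem_left _ _
                (Ideal.mem_span_singleton_self _)))
                (Ideal.mem_sup_left (Ideal.mul_mem_left _ _ hcuP))
              rw [← this] at key
              exact key
          conv_lhs => rw [← hJmap]
          exact Ideal.comap_map_of_bijective φ.toRingHom hbij'
        -- minimal primes of J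
        have hIJ : heightIdeal p n H (h + 1) ≤ J := by
          rw [hI_succ]
          exact sup_le (hle.trans le_sup_left) le_sup_right
        obtain ⟨M', hM', hmp⟩ := hMin p n Γ H hS M J hJstab
        obtain ⟨h₁, hh₁, hh₁n, hrad⟩ := radical_of_chain (hI_mono (p := p) (n := n) (H := H))
          J hJtop (fun Q hQ => ih (h + 1) (by omega) M' Q hQ.1.1 (hmp Q hQ) (hIJ.trans hQ.1.2))
        have hPle : P ≤ heightIdeal p n H h₁ := by
          rw [← hrad]
          exact le_sup_left.trans Ideal.le_radical
        refine ⟨h, le_refl _, hhn.le, ?_⟩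
        rcases Nat.eq_zero_or_pos h with rfl | hpos
        · -- stratum 0
          obtain ⟨Ψ, c, hS0, hM0, hIΨ⟩ := hMov0 p n Γ H hS M P hP hPs
          set ψ : LTRing p n →+* LTRing p n := (Ψ : LTRing p n →+* LTRing p n) with hψ
          have hbij : Function.Bijective ψ := Ψ.bijective
          have hPprime : (P.map ψ).IsPrime := by
            apply Ideal.map_isPrime_of_surjective hbij.2
            intro x hx
            have : x = 0 := hbij.1 (by rw [map_zero]; exact hx)
            rw [this]; exact zero_mem _
          have hpP : (p : LTRing p n) ∉ P := by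
            intro h0
            apply hu
            rw [hu0]; exact h0
          have hpP' : (p : LTRing p n) ∉ P.map ψ := by
            intro h0
            rw [← map_natCast ψ p, ← Ideal.mem_comap, Ideal.comap_map_of_bijective ψ hbij] at h0
            exact hpP h0
          have hle1 : P.map ψ ≤ heightIdeal p n (H.map ψ) h₁ := by
            rw [hIΨ]
            exact Ideal.map_mono hPle
          have hle2 : heightIdeal p n (H.map ψ) h₁ ≤
              (P.map ψ ⊔ heightIdeal p n (H.map ψ) 1).radical := by
            rw [hIΨ, hIΨ, ← Ideal.map_sup, ← hrad]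
            refine (Ideal.map_radical_le _).trans (Ideal.radical_mono (Ideal.map_mono ?_))
            rw [hJ]
            exact sup_le_sup_left (by rw [hI_succ]; exact le_sup_right) P
          have := hK0 p n Γ (H.map ψ) c hS0 (P.map ψ) hPprime hM0 hpP' h₁ (by omega) hh₁n hle1 hle2
          change P = ⊥
          rw [Ideal.map_eq_bot_iff_le_ker] at this
          rw [eq_bot_iff]
          intro x hx
          exact hbij.1 (by rw [map_zero]; exact this hx)
        · -- stratum h ≥ 1
          obtain ⟨π, hπs, hπk, hπC, hπX, hπc⟩ := hPI p n Γ H hS h hpos hhn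
          have hkerP : RingHom.ker π ≤ P := by rw [hπk]; exact hle
          obtain ⟨hStrat, hMo⟩ := hMov p n Γ H hS h (n - h) hpos (by omega) (by omega) π hπs hπk
            hπC hπX hπc M P hP hPs hle
          have hPprime : (P.map π).IsPrime := Ideal.map_isPrime_of_surjective hπs hkerP
          have hmem : ∀ y, π y ∈ P.map π → y ∈ P := by
            intro y hy
            rw [← Ideal.mem_comap, Ideal.comap_map_of_surjective _ hπs] at hy
            obtain ⟨a, ha, b, hb, rfl⟩ := Submodule.mem_sup.mp hy
            exact add_mem ha (hkerP (by simpa [RingHom.mem_ker] using hb))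
          have hvar := map_var (p := p) (n := n) (H := H) h (n - h) (by omega) π hπk hπX
          have hX0 : ∀ l : Fin (n - h), l.1 = 0 →
              (MvPowerSeries.X l : MvPowerSeries (Fin (n - h)) (GaloisField p n)) ∉ P.map π := by
            intro l hl h0
            have e : π (uu H h) = MvPowerSeries.X l := by
              have := hπX l
              rw [hl, Nat.add_zero] at this
              exact this
            rw [← e] at h0
            exact hu (hmem _ h0)
          have e1 : n - h - (n - h₁ + 1) + 1 = h₁ - h := by omega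
          have e2 : h + (h₁ - h) = h₁ := by omega
          have hv1 := hvar (h₁ - h) (by omega)
          rw [e2] at hv1
          have hv2 := hvar 1 (by omega)
          have hle1 : P.map π ≤ varIdeal (GaloisField p n) (n - h) (n - h - (n - h₁ + 1) + 1) := by
            rw [e1, ← hv1]
            exact Ideal.map_mono hPle
          have hle2 : varIdeal (GaloisField p n) (n - h) (n - h - (n - h₁ + 1) + 1) ≤
              (P.map π ⊔ varIdeal (GaloisField p n) (n - h) 1).radical := by
            rw [e1, ← hv1, ← hv2, ← Ideal.map_sup, ← hrad]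
            refine (Ideal.map_radical_le _).trans (Ideal.radical_mono (Ideal.map_mono ?_))
            rw [hJ]
            exact sup_le_sup_left (by rw [hI_succ]; exact le_sup_right) P
          have := hKp p n h (n - h) Γ (H.map π) hStrat (P.map π) hPprime hMo hX0
            (n - h₁ + 1) (by omega) (by omega) hle1 hle2
          rw [Ideal.map_eq_bot_iff_le_ker, hπk] at this
          exact le_antisymm this hle
  constructor
  · intro P
    constructor
    · rintro ⟨hP, hPs⟩
      obtain ⟨h', -, h2, h3⟩ := hclass n 0 (by omega) M P hP hPs (by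
        change (⊥ : Ideal (LTRing p n)) ≤ P
        exact bot_le)
      exact ⟨h', h2, h3⟩
    · rintro ⟨h, hh, rfl⟩
      exact ⟨hprime h hh, hIstab h hh M⟩
  · intro J
    constructor
    · rintro ⟨hJ, hJs⟩
      by_cases hJt : J = ⊤
      · exact Or.inr hJt
      · left
        obtain ⟨M', hM', hmp⟩ := hMin p n Γ H hS M J hJs
        obtain ⟨h₁, -, hh₁n, hrad⟩ := radical_of_chain (hI_mono (p := p) (n := n) (H := H))
          (h₀ := 0) (n := n) J hJt (fun Q hQ => by
            obtain ⟨h', h1, h2, h3⟩ := hclass n 0 (by omega) M' Q hQ.1.1 (hmp Q hQ) (by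
              change (⊥ : Ideal (LTRing p n)) ≤ Q
              exact bot_le)
            exact ⟨h', Nat.zero_le _, h2, h3⟩)
        exact ⟨h₁, hh₁n, by rw [← hrad]; exact hJ.radical.symm⟩
    · rintro (⟨h, hh, rfl⟩ | rfl)
      · exact ⟨(hprime h hh).isRadical, hIstab h hh M⟩
      · refine ⟨fun x _ => trivial, fun g φ _ _ _ => Ideal.comap_top⟩

end Crest.Agent.LT3SKEL
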