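import Crest.Agent.LT3Spec

set_option autoImplicit false
open Crest.LubinTate
open Crest Crest.GeometryTopology

namespace Crest.Agent.LT3SMALL

open LT3

/-- `x ^ (p ^ (n * K)) = x` on the field with `p ^ n` elements -/
theorem iterFrob_id (p : ℕ) [Fact p.Prime] (n : ℕ) (hn : 1 ≤ n) (K : ℕ) :
    iterateFrobenius (GaloisField p n) p (n * K) = RingHom.id _ := by
  ext x
  haveI : Fintype (GaloisField p n) := Fintype.ofFinite _
  have hc : Fintype.card (GaloisField p n) = p ^ n := by
    rw [← Nat.card_eq_fintype_card, GaloisField.card p n (by omega)]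
  have := FiniteField.pow_card_pow (K := GaloisField p n) K x
  rw [hc] at this
  rw [iterateFrobenius_def, pow_mul]
  simpa using this

/-- in the field with `Q = p ^ n` elements, `g(X^{Q^K}) = g(X)^{Q^K}` -/
theorem cmp_pow (p : ℕ) [Fact p.Prime] (n : ℕ) (hn : 1 ≤ n) (K : ℕ)
    (g : PowerSeries (GaloisField p n)) :
    cmp g (PowerSeries.X ^ (p ^ (n * K)) : PowerSeries (GaloisField p n)) =
      g ^ (p ^ (n * K)) := by
  have hp : p ≠ 0 := (Fact.out : p.Prime).ne_zero
  have h := MvPowerSeries.map_iterateFrobenius_expand (R := GaloisField p n) p hp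
    (σ := Unit) g (n * K)
  rw [iterFrob_id p n hn K] at h
  have h2 : cmp g (PowerSeries.X ^ (p ^ (n * K)) : PowerSeries (GaloisField p n)) =
      PowerSeries.expand (p ^ (n * K)) (pow_ne_zero _ hp) g := by
    rw [PowerSeries.expand_apply]; rfl
  rw [h2]
  refine Eq.trans ?_ h
  rw [MvPowerSeries.map_id]
  rfl

theorem main (hB : Spec.B5) : Spec.SMALL := by
  intro p _ n hn Γ K b hb hlow
  have hp1 : 1 < p := (Fact.out : p.Prime).one_lt
  obtain ⟨g, hg, hbg⟩ := hB p (GaloisField p n) Γ Γ b hb (n * K)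
    (fun i hi => hlow _ (Nat.pow_lt_pow_right hp1 hi))
  rw [iterFrob_id p n hn K] at hg
  have hid : Γ.map (RingHom.id (GaloisField p n)) = Γ := by
    ext1
    simp [MvPowerSeries.map_id]
  rw [hid] at hg
  exact ⟨g, hg, by rw [hbg, cmp_pow p n hn K]⟩

end Crest.Agent.LT3SMALL
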