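/- rid 227 (S0351), module STAB: existence, uniqueness, composition, bijectivity of the
   stabilizer maps (helper22). -/
import Crest.Agent.LT3Spec

set_option autoImplicit false
open Crest.LubinTate
open Crest Crest.GeometryTopology

namespace Crest.Agent.LT3STAB

open Crest.Agent.LT3

theorem map_map_fg {R S T : Type} [CommRing R] [CommRing S] [CommRing T] (F : FormalGroup R)
    (f : R →+* S) (g : S →+* T) : (F.map f).map g = F.map (g.comp f) := by
  apply FormalGroup.ext
  ext e
  simp [FormalGroup.map]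

theorem map_id_fg {R : Type} [CommRing R] (F : FormalGroup R) :
    F.map (RingHom.id R) = F := by
  apply FormalGroup.ext
  ext e
  simp [FormalGroup.map]

section

variable (A : ApiA) (B : ApiB) (hR : LT3.Spec.RINGE)
variable {p : ℕ} [Fact p.Prime] {n : ℕ} {Γ : FormalGroup (GaloisField p n)}
  {H : FormalGroup (LTRing p n)}

include hR in
/-- the universal property with `B = E`. -/
theorem univ (hs : Setup p n Γ H) (G : FormalGroup (LTRing p n))
    (hG : G.map (LTRing.residue p n) = Γ) :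
    ∃! φ : LTRing p n →ₐ[WittVector p (GaloisField p n)] LTRing p n,
      (LTRing.residue p n).comp φ.toRingHom = LTRing.residue p n ∧
      ∃ θ : PowerSeries (LTRing p n), IsFGHom (H.map φ.toRingHom) G θ ∧
        PowerSeries.map (LTRing.residue p n) θ = PowerSeries.X := by
  obtain ⟨h1, h2, h3, h4, h5, h6, h7, h8, h9⟩ := hR p n hs.hn
  have h4' := h4 h3
  refine hs.hH.2 (LTRing p n) ?_ (LTRing.residue p n) h6 ?_ h7 G hG
  · rw [h4']; exact h5
  · rw [h4']; rfl

include hR in
theorem isUnit_of_res (hs : Setup p n Γ H) {x : LTRing p n}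
    (hx : IsUnit (LTRing.residue p n x)) : IsUnit x := by
  obtain ⟨h1, h2, h3, h4, h5, h6, h7, h8, h9⟩ := hR p n hs.hn
  have h4' := h4 h3
  by_contra hc
  have : x ∈ IsLocalRing.maximalIdeal (LTRing p n) := (IsLocalRing.mem_maximalIdeal x).2 hc
  rw [h4'] at this
  have h0 : LTRing.residue p n x = 0 := this
  rw [h0] at hx
  exact not_isUnit_zero hx

include B hR in
theorem exist (hs : Setup p n Γ H) (g : PowerSeries (GaloisField p n)) (hg : IsFGAut Γ g) :
    ∃ φ, IsStabilizerMap p n H g φ := by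
  obtain ⟨h1, h2, h3, h4, h5, h6, h7, h8, h9⟩ := hR p n hs.hn
  -- lift `g`
  let gt : PowerSeries (LTRing p n) := PowerSeries.mk
    (fun i => if i = 0 then 0 else (Function.surjInv h6) (PowerSeries.coeff i g))
  have hgt : PowerSeries.map (LTRing.residue p n) gt = g := by
    ext i
    rw [PowerSeries.coeff_map, PowerSeries.coeff_mk]
    split_ifs with hi
    · subst hi
      rw [map_zero, PowerSeries.coeff_zero_eq_constantCoeff_apply, hg.1.1]
    · exact Function.surjInv_eq h6 _
  have hzc : ZC gt := by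
    show PowerSeries.constantCoeff gt = 0
    rw [← PowerSeries.coeff_zero_eq_constantCoeff_apply, PowerSeries.coeff_mk]
    simp
  have hu : IsUnit (PowerSeries.coeff 1 gt) := by
    apply isUnit_of_res hR hs
    rw [← PowerSeries.coeff_map, hgt]
    exact hg.2
  obtain ⟨F', hF', -⟩ := B.transport H hzc hu
  have hred : F'.map (LTRing.residue p n) = Γ := by
    have e1 := B.hom_map (LTRing.residue p n) hF'
    rw [hgt, hs.hH.1] at e1
    exact B.transport_unique hg.2 e1 hg.1
  obtain ⟨φ, ⟨hφ, θ0, hθ0, hθr⟩, -⟩ := univ hR hs F' hred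
  refine ⟨φ, hφ, cmp gt θ0, B.hom_comp hθ0 hF', ?_⟩
  have hz0 : ZC θ0 := hθ0.1
  have := B.cmp_map (LTRing.residue p n) (φ := gt) (a := θ0) hz0
  have e2 : (PowerSeries.map (LTRing.residue p n) (cmp gt θ0 : PowerSeries (LTRing p n)))
      = cmp (PowerSeries.map (LTRing.residue p n) gt)
        (PowerSeries.map (LTRing.residue p n) θ0) := this
  rw [e2, hgt, hθr, B.cmp_X]

include hR B in
theorem uniq (hs : Setup p n Γ H) (g : PowerSeries (GaloisField p n)) (hg : IsFGAut Γ g)
    (φ φ' : LTRing p n →ₐ[WittVector p (GaloisField p n)] LTRing p n)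
    (h : IsStabilizerMap p n H g φ) (h' : IsStabilizerMap p n H g φ') : φ = φ' := by
  obtain ⟨hφ, θ, hθ, hθr⟩ := h
  obtain ⟨hφ', θ', hθ', hθr'⟩ := h'
  have hu : IsUnit (PowerSeries.coeff 1 θ) := by
    apply isUnit_of_res hR hs
    rw [← PowerSeries.coeff_map, hθr]
    exact hg.2
  obtain ⟨ψ, hψ, hψ1, hψ2⟩ := B.hom_inv hθ hu
  have hG : (H.map φ.toRingHom).map (LTRing.residue p n) = Γ := by
    rw [map_map_fg, hφ, hs.hH.1]
  have hU := univ hR hs (H.map φ.toRingHom) hG
  refine hU.unique ⟨hφ, PowerSeries.X, B.hom_X _, by simp⟩ ⟨hφ', cmp ψ θ', B.hom_comp hθ' hψ, ?_⟩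
  have e1 : (PowerSeries.map (LTRing.residue p n) (cmp ψ θ' : PowerSeries (LTRing p n)))
      = cmp (PowerSeries.map (LTRing.residue p n) ψ)
        (PowerSeries.map (LTRing.residue p n) θ') :=
    B.cmp_map (LTRing.residue p n) (φ := ψ) (a := θ') hθ'.1
  have e2 : (PowerSeries.map (LTRing.residue p n) (cmp ψ θ : PowerSeries (LTRing p n)))
      = cmp (PowerSeries.map (LTRing.residue p n) ψ)
        (PowerSeries.map (LTRing.residue p n) θ) :=
    B.cmp_map (LTRing.residue p n) (φ := ψ) (a := θ) hθ.1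
  rw [e1, hθr', ← hθr, ← e2, hψ2]
  simp

include B in
theorem comp_stab (hs : Setup p n Γ H) (g g' : PowerSeries (GaloisField p n))
    (φ φ' : LTRing p n →ₐ[WittVector p (GaloisField p n)] LTRing p n)
    (h : IsStabilizerMap p n H g φ) (h' : IsStabilizerMap p n H g' φ') :
    IsStabilizerMap p n H (cmp g g') (φ.comp φ') := by
  obtain ⟨hφ, θ, hθ, hθr⟩ := h
  obtain ⟨hφ', θ', hθ', hθr'⟩ := h'
  have hc : (φ.comp φ').toRingHom = φ.toRingHom.comp φ'.toRingHom := rfl
  refine ⟨?_, cmp θ (PowerSeries.map φ.toRingHom θ'), ?_, ?_⟩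
  · rw [hc, ← RingHom.comp_assoc, hφ, hφ']
  · rw [hc, ← map_map_fg]
    exact B.hom_comp (B.hom_map φ.toRingHom hθ') hθ
  · have e0 : ZC (PowerSeries.map φ.toRingHom θ') := (B.hom_map φ.toRingHom hθ').1
    have e1 : (PowerSeries.map (LTRing.residue p n)
        (cmp θ (PowerSeries.map φ.toRingHom θ') : PowerSeries (LTRing p n)))
      = cmp (PowerSeries.map (LTRing.residue p n) θ)
        (PowerSeries.map (LTRing.residue p n) (PowerSeries.map φ.toRingHom θ')) :=
      B.cmp_map (LTRing.residue p n) (φ := θ) (a := PowerSeries.map φ.toRingHom θ') e0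
    have e2 : PowerSeries.map (LTRing.residue p n) (PowerSeries.map φ.toRingHom θ') = g' := by
      rw [← hθr']
      ext i
      simp only [PowerSeries.coeff_map]
      exact DFunLike.congr_fun hφ _
    rw [e1, hθr, e2]

theorem stab_id (B : ApiB) (hs : Setup p n Γ H) :
    IsStabilizerMap p n H PowerSeries.X
      (AlgHom.id (WittVector p (GaloisField p n)) (LTRing p n)) := by
  refine ⟨rfl, PowerSeries.X, ?_, by simp⟩
  have : H.map (AlgHom.id (WittVector p (GaloisField p n)) (LTRing p n)).toRingHom = H :=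
    map_id_fg H
  rw [this]
  exact B.hom_X H

include hR B in
theorem bij (hs : Setup p n Γ H) (g : PowerSeries (GaloisField p n)) (hg : IsFGAut Γ g)
    (φ : LTRing p n →ₐ[WittVector p (GaloisField p n)] LTRing p n)
    (h : IsStabilizerMap p n H g φ) : Function.Bijective φ := by
  obtain ⟨g', hg', hg1, hg2⟩ := B.hom_inv hg.1 hg.2
  have hX : IsFGAut Γ PowerSeries.X := ⟨B.hom_X Γ, by simp⟩
  have hu' : IsUnit (PowerSeries.coeff 1 g') := by
    have := B.coeff_one_cmp (φ := g) (a := g') hg.1.1 hg'.1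
    rw [hg1, PowerSeries.coeff_one_X] at this
    exact IsUnit.of_mul_eq_one _ (by rw [mul_comm]; exact this.symm)
  obtain ⟨φ', hφ'⟩ := exist B hR hs g' ⟨hg', hu'⟩
  have c1 := comp_stab B hs g g' φ φ' h hφ'
  have c2 := comp_stab B hs g' g φ' φ hφ' h
  have hg1' : (cmp g g' : PowerSeries (GaloisField p n)) = PowerSeries.X := hg1
  have hg2' : (cmp g' g : PowerSeries (GaloisField p n)) = PowerSeries.X := hg2
  rw [hg1'] at c1
  rw [hg2'] at c2
  have d1 := uniq B hR hs _ hX _ _ c1 (stab_id B hs)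
  have d2 := uniq B hR hs _ hX _ _ c2 (stab_id B hs)
  refine Function.bijective_iff_has_inverse.2 ⟨φ', fun x => ?_, fun x => ?_⟩
  · exact DFunLike.congr_fun d2 x
  · exact DFunLike.congr_fun d1 x

end

theorem main (B : ApiB) (hR : LT3.Spec.RINGE) : LT3.Spec.STAB := by
  intro p _ n Γ H hs
  refine ⟨fun g hg => exist B hR hs g hg, fun g hg φ φ' h h' => uniq B hR hs g hg φ φ' h h',
    fun g g' hg hg' φ φ' h h' => comp_stab B hs g g' φ φ' h h',
    fun g hg φ h => bij B hR hs g hg φ h⟩

end Crest.Agent.LT3STAB
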