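/- rid 227 (S0351): discharge of the E-level modules. -/
import Crest.Agent.LT3SKEL
import Crest.Agent.LT3APIA
import Crest.Agent.LT3APIB
import Crest.Agent.LT3APIC
import Crest.Agent.LT3APID
import Crest.Agent.LT3B5
import Crest.Agent.LT3LAZ
import Crest.Agent.LT3END
import Crest.Agent.LT3SMALL
import Crest.Agent.LT3RINGE
import Crest.Agent.LT3QUOTR
import Crest.Agent.LT3STAB
import Crest.Agent.LT3MOVEE
import Crest.Agent.LT3MAXGEN
import Crest.Agent.LT3COORD
import Crest.Agent.LT3HSTAB
import Crest.Agent.LT3MINPR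
import Crest.Agent.LT3MOVES

set_option autoImplicit false
open Crest.LubinTate
open Crest Crest.GeometryTopology
open Crest.Agent.LT3

namespace Crest.Agent.LT3ALLE

theorem aA : ApiA := LT3APIA.main
theorem aB : ApiB := LT3APIB.main aA
theorem aC : ApiC := LT3APIC.main aA aB
theorem aD : ApiD := LT3APID.main aA aB aC
theorem ringe : Spec.RINGE := LT3RINGE.main
theorem krull : Spec.KRULL := LT3RINGE.krull
theorem b5 : Spec.B5 := LT3B5.main
theorem b5' : Spec.B5' := LT3B5.main'
theorem end_ : Spec.END := LT3END.main LT3LAZ.main aA aB aC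
theorem small : Spec.SMALL := LT3SMALL.main b5
theorem quotr : Spec.QUOTR := LT3QUOTR.main ringe
theorem stab : Spec.STAB := LT3STAB.main aB ringe
theorem movee : Spec.MOVEE := LT3MOVEE.main aA aB aC aD quotr
theorem cont : Spec.CONT := LT3MOVEE.cont aA aB aC aD quotr small
theorem maxgen : Spec.MAXGEN := LT3MAXGEN.main aB aC ringe b5 quotr
theorem coord : Spec.COORD := (LT3COORD.main ringe maxgen aC).1
theorem pi_ : Spec.PI := (LT3COORD.main ringe maxgen aC).2
theorem hstab : Spec.HVAN ∧ Spec.HSTABLE := LT3HSTAB.main aA aB aC b5' ringe stab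
theorem minpr : Spec.MINPR := LT3MINPR.main ringe krull stab cont
theorem moves : Spec.MOVES := LT3MOVES.main aA aB aC stab movee hstab.1 hstab.2
theorem moves0 : Spec.MOVES0 := LT3MOVES.main0 aA aB aC stab movee hstab.1 coord

end Crest.Agent.LT3ALLE
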