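/- rid 227 (S0351): specification file, instalment 2b (characteristic p strata: torsion points,
   growth functions, moves, field theory, final argument). One Prop `Spec3.XXX` per module. -/
import Crest.Agent.LT3Spec2

set_option autoImplicit false
open Crest.LubinTate
open Crest Crest.GeometryTopology

namespace Crest.Agent.LT3

/-- `λ(z) = -log ‖z‖` (junk at `0`). -/
noncomputable def lam {C : Type} [NormedField C] (z : C) : ℝ := -Real.log ‖z‖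

/-- Weierstrass data of `[p^N]_F`, `F` over `R = k[[X_0..X_{d-1}]]`:
`[p^N]_F = (f U)(X^{p^{hN}})`, `f` distinguished of degree `p^{dN}`, `U ≡ 1 mod 𝔪`. -/
structure Wei {k : Type} [Field k] (p h d : ℕ) (F : FormalGroup (MvPowerSeries (Fin d) k)) (N : ℕ)
    (f : Polynomial (MvPowerSeries (Fin d) k)) (U : PowerSeries (MvPowerSeries (Fin d) k)) :
    Prop where
  monic : f.Monic
  deg : f.natDegree = p ^ (d * N)
  low : ∀ i, i < p ^ (d * N) → f.coeff i ∈ mR k d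
  zero : f.coeff 0 = 0
  U1 : ∀ i, PowerSeries.coeff i (U - 1) ∈ mR k d
  eq : mulSeries F (p ^ N) =
    cmp ((f : PowerSeries (MvPowerSeries (Fin d) k)) * U) (PowerSeries.X ^ (p ^ (h * N)) :
      PowerSeries (MvPowerSeries (Fin d) k))
  /-- linear coefficient of `f U` -/
  lin : ∀ l : Fin d, l.1 = 0 →
    PowerSeries.coeff 1 ((f : PowerSeries (MvPowerSeries (Fin d) k)) * U) =
      (MvPowerSeries.X l) ^ (∑ i ∈ Finset.range N, (p ^ h) ^ i)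

open Classical in
/-- Torsion system of an integral formal group `G` over `C`: `T N` = the `p^N`-torsion points. -/
structure TSys (p h d : ℕ) {C : Type} [NontriviallyNormedField C] (G : FormalGroup C) (w0 : C)
    (T : ℕ → Finset C) : Prop where
  hd : 1 ≤ d
  hh : 1 ≤ h
  ig : IG G
  mem : ∀ N t, t ∈ T N ↔ ‖t‖ < 1 ∧ gmul G (p ^ N) t = 0
  card : ∀ N, (T N).card = p ^ (d * N)
  /-- product formula -/
  prod : ∀ N (y : C), ‖y‖ < 1 → ∃ u : C, ‖u - 1‖ < 1 ∧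
    gmul G (p ^ N) y = u * ∏ t ∈ T N, (y - t) ^ (p ^ (h * N))
  w0_ne : w0 ≠ 0
  w0_lt : ‖w0‖ < 1
  w0_prod : ‖w0‖ = ∏ t ∈ (T 1).erase 0, ‖t‖ ^ (p ^ h)
  surj : ∀ N, ∀ t ∈ T N, ∃ t' ∈ T (N + 1), gmul G p t' = t
  /-- `[p^m]` near a torsion point -/
  lin : ∀ m, ∀ t ∈ T m, ∃ c : C, c ≠ 0 ∧ ∀ z : C, ‖z‖ < 1 →
    ‖gmul G (p ^ m) z - c * (z ^ (p ^ (h * m)) - t ^ (p ^ (h * m)))‖ ≤
      ‖z ^ (p ^ (h * m)) - t ^ (p ^ (h * m))‖ ^ 2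

open Classical in
/-- `S_N(η) = q^N Σ_{t ∈ T_N} min(η, λ(t))`, `λ(0) = ∞`. -/
noncomputable def SNf {C : Type} [NormedField C] (p h : ℕ) (T : ℕ → Finset C)
    (N : ℕ) (η : ℝ) : ℝ :=
  (p : ℝ) ^ (h * N) * ∑ t ∈ T N, (if t = 0 then η else min η (lam t))

open Classical in
/-- number of `t ∈ T_N` with `t = 0` or `λ(t) ≥ η`. -/
noncomputable def cntf {C : Type} [NormedField C] (T : ℕ → Finset C) (N : ℕ) (η : ℝ) : ℕ :=
  ((T N).filter (fun t => t = 0 ∨ η ≤ lam t)).card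

open Classical in
/-- Growth functions of a torsion system. `V = Q^N η` is the normalised valuation. -/
structure Scale (p n h d : ℕ) {C : Type} [NontriviallyNormedField C] (G : FormalGroup C) (w0 : C)
    (T : ℕ → Finset C) (σ : ℝ) (S : ℝ → ℝ) (c : ℝ → ℕ) (V₀ : ℝ) : Prop where
  σpos : 0 < σ
  σmin : ∀ t ∈ T 1, t ≠ 0 → σ ≤ lam t
  σatt : ∃ t ∈ T 1, t ≠ 0 ∧ lam t = σ
  V₀pos : 0 < V₀
  hS : ∀ N η, 0 < η → η < σ → SNf p h T N η = S ((p : ℝ) ^ (n * N) * η)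
  hc : ∀ N η, 0 < η → η < σ → p ^ (c ((p : ℝ) ^ (n * N) * η)) * cntf T N η = p ^ (d * N)
  Spos : ∀ V, 0 < V → 0 < S V
  Smono : StrictMonoOn S (Set.Ioi 0)
  cmono : MonotoneOn c (Set.Ioi 0)
  Sstep : ∀ V, V₀ ≤ V → S ((p : ℝ) ^ n * V) = (p : ℝ) ^ h * S V + lam w0
  cstep : ∀ V, V₀ ≤ V → c ((p : ℝ) ^ n * V) = c V + d
  w0pos : 0 < lam w0
  /-- action of `[p]` on valuations -/
  mul_lt : ∀ z : C, z ≠ 0 → ‖z‖ < 1 → lam z < σ →
    gmul G p z ≠ 0 ∧ lam (gmul G p z) = (p : ℝ) ^ n * lam z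
  mul_ge : ∀ z : C, z ≠ 0 → ‖z‖ < 1 → σ ≤ lam z →
    gmul G p z = 0 ∨ (p : ℝ) ^ n * σ ≤ lam (gmul G p z)
  mul_q : ∀ z : C, z ≠ 0 → ‖z‖ < 1 → gmul G p z = 0 ∨ (p : ℝ) ^ h * lam z ≤ lam (gmul G p z)

/-- `V` is not a break: no torsion point has normalised valuation `V`. -/
def NBV (p n : ℕ) {C : Type} [NormedField C] (T : ℕ → Finset C) (σ : ℝ) (V : ℝ) : Prop :=
  ∀ N : ℕ, V / (p : ℝ) ^ (n * N) < σ → ∀ t ∈ T N, t ≠ 0 → lam t ≠ V / (p : ℝ) ^ (n * N)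

/-- compatible sequence of torsion points. -/
structure IsSeq (p : ℕ) {C : Type} [NormedField C] (G : FormalGroup C) (T : ℕ → Finset C)
    (τ : ℕ → C) : Prop where
  zero : τ 0 = 0
  mem : ∀ N, τ N ∈ T N
  step : ∀ N, gmul G p (τ (N + 1)) = τ N

/-- the normalised valuation of the sequence is `V`. -/
def HasV (p n : ℕ) {C : Type} [NormedField C] (τ : ℕ → C) (V : ℝ) : Prop :=
  ∃ N₀ : ℕ, ∀ N, N₀ ≤ N → τ N ≠ 0 ∧ lam (τ N) = V / (p : ℝ) ^ (n * N)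

/-- residues of the sequences `τ_i` are linearly independent over `F_p`. -/
def Indep (p : ℕ) {C : Type} [NormedField C] {s : ℕ} (τ : Fin s → ℕ → C) : Prop :=
  ∃ N₀ : ℕ, ∀ N, N₀ ≤ N → ∀ b : Fin s → ℕ, (∀ i, b i < p) → (∃ i, b i ≠ 0) →
    ∀ i', ‖∑ i, (b i : C) * τ i N‖ = ‖τ i' N‖

/-- `p^l τ`. -/
def shift {C : Type} (l : ℕ) (τ : ℕ → C) : ℕ → C := fun N => τ (N - l)

/-- the derivative functional `e_t(δ) = Σ_i (∂_i [p]_F)(t) δ_i` at the point `x`. -/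
noncomputable def ee {k : Type} [Field k] {C : Type} [NormedField C] {d : ℕ} (p : ℕ)
    (F : FormalGroup (MvPowerSeries (Fin d) k)) (x : MvPowerSeries (Fin d) k →+* C) (t : C)
    (δ : Fin d → C) : C :=
  ∑ i, ev (PowerSeries.mk fun j =>
    x (MvPowerSeries.pderiv k i (PowerSeries.coeff j (mulSeries F p)))) t * δ i

/-- the tangent space `{δ : df(δ) = 0 for all f with x f = 0}`. -/
def TT {k : Type} [Field k] {C : Type} [NormedField C] {d : ℕ}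
    (x : MvPowerSeries (Fin d) k →+* C) : Submodule C (Fin d → C) where
  carrier := {δ | ∀ f, x f = 0 → ∑ i, x (MvPowerSeries.pderiv k i f) * δ i = 0}
  zero_mem' := by intro f _; simp
  add_mem' := by
    intro a b ha hb f hf
    have h1 := ha f hf
    have h2 := hb f hf
    simp only [Pi.add_apply, mul_add, Finset.sum_add_distrib]
    rw [h1, h2, add_zero]
  smul_mem' := by
    intro c a ha f hf
    have := ha f hf
    simp only [Pi.smul_apply, smul_eq_mul]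
    calc ∑ i, x (MvPowerSeries.pderiv k i f) * (c * a i)
        = c * ∑ i, x (MvPowerSeries.pderiv k i f) * a i := by
          rw [Finset.mul_sum]; congr 1; ext i; ring
      _ = 0 := by rw [this, mul_zero]

/-- discreteness of the values on fields generated over `x(R)` by one algebraic element. -/
def Disc {R C : Type} [CommRing R] [NormedField C] (x : R →+* C) : Prop :=
  ∀ ζ : C, (∃ f : Polynomial R, f.map x ≠ 0 ∧ f.eval₂ x ζ = 0) →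
    ∃ (D : ℕ) (s : ℝ), 0 < D ∧ 0 < s ∧ s < 1 ∧
      ∀ y ∈ Subfield.closure (Set.range x ∪ {ζ}), y ≠ 0 → ∃ a : ℤ, ‖y‖ ^ D = s ^ a

/-- A move of the analytic point `x` (parameters `K`, `m`, `ω`). -/
structure Move (p n h : ℕ) {k : Type} [Field k] {C : Type} [NormedField C] {d : ℕ}
    (F : FormalGroup (MvPowerSeries (Fin d) k)) (ι : k →+* C) (w : Fin d → C)
    (x : MvPowerSeries (Fin d) k →+* C) (ρ : ℝ) (K m : ℕ) (ω : k) (w' : Fin d → C)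
    (x' : MvPowerSeries (Fin d) k →+* C) (ψ : C → C) : Prop where
  isEv : IsEv ι w' x'
  ker : ∀ f, x' f = 0 ↔ x f = 0
  near : ∀ i, ‖w' i - w i‖ ≤ ρ ^ (K + 1)
  norm : ∀ z : C, ‖z‖ < 1 → ‖ψ z‖ = ‖z‖
  isom : ∀ z z' : C, ‖z‖ < 1 → ‖z'‖ < 1 → ‖ψ z - ψ z'‖ = ‖z - z'‖
  hom : ∀ z z' : C, ‖z‖ < 1 → ‖z'‖ < 1 →
    ψ (gadd (F.map x) z z') = gadd (F.map x') (ψ z) (ψ z')
  close : ∀ z : C, ‖z‖ < 1 → ‖ψ z - z‖ ≤ max (ρ ^ (K + 1)) (‖z‖ ^ (p ^ (h * K)))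
  lead : ∀ z : C, ‖z‖ < 1 → ρ < ‖z‖ ^ (p ^ (m + n * K)) →
    ‖gsub (F.map x) (ψ z) z + ι ω * z ^ (p ^ (m + n * K))‖ < ‖z‖ ^ (p ^ (m + n * K))

/-- The analytic system attached to the stratum and the prime `P = ker x`. -/
structure Sys (p : ℕ) [Fact p.Prime] (n h d r : ℕ) {C : Type} [NontriviallyNormedField C]
    (Γ : FormalGroup (GaloisField p n)) (F : FormalGroup (MvPowerSeries (Fin d) (GaloisField p n)))
    (ι : GaloisField p n →+* C) (w : Fin d → C)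
    (x : MvPowerSeries (Fin d) (GaloisField p n) →+* C) (i0 : Fin d) (ρ : ℝ)
    (T : ℕ → Finset C) (σ : ℝ) (S : ℝ → ℝ) (c : ℝ → ℕ) (V₀ : ℝ) : Prop where
  st : Strat p n h d Γ F
  hr : 1 ≤ r
  hrd : r ≤ d
  isEv : IsEv ι w x
  hi0 : i0.1 = 0
  hw0 : w i0 ≠ 0
  hρ : ∀ i, ‖w i‖ ≤ ρ
  hρ1 : ρ < 1
  cod : ∀ i : Fin d, d - r + 1 ≤ i.1 → ‖w i‖ ≤ ‖w i0‖
  disc : Disc x
  dim : Module.finrank C (TT x) ≤ r
  ts : TSys p h d (F.map x) (w i0) T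
  sc : Scale p n h d (F.map x) (w i0) T σ S c V₀
  /-- moves exist for all large `K` -/
  mv : ∃ K₀ : ℕ, ∀ K, K₀ ≤ K → ∀ (m : ℕ) (ω : GaloisField p n),
    ∃ w' x' ψ, Move p n h F ι w x ρ K m ω w' x' ψ

namespace Spec3

/-- WEI: Weierstrass data exist. -/
def WEI : Prop :=
  ∀ (p : ℕ) [Fact p.Prime] (n h d : ℕ) (Γ : FormalGroup (GaloisField p n))
    (F : FormalGroup (MvPowerSeries (Fin d) (GaloisField p n))), Strat p n h d Γ F →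
    ∀ N : ℕ, ∃ f U, Wei p h d F N f U

/-- TOR: the torsion system at an evaluation point with `w_0 ≠ 0`; also `f^x` is separable with
roots `t^{q^N}`. -/
def TOR : Prop :=
  ∀ (p : ℕ) [Fact p.Prime] (n h d : ℕ) (Γ : FormalGroup (GaloisField p n))
    (F : FormalGroup (MvPowerSeries (Fin d) (GaloisField p n))), Strat p n h d Γ F →
    ∀ (C : Type) [NontriviallyNormedField C] [CompleteSpace C] [IsUltrametricDist C]
      [IsAlgClosed C] [CharP C p] (ι : GaloisField p n →+* C) (w : Fin d → C)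
      (x : MvPowerSeries (Fin d) (GaloisField p n) →+* C), IsEv ι w x → ∀ i0 : Fin d,
      i0.1 = 0 → w i0 ≠ 0 →
      (∃ T : ℕ → Finset C, TSys p h d (F.map x) (w i0) T) ∧
      (∀ N f U, Wei p h d F N f U → (f.map x).Separable) ∧
      (∀ N f U, Wei p h d F N f U → ∀ z : C, ‖z‖ < 1 → gmul (F.map x) (p ^ N) z = 0 →
        (f.map x).eval (z ^ (p ^ (h * N))) = 0)

/-- COD: few torsion points of small norm. -/
def COD : Prop :=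
  ∀ (p : ℕ) [Fact p.Prime] (n h d r : ℕ) (C : Type) [NontriviallyNormedField C] [CompleteSpace C]
    [IsUltrametricDist C] [IsAlgClosed C] [CharP C p] (Γ : FormalGroup (GaloisField p n))
    (F : FormalGroup (MvPowerSeries (Fin d) (GaloisField p n))) (ι : GaloisField p n →+* C)
    (w : Fin d → C) (x : MvPowerSeries (Fin d) (GaloisField p n) →+* C) (i0 : Fin d) (ρ : ℝ)
    (T : ℕ → Finset C) (σ : ℝ) (S : ℝ → ℝ) (c : ℝ → ℕ) (V₀ : ℝ),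
    Sys p n h d r Γ F ι w x i0 ρ T σ S c V₀ →
    ∀ Z : Finset C, (∀ t ∈ Z, t ∈ T 1 ∧ (t = 0 ∨ σ < lam t)) → Z.card ≤ p ^ (d - r)

/-- SCALE: growth functions exist. -/
def SCALE : Prop :=
  ∀ (p : ℕ) [Fact p.Prime] (n h d : ℕ) (C : Type) [NontriviallyNormedField C] [CompleteSpace C]
    [IsUltrametricDist C] [IsAlgClosed C] [CharP C p] (G : FormalGroup C) (w0 : C)
    (T : ℕ → Finset C), h + d = n → TSys p h d G w0 T →
    ∃ (σ : ℝ) (S : ℝ → ℝ) (c : ℝ → ℕ) (V₀ : ℝ), Scale p n h d G w0 T σ S c V₀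

/-- BASIS: adapted basis of compatible sequences. -/
def BASIS : Prop :=
  ∀ (p : ℕ) [Fact p.Prime] (n h d : ℕ) (C : Type) [NontriviallyNormedField C] [CompleteSpace C]
    [IsUltrametricDist C] [IsAlgClosed C] [CharP C p] (G : FormalGroup C) (w0 : C)
    (T : ℕ → Finset C) (σ : ℝ) (S : ℝ → ℝ) (c : ℝ → ℕ) (V₀ : ℝ), h + d = n →
    TSys p h d G w0 T → Scale p n h d G w0 T σ S c V₀ →
    ∃ (r' : ℕ) (τ : Fin d → ℕ → C), 1 ≤ r' ∧ r' ≤ d ∧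
      (∃ Z : Finset C, (∀ t, t ∈ Z ↔ t ∈ T 1 ∧ (t = 0 ∨ σ < lam t)) ∧
        p ^ r' * Z.card = p ^ d) ∧
      (∀ i, IsSeq p G T (τ i)) ∧
      (∀ E : C → C, (∀ t ∈ T 1, ∀ t' ∈ T 1, E (gadd G t t') = E t + E t') →
        (∀ i, E (τ i 1) = 0) → ∀ t ∈ T 1, E t = 0) ∧
      (∀ i : Fin d, i.1 < r' → HasV p n (τ i) ((p : ℝ) ^ n * σ)) ∧
      (∀ (hr' : r' ≤ d), Indep p (fun i : Fin r' => τ (Fin.castLE hr' i))) ∧
      (∀ i : Fin d, r' ≤ i.1 → τ i 1 ≠ 0 ∧ ∃ V, (p : ℝ) ^ n * σ < V ∧ HasV p n (τ i) V)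

/-- TJ: adjusting a sequence of valuation `> V_1`. -/
def TJ : Prop :=
  ∀ (p : ℕ) [Fact p.Prime] (n h d : ℕ) (C : Type) [NontriviallyNormedField C] [CompleteSpace C]
    [IsUltrametricDist C] [IsAlgClosed C] [CharP C p] (G : FormalGroup C) (w0 : C)
    (T : ℕ → Finset C) (σ : ℝ) (S : ℝ → ℝ) (c : ℝ → ℕ) (V₀ : ℝ), h + d = n →
    TSys p h d G w0 T → Scale p n h d G w0 T σ S c V₀ →
    ∀ (s : ℕ) (τ : Fin (s + 1) → ℕ → C), (∀ i, IsSeq p G T (τ i)) →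
      (∀ i, HasV p n (τ i) ((p : ℝ) ^ n * σ)) → Indep p τ →
      ∀ (τ' : ℕ → C) (V' : ℝ), IsSeq p G T τ' → τ' 1 ≠ 0 → HasV p n τ' V' →
        (p : ℝ) ^ n * σ < V' →
      ∃ (τ'' : ℕ → C) (v : ℝ), IsSeq p G T τ'' ∧ τ'' 1 = τ' 1 ∧ HasV p n τ'' v ∧
        (p : ℝ) ^ n * σ < v ∧
        ((∀ l : ℕ, v ≠ (p : ℝ) ^ (n * l) * ((p : ℝ) ^ n * σ)) ∨
          ∃ l : ℕ, 1 ≤ l ∧ v = (p : ℝ) ^ (n * l) * ((p : ℝ) ^ n * σ) ∧
            Indep p (Fin.cons τ'' (fun i => shift l (τ i)) : Fin (s + 2) → ℕ → C))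

/-- LEMM (Lemma M): non-cancellation for suitable `m`. -/
def LEMM : Prop :=
  ∀ (p : ℕ) [Fact p.Prime] (n h d : ℕ) (C : Type) [NontriviallyNormedField C] [CompleteSpace C]
    [IsUltrametricDist C] [IsAlgClosed C] [CharP C p] (G : FormalGroup C) (w0 : C)
    (T : ℕ → Finset C) (σ : ℝ) (S : ℝ → ℝ) (c : ℝ → ℕ) (V₀ : ℝ), h + d = n →
    TSys p h d G w0 T → Scale p n h d G w0 T σ S c V₀ →
    ∀ (s : ℕ) (τ : Fin (s + 1) → ℕ → C) (V : ℝ), 0 < V → (∀ i, IsSeq p G T (τ i)) →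
      (∀ i, HasV p n (τ i) V) → Indep p τ →
      ∀ (D : Fin (s + 1) → C) (M : ℝ), 0 < M → (∀ i, ‖D i‖ ≤ M) → (∃ i, ‖D i‖ = M) →
      ∃ K₀ : ℕ, ∀ K, K₀ ≤ K → ∃ m : ℕ, 1 ≤ m ∧ m < n ∧
        NBV p n T σ ((p : ℝ) ^ (m + n * K) * V) ∧
        ∃ N₀ : ℕ, ∀ N, N₀ ≤ N →
          (p : ℝ) ^ (m + n * K) * V / (p : ℝ) ^ (n * N) < σ ∧
          ‖∑ i, D i * (τ i N / τ 0 N) ^ (p ^ (m + n * K) *
            (p ^ (h * N) * cntf T N ((p : ℝ) ^ (m + n * K) * V / (p : ℝ) ^ (n * N))))‖ = M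

/-- RATIO: size and leading term of `[p^N] y`. -/
def RATIO : Prop :=
  ∀ (p : ℕ) [Fact p.Prime] (n h d : ℕ) (C : Type) [NontriviallyNormedField C] [CompleteSpace C]
    [IsUltrametricDist C] [IsAlgClosed C] [CharP C p] (G : FormalGroup C) (w0 : C)
    (T : ℕ → Finset C) (σ : ℝ) (S : ℝ → ℝ) (c : ℝ → ℕ) (V₀ : ℝ), h + d = n →
    TSys p h d G w0 T → Scale p n h d G w0 T σ S c V₀ →
    ∀ (N : ℕ) (y : C), y ≠ 0 → ‖y‖ < 1 → lam y < σ →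
      ‖gmul G (p ^ N) y‖ ≤ Real.exp (-S ((p : ℝ) ^ (n * N) * lam y)) ∧
      (NBV p n T σ ((p : ℝ) ^ (n * N) * lam y) →
        ‖gmul G (p ^ N) y‖ = Real.exp (-S ((p : ℝ) ^ (n * N) * lam y)) ∧
        ∀ y' : C, y' ≠ 0 → lam y' = lam y →
          ‖gmul G (p ^ N) y' / gmul G (p ^ N) y -
            (y' / y) ^ (p ^ (h * N) * cntf T N (lam y))‖ < 1)

/-- OMEGA: families `y^ω ≈ ι(ω) y`. -/
def OMEGA : Prop :=
  ∀ (p : ℕ) [Fact p.Prime] (n h d : ℕ) (C : Type) [NontriviallyNormedField C] [CompleteSpace C]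
    [IsUltrametricDist C] [IsAlgClosed C] [CharP C p] (G : FormalGroup C) (w0 : C)
    (T : ℕ → Finset C) (σ : ℝ) (S : ℝ → ℝ) (c : ℝ → ℕ) (V₀ : ℝ), h + d = n →
    TSys p h d G w0 T → Scale p n h d G w0 T σ S c V₀ →
    ∀ (ι : GaloisField p n →+* C) (N : ℕ) (y : C) (Y : GaloisField p n → C), y ≠ 0 → ‖y‖ < 1 →
      lam y < σ → (∀ ω, ω ≠ 0 → ‖Y ω - ι ω * y‖ < ‖y‖) →
      (∃ ω, ω ≠ 0 ∧ ‖gmul G (p ^ N) (Y ω)‖ = Real.exp (-S ((p : ℝ) ^ (n * N) * lam y))) ∧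
      (∀ B : ℕ, (∀ ω, ω ≠ 0 →
          ‖gmul G (p ^ N) (Y ω)‖ = Real.exp (-S ((p : ℝ) ^ (n * N) * lam y)) ∧
          ‖gmul G (p ^ N) (Y ω) / gmul G (p ^ N) (Y 1) - ι ω ^ (p ^ B)‖ < 1) →
        NBV p n T σ ((p : ℝ) ^ (n * N) * lam y) ∧
        n ∣ B + c ((p : ℝ) ^ (n * N) * lam y))

/-- ETA: additivity and nondegeneracy of `e_t`. -/
def ETA : Prop :=
  ∀ (p : ℕ) [Fact p.Prime] (n h d : ℕ) (Γ : FormalGroup (GaloisField p n))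
    (F : FormalGroup (MvPowerSeries (Fin d) (GaloisField p n))), Strat p n h d Γ F →
    ∀ (C : Type) [NontriviallyNormedField C] [CompleteSpace C] [IsUltrametricDist C]
      [IsAlgClosed C] [CharP C p] (ι : GaloisField p n →+* C) (w : Fin d → C)
      (x : MvPowerSeries (Fin d) (GaloisField p n) →+* C), IsEv ι w x →
      ∀ (w0 : C) (T : ℕ → Finset C), TSys p h d (F.map x) w0 T →
      (∀ δ : Fin d → C, ∀ t ∈ T 1, ∀ t' ∈ T 1,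
        ee p F x (gadd (F.map x) t t') δ = ee p F x t δ + ee p F x t' δ) ∧
      (∀ δ : Fin d → C, δ ≠ 0 → ∃ t ∈ T 1, ee p F x t δ ≠ 0)

/-- MOVEAT: analytic moves from `HasMoves`. -/
def MOVEAT : Prop :=
  ∀ (p : ℕ) [Fact p.Prime] (n h d : ℕ) (Γ : FormalGroup (GaloisField p n))
    (F : FormalGroup (MvPowerSeries (Fin d) (GaloisField p n))), Strat p n h d Γ F →
    ∀ P : Ideal (MvPowerSeries (Fin d) (GaloisField p n)), HasMoves p n Γ F P →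
    ∀ (C : Type) [NontriviallyNormedField C] [CompleteSpace C] [IsUltrametricDist C]
      [IsAlgClosed C] [CharP C p] (ι : GaloisField p n →+* C) (w : Fin d → C)
      (x : MvPowerSeries (Fin d) (GaloisField p n) →+* C), IsEv ι w x →
      (∀ f, x f = 0 ↔ f ∈ P) → ∀ ρ : ℝ, 0 < ρ → ρ < 1 → (∀ i, ‖w i‖ ≤ ρ) →
      ∃ K₀ : ℕ, ∀ K, K₀ ≤ K → ∀ (m : ℕ) (ω : GaloisField p n),
        ∃ w' x' ψ, Move p n h F ι w x ρ K m ω w' x' ψ

/-- YY1: `[p^N]_w ψ(τ_N)` is almost independent of `N`. -/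
def YY1 : Prop :=
  ∀ (p : ℕ) [Fact p.Prime] (n h d r : ℕ) (C : Type) [NontriviallyNormedField C] [CompleteSpace C]
    [IsUltrametricDist C] [IsAlgClosed C] [CharP C p] (Γ : FormalGroup (GaloisField p n))
    (F : FormalGroup (MvPowerSeries (Fin d) (GaloisField p n))) (ι : GaloisField p n →+* C)
    (w : Fin d → C) (x : MvPowerSeries (Fin d) (GaloisField p n) →+* C) (i0 : Fin d) (ρ : ℝ)
    (T : ℕ → Finset C) (σ : ℝ) (S : ℝ → ℝ) (c : ℝ → ℕ) (V₀ : ℝ),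
    Sys p n h d r Γ F ι w x i0 ρ T σ S c V₀ →
    ∀ (K m : ℕ) (ω : GaloisField p n) (w' : Fin d → C)
      (x' : MvPowerSeries (Fin d) (GaloisField p n) →+* C) (ψ : C → C),
      Move p n h F ι w x ρ K m ω w' x' ψ →
    ∀ τ : ℕ → C, IsSeq p (F.map x) T τ → ∀ (M N : ℕ), M ≤ N → ∀ ε : ℝ, 0 ≤ ε →
      (∀ i, ‖w' i - w i‖ ≤ ε) →
      ‖gmul (F.map x) (p ^ N) (ψ (τ N)) - gmul (F.map x) (p ^ M) (ψ (τ M))‖ ≤
        ε ^ (p ^ (h * M))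

/-- YY2: first order formula `[p^N]_w ψ(τ_N) = -e_{τ_1}(δ) + O(δ²)`. -/
def YY2 : Prop :=
  ∀ (p : ℕ) [Fact p.Prime] (n h d r : ℕ) (C : Type) [NontriviallyNormedField C] [CompleteSpace C]
    [IsUltrametricDist C] [IsAlgClosed C] [CharP C p] (Γ : FormalGroup (GaloisField p n))
    (F : FormalGroup (MvPowerSeries (Fin d) (GaloisField p n))) (ι : GaloisField p n →+* C)
    (w : Fin d → C) (x : MvPowerSeries (Fin d) (GaloisField p n) →+* C) (i0 : Fin d) (ρ : ℝ)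
    (T : ℕ → Finset C) (σ : ℝ) (S : ℝ → ℝ) (c : ℝ → ℕ) (V₀ : ℝ),
    Sys p n h d r Γ F ι w x i0 ρ T σ S c V₀ →
    ∀ τ : ℕ → C, IsSeq p (F.map x) T τ → ∃ (C₃ : ℝ) (K₁ : ℕ), 0 < C₃ ∧
    ∀ (K m : ℕ), K₁ ≤ K → ∀ (ω : GaloisField p n) (w' : Fin d → C)
      (x' : MvPowerSeries (Fin d) (GaloisField p n) →+* C) (ψ : C → C),
      Move p n h F ι w x ρ K m ω w' x' ψ → ∀ (N : ℕ), 1 ≤ N → ∀ ε : ℝ, 0 ≤ ε →
      (∀ i, ‖w' i - w i‖ ≤ ε) →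
      ‖gmul (F.map x) (p ^ N) (ψ (τ N)) + ee p F x (τ 1) (fun i => w' i - w i)‖ ≤ C₃ * ε ^ 2

/-- YR: sizes and ratios of `[p^N]_w ψ(τ_N)`. -/
def YR : Prop :=
  ∀ (p : ℕ) [Fact p.Prime] (n h d r : ℕ) (C : Type) [NontriviallyNormedField C] [CompleteSpace C]
    [IsUltrametricDist C] [IsAlgClosed C] [CharP C p] (Γ : FormalGroup (GaloisField p n))
    (F : FormalGroup (MvPowerSeries (Fin d) (GaloisField p n))) (ι : GaloisField p n →+* C)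
    (w : Fin d → C) (x : MvPowerSeries (Fin d) (GaloisField p n) →+* C) (i0 : Fin d) (ρ : ℝ)
    (T : ℕ → Finset C) (σ : ℝ) (S : ℝ → ℝ) (c : ℝ → ℕ) (V₀ : ℝ),
    Sys p n h d r Γ F ι w x i0 ρ T σ S c V₀ →
    ∀ (K m : ℕ) (ω ω' : GaloisField p n), ω ≠ 0 → ω' ≠ 0 →
    ∀ (w' : Fin d → C) (x' : MvPowerSeries (Fin d) (GaloisField p n) →+* C) (ψ : C → C),
      Move p n h F ι w x ρ K m ω w' x' ψ →
    ∀ (w'' : Fin d → C) (x'' : MvPowerSeries (Fin d) (GaloisField p n) →+* C) (ψ' : C → C),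
      Move p n h F ι w x ρ K m ω' w'' x'' ψ' →
    ∀ (τ τ' : ℕ → C) (V : ℝ), 0 < V → IsSeq p (F.map x) T τ → IsSeq p (F.map x) T τ' →
      HasV p n τ V → HasV p n τ' V →
    ∃ N₀ : ℕ, ∀ N, N₀ ≤ N →
      ‖gmul (F.map x) (p ^ N) (ψ (τ N))‖ ≤ Real.exp (-S ((p : ℝ) ^ (m + n * K) * V)) ∧
      (NBV p n T σ ((p : ℝ) ^ (m + n * K) * V) →
        ‖gmul (F.map x) (p ^ N) (ψ (τ N))‖ = Real.exp (-S ((p : ℝ) ^ (m + n * K) * V)) ∧
        ‖gmul (F.map x) (p ^ N) (ψ' (τ' N))‖ = Real.exp (-S ((p : ℝ) ^ (m + n * K) * V)) ∧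
        ‖gmul (F.map x) (p ^ N) (ψ (τ N)) / gmul (F.map x) (p ^ N) (ψ' (τ' N)) -
          (ι ω / ι ω') ^ (p ^ (h * N) *
              cntf T N ((p : ℝ) ^ (m + n * K) * V / (p : ℝ) ^ (n * N))) *
            (τ N / τ' N) ^ (p ^ (m + n * K) * (p ^ (h * N) *
              cntf T N ((p : ℝ) ^ (m + n * K) * V / (p : ℝ) ^ (n * N))))‖ < 1)

/-- YO: OMEGA applied to moves. -/
def YO : Prop :=
  ∀ (p : ℕ) [Fact p.Prime] (n h d r : ℕ) (C : Type) [NontriviallyNormedField C] [CompleteSpace C]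
    [IsUltrametricDist C] [IsAlgClosed C] [CharP C p] (Γ : FormalGroup (GaloisField p n))
    (F : FormalGroup (MvPowerSeries (Fin d) (GaloisField p n))) (ι : GaloisField p n →+* C)
    (w : Fin d → C) (x : MvPowerSeries (Fin d) (GaloisField p n) →+* C) (i0 : Fin d) (ρ : ℝ)
    (T : ℕ → Finset C) (σ : ℝ) (S : ℝ → ℝ) (c : ℝ → ℕ) (V₀ : ℝ),
    Sys p n h d r Γ F ι w x i0 ρ T σ S c V₀ →
    ∀ (K m : ℕ) (w' : GaloisField p n → Fin d → C)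
      (x' : GaloisField p n → MvPowerSeries (Fin d) (GaloisField p n) →+* C)
      (ψ : GaloisField p n → C → C),
      (∀ ω, ω ≠ 0 → Move p n h F ι w x ρ K m ω (w' ω) (x' ω) (ψ ω)) →
    ∀ (τ : ℕ → C) (V : ℝ), 0 < V → IsSeq p (F.map x) T τ → HasV p n τ V →
    ∃ N₀ : ℕ, ∀ N, N₀ ≤ N →
      (∃ ω, ω ≠ 0 ∧ ‖gmul (F.map x) (p ^ N) (ψ ω (τ N))‖ =
        Real.exp (-S ((p : ℝ) ^ (m + n * K) * V))) ∧
      (∀ B : ℕ, (∀ ω, ω ≠ 0 →
          ‖gmul (F.map x) (p ^ N) (ψ ω (τ N))‖ = Real.exp (-S ((p : ℝ) ^ (m + n * K) * V)) ∧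
          ‖gmul (F.map x) (p ^ N) (ψ ω (τ N)) / gmul (F.map x) (p ^ N) (ψ 1 (τ N)) -
            ι ω ^ (p ^ B)‖ < 1) →
        NBV p n T σ ((p : ℝ) ^ (m + n * K) * V) ∧
        n ∣ B + c ((p : ℝ) ^ (m + n * K) * V))

/-- ASYM: growth of `S`. -/
def ASYM : Prop :=
  ∀ (p : ℕ) [Fact p.Prime] (n h d : ℕ) (C : Type) [NontriviallyNormedField C] [CompleteSpace C]
    [IsUltrametricDist C] [IsAlgClosed C] [CharP C p] (G : FormalGroup C) (w0 : C)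
    (T : ℕ → Finset C) (σ : ℝ) (S : ℝ → ℝ) (c : ℝ → ℕ) (V₀ : ℝ), h + d = n → 1 ≤ h → 1 ≤ d →
    Scale p n h d G w0 T σ S c V₀ →
    (∀ a : ℝ, 0 < a → ∀ B : ℝ, ∃ K₁ : ℕ, ∀ K, K₁ ≤ K → ∀ m : ℕ, m < n →
      B ≤ S ((p : ℝ) ^ (m + n * K) * a)) ∧
    (∀ a b : ℝ, 0 < a → a < b → ∀ B : ℝ, ∃ K₁ : ℕ, ∀ K, K₁ ≤ K → ∀ m : ℕ, m < n →
      B ≤ S ((p : ℝ) ^ (m + n * K) * b) - S ((p : ℝ) ^ (m + n * K) * a)) ∧
    (∀ (a b : ℝ) (M : ℕ), 0 < a → 0 < b → b < (p : ℝ) ^ (n * M) * a → ∀ B : ℝ,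
      ∃ K₁ : ℕ, ∀ K, K₁ ≤ K → ∀ m : ℕ, m < n →
      B ≤ (p : ℝ) ^ (h * M) * S ((p : ℝ) ^ (m + n * K) * a) - S ((p : ℝ) ^ (m + n * K) * b)) ∧
    (∀ (a : ℝ) (l : ℕ), 0 < a → ∃ (B : ℝ) (K₁ : ℕ), ∀ K, K₁ ≤ K → ∀ m : ℕ, m < n →
      S ((p : ℝ) ^ (m + n * K) * ((p : ℝ) ^ (n * l) * a)) =
        (p : ℝ) ^ (h * l) * S ((p : ℝ) ^ (m + n * K) * a) + B)

/-- REAL1: the arithmetic contradiction. -/
def REAL1 : Prop :=
  ∀ (p : ℕ) [Fact p.Prime] (n h d : ℕ) (C : Type) [NontriviallyNormedField C] [CompleteSpace C]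
    [IsUltrametricDist C] [IsAlgClosed C] [CharP C p] (G : FormalGroup C) (w0 : C)
    (T : ℕ → Finset C) (σ : ℝ) (S : ℝ → ℝ) (c : ℝ → ℕ) (V₀ : ℝ), h + d = n → 1 ≤ h → 1 ≤ d →
    Scale p n h d G w0 T σ S c V₀ →
    ∀ (V v : ℝ) (i : ℕ) (A : ℝ) (K₁ : ℕ), 0 < V → V < v → 0 < A →
      (∀ K, K₁ ≤ K → ∃ m : ℕ, 1 ≤ m ∧ m < n ∧
        Real.exp (-S ((p : ℝ) ^ (m + n * K) * v)) =
          A * Real.exp (-((p : ℝ) ^ i * S ((p : ℝ) ^ (m + n * K) * V))) ∧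
        (n : ℤ) ∣ (i : ℤ) + c ((p : ℝ) ^ (m + n * K) * v) - c ((p : ℝ) ^ (m + n * K) * V)) →
      ∃ l : ℕ, v = (p : ℝ) ^ (n * l) * V ∧ i = h * l

end Spec3

/-- the output of BASIS, as a structure. `r'` = number of dominant sequences. -/
structure Bas (p n : ℕ) {C : Type} [NormedField C] {d : ℕ} (G : FormalGroup C)
    (T : ℕ → Finset C) (σ : ℝ) (r' : ℕ) (τ : Fin d → ℕ → C) : Prop where
  one : 1 ≤ r'
  le : r' ≤ d
  seq : ∀ i, IsSeq p G T (τ i)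
  gen : ∀ E : C → C, (∀ t ∈ T 1, ∀ t' ∈ T 1, E (gadd G t t') = E t + E t') →
        (∀ i, E (τ i 1) = 0) → ∀ t ∈ T 1, E t = 0
  dom : ∀ i : Fin d, i.1 < r' → HasV p n (τ i) ((p : ℝ) ^ n * σ)
  indep : Indep p (fun i : Fin r' => τ (Fin.castLE le i))
  nondom : ∀ i : Fin d, r' ≤ i.1 → τ i 1 ≠ 0 ∧ ∃ V, (p : ℝ) ^ n * σ < V ∧ HasV p n (τ i) V

namespace Spec3

/-- DUAL: the functionals `e_{τ_j(1)}` form a basis of the dual space. -/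
def DUAL : Prop :=
  ∀ (p : ℕ) [Fact p.Prime] (n h d r : ℕ) (C : Type) [NontriviallyNormedField C] [CompleteSpace C]
    [IsUltrametricDist C] [IsAlgClosed C] [CharP C p] (Γ : FormalGroup (GaloisField p n))
    (F : FormalGroup (MvPowerSeries (Fin d) (GaloisField p n))) (ι : GaloisField p n →+* C)
    (w : Fin d → C) (x : MvPowerSeries (Fin d) (GaloisField p n) →+* C) (i0 : Fin d) (ρ : ℝ)
    (T : ℕ → Finset C) (σ : ℝ) (S : ℝ → ℝ) (c : ℝ → ℕ) (V₀ : ℝ),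
    Sys p n h d r Γ F ι w x i0 ρ T σ S c V₀ →
    ∀ (r' : ℕ) (τ : Fin d → ℕ → C), Bas p n (F.map x) T σ r' τ →
    (∀ D : Fin d → C, ∃ D' : Fin d → C, ∀ δ : Fin d → C,
      ∑ l, D l * δ l = ∑ j, D' j * ee p F x (τ j 1) δ) ∧
    (∀ D' : Fin d → C, (∀ δ : Fin d → C, ∑ j, D' j * ee p F x (τ j 1) δ = 0) → D' = 0) ∧
    (∃ C₂ : ℝ, 0 < C₂ ∧ ∀ (δ : Fin d → C) (M : ℝ), 0 ≤ M →
      (∀ j, ‖ee p F x (τ j 1) δ‖ ≤ M) → ∀ i, ‖δ i‖ ≤ C₂ * M) ∧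
    (∀ v : Fin d → C, ∃ δ : Fin d → C, ∀ j, ee p F x (τ j 1) δ = v j)

/-- DELTA: size of the displacement `δ = w' - w`. -/
def DELTA : Prop :=
  ∀ (p : ℕ) [Fact p.Prime] (n h d r : ℕ) (C : Type) [NontriviallyNormedField C] [CompleteSpace C]
    [IsUltrametricDist C] [IsAlgClosed C] [CharP C p] (Γ : FormalGroup (GaloisField p n))
    (F : FormalGroup (MvPowerSeries (Fin d) (GaloisField p n))) (ι : GaloisField p n →+* C)
    (w : Fin d → C) (x : MvPowerSeries (Fin d) (GaloisField p n) →+* C) (i0 : Fin d) (ρ : ℝ)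
    (T : ℕ → Finset C) (σ : ℝ) (S : ℝ → ℝ) (c : ℝ → ℕ) (V₀ : ℝ),
    Sys p n h d r Γ F ι w x i0 ρ T σ S c V₀ →
    ∃ (C₄ : ℝ) (K₁ : ℕ), 0 < C₄ ∧ ∀ (K m : ℕ), K₁ ≤ K → ∀ (ω : GaloisField p n)
      (w' : Fin d → C) (x' : MvPowerSeries (Fin d) (GaloisField p n) →+* C) (ψ : C → C),
      ω ≠ 0 → Move p n h F ι w x ρ K m ω w' x' ψ →
      ∀ i, ‖w' i - w i‖ ≤ C₄ * Real.exp (-S ((p : ℝ) ^ (m + n * K) * ((p : ℝ) ^ n * σ)))

/-- CLAIMA: functionals vanishing along moves do not involve the dominant torsion points. -/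
def CLAIMA : Prop :=
  ∀ (p : ℕ) [Fact p.Prime] (n h d r : ℕ) (C : Type) [NontriviallyNormedField C] [CompleteSpace C]
    [IsUltrametricDist C] [IsAlgClosed C] [CharP C p] (Γ : FormalGroup (GaloisField p n))
    (F : FormalGroup (MvPowerSeries (Fin d) (GaloisField p n))) (ι : GaloisField p n →+* C)
    (w : Fin d → C) (x : MvPowerSeries (Fin d) (GaloisField p n) →+* C) (i0 : Fin d) (ρ : ℝ)
    (T : ℕ → Finset C) (σ : ℝ) (S : ℝ → ℝ) (c : ℝ → ℕ) (V₀ : ℝ),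
    Sys p n h d r Γ F ι w x i0 ρ T σ S c V₀ →
    ∀ (r' : ℕ) (τ : Fin d → ℕ → C), Bas p n (F.map x) T σ r' τ →
    ∀ f : MvPowerSeries (Fin d) (GaloisField p n), x f = 0 →
    ∀ D : Fin d → C,
      (∀ δ : Fin d → C, ∑ i, x (MvPowerSeries.pderiv _ i f) * δ i =
        ∑ j, D j * ee p F x (τ j 1) δ) →
      ∀ j : Fin d, j.1 < r' → D j = 0

/-- LIN: the approximate relation between `Y(τ')` and the dominant `Y(τ_l)`. -/
def LIN : Prop :=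
  ∀ (p : ℕ) [Fact p.Prime] (n h d r : ℕ) (C : Type) [NontriviallyNormedField C] [CompleteSpace C]
    [IsUltrametricDist C] [IsAlgClosed C] [CharP C p] (Γ : FormalGroup (GaloisField p n))
    (F : FormalGroup (MvPowerSeries (Fin d) (GaloisField p n))) (ι : GaloisField p n →+* C)
    (w : Fin d → C) (x : MvPowerSeries (Fin d) (GaloisField p n) →+* C) (i0 : Fin d) (ρ : ℝ)
    (T : ℕ → Finset C) (σ : ℝ) (S : ℝ → ℝ) (c : ℝ → ℕ) (V₀ : ℝ),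
    Sys p n h d r Γ F ι w x i0 ρ T σ S c V₀ →
    ∀ (r' : ℕ) (τ : Fin d → ℕ → C), Bas p n (F.map x) T σ r' τ →
    (∀ δ ∈ TT x, ∀ j : Fin d, r' ≤ j.1 → ee p F x (τ j 1) δ = 0) →
    ∀ (τ' : ℕ → C) (v : ℝ), IsSeq p (F.map x) T τ' → τ' 1 ≠ 0 → 0 < v → HasV p n τ' v →
    ∃ (i : ℕ) (cM : C) (D' : Fin d → C), cM ≠ 0 ∧ (∀ l : Fin d, r' ≤ l.1 → D' l = 0) ∧
      (∃ l, D' l ≠ 0) ∧
      ∀ η : ℝ, 0 < η → ∃ K₁ : ℕ, ∀ (K m : ℕ), K₁ ≤ K → m < n → ∀ (ω : GaloisField p n)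
        (w' : Fin d → C) (x' : MvPowerSeries (Fin d) (GaloisField p n) →+* C) (ψ : C → C),
        ω ≠ 0 → Move p n h F ι w x ρ K m ω w' x' ψ →
        ∃ N₀ : ℕ, ∀ N, N₀ ≤ N →
          ‖gmul (F.map x) (p ^ N) (ψ (τ' N)) -
            cM * (∑ l, D' l * gmul (F.map x) (p ^ N) (ψ (τ l N))) ^ (p ^ i)‖ ≤
          η * (Real.exp (-S ((p : ℝ) ^ (m + n * K) * v)) +
            Real.exp (-((p : ℝ) ^ i * S ((p : ℝ) ^ (m + n * K) * ((p : ℝ) ^ n * σ)))))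

/-- FIN2: value identity and congruence for suitable `m`, from a relation as in LIN. -/
def FIN2 : Prop :=
  ∀ (p : ℕ) [Fact p.Prime] (n h d r : ℕ) (C : Type) [NontriviallyNormedField C] [CompleteSpace C]
    [IsUltrametricDist C] [IsAlgClosed C] [CharP C p] (Γ : FormalGroup (GaloisField p n))
    (F : FormalGroup (MvPowerSeries (Fin d) (GaloisField p n))) (ι : GaloisField p n →+* C)
    (w : Fin d → C) (x : MvPowerSeries (Fin d) (GaloisField p n) →+* C) (i0 : Fin d) (ρ : ℝ)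
    (T : ℕ → Finset C) (σ : ℝ) (S : ℝ → ℝ) (c : ℝ → ℕ) (V₀ : ℝ),
    Sys p n h d r Γ F ι w x i0 ρ T σ S c V₀ →
    ∀ (r' : ℕ) (τ : Fin d → ℕ → C), Bas p n (F.map x) T σ r' τ →
    ∀ (τ' : ℕ → C) (v : ℝ), IsSeq p (F.map x) T τ' → τ' 1 ≠ 0 → 0 < v → HasV p n τ' v →
    ∀ (i : ℕ) (cM : C) (D' : Fin d → C), cM ≠ 0 → (∀ l : Fin d, r' ≤ l.1 → D' l = 0) →
      (∃ l, D' l ≠ 0) →
      (∀ η : ℝ, 0 < η → ∃ K₁ : ℕ, ∀ (K m : ℕ), K₁ ≤ K → m < n → ∀ (ω : GaloisField p n)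
        (w' : Fin d → C) (x' : MvPowerSeries (Fin d) (GaloisField p n) →+* C) (ψ : C → C),
        ω ≠ 0 → Move p n h F ι w x ρ K m ω w' x' ψ →
        ∃ N₀ : ℕ, ∀ N, N₀ ≤ N →
          ‖gmul (F.map x) (p ^ N) (ψ (τ' N)) -
            cM * (∑ l, D' l * gmul (F.map x) (p ^ N) (ψ (τ l N))) ^ (p ^ i)‖ ≤
          η * (Real.exp (-S ((p : ℝ) ^ (m + n * K) * v)) +
            Real.exp (-((p : ℝ) ^ i * S ((p : ℝ) ^ (m + n * K) * ((p : ℝ) ^ n * σ)))))) →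
      ∃ (A : ℝ) (K₁ : ℕ), 0 < A ∧ ∀ K, K₁ ≤ K → ∃ m : ℕ, 1 ≤ m ∧ m < n ∧
        Real.exp (-S ((p : ℝ) ^ (m + n * K) * v)) =
          A * Real.exp (-((p : ℝ) ^ i * S ((p : ℝ) ^ (m + n * K) * ((p : ℝ) ^ n * σ)))) ∧
        (n : ℤ) ∣ (i : ℤ) + c ((p : ℝ) ^ (m + n * K) * v) -
          c ((p : ℝ) ^ (m + n * K) * ((p : ℝ) ^ n * σ))

/-- FIN3: no linear relation of the second kind (case `v = Q^l V_1`). -/
def FIN3 : Prop :=
  ∀ (p : ℕ) [Fact p.Prime] (n h d r : ℕ) (C : Type) [NontriviallyNormedField C] [CompleteSpace C]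
    [IsUltrametricDist C] [IsAlgClosed C] [CharP C p] (Γ : FormalGroup (GaloisField p n))
    (F : FormalGroup (MvPowerSeries (Fin d) (GaloisField p n))) (ι : GaloisField p n →+* C)
    (w : Fin d → C) (x : MvPowerSeries (Fin d) (GaloisField p n) →+* C) (i0 : Fin d) (ρ : ℝ)
    (T : ℕ → Finset C) (σ : ℝ) (S : ℝ → ℝ) (c : ℝ → ℕ) (V₀ : ℝ),
    Sys p n h d r Γ F ι w x i0 ρ T σ S c V₀ →
    ∀ (r' : ℕ) (τ : Fin d → ℕ → C), Bas p n (F.map x) T σ r' τ →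
    ∀ (τ' : ℕ → C) (l : ℕ), 1 ≤ l → IsSeq p (F.map x) T τ' → τ' 1 ≠ 0 →
      HasV p n τ' ((p : ℝ) ^ (n * l) * ((p : ℝ) ^ n * σ)) →
      (∀ hr' : r' ≤ d, Indep p (Fin.cons τ' (fun i : Fin r' => shift l (τ (Fin.castLE hr' i))) :
              Fin (r' + 1) → ℕ → C)) →
    ∀ (cM : C) (D' : Fin d → C), cM ≠ 0 → (∀ l : Fin d, r' ≤ l.1 → D' l = 0) →
      (∃ l, D' l ≠ 0) →
      (∀ η : ℝ, 0 < η → ∃ K₁ : ℕ, ∀ (K m : ℕ), K₁ ≤ K → m < n → ∀ (ω : GaloisField p n)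
        (w' : Fin d → C) (x' : MvPowerSeries (Fin d) (GaloisField p n) →+* C) (ψ : C → C),
        ω ≠ 0 → Move p n h F ι w x ρ K m ω w' x' ψ →
        ∃ N₀ : ℕ, ∀ N, N₀ ≤ N →
          ‖gmul (F.map x) (p ^ N) (ψ (τ' N)) -
            cM * (∑ l, D' l * gmul (F.map x) (p ^ N) (ψ (τ l N))) ^ (p ^ (h * l))‖ ≤
          η * (Real.exp (-S ((p : ℝ) ^ (m + n * K) *
              ((p : ℝ) ^ (n * l) * ((p : ℝ) ^ n * σ)))) +
            Real.exp (-((p : ℝ) ^ (h * l) * S ((p : ℝ) ^ (m + n * K) * ((p : ℝ) ^ n * σ)))))) →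
      False

/-- DERIV: a derivation `R → C` along `x` is determined by the values at the variables
(characteristic `p`, finite coefficient field). -/
def DERIV : Prop :=
  ∀ (p : ℕ) [Fact p.Prime] (n d : ℕ), 1 ≤ n → ∀ (C : Type) [Field C] [CharP C p]
    (x : MvPowerSeries (Fin d) (GaloisField p n) →+* C)
    (D : MvPowerSeries (Fin d) (GaloisField p n) → C),
    (∀ f g, D (f + g) = D f + D g) → (∀ f g, D (f * g) = x f * D g + x g * D f) →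
    ∀ f, D f = ∑ i, x (MvPowerSeries.pderiv _ i f) * D (MvPowerSeries.X i)

/-- PDER: existence of a derivation not killing a non-`p`-th power. -/
def PDER : Prop :=
  ∀ (p : ℕ) [Fact p.Prime] (K : Type) [Field K] [CharP K p] (ξ : K), (∀ y : K, y ^ p ≠ ξ) →
    ∃ D : K → K, (∀ f g, D (f + g) = D f + D g) ∧ (∀ f g, D (f * g) = f * D g + g * D f) ∧
      D ξ ≠ 0

/-- XIa: algebraic part of XI. -/
def XIa : Prop :=
  ∀ (p : ℕ) [Fact p.Prime] (n d : ℕ), 1 ≤ n → ∀ (C : Type) [NontriviallyNormedField C]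
    [CompleteSpace C] [IsUltrametricDist C] [IsAlgClosed C] [CharP C p]
    (ι : GaloisField p n →+* C)
    (w : Fin d → C) (x : MvPowerSeries (Fin d) (GaloisField p n) →+* C), IsEv ι w x → Disc x →
    ∀ (f : Polynomial (MvPowerSeries (Fin d) (GaloisField p n))) (ζ : C), f.Monic →
      f.eval₂ x ζ = 0 → (Polynomial.derivative f).eval₂ x ζ ≠ 0 → ζ ≠ 0 → ‖ζ‖ < 1 →
    ∃ (i : ℕ) (ξ : C) (g : Polynomial (MvPowerSeries (Fin d) (GaloisField p n))),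
      ζ = ξ ^ (p ^ i) ∧ g.eval₂ x ξ = 0 ∧ (Polynomial.derivative g).eval₂ x ξ ≠ 0 ∧
      (∃ δ ∈ TT x, ∑ l, (∑ j ∈ Finset.range (g.natDegree + 1),
        x (MvPowerSeries.pderiv _ l (g.coeff j)) * ξ ^ j) * δ l ≠ 0) ∧
      ∃ κ : ℝ, 0 < κ ∧ ∀ (w' : Fin d → C)
        (x' : MvPowerSeries (Fin d) (GaloisField p n) →+* C), IsEv ι w' x' →
        (∀ g, x' g = 0 ↔ x g = 0) → (∀ l, ‖w' l - w l‖ < κ) →
        ∀ ζ' : C, f.eval₂ x' ζ' = 0 → ‖ζ' - ζ‖ < κ →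
        ∃ ξ' : C, ζ' = ξ' ^ (p ^ i) ∧ g.eval₂ x' ξ' = 0

/-- XI: how a simple root `ζ` of `f^x` moves. -/
def XI : Prop :=
  ∀ (p : ℕ) [Fact p.Prime] (n d : ℕ), 1 ≤ n → ∀ (C : Type) [NontriviallyNormedField C]
    [CompleteSpace C] [IsUltrametricDist C] [IsAlgClosed C] [CharP C p]
    (ι : GaloisField p n →+* C)
    (w : Fin d → C) (x : MvPowerSeries (Fin d) (GaloisField p n) →+* C), IsEv ι w x → Disc x →
    ∀ (f : Polynomial (MvPowerSeries (Fin d) (GaloisField p n))) (ζ : C), f.Monic →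
      f.eval₂ x ζ = 0 → (Polynomial.derivative f).eval₂ x ζ ≠ 0 → ζ ≠ 0 → ‖ζ‖ < 1 →
    ∃ (i : ℕ) (D : Fin d → C) (C₃ κ : ℝ), 0 < C₃ ∧ 0 < κ ∧
      (∃ δ ∈ TT x, ∑ l, D l * δ l ≠ 0) ∧
      ∀ (w' : Fin d → C) (x' : MvPowerSeries (Fin d) (GaloisField p n) →+* C), IsEv ι w' x' →
        (∀ g, x' g = 0 ↔ x g = 0) → ∀ ε : ℝ, 0 ≤ ε → ε < κ → (∀ l, ‖w' l - w l‖ ≤ ε) →
        ∀ ζ' : C, f.eval₂ x' ζ' = 0 → ‖ζ' - ζ‖ < κ →
        ∃ s : C, ζ' - ζ = s ^ (p ^ i) ∧ ‖s - ∑ l, D l * (w' l - w l)‖ ≤ C₃ * ε ^ 2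

/-- FININJ: `k[[X_0, X_{d-r+1}, …, X_{d-1}]] → R/P` is finite and injective. -/
def FININJ : Prop :=
  ∀ (p : ℕ) [Fact p.Prime] (n d : ℕ) (P : Ideal (MvPowerSeries (Fin d) (GaloisField p n))),
    P.IsPrime → (∀ l : Fin d, l.1 = 0 →
      (MvPowerSeries.X l : MvPowerSeries (Fin d) (GaloisField p n)) ∉ P) →
    ∀ r, 1 ≤ r → r ≤ d →
      P ≤ varIdeal (GaloisField p n) d (d - r + 1) →
      varIdeal (GaloisField p n) d (d - r + 1) ≤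
        (P ⊔ varIdeal (GaloisField p n) d 1).radical →
    ∃ β : MvPowerSeries (Fin r) (GaloisField p n) →+* MvPowerSeries (Fin d) (GaloisField p n),
      (∀ c, β (MvPowerSeries.C c) = MvPowerSeries.C c) ∧
      (∀ (i : Fin r) (l : Fin d), (i.1 = 0 → l.1 = 0 → β (MvPowerSeries.X i) = MvPowerSeries.X l) ∧
        (1 ≤ i.1 → l.1 = d - r + i.1 → β (MvPowerSeries.X i) = MvPowerSeries.X l)) ∧
      Function.Injective ((Ideal.Quotient.mk P).comp β) ∧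
      ((Ideal.Quotient.mk P).comp β).Finite ∧
      (r = d → P = ⊥)

/-- LAUR: complete discretely valued field containing `κ[[t]]`. -/
def LAUR : Prop :=
  ∀ (κ : Type) [Field κ], ∃ (K : Type) (_ : NontriviallyNormedField K) (_ : CompleteSpace K)
    (_ : IsUltrametricDist K) (j : PowerSeries κ →+* K),
    (∀ f : PowerSeries κ, f ≠ 0 → ‖j f‖ = (1 / 2 : ℝ) ^ f.order.toNat) ∧
    (∀ y : K, y ≠ 0 → ∃ a : ℤ, ‖y‖ = (1 / 2 : ℝ) ^ a)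

/-- CLOSC: complete algebraically closed extension of a complete ultrametric field, with the
norm formula for algebraic elements. -/
def CLOSC : Prop :=
  ∀ (K : Type) [NontriviallyNormedField K] [CompleteSpace K] [IsUltrametricDist K],
    ∃ (C : Type) (_ : NontriviallyNormedField C) (_ : CompleteSpace C)
      (_ : IsUltrametricDist C) (_ : IsAlgClosed C) (f : K →+* C), (∀ y, ‖f y‖ = ‖y‖) ∧
      ∀ (q : Polynomial K) (z : C), q.Monic → Irreducible q → q.eval₂ f z = 0 →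
        ‖z‖ ^ q.natDegree = ‖q.coeff 0‖

/-- EMBa: a generic analytic point of `k[[X_0..X_{r-1}]]`. -/
def EMBa : Prop :=
  ∀ (p : ℕ) [Fact p.Prime] (n r : ℕ), 1 ≤ n → 1 ≤ r →
    ∃ (C : Type) (_ : NontriviallyNormedField C) (_ : CompleteSpace C) (_ : IsUltrametricDist C)
      (_ : IsAlgClosed C) (_ : CharP C p) (ι : GaloisField p n →+* C) (w : Fin r → C)
      (x : MvPowerSeries (Fin r) (GaloisField p n) →+* C),
      IsEv ι w x ∧ Function.Injective x ∧ (∀ i j, ‖w i‖ = ‖w j‖) ∧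
      (∀ Z : Finset C, (∀ ζ ∈ Z, ∃ f : Polynomial (MvPowerSeries (Fin r) (GaloisField p n)),
          f ≠ 0 ∧ f.eval₂ x ζ = 0) →
        ∃ (D : ℕ) (s : ℝ), 0 < D ∧ 0 < s ∧ s < 1 ∧
          ∀ y ∈ Subfield.closure (Set.range x ∪ (Z : Set C)), y ≠ 0 → ∃ a : ℤ, ‖y‖ ^ D = s ^ a)

/-- EMB: the generic analytic point of `R/P`. -/
def EMB : Prop :=
  ∀ (p : ℕ) [Fact p.Prime] (n d : ℕ), 1 ≤ n →
    ∀ (P : Ideal (MvPowerSeries (Fin d) (GaloisField p n))),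
    P.IsPrime → ∀ r, 1 ≤ r → r ≤ d →
    ∀ β : MvPowerSeries (Fin r) (GaloisField p n) →+* MvPowerSeries (Fin d) (GaloisField p n),
      (∀ c, β (MvPowerSeries.C c) = MvPowerSeries.C c) →
      (∀ (i : Fin r) (l : Fin d), (i.1 = 0 → l.1 = 0 → β (MvPowerSeries.X i) = MvPowerSeries.X l) ∧
        (1 ≤ i.1 → l.1 = d - r + i.1 → β (MvPowerSeries.X i) = MvPowerSeries.X l)) →
      Function.Injective ((Ideal.Quotient.mk P).comp β) →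
      ((Ideal.Quotient.mk P).comp β).Finite →
    ∃ (C : Type) (_ : NontriviallyNormedField C) (_ : CompleteSpace C) (_ : IsUltrametricDist C)
      (_ : IsAlgClosed C) (_ : CharP C p) (ι : GaloisField p n →+* C) (w : Fin d → C)
      (x : MvPowerSeries (Fin d) (GaloisField p n) →+* C),
      IsEv ι w x ∧ (∀ f, x f = 0 ↔ f ∈ P) ∧ Disc x ∧
      (∀ i0 : Fin d, i0.1 = 0 → w i0 ≠ 0 ∧
        ∀ i : Fin d, d - r + 1 ≤ i.1 → ‖w i‖ ≤ ‖w i0‖)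

/-- DIM: the tangent space has dimension at most `r`. -/
def DIM : Prop :=
  ∀ (p : ℕ) [Fact p.Prime] (n d : ℕ), 1 ≤ n →
    ∀ (P : Ideal (MvPowerSeries (Fin d) (GaloisField p n))),
    P.IsPrime → ∀ r, 1 ≤ r → r ≤ d →
    ∀ β : MvPowerSeries (Fin r) (GaloisField p n) →+* MvPowerSeries (Fin d) (GaloisField p n),
      (∀ c, β (MvPowerSeries.C c) = MvPowerSeries.C c) →
      Function.Injective ((Ideal.Quotient.mk P).comp β) →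
      ((Ideal.Quotient.mk P).comp β).Finite →
    ∀ (C : Type) [NontriviallyNormedField C] [CharP C p]
      (x : MvPowerSeries (Fin d) (GaloisField p n) →+* C), (∀ f, x f = 0 ↔ f ∈ P) →
      Module.finrank C (TT x) ≤ r

end Spec3

end Crest.Agent.LT3
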