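/- rid 227 (S0351): modules ASYM and REAL1 (growth functions, arithmetic contradiction). -/
import Crest.Agent.LT3Spec3

set_option autoImplicit false

namespace Crest.Agent.LT3ASYM

/-- abstract growth function. -/
structure Gr (Q q ℓ V₀ : ℝ) (S : ℝ → ℝ) : Prop where
  hQ : 1 < Q
  hq : 1 < q
  hℓ : 0 < ℓ
  hV : 0 < V₀
  pos : ∀ V, 0 < V → 0 < S V
  mono : StrictMonoOn S (Set.Ioi 0)
  step : ∀ V, V₀ ≤ V → S (Q * V) = q * S V + ℓ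

variable {Q q ℓ V₀ : ℝ} {S : ℝ → ℝ}

/-- `f = S + κ`. -/
noncomputable def ff (q ℓ : ℝ) (S : ℝ → ℝ) (V : ℝ) : ℝ := S V + ℓ / (q - 1)

theorem ff_step (g : Gr Q q ℓ V₀ S) {V : ℝ} (hV : V₀ ≤ V) :
    ff q ℓ S (Q * V) = q * ff q ℓ S V := by
  have hq1 : q - 1 ≠ 0 := by have := g.hq; linarith
  unfold ff
  rw [g.step V hV]
  field_simp
  ring

theorem ff_iter (g : Gr Q q ℓ V₀ S) {V : ℝ} (hV : V₀ ≤ V) (K : ℕ) :
    ff q ℓ S (Q ^ K * V) = q ^ K * ff q ℓ S V := by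
  have hQ := g.hQ
  induction K with
  | zero => simp
  | succ K ih =>
    have h1 : V₀ ≤ Q ^ K * V := by
      have h2 : 1 ≤ Q ^ K := one_le_pow₀ hQ.le
      nlinarith [g.hV]
    rw [pow_succ', mul_assoc, ff_step g h1, ih, pow_succ']
    ring

theorem ff_pos (g : Gr Q q ℓ V₀ S) {V : ℝ} (hV : 0 < V) : 0 < ff q ℓ S V := by
  have := g.pos V hV
  have h2 : 0 < ℓ / (q - 1) := div_pos g.hℓ (by have := g.hq; linarith)
  unfold ff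
  linarith

theorem ff_lt (g : Gr Q q ℓ V₀ S) {a b : ℝ} (ha : 0 < a) (hab : a < b) :
    ff q ℓ S a < ff q ℓ S b := by
  unfold ff
  have := g.mono (Set.mem_Ioi.2 ha) (Set.mem_Ioi.2 (ha.trans hab)) hab
  linarith

theorem ff_le (g : Gr Q q ℓ V₀ S) {a b : ℝ} (ha : 0 < a) (hab : a ≤ b) :
    ff q ℓ S a ≤ ff q ℓ S b := by
  rcases hab.eq_or_lt with h | h
  · rw [h]
  · exact (ff_lt g ha h).le

/-- threshold -/
theorem exists_thr (g : Gr Q q ℓ V₀ S) {a : ℝ} (ha : 0 < a) : ∃ K₀ : ℕ, ∀ K, K₀ ≤ K →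
    V₀ ≤ Q ^ K * a := by
  obtain ⟨K₀, hK₀⟩ := pow_unbounded_of_one_lt (V₀ / a) g.hQ
  refine ⟨K₀, fun K hK => ?_⟩
  have h1 : Q ^ K₀ ≤ Q ^ K := pow_le_pow_right₀ g.hQ.le hK
  rw [div_lt_iff₀ ha] at hK₀
  nlinarith

theorem exists_big {q x : ℝ} (hq : 1 < q) (hx : 0 < x) (B : ℝ) (K₀ : ℕ) :
    ∃ K₁ : ℕ, K₀ ≤ K₁ ∧ ∀ K, K₁ ≤ K → B ≤ q ^ (K - K₀) * x := by
  obtain ⟨j, hj⟩ := pow_unbounded_of_one_lt (B / x) hq
  refine ⟨K₀ + j, by omega, fun K hK => ?_⟩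
  have h1 : q ^ j ≤ q ^ (K - K₀) := pow_le_pow_right₀ hq.le (by omega)
  rw [div_lt_iff₀ hx] at hj
  nlinarith

theorem S_iter (g : Gr Q q ℓ V₀ S) {a : ℝ} {K₀ : ℕ} (hK₀ : V₀ ≤ Q ^ K₀ * a) {K : ℕ}
    (hK : K₀ ≤ K) : S (Q ^ K * a) = q ^ (K - K₀) * ff q ℓ S (Q ^ K₀ * a) - ℓ / (q - 1) := by
  have h := ff_iter g hK₀ (K - K₀)
  rw [← mul_assoc, ← pow_add, Nat.sub_add_cancel hK] at h
  rw [← h]
  unfold ff
  ring

theorem part1 (g : Gr Q q ℓ V₀ S) {a : ℝ} (ha : 0 < a) (B : ℝ) :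
    ∃ K₁ : ℕ, ∀ K, K₁ ≤ K → B ≤ S (Q ^ K * a) := by
  obtain ⟨K₀, hK₀⟩ := exists_thr g ha
  have hQ0 : 0 < Q := by have := g.hQ; linarith
  obtain ⟨K₁, h01, hK₁⟩ := exists_big g.hq (ff_pos g (V := Q ^ K₀ * a) (by positivity))
    (B + ℓ / (q - 1)) K₀
  refine ⟨K₁, fun K hK => ?_⟩
  rw [S_iter g (hK₀ K₀ le_rfl) (h01.trans hK)]
  have := hK₁ K hK
  linarith

theorem part2 (g : Gr Q q ℓ V₀ S) {a b : ℝ} (ha : 0 < a) (hab : a < b) (B : ℝ) :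
    ∃ K₁ : ℕ, ∀ K, K₁ ≤ K → B ≤ S (Q ^ K * b) - S (Q ^ K * a) := by
  obtain ⟨K₀, hK₀⟩ := exists_thr g ha
  have hQ0 : 0 < Q := by have := g.hQ; linarith
  have hlt : ff q ℓ S (Q ^ K₀ * a) < ff q ℓ S (Q ^ K₀ * b) :=
    ff_lt g (by positivity) (mul_lt_mul_of_pos_left hab (by positivity))
  obtain ⟨K₁, h01, hK₁⟩ := exists_big g.hq (sub_pos.2 hlt) B K₀
  refine ⟨K₁, fun K hK => ?_⟩
  have hb : V₀ ≤ Q ^ K₀ * b := (hK₀ K₀ le_rfl).trans (mul_le_mul_of_nonneg_left hab.le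
    (by positivity))
  rw [S_iter g (hK₀ K₀ le_rfl) (h01.trans hK), S_iter g hb (h01.trans hK)]
  have := hK₁ K hK
  linarith

theorem part4 (g : Gr Q q ℓ V₀ S) {a : ℝ} (ha : 0 < a) (l : ℕ) :
    ∃ K₁ : ℕ, ∀ K, K₁ ≤ K →
      S (Q ^ K * (Q ^ l * a)) = q ^ l * S (Q ^ K * a) + (q ^ l - 1) * (ℓ / (q - 1)) := by
  obtain ⟨K₀, hK₀⟩ := exists_thr g ha
  refine ⟨K₀, fun K hK => ?_⟩
  have h := ff_iter g (hK₀ K hK) l
  have h2 : Q ^ l * (Q ^ K * a) = Q ^ K * (Q ^ l * a) := by ring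
  rw [h2] at h
  unfold ff at h
  linarith

theorem part3 (g : Gr Q q ℓ V₀ S) {a b : ℝ} {M : ℕ} (ha : 0 < a) (hb : 0 < b)
    (hab : b < Q ^ M * a) (B : ℝ) :
    ∃ K₁ : ℕ, ∀ K, K₁ ≤ K → B ≤ q ^ M * S (Q ^ K * a) - S (Q ^ K * b) := by
  obtain ⟨K₁, hK₁⟩ := part2 g hb hab (B + (q ^ M - 1) * (ℓ / (q - 1)))
  obtain ⟨K₂, hK₂⟩ := part4 g ha M
  refine ⟨max K₁ K₂, fun K hK => ?_⟩
  have h1 := hK₁ K (le_trans (le_max_left _ _) hK)
  have h2 := hK₂ K (le_trans (le_max_right _ _) hK)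
  rw [h2] at h1
  linarith

/-- uniformity over finitely many `m`. -/
theorem unif (n : ℕ) (P : ℕ → ℕ → Prop) (h : ∀ m, m < n → ∃ K₁ : ℕ, ∀ K, K₁ ≤ K → P m K) :
    ∃ K₁ : ℕ, ∀ K, K₁ ≤ K → ∀ m, m < n → P m K := by
  induction n with
  | zero => exact ⟨0, fun K _ m hm => absurd hm (by omega)⟩
  | succ n ih =>
    obtain ⟨K₁, h1⟩ := ih (fun m hm => h m (by omega))
    obtain ⟨K₂, h2⟩ := h n (by omega)
    refine ⟨max K₁ K₂, fun K hK m hm => ?_⟩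
    rcases Nat.lt_succ_iff_lt_or_eq.1 hm with h' | rfl
    · exact h1 K (le_trans (le_max_left _ _) hK) m h'
    · exact h2 K (le_trans (le_max_right _ _) hK)

theorem gr_of_scale (p : ℕ) [Fact p.Prime] (n h d : ℕ) (C : Type) [NontriviallyNormedField C]
    (G : FormalGroup C) (w0 : C) (T : ℕ → Finset C) (σ : ℝ) (S : ℝ → ℝ) (c : ℝ → ℕ) (V₀ : ℝ)
    (hn : h + d = n) (hh : 1 ≤ h) (hsc : LT3.Scale p n h d G w0 T σ S c V₀) :
    Gr ((p : ℝ) ^ n) ((p : ℝ) ^ h) (LT3.lam w0) V₀ S := by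
  have hp : (1 : ℝ) < p := by exact_mod_cast (Fact.out : p.Prime).one_lt
  exact {
    hQ := one_lt_pow₀ hp (by omega)
    hq := one_lt_pow₀ hp (by omega)
    hℓ := hsc.w0pos
    hV := hsc.V₀pos
    pos := hsc.Spos
    mono := hsc.Smono
    step := hsc.Sstep }

theorem main : LT3.Spec3.ASYM := by
  intro p hp n h d C _ _ _ _ _ G w0 T σ S c V₀ hn hh hd hsc
  have g := gr_of_scale p n h d C G w0 T σ S c V₀ hn hh hsc
  have hp1 : (1 : ℝ) < p := by exact_mod_cast hp.out.one_lt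
  have hp0 : (0 : ℝ) < p := by linarith
  have key : ∀ (m K : ℕ) (a : ℝ), (p : ℝ) ^ (m + n * K) * a = ((p : ℝ) ^ n) ^ K *
      ((p : ℝ) ^ m * a) := by
    intro m K a
    rw [pow_add, pow_mul]
    ring
  refine ⟨?_, ?_, ?_, ?_⟩
  · intro a ha B
    apply unif
    intro m _
    obtain ⟨K₁, h1⟩ := part1 g (a := (p : ℝ) ^ m * a) (by positivity) B
    exact ⟨K₁, fun K hK => by rw [key]; exact h1 K hK⟩
  · intro a b ha hab B
    apply unif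
    intro m _
    obtain ⟨K₁, h1⟩ := part2 g (a := (p : ℝ) ^ m * a) (b := (p : ℝ) ^ m * b) (by positivity)
      (mul_lt_mul_of_pos_left hab (by positivity)) B
    exact ⟨K₁, fun K hK => by rw [key, key]; exact h1 K hK⟩
  · intro a b M ha hb hab B
    apply unif
    intro m _
    obtain ⟨K₁, h1⟩ := part3 g (a := (p : ℝ) ^ m * a) (b := (p : ℝ) ^ m * b) (M := M)
      (by positivity) (by positivity) (by
        rw [← pow_mul]
        have := mul_lt_mul_of_pos_left hab (show (0 : ℝ) < (p : ℝ) ^ m by positivity)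
        calc _ < _ := this
          _ = _ := by ring) B
    exact ⟨K₁, fun K hK => by rw [key, key, pow_mul]; exact h1 K hK⟩
  · intro a l ha
    refine ⟨(((p : ℝ) ^ h) ^ l - 1) * (LT3.lam w0 / ((p : ℝ) ^ h - 1)), ?_⟩
    apply unif
    intro m _
    obtain ⟨K₁, h1⟩ := part4 g (a := (p : ℝ) ^ m * a) (by positivity) l
    refine ⟨K₁, fun K hK => ?_⟩
    have h2 := h1 K hK
    rw [key, key, pow_mul, pow_mul]
    rw [← h2]
    congr 1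
    ring

end Crest.Agent.LT3ASYM
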