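/- rid 227 (S0351): functionals vanishing along moves do not involve the dominant points. -/
import Crest.Agent.LT3Spec3

set_option autoImplicit false

namespace Crest.Agent.LT3CLAIMA
open Crest.Agent.LT3

theorem exists_sum_le {C : Type} [NontriviallyNormedField C] [IsUltrametricDist C] {ι : Type}
    (s : Finset ι) (hs : s.Nonempty) (f : ι → C) : ∃ i ∈ s, ‖∑ j ∈ s, f j‖ ≤ ‖f i‖ :=
  IsUltrametricDist.exists_norm_finsetSum_le_of_nonempty hs f

/-- the strict ultrametric bound for finite sums -/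
theorem sum_lt {C : Type} [NontriviallyNormedField C] [IsUltrametricDist C] {ι : Type}
    (s : Finset ι) (f : ι → C) {B : ℝ} (hB : 0 < B) (h : ∀ i ∈ s, ‖f i‖ < B) :
    ‖∑ j ∈ s, f j‖ < B := by
  rcases s.eq_empty_or_nonempty with rfl | hs
  · simpa using hB
  · obtain ⟨i, hi, hi'⟩ := exists_sum_le s hs f
    exact lt_of_le_of_lt hi' (h i hi)

theorem norm_add_eq_left {C : Type} [NontriviallyNormedField C] [IsUltrametricDist C] {a b : C}
    (h : ‖b‖ < ‖a‖) : ‖a + b‖ = ‖a‖ := by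
  rw [IsUltrametricDist.norm_add_eq_max_of_norm_ne_norm h.ne', max_eq_left h.le]

theorem sum_split {d r' : ℕ} (h : r' ≤ d) {C : Type} [AddCommMonoid C] (g : Fin d → C) :
    ∑ j, g j = ∑ i : Fin r', g (Fin.castLE h i) +
      ∑ j ∈ Finset.univ.filter (fun j : Fin d => ¬ j.1 < r'), g j := by
  classical
  rw [← Finset.sum_filter_add_sum_filter_not Finset.univ (fun j : Fin d => j.1 < r') g]
  congr 1
  symm
  refine Finset.sum_bij (fun (i : Fin r') _ => Fin.castLE h i) ?_ ?_ ?_ ?_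
  · intro a _; simp
  · intro a _ b _ hab
    exact Fin.castLE_injective h hab
  · intro b hb
    have hb' : b.1 < r' := (Finset.mem_filter.1 hb).2
    exact ⟨⟨b.1, hb'⟩, Finset.mem_univ _, by ext; simp⟩
  · intro a _; rfl

theorem main (hDELTA : Spec3.DELTA) (hYY2 : Spec3.YY2) (hYR : Spec3.YR) (hLEMM : Spec3.LEMM)
    (hASYM : Spec3.ASYM) (hX : ApiX) : Spec3.CLAIMA := by
  intro p _ n h d r C _ _ _ _ _ Γ F ι w x i0 ρ T σ S c V₀ hsys r' τ hbas f hf D hD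
  classical
  by_contra hcon
  push Not at hcon
  obtain ⟨j₀, hj₀, hDj₀⟩ := hcon
  obtain ⟨s, rfl⟩ : ∃ s, r' = s + 1 := ⟨r' - 1, by have := hbas.one; omega⟩
  have hnd : h + d = n := hsys.st.hn
  have hn1 : 1 ≤ n := by have := hsys.st.hh; omega
  set V : ℝ := (p : ℝ) ^ n * σ with hV
  have hp0 : (0 : ℝ) < p := by exact_mod_cast (Fact.out : p.Prime).pos
  have hVpos : 0 < V := mul_pos (pow_pos hp0 _) hsys.sc.σpos
  -- the dominant sequences
  set τd : Fin (s + 1) → ℕ → C := fun i => τ (Fin.castLE hbas.le i) with hτd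
  set Dd : Fin (s + 1) → C := fun i => D (Fin.castLE hbas.le i) with hDd
  obtain ⟨iM, -, hiM⟩ := Finset.exists_max_image (Finset.univ : Finset (Fin (s + 1)))
    (fun i => ‖Dd i‖) ⟨0, Finset.mem_univ _⟩
  set M : ℝ := ‖Dd iM‖ with hM
  have hMpos : 0 < M := by
    have h1 := hiM ⟨j₀.1, hj₀⟩ (Finset.mem_univ _)
    have h2 : 0 < ‖Dd ⟨j₀.1, hj₀⟩‖ := by
      rw [norm_pos_iff]
      exact hDj₀
    exact lt_of_lt_of_le h2 h1
  obtain ⟨K₀, hK₀⟩ := hLEMM p n h d C (F.map x) (w i0) T σ S c V₀ hnd hsys.ts hsys.sc s τd V hVpos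
    (fun i => hbas.seq _) (fun i => hbas.dom _ i.2) hbas.indep Dd M hMpos
    (fun i => hiM i (Finset.mem_univ _)) ⟨iM, rfl⟩
  obtain ⟨K₁, hK₁⟩ := hsys.mv
  obtain ⟨C₄, K₂, hC₄, hK₂⟩ := hDELTA p n h d r C Γ F ι w x i0 ρ T σ S c V₀ hsys
  -- YY2 for all j
  have hyy := fun j => hYY2 p n h d r C Γ F ι w x i0 ρ T σ S c V₀ hsys (τ j) (hbas.seq j)
  choose C₃ K₃ hC₃ hK₃ using hyy
  obtain ⟨hA1, hA2, -, -⟩ := hASYM p n h d C (F.map x) (w i0) T σ S c V₀ hnd hsys.st.hh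
    hsys.st.hd hsys.sc
  -- valuations of all the sequences
  have hval : ∀ j : Fin d, s + 1 ≤ j.1 → ∃ Vj, V < Vj ∧ HasV p n (τ j) Vj := fun j hj =>
    (hbas.nondom j hj).2
  choose! Vj hVj1 hVj2 using hval
  -- constants
  -- `Cc` bounds the quadratic error
  obtain ⟨Cc, hCc0, hCc⟩ : ∃ Cc : ℝ, 0 < Cc ∧ ∀ j, ‖D j‖ * C₃ j ≤ Cc ∧ 1 ≤ Cc := by
    refine ⟨1 + ∑ j, ‖D j‖ * C₃ j, ?_, fun j => ⟨?_, ?_⟩⟩
    · have : 0 ≤ ∑ j, ‖D j‖ * C₃ j :=
        Finset.sum_nonneg fun j _ => mul_nonneg (norm_nonneg _) (hC₃ j).le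
      linarith
    · have := Finset.single_le_sum (f := fun j => ‖D j‖ * C₃ j)
        (fun j _ => mul_nonneg (norm_nonneg _) (hC₃ j).le) (Finset.mem_univ j)
      linarith
    · have : 0 ≤ ∑ j, ‖D j‖ * C₃ j :=
        Finset.sum_nonneg fun j _ => mul_nonneg (norm_nonneg _) (hC₃ j).le
      linarith
  -- `B1` such that `Cc C₄² e^{-B1} < M`
  obtain ⟨B1, hB1⟩ : ∃ B1 : ℝ, Cc * C₄ ^ 2 * Real.exp (-B1) < M := by
    have h1 : Filter.Tendsto (fun B : ℝ => Cc * C₄ ^ 2 * Real.exp (-B)) Filter.atTop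
        (nhds (Cc * C₄ ^ 2 * 0)) :=
      (Real.tendsto_exp_neg_atTop_nhds_zero).const_mul _
    rw [mul_zero] at h1
    exact ((h1.eventually (gt_mem_nhds hMpos)).exists)
  -- `B2` such that `‖D j‖ e^{-B2} < M`
  obtain ⟨B2, hB2⟩ : ∃ B2 : ℝ, ∀ j, ‖D j‖ * Real.exp (-B2) < M := by
    have h1 : ∀ j, ∀ᶠ B : ℝ in Filter.atTop, ‖D j‖ * Real.exp (-B) < M := by
      intro j
      have h1 : Filter.Tendsto (fun B : ℝ => ‖D j‖ * Real.exp (-B)) Filter.atTop
          (nhds (‖D j‖ * 0)) :=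
        (Real.tendsto_exp_neg_atTop_nhds_zero).const_mul _
      rw [mul_zero] at h1
      exact h1.eventually (gt_mem_nhds hMpos)
    exact (Filter.eventually_all.2 h1).exists
  obtain ⟨K₄, hK₄⟩ := hA1 V hVpos B1
  have h5 : ∀ j : Fin d, s + 1 ≤ j.1 → ∃ K₁ : ℕ, ∀ K, K₁ ≤ K → ∀ m : ℕ, m < n →
      B2 ≤ S ((p : ℝ) ^ (m + n * K) * Vj j) - S ((p : ℝ) ^ (m + n * K) * V) := by
    intro j hj
    exact hA2 V (Vj j) hVpos (hVj1 j hj) B2
  choose! K₅ hK₅ using h5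
  -- choose `K`
  set K := K₀ + K₁ + K₂ + K₄ + (∑ j, K₃ j) + (∑ j, K₅ j) with hK
  have hK3' : ∀ j, K₃ j ≤ K := by
    intro j
    have := Finset.single_le_sum (f := K₃) (fun j _ => Nat.zero_le _) (Finset.mem_univ j)
    omega
  have hK5' : ∀ j, K₅ j ≤ K := by
    intro j
    have := Finset.single_le_sum (f := K₅) (fun j _ => Nat.zero_le _) (Finset.mem_univ j)
    omega
  obtain ⟨m, hm1, hmn, hNBV, N₀, hN₀⟩ := hK₀ K (by omega)
  obtain ⟨w', x', ψ, hmv⟩ := hK₁ K (by omega) m (1 : GaloisField p n)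
  have h10 : (1 : GaloisField p n) ≠ 0 := one_ne_zero
  set S1 : ℝ := S ((p : ℝ) ^ (m + n * K) * V) with hS1
  have hδ := hK₂ K m (by omega) 1 w' x' ψ h10 hmv
  rw [← hV, ← hS1] at hδ
  set ε : ℝ := C₄ * Real.exp (-S1) with hε
  have hε0 : 0 ≤ ε := mul_nonneg hC₄.le (Real.exp_pos _).le
  -- YR
  have hyr := fun i : Fin (s + 1) => hYR p n h d r C Γ F ι w x i0 ρ T σ S c V₀ hsys K m 1 1 h10 h10
    w' x' ψ hmv w' x' ψ hmv (τd i) (τd 0) V hVpos (hbas.seq _) (hbas.seq _)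
    (hbas.dom _ i.2) (hbas.dom _ (0 : Fin (s + 1)).2)
  choose N₁ hN₁ using hyr
  have hyr2 : ∀ j : Fin d, s + 1 ≤ j.1 → ∃ N₀ : ℕ, ∀ N, N₀ ≤ N →
      ‖gmul (F.map x) (p ^ N) (ψ (τ j N))‖ ≤ Real.exp (-S ((p : ℝ) ^ (m + n * K) * Vj j)) := by
    intro j hj
    obtain ⟨N₀, hN₀⟩ := hYR p n h d r C Γ F ι w x i0 ρ T σ S c V₀ hsys K m 1 1 h10 h10
      w' x' ψ hmv w' x' ψ hmv (τ j) (τ j) (Vj j) (hVpos.trans (hVj1 j hj)) (hbas.seq _)
      (hbas.seq _) (hVj2 j hj) (hVj2 j hj)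
    exact ⟨N₀, fun N hN => (hN₀ N hN).1⟩
  choose! N₂ hN₂ using hyr2
  set N := N₀ + 1 + (∑ i, N₁ i) + (∑ j, N₂ j) with hN
  have hN1' : ∀ i, N₁ i ≤ N := by
    intro i
    have := Finset.single_le_sum (f := N₁) (fun j _ => Nat.zero_le _) (Finset.mem_univ i)
    omega
  have hN2' : ∀ j, N₂ j ≤ N := by
    intro j
    have := Finset.single_le_sum (f := N₂) (fun j _ => Nat.zero_le _) (Finset.mem_univ j)
    omega
  obtain ⟨hσN, hsumM⟩ := hN₀ N (by omega)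
  -- abbreviations
  set Y : Fin d → C := fun j => gmul (F.map x) (p ^ N) (ψ (τ j N)) with hY
  set Y0 : C := gmul (F.map x) (p ^ N) (ψ (τd 0 N)) with hY0
  set Bn : ℕ := p ^ (m + n * K) *
            (p ^ (h * N) * cntf T N ((p : ℝ) ^ (m + n * K) * V / (p : ℝ) ^ (n * N))) with hBn
  have hratio : ∀ i : Fin (s + 1), ‖Y (Fin.castLE hbas.le i)‖ = Real.exp (-S1) ∧
      ‖Y0‖ = Real.exp (-S1) ∧
      ‖Y (Fin.castLE hbas.le i) / Y0 - (τd i N / τd 0 N) ^ Bn‖ < 1 := by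
    intro i
    obtain ⟨-, h2⟩ := hN₁ i N (hN1' i)
    obtain ⟨h3, h4, h5⟩ := h2 hNBV
    refine ⟨h3, h4, ?_⟩
    have hι : (ι (1 : GaloisField p n) / ι 1) = 1 := by
      rw [map_one, div_one]
    rw [hι, one_pow, one_mul] at h5
    exact h5
  have hY0n : ‖Y0‖ = Real.exp (-S1) := (hratio 0).2.1
  have hY0ne : Y0 ≠ 0 := by
    rw [← norm_pos_iff, hY0n]
    exact Real.exp_pos _
  -- the dominant sum
  have hdom : ‖∑ i : Fin (s + 1), Dd i * Y (Fin.castLE hbas.le i)‖ = M * Real.exp (-S1) := by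
    have h1 : ∑ i : Fin (s + 1), Dd i * Y (Fin.castLE hbas.le i) =
        Y0 * (∑ i, Dd i * (τd i N / τd 0 N) ^ Bn +
          ∑ i, Dd i * (Y (Fin.castLE hbas.le i) / Y0 - (τd i N / τd 0 N) ^ Bn)) := by
      rw [← Finset.sum_add_distrib, Finset.mul_sum]
      refine Finset.sum_congr rfl fun i _ => ?_
      field_simp
      ring
    rw [h1, norm_mul, hY0n, mul_comm]
    congr 1
    have h2 : ‖∑ i, Dd i * (Y (Fin.castLE hbas.le i) / Y0 - (τd i N / τd 0 N) ^ Bn)‖ < M := by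
      refine sum_lt _ _ hMpos fun i _ => ?_
      rw [norm_mul]
      have h3 := (hratio i).2.2
      have h4 : ‖Dd i‖ ≤ M := hiM i (Finset.mem_univ _)
      rcases eq_or_lt_of_le (norm_nonneg (Dd i)) with h5 | h5
      · rw [← h5, zero_mul]; exact hMpos
      · calc ‖Dd i‖ * _ < ‖Dd i‖ * 1 := mul_lt_mul_of_pos_left h3 h5
          _ ≤ M := by rw [mul_one]; exact h4
    rw [norm_add_eq_left]
    · exact hsumM
    · rw [hsumM]; exact h2
  -- the total sum is small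
  have htot : ‖∑ j, D j * Y j‖ < M * Real.exp (-S1) := by
    have h1 : ∑ j, D j * Y j =
        (∑ j, D j * (Y j + ee p F x (τ j 1) (fun i => w' i - w i))) +
        (x' f - x f - ∑ i, x (MvPowerSeries.pderiv _ i f) * (w' i - w i)) := by
      have h2 := hD (fun i => w' i - w i)
      have h3 : x' f = 0 := (hmv.ker f).2 hf
      rw [h2, h3, hf]
      simp only [mul_add, Finset.sum_add_distrib]
      ring
    have hq : Cc * ε ^ 2 < M * Real.exp (-S1) := by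
      have h2 : B1 ≤ S1 := hK₄ K (by omega) m hmn
      have h3 : Real.exp (-S1) ≤ Real.exp (-B1) := Real.exp_le_exp.2 (by linarith)
      calc Cc * ε ^ 2 = (Cc * C₄ ^ 2 * Real.exp (-S1)) * Real.exp (-S1) := by rw [hε]; ring
        _ ≤ (Cc * C₄ ^ 2 * Real.exp (-B1)) * Real.exp (-S1) := by
            gcongr
        _ < M * Real.exp (-S1) := by
            exact mul_lt_mul_of_pos_right hB1 (Real.exp_pos _)
    rw [h1]
    refine lt_of_le_of_lt (IsUltrametricDist.norm_add_le_max _ _) (max_lt ?_ ?_)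
    · refine sum_lt _ _ (mul_pos hMpos (Real.exp_pos _)) fun j _ => ?_
      rw [norm_mul]
      have h2 := hK₃ j K m (hK3' j) 1 w' x' ψ hmv N (by omega) ε hε0 hδ
      calc ‖D j‖ * _ ≤ ‖D j‖ * (C₃ j * ε ^ 2) := by
            exact mul_le_mul_of_nonneg_left h2 (norm_nonneg _)
        _ = (‖D j‖ * C₃ j) * ε ^ 2 := by ring
        _ ≤ Cc * ε ^ 2 := by
            exact mul_le_mul_of_nonneg_right (hCc j).1 (sq_nonneg _)
        _ < _ := hq
    · have h2 := hX.taylor hsys.isEv hmv.isEv ε hε0 hδ f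
      calc _ ≤ ε ^ 2 := h2
        _ ≤ Cc * ε ^ 2 := by
            have := (hCc j₀).2
            nlinarith [sq_nonneg ε]
        _ < _ := hq
  -- the rest of the sum is small
  have hrest : ‖∑ j ∈ Finset.univ.filter (fun j : Fin d => ¬ j.1 < s + 1), D j * Y j‖ <
      M * Real.exp (-S1) := by
    refine sum_lt _ _ (mul_pos hMpos (Real.exp_pos _)) fun j hj => ?_
    have hj' : s + 1 ≤ j.1 := by
      have := (Finset.mem_filter.1 hj).2
      omega
    rw [norm_mul]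
    have h2 := hN₂ j hj' N (hN2' j)
    have h3 := hK₅ j hj' K (hK5' j) m hmn
    calc ‖D j‖ * ‖Y j‖ ≤ ‖D j‖ * Real.exp (-S ((p : ℝ) ^ (m + n * K) * Vj j)) :=
          mul_le_mul_of_nonneg_left h2 (norm_nonneg _)
      _ ≤ ‖D j‖ * (Real.exp (-B2) * Real.exp (-S1)) := by
          refine mul_le_mul_of_nonneg_left ?_ (norm_nonneg _)
          rw [← Real.exp_add]
          exact Real.exp_le_exp.2 (by linarith)
      _ = (‖D j‖ * Real.exp (-B2)) * Real.exp (-S1) := by ring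
      _ < M * Real.exp (-S1) := mul_lt_mul_of_pos_right (hB2 j) (Real.exp_pos _)
  have hsplit := sum_split hbas.le (fun j => D j * Y j)
  have h1 : ∑ i : Fin (s + 1), Dd i * Y (Fin.castLE hbas.le i) =
      ∑ j, D j * Y j -
        ∑ j ∈ Finset.univ.filter (fun j : Fin d => ¬ j.1 < s + 1), D j * Y j := by
    rw [hsplit]
    simp only [hDd]
    ring
  have h2 : ‖∑ i : Fin (s + 1), Dd i * Y (Fin.castLE hbas.le i)‖ < M * Real.exp (-S1) := by
    rw [h1, sub_eq_add_neg]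
    refine lt_of_le_of_lt (IsUltrametricDist.norm_add_le_max _ _) (max_lt htot ?_)
    rw [norm_neg]; exact hrest
  rw [hdom] at h2
  exact lt_irrefl _ h2

end Crest.Agent.LT3CLAIMA
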