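import Mathlib
import Crest.Agent.LT3Spec3

open Polynomial Filter Topology

namespace Crest.Agent.LT3CLOSC

theorem frob_surj {K L : Type*} [Field K] [NormedField L] [CompleteSpace L] [Algebra K L]
    (hi : DenseRange (algebraMap K L)) [IsAlgClosed K] (p : ℕ) [ExpChar L p] :
    Function.Surjective (frobenius L p) := by
  intro x
  obtain ⟨u, hu, hux⟩ := mem_closure_iff_seq_limit.mp (hi x)
  choose v hv using hu
  have hp : 0 < p := expChar_pos L p
  have hw : ∀ n, ∃ w : K, w ^ p = v n := fun n => IsAlgClosed.exists_pow_nat_eq (v n) hp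
  choose w hw using hw
  have hc : CauchySeq (fun n => algebraMap K L (w n)) := by
    have h1 : CauchySeq u := hux.cauchySeq
    rw [Metric.cauchySeq_iff] at h1 ⊢
    intro ε hε
    obtain ⟨N, hN⟩ := h1 (ε ^ p) (by positivity)
    refine ⟨N, fun m hm n hn => ?_⟩
    have h2 := hN m hm n hn
    rw [← hv m, ← hv n, ← hw m, ← hw n, map_pow, map_pow, dist_eq_norm,
      ← sub_pow_expChar, norm_pow] at h2
    rw [dist_eq_norm]
    exact lt_of_pow_lt_pow_left₀ p hε.le h2
  obtain ⟨y, hy⟩ := cauchySeq_tendsto_of_complete hc
  refine ⟨y, ?_⟩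
  have h2 : Tendsto (fun n => (algebraMap K L (w n)) ^ p) atTop (𝓝 (y ^ p)) := hy.pow p
  rw [frobenius_def]
  refine tendsto_nhds_unique h2 ?_
  convert hux using 2 with n
  rw [← hv n, ← hw n, map_pow]

theorem perfect_of_dense {K L : Type*} [Field K] [NormedField L] [CompleteSpace L] [Algebra K L]
    (hi : DenseRange (algebraMap K L)) [IsAlgClosed K] : PerfectField L := by
  obtain ⟨p, hp⟩ := ExpChar.exists L
  have : PerfectRing L p := PerfectRing.ofSurjective L p (frob_surj hi p)
  exact PerfectRing.toPerfectField L p

/-- Mathlib's `IsAlgClosed.of_denseRange` with `CharZero` removed. -/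
theorem isAlgClosed_of_denseRange {K L : Type*} [Field K] [NontriviallyNormedField L]
    [CompleteSpace L] [IsUltrametricDist L] [Algebra K L]
    (hi : DenseRange (algebraMap K L)) [IsAlgClosed K] : IsAlgClosed L := by
  have hperf : PerfectField L := perfect_of_dense hi
  apply IsAlgClosed.of_exists_root
  intro f fmon firr
  have fnatdeg0 : f.natDegree ≠ 0 := (Irreducible.natDegree_pos firr).ne'
  let F := f.SplittingField
  let : NormedField F := spectralNorm.normedField L F
  let : NormedAlgebra L F := spectralNorm.normedAlgebra L F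
  let a := rootOfSplits (SplittingField.splits f)
      (by simpa using degree_ne_of_natDegree_ne fnatdeg0)
  have fa0 : f.aeval a = 0 := by
    rw [← eval_map_algebraMap]
    exact eval_rootOfSplits (Polynomial.SplittingField.splits f)
      (by simpa using degree_ne_of_natDegree_ne fnatdeg0)
  classical
    let S : Finset F := {x ∈ (f.rootSet F).toFinset | x ≠ a}
  let δ : ℝ := if hS : S.Nonempty then Finset.min' (S.image fun x => ‖a - x‖)
      (Finset.image_nonempty.mpr hS) else 1
  have norm_sub_le : ∀ a' : F, IsConjRoot L a a' → a ≠ a' → δ ≤ ‖a - a'‖ := by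
    intro a' conj ne
    by_cases hS : S.Nonempty <;> simp only [hS, ↓reduceDIte, δ]
    · apply Finset.min'_le (S.image fun x => ‖a - x‖) (‖a - a'‖)
      apply Finset.mem_image_of_mem
      simp only [minpoly.eq_of_irreducible_of_monic firr fa0 fmon, Finset.mem_filter,
        Set.mem_toFinset, S]
      rw [← (isConjRoot_iff_mem_minpoly_rootSet ⟨f, fmon, fa0⟩)]
      exact ⟨conj, ne.symm⟩
    · simp only [ne_eq, Finset.not_nonempty_iff_eq_empty, Finset.filter_eq_empty_iff,
      Set.mem_toFinset, not_not, S] at hS
      rw [isConjRoot_iff_mem_minpoly_rootSet ⟨f, fmon, fa0⟩,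
          ← minpoly.eq_of_irreducible_of_monic firr fa0 fmon] at conj
      exact (ne (hS conj).symm).elim
  have δpos : δ > 0 := by
    by_cases hS : S.Nonempty <;> simp only [hS, ↓reduceDIte, δ]
    · simp only [gt_iff_lt, Finset.lt_min'_iff, Finset.mem_image, forall_exists_index, and_imp,
        forall_apply_eq_imp_iff₂]
      rintro a' ha'
      simp only [Finset.mem_filter, Set.mem_toFinset, S] at ha'
      rw [norm_pos_iff, sub_ne_zero]
      exact ha'.2.symm
    · linarith
  have hε : (δ / (max ‖a‖ 1)) ^ f.natDegree / (f.natDegree + 1) > 0 := by positivity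
  obtain ⟨g, gmon, gdeg, gcoeff⟩ :=
    exists_monic_and_natDegree_eq_and_norm_map_algebraMap_coeff_sub_lt hi fmon hε
  let ⟨b, hb, hab⟩ := exists_aroots_norm_sub_lt_of_norm_coeff_sub_lt
      hε fa0 fmon (gmon.map _) (gdeg ▸ (g.natDegree_map _)) gcoeff
      (by simpa [Polynomial.map_map] using (IsAlgClosed.splits g).map ((algebraMap L F).comp _))
  have hab : ‖a - b‖ < δ := by
    rw [← Real.rpow_natCast, ← mul_comm_div, div_self, one_mul,
        ← Real.rpow_mul (div_pos δpos (by positivity)).le, mul_inv_cancel₀] at hab
    · simpa [mul_assoc, div_mul_cancel₀ _ (by positivity : (max ‖a‖ 1) > 0).ne'] using hab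
    · simp [fnatdeg0]
    · positivity
  have bbot : b ∈ (⊥ : IntermediateField L F) := by
    rw [Polynomial.aroots_def, Splits.roots_map ((IsAlgClosed.splits g).map _),
        Multiset.mem_map] at hb
    obtain ⟨bCp, _, hbCp⟩ := hb
    rw [IntermediateField.mem_bot]
    exact ⟨bCp, hbCp⟩
  simp only [Polynomial.mem_roots', ne_eq, Polynomial.map_eq_zero, Polynomial.IsRoot.def,
    Polynomial.eval_map_algebraMap] at hb
  have abot : a ∈ (⊥ : IntermediateField L F) := by
    have masp : ((minpoly L a).map (algebraMap L F)).Splits := by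
      simpa [minpoly.eq_of_irreducible_of_monic firr fa0 fmon] using
        (Polynomial.SplittingField.splits f)
    simpa [IntermediateField.adjoin_simple_eq_bot_iff.mpr bbot] using
      IsKrasner.krasner
        (PerfectField.separable_of_irreducible (minpoly.irreducible ⟨f, fmon, fa0⟩))
        masp ⟨(g.map _), gmon.map _, hb.2⟩ fun a' h1 h2 ↦ lt_of_lt_of_le hab (norm_sub_le a' h1 h2)
  obtain ⟨aCp, haCp⟩ := IntermediateField.mem_bot.mp abot
  use aCp
  apply_fun algebraMap L F
  · rwa [← Polynomial.aeval_algebraMap_apply_eq_algebraMap_eval, haCp, map_zero]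
  · exact RingHom.injective _

section compl

variable (A : Type) [NontriviallyNormedField A] [IsUltrametricDist A]

instance ultraCompl : IsUltrametricDist (UniformSpace.Completion A) := by
  refine IsUltrametricDist.isUltrametricDist_of_forall_norm_add_le_max_norm ?_
  intro x y
  induction x, y using UniformSpace.Completion.induction_on₂ with
  | hp => apply isClosed_le <;> fun_prop
  | ih x y =>
    rw [← UniformSpace.Completion.coe_add]
    simp only [UniformSpace.Completion.norm_coe]
    exact IsUltrametricDist.norm_add_le_max x y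

@[instance_reducible]
noncomputable def nnfCompl : NontriviallyNormedField (UniformSpace.Completion A) where
  __ := (inferInstance : NormedField (UniformSpace.Completion A))
  non_trivial := by
    obtain ⟨x, hx⟩ := NontriviallyNormedField.non_trivial (α := A)
    exact ⟨(x : UniformSpace.Completion A), by
      have h := UniformSpace.Completion.norm_coe (E := A) x
      rw [h]; exact hx⟩

end compl

theorem main : LT3.Spec3.CLOSC := by
  intro K _ _ _
  let A := AlgebraicClosure K
  letI : NontriviallyNormedField A := spectralNorm.nontriviallyNormedField K A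
  letI : NormedAlgebra K A := spectralNorm.normedAlgebra K A
  haveI : IsUltrametricDist A := IsUltrametricDist.of_normedAlgebra K
  letI : NontriviallyNormedField (UniformSpace.Completion A) := nnfCompl A
  let g : A →+* UniformSpace.Completion A := UniformSpace.Completion.coeRingHom
  have hg : ∀ a, ‖g a‖ = ‖a‖ := fun a => UniformSpace.Completion.norm_coe (E := A) a
  letI : Algebra A (UniformSpace.Completion A) := g.toAlgebra
  have hd : DenseRange (algebraMap A (UniformSpace.Completion A)) :=
    UniformSpace.Completion.denseRange_coe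
  haveI : IsAlgClosed (UniformSpace.Completion A) := isAlgClosed_of_denseRange hd
  have hKA : ∀ y : K, ‖algebraMap K A y‖ = ‖y‖ := fun y => norm_algebraMap' A y
  refine ⟨UniformSpace.Completion A, inferInstance, inferInstance, inferInstance, inferInstance,
    g.comp (algebraMap K A), ?_, ?_⟩
  · intro y
    rw [RingHom.comp_apply, hg, hKA]
  · intro q z hq hirr hz
    have hs : (q.map (algebraMap K A)).Splits := IsAlgClosed.splits _
    have h1 : (q.map (algebraMap K A)).map g = q.map (g.comp (algebraMap K A)) :=
      Polynomial.map_map _ _ _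
    have hq0 : q.map (g.comp (algebraMap K A)) ≠ 0 := (hq.map _).ne_zero
    have hz' : z ∈ (q.map (g.comp (algebraMap K A))).roots := by
      rw [Polynomial.mem_roots hq0, Polynomial.IsRoot.def, Polynomial.eval_map]
      exact hz
    rw [← h1, hs.roots_map, Multiset.mem_map] at hz'
    obtain ⟨a, ha, rfl⟩ := hz'
    have ha0 : q.aeval a = 0 := by
      rw [Polynomial.mem_roots (hq.map _).ne_zero, Polynomial.IsRoot.def,
        Polynomial.eval_map] at ha
      exact ha
    have hm : q = minpoly K a := minpoly.eq_of_irreducible_of_monic hirr ha0 hq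
    have h2 : ‖a‖ = spectralNorm K A a := rfl
    rw [hg, h2, spectralNorm.spectralNorm_eq_norm_coeff_zero_rpow K A a, ← hm, one_div,
      Real.rpow_inv_natCast_pow (norm_nonneg _) (Irreducible.natDegree_pos hirr).ne']

end Crest.Agent.LT3CLOSC
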