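/- rid 227 (S0351): module COD (few torsion points of small norm). -/
import Crest.Agent.LT3Spec3

set_option autoImplicit false
open Crest.LubinTate
open Crest Crest.GeometryTopology
open Polynomial

namespace Crest.Agent.LT3COD

open Crest.Agent.LT3

section An

variable {C : Type} [NontriviallyNormedField C] [IsUltrametricDist C]

theorem norm_sub_le_max (a b : C) : ‖a - b‖ ≤ max ‖a‖ ‖b‖ := by
  rw [sub_eq_add_neg, ← norm_neg b]
  exact IsUltrametricDist.norm_add_le_max _ _

/-- coefficients of a product of linear factors. -/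
theorem coeff_prod_le {α : Type} [DecidableEq α] (s : Finset α) (r : α → C) (R : ℝ) (hR : 0 ≤ R)
    (h : ∀ t ∈ s, ‖r t‖ ≤ R) (j : ℕ) :
    ‖(∏ t ∈ s, (X - Polynomial.C (r t))).coeff j‖ * R ^ j ≤ R ^ s.card := by
  induction s using Finset.induction_on generalizing j with
  | empty =>
    rw [Finset.prod_empty, coeff_one]
    by_cases hj : j = 0
    · simp [hj]
    · simp [hj]
  | insert a s ha ih =>
    rw [Finset.prod_insert ha, Finset.card_insert_of_notMem ha, sub_mul, coeff_sub, coeff_C_mul]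
    have ih' := ih (fun t ht => h t (Finset.mem_insert_of_mem ht))
    have ha' := h a (Finset.mem_insert_self _ _)
    have hRs : 0 ≤ R ^ s.card := pow_nonneg hR _
    have h2 : ‖r a * (∏ t ∈ s, (X - Polynomial.C (r t))).coeff j‖ * R ^ j ≤ R ^ (s.card + 1) := by
      rw [norm_mul, mul_assoc, pow_succ, mul_comm (R ^ s.card)]
      exact mul_le_mul ha' (ih' j) (by positivity) hR
    have h1 : ‖(X * ∏ t ∈ s, (X - Polynomial.C (r t))).coeff j‖ * R ^ j ≤ R ^ (s.card + 1) := by
      rcases j with _ | j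
      · simp only [mul_coeff_zero, coeff_X_zero, zero_mul, norm_zero]
        positivity
      · rw [coeff_X_mul, pow_succ, ← mul_assoc, pow_succ]
        exact mul_le_mul_of_nonneg_right (ih' j) hR
    calc _ ≤ max ‖(X * ∏ t ∈ s, (X - Polynomial.C (r t))).coeff j‖
          ‖r a * (∏ t ∈ s, (X - Polynomial.C (r t))).coeff j‖ * R ^ j :=
          mul_le_mul_of_nonneg_right (norm_sub_le_max _ _) (by positivity)
      _ ≤ _ := by
          rw [max_mul_of_nonneg _ _ (by positivity)]
          exact max_le h1 h2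

/-- the dominant coefficient. -/
theorem coeff_dom {α : Type} [DecidableEq α] (A B : Finset α) (r : α → C) (R R' : ℝ)
    (hR' : 0 < R') (hRR : R' < R) (hA : ∀ t ∈ A, ‖r t‖ ≤ R') (hB : ∀ t ∈ B, ‖r t‖ = R) :
    ‖((∏ t ∈ A, (X - Polynomial.C (r t))) * ∏ t ∈ B, (X - Polynomial.C (r t))).coeff A.card‖ =
      R ^ B.card := by
  have hR : 0 < R := hR'.trans hRR
  rw [coeff_mul]
  have hA1 : (∏ t ∈ A, (X - Polynomial.C (r t))).coeff A.card = 1 := by
    have h1 : (∏ t ∈ A, (X - Polynomial.C (r t))).Monic := monic_prod_of_monic _ _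
      fun t _ => monic_X_sub_C _
    have h2 : (∏ t ∈ A, (X - Polynomial.C (r t))).natDegree = A.card := by
      rw [natDegree_prod_of_monic _ _ fun t _ => monic_X_sub_C _]
      simp
    rw [← h2]
    exact h1
  have hB0 : ‖(∏ t ∈ B, (X - Polynomial.C (r t))).coeff 0‖ = R ^ B.card := by
    rw [coeff_zero_eq_eval_zero, eval_prod, norm_prod]
    rw [Finset.prod_congr rfl (g := fun _ => R)]
    · simp
    · intro t ht
      simp [hB t ht]
  have hmem : (A.card, 0) ∈ Finset.HasAntidiagonal.antidiagonal A.card := by simp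
  rw [← Finset.add_sum_erase _ _ hmem, hA1, one_mul]
  have hrest : ‖∑ x ∈ (Finset.HasAntidiagonal.antidiagonal A.card).erase (A.card, 0),
      (∏ t ∈ A, (X - Polynomial.C (r t))).coeff x.1 *
        (∏ t ∈ B, (X - Polynomial.C (r t))).coeff x.2‖ ≤ R' / R * R ^ B.card := by
    refine IsUltrametricDist.norm_sum_le_of_forall_le_of_nonneg (by positivity) fun x hx => ?_
    rw [Finset.mem_erase, Finset.HasAntidiagonal.mem_antidiagonal] at hx
    obtain ⟨hx1, hx2⟩ := hx
    have hx3 : 1 ≤ x.2 := by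
      rcases Nat.eq_zero_or_pos x.2 with h | h
      · exact absurd (Prod.ext (by simpa [h] using hx2) h) hx1
      · exact h
    have e1 := coeff_prod_le A r R' hR'.le hA x.1
    have e2 := coeff_prod_le B r R hR.le (fun t ht => (hB t ht).le) x.2
    rw [← hx2, pow_add, mul_comm (R' ^ x.1)] at e1
    have e3 : ‖(∏ t ∈ A, (X - Polynomial.C (r t))).coeff x.1‖ ≤ R' ^ x.2 :=
      le_of_mul_le_mul_right e1 (by positivity)
    rw [norm_mul]
    have e4 : ‖(∏ t ∈ B, (X - Polynomial.C (r t))).coeff x.2‖ ≤ R ^ B.card / R ^ x.2 := by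
      rw [le_div_iff₀ (by positivity)]
      exact e2
    calc _ ≤ R' ^ x.2 * (R ^ B.card / R ^ x.2) := mul_le_mul e3 e4 (norm_nonneg _) (by positivity)
      _ = (R' / R) ^ x.2 * R ^ B.card := by rw [div_pow]; ring
      _ ≤ (R' / R) ^ 1 * R ^ B.card := by
          refine mul_le_mul_of_nonneg_right ?_ (by positivity)
          exact pow_le_pow_of_le_one (by positivity) ((div_le_one hR).2 hRR.le) hx3
      _ = _ := by rw [pow_one]
  have hlt : ‖∑ x ∈ (Finset.HasAntidiagonal.antidiagonal A.card).erase (A.card, 0),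
      (∏ t ∈ A, (X - Polynomial.C (r t))).coeff x.1 *
        (∏ t ∈ B, (X - Polynomial.C (r t))).coeff x.2‖ <
      ‖(∏ t ∈ B, (X - Polynomial.C (r t))).coeff 0‖ := by
    rw [hB0]
    refine hrest.trans_lt ?_
    have : R' / R < 1 := (div_lt_one hR).2 hRR
    have hpos : 0 < R ^ B.card := by positivity
    nlinarith
  rw [IsUltrametricDist.norm_add_eq_max_of_norm_ne_norm hlt.ne', max_eq_left hlt.le, hB0]

omit [IsUltrametricDist C] in
/-- a uniform strict bound. -/
theorem exists_bound {α : Type} [DecidableEq α] (A : Finset α) (r : α → C) (R : ℝ) (hR : 0 < R)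
    (h : ∀ t ∈ A, ‖r t‖ < R) : ∃ R' : ℝ, 0 < R' ∧ R' < R ∧ ∀ t ∈ A, ‖r t‖ ≤ R' := by
  induction A using Finset.induction_on with
  | empty => exact ⟨R / 2, half_pos hR, half_lt_self hR, by simp⟩
  | insert a s ha ih =>
    obtain ⟨R₁, h1, h2, h3⟩ := ih fun t ht => h t (Finset.mem_insert_of_mem ht)
    refine ⟨max R₁ ‖r a‖, lt_max_of_lt_left h1, max_lt h2 (h a (Finset.mem_insert_self _ _)), ?_⟩
    intro t ht
    rcases Finset.mem_insert.1 ht with rfl | ht
    · exact le_max_right _ _
    · exact (h3 t ht).trans (le_max_left _ _)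

/-- multiplication by a unit series does not change the position of the dominant coefficient. -/
theorem coeff_mul_unit (f : C[X]) (U : PowerSeries C) (a : ℕ) (M M' : ℝ) (hM' : 0 ≤ M')
    (hMM : M' < M) (hfa : ‖f.coeff a‖ = M) (hf : ∀ i, i < a → ‖f.coeff i‖ ≤ M')
    (hU0 : ‖PowerSeries.coeff 0 U‖ = 1) (hU : ∀ i, ‖PowerSeries.coeff i U‖ ≤ 1) :
    (∀ j, j < a → ‖PowerSeries.coeff j ((f : PowerSeries C) * U)‖ ≤ M') ∧
      ‖PowerSeries.coeff a ((f : PowerSeries C) * U)‖ = M := by
  constructor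
  · intro j hj
    rw [PowerSeries.coeff_mul]
    refine IsUltrametricDist.norm_sum_le_of_forall_le_of_nonneg hM' fun x hx => ?_
    rw [Finset.HasAntidiagonal.mem_antidiagonal] at hx
    rw [norm_mul, Polynomial.coeff_coe]
    calc _ ≤ M' * 1 := mul_le_mul (hf _ (by omega)) (hU _) (norm_nonneg _) hM'
      _ = M' := mul_one _
  · rw [PowerSeries.coeff_mul]
    have hmem : (a, 0) ∈ Finset.HasAntidiagonal.antidiagonal a := by simp
    rw [← Finset.add_sum_erase _ _ hmem, Polynomial.coeff_coe]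
    have h1 : ‖f.coeff a * PowerSeries.coeff 0 U‖ = M := by rw [norm_mul, hfa, hU0, mul_one]
    have h2 : ‖∑ x ∈ (Finset.HasAntidiagonal.antidiagonal a).erase (a, 0),
        PowerSeries.coeff x.1 (f : PowerSeries C) * PowerSeries.coeff x.2 U‖ ≤ M' := by
      refine IsUltrametricDist.norm_sum_le_of_forall_le_of_nonneg hM' fun x hx => ?_
      rw [Finset.mem_erase, Finset.HasAntidiagonal.mem_antidiagonal] at hx
      obtain ⟨hx1, hx2⟩ := hx
      have hx3 : x.1 < a := by
        rcases Nat.eq_zero_or_pos x.2 with h | h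
        · exact absurd (Prod.ext (by simpa [h] using hx2) h) hx1
        · omega
      rw [norm_mul, Polynomial.coeff_coe]
      calc _ ≤ M' * 1 := mul_le_mul (hf _ hx3) (hU _) (norm_nonneg _) hM'
        _ = M' := mul_one _
    have hlt := h2.trans_lt (hMM.trans_eq h1.symm)
    rw [IsUltrametricDist.norm_add_eq_max_of_norm_ne_norm hlt.ne', max_eq_left hlt.le, h1]

end An

/-- values on the ideals generated by variables. -/
theorem var_le {C : Type} [NontriviallyNormedField C] [CompleteSpace C] [IsUltrametricDist C]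
    (hX : ApiX) {k : Type} [Field k] [Finite k] {d : ℕ} {ι : k →+* C} {w : Fin d → C}
    {x : MvPowerSeries (Fin d) k →+* C} (hev : IsEv ι w x) (i : ℕ) (M : ℝ) (hM : 0 ≤ M)
    (h : ∀ l : Fin d, l.1 < i → ‖w l‖ ≤ M) (f : MvPowerSeries (Fin d) k)
    (hf : f ∈ varIdeal k d i) : ‖x f‖ ≤ M := by
  unfold varIdeal at hf
  induction hf using Submodule.span_induction with
  | mem f hf =>
    obtain ⟨l, hl, rfl⟩ := hf
    rw [hX.x_X hev]
    exact h l hl
  | zero => simpa using hM
  | add f g _ _ hf hg =>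
    rw [map_add]
    exact (IsUltrametricDist.norm_add_le_max _ _).trans (max_le hf hg)
  | smul a f _ hf =>
    rw [smul_eq_mul, map_mul, norm_mul]
    calc _ ≤ 1 * M := mul_le_mul (hX.le_one hev a) hf (norm_nonneg _) zero_le_one
      _ = M := one_mul _

theorem main (hWEI : Spec3.WEI) (hTOR : Spec3.TOR) (hG : ApiG) (hX : ApiX) : Spec3.COD := by
  intro p hp n h d r C _ _ _ _ _ Γ F ι w x i0 ρ T σ S c V₀ hS Z hZ
  classical
  have hst := hS.st
  have hev := hS.isEv
  obtain ⟨f, U, hW⟩ := hWEI p n h d Γ F hst 1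
  obtain ⟨-, -, hroots⟩ := hTOR p n h d Γ F hst C ι w x hev i0 hS.hi0 hS.hw0
  have hroot := hroots 1 f U hW
  have ig : IG (F.map x) := hS.ts.ig
  have hcard : (T 1).card = p ^ d := by rw [hS.ts.card, mul_one]
  have hq0 : p ^ h ≠ 0 := pow_ne_zero _ hp.out.ne_zero
  have hρ0 : 0 ≤ ρ := (norm_nonneg _).trans (hS.hρ i0)
  -- factorisation of `f`
  have hinj : Function.Injective (fun t : C => t ^ (p ^ h)) := by
    intro a b hab
    exact iterateFrobenius_inj C p h (by simpa [iterateFrobenius_def] using hab)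
  have hfx : f.map x = ∏ t ∈ T 1, (X - Polynomial.C (t ^ (p ^ h))) := by
    have hmon : (f.map x).Monic := hW.monic.map x
    have hdeg : (f.map x).natDegree = p ^ d := by
      rw [hW.monic.natDegree_map, hW.deg, mul_one]
    have hle : ((T 1).image (fun t : C => t ^ (p ^ h))).val ≤ (f.map x).roots := by
      rw [Multiset.le_iff_subset (Finset.nodup _)]
      intro y hy
      rw [Finset.mem_val, Finset.mem_image] at hy
      obtain ⟨t, ht, rfl⟩ := hy
      rw [mem_roots hmon.ne_zero, IsRoot]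
      have ht' := (hS.ts.mem 1 t).1 ht
      have := hroot t ht'.1 ht'.2
      rwa [mul_one] at this
    have hcard' : Multiset.card (f.map x).roots ≤
        Multiset.card ((T 1).image (fun t : C => t ^ (p ^ h))).val := by
      rw [Finset.card_val, Finset.card_image_of_injective _ hinj, hcard, ← hdeg]
      exact card_roots' _
    have heq := Multiset.eq_of_le_of_card_le hle hcard'
    have hc2 : Multiset.card (f.map x).roots = (f.map x).natDegree := by
      rw [← heq, Finset.card_val, Finset.card_image_of_injective _ hinj, hcard, hdeg]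
    rw [← prod_multiset_X_sub_C_of_monic_of_roots_card_eq hmon hc2, ← heq]
    change ∏ a ∈ (T 1).image (fun t : C => t ^ (p ^ h)), (X - Polynomial.C a) = _
    rw [Finset.prod_image fun a _ b _ hab => hinj hab]
  -- the two halves
  set A := (T 1).filter (fun t => t = 0 ∨ σ < lam t) with hA
  set B := (T 1).filter (fun t => ¬ (t = 0 ∨ σ < lam t)) with hB
  have hAB : A.card + B.card = p ^ d := by
    rw [← hcard]
    exact Finset.card_filter_add_card_filter_not _
  have hZA : Z ⊆ A := fun t ht => Finset.mem_filter.2 (hZ t ht)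
  refine (Finset.card_le_card hZA).trans ?_
  by_contra hcon
  push Not at hcon
  set R : ℝ := Real.exp (-σ) ^ (p ^ h) with hR
  have hRpos : 0 < R := by positivity
  have hσ := hS.sc.σpos
  have he1 : Real.exp (-σ) < 1 := by
    rw [Real.exp_lt_one_iff]
    linarith
  have hR1 : R < 1 := pow_lt_one₀ (Real.exp_pos _).le he1 hq0
  have hnorm : ∀ t : C, t ≠ 0 → ‖t‖ = Real.exp (-lam t) := by
    intro t ht
    rw [lam, neg_neg, Real.exp_log (norm_pos_iff.2 ht)]
  have hBn : ∀ t ∈ B, ‖t ^ (p ^ h)‖ = R := by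
    intro t ht
    rw [hB, Finset.mem_filter, not_or, not_lt] at ht
    have h1 := hS.sc.σmin t ht.1 ht.2.1
    have h2 : lam t = σ := le_antisymm ht.2.2 h1
    rw [norm_pow, hnorm t ht.2.1, h2]
  have hAn : ∀ t ∈ A, ‖t ^ (p ^ h)‖ < R := by
    intro t ht
    rw [hA, Finset.mem_filter] at ht
    rcases ht.2 with rfl | h1
    · rw [zero_pow hq0, norm_zero]
      exact hRpos
    · rw [norm_pow]
      refine pow_lt_pow_left₀ ?_ (norm_nonneg _) hq0
      by_cases ht0 : t = 0
      · rw [ht0, norm_zero]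
        exact Real.exp_pos _
      · rw [hnorm t ht0]
        exact Real.exp_lt_exp.2 (by linarith)
  have hTn : ∀ t ∈ T 1, ‖t ^ (p ^ h)‖ ≤ R := by
    intro t ht
    by_cases h1 : t = 0 ∨ σ < lam t
    · exact (hAn t (Finset.mem_filter.2 ⟨ht, h1⟩)).le
    · exact (hBn t (Finset.mem_filter.2 ⟨ht, h1⟩)).le
  obtain ⟨R', hR'0, hR'R, hAR'⟩ := exists_bound A (fun t => t ^ (p ^ h)) R hRpos hAn
  have hdom : ‖(f.map x).coeff A.card‖ = R ^ B.card := by
    have := coeff_dom A B (fun t => t ^ (p ^ h)) R R' hR'0 hR'R hAR' hBn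
    rwa [hA, hB, Finset.prod_filter_mul_prod_filter_not, ← hfx, ← hA] at this
  have hlow : ∀ i, i < A.card → ‖(f.map x).coeff i‖ ≤ R ^ (B.card + 1) := by
    intro i hi
    have h1 := coeff_prod_le (T 1) (fun t => t ^ (p ^ h)) R hRpos.le hTn i
    rw [← hfx, hcard] at h1
    have h2 : R ^ p ^ d = R ^ (p ^ d - i) * R ^ i := by
      rw [← pow_add]
      congr 1
      omega
    rw [h2] at h1
    have h3 := le_of_mul_le_mul_right h1 (pow_pos hRpos i)
    exact h3.trans (pow_le_pow_of_le_one hRpos.le hR1.le (by omega))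
  -- the unit `U`
  have hUm : ∀ i, ‖x (PowerSeries.coeff i (U - 1))‖ < 1 := by
    intro i
    have := hX.mem_pow hev ρ hρ0 hS.hρ 1 (PowerSeries.coeff i (U - 1)) (by
      rw [pow_one]; exact hW.U1 i)
    rw [pow_one] at this
    exact this.trans_lt hS.hρ1
  have hU0 : ‖PowerSeries.coeff 0 (PowerSeries.map x U)‖ = 1 := by
    have e : PowerSeries.coeff 0 (PowerSeries.map x U) =
        1 + x (PowerSeries.coeff 0 (U - 1)) := by
      rw [map_sub, map_sub, PowerSeries.coeff_map]
      simp
    rw [e, IsUltrametricDist.norm_add_eq_max_of_norm_ne_norm, norm_one, max_eq_left (hUm 0).le]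
    rw [norm_one]
    exact (hUm 0).ne'
  have hU1 : ∀ i, ‖PowerSeries.coeff i (PowerSeries.map x U)‖ ≤ 1 := by
    intro i
    rw [PowerSeries.coeff_map]
    exact hX.le_one hev _
  obtain ⟨hφlow, hφdom⟩ := coeff_mul_unit (f.map x) (PowerSeries.map x U) A.card (R ^ B.card)
    (R ^ (B.card + 1)) (by positivity)
    (by rw [pow_succ]; exact mul_lt_of_lt_one_right (by positivity) hR1) hdom hlow hU0 hU1
  -- coefficients of `[p]`
  have hφ : ∀ a, PowerSeries.coeff a (((f.map x : C[X]) : PowerSeries C) * PowerSeries.map x U) =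
      x (PowerSeries.coeff (p ^ h * a) (mulSeries F p)) := by
    intro a
    have h1 := hW.eq
    rw [pow_one, mul_one] at h1
    rw [h1]
    unfold LT3.cmp
    rw [PowerSeries.coeff_subst_X_pow hq0, if_pos (dvd_mul_right _ _),
      Nat.mul_div_cancel_left _ (Nat.pos_of_ne_zero hq0), Algebra.algebraMap_self, RingHom.id_apply,
      ← PowerSeries.coeff_map]
    congr 1
    have e2 : PowerSeries.map x ((f : PowerSeries (MvPowerSeries (Fin d) (GaloisField p n))) * U) =
        PowerSeries.map x (f : PowerSeries (MvPowerSeries (Fin d) (GaloisField p n))) *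
          PowerSeries.map x U := map_mul _ _ _
    rw [e2]
    congr 1
    ext j
    simp
  have hφw : ∀ l : Fin d, PowerSeries.coeff (p ^ l.1)
      (((f.map x : C[X]) : PowerSeries C) * PowerSeries.map x U) = w l := by
    intro l
    rw [hφ, ← pow_add, hst.c2, hX.x_X hev]
  -- `A.card` is a power of `p`
  have h0A : (0 : C) ∈ A := by
    refine Finset.mem_filter.2 ⟨(hS.ts.mem 1 0).2 ⟨by simp, hG.mul_zero ig _⟩, Or.inl rfl⟩
  have hApos : 0 < A.card := Finset.card_pos.2 ⟨0, h0A⟩
  have hBpos : 0 < B.card := by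
    obtain ⟨t, ht, ht0, hts⟩ := hS.sc.σatt
    exact Finset.card_pos.2 ⟨t, Finset.mem_filter.2 ⟨ht, by simp [ht0, hts]⟩⟩
  obtain ⟨v, m, hm, hvm⟩ := Nat.exists_eq_pow_mul_and_not_dvd hApos.ne' p hp.out.ne_one
  have hvA : p ^ v ≤ A.card := by
    rw [hvm]
    refine Nat.le_mul_of_pos_right _ (Nat.pos_of_ne_zero ?_)
    rintro rfl
    exact hm (dvd_zero _)
  have hvd : v < d := by
    have : p ^ v < p ^ d := by omega
    exact (Nat.pow_lt_pow_iff_right hp.out.one_lt).1 this
  have hnd : ¬ p ^ (h + (v + 1)) ∣ p ^ h * A.card := by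
    rw [pow_add, Nat.mul_dvd_mul_iff_left (Nat.pos_of_ne_zero hq0), hvm, pow_succ,
      Nat.mul_dvd_mul_iff_left (pow_pos hp.out.pos v)]
    exact hm
  have hmem := hst.c3 (v + 1) hvd _ hnd
  have hex : ∃ l : Fin d, l.1 < v + 1 ∧ R ^ (B.card + 1) < ‖w l‖ := by
    by_contra hno
    push Not at hno
    have h1 := var_le hX hev (v + 1) (R ^ (B.card + 1)) (by positivity) hno _ hmem
    rw [← hφ, hφdom, pow_succ] at h1
    have h2 : R ^ B.card * R < R ^ B.card := mul_lt_of_lt_one_right (by positivity) hR1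
    linarith
  obtain ⟨l, hlv, hl⟩ := hex
  have hAl : A.card = p ^ l.1 := by
    have h1 : ¬ p ^ l.1 < A.card := by
      intro hlt
      have := hφlow _ hlt
      rw [hφw] at this
      linarith
    have h2 : p ^ l.1 ≤ p ^ v := Nat.pow_le_pow_right hp.out.pos (by omega)
    omega
  have hwl : ‖w l‖ = R ^ B.card := by
    rw [← hφw, ← hAl]
    exact hφdom
  have hl2 : d - r + 1 ≤ l.1 := by
    rw [hAl] at hcon
    exact (Nat.pow_lt_pow_iff_right hp.out.one_lt).1 hcon
  have hcod := hS.cod l hl2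
  -- the product formula for `w_0`
  have hw0 : ‖w i0‖ = (∏ t ∈ A.erase 0, ‖t‖ ^ (p ^ h)) * R ^ B.card := by
    rw [hS.ts.w0_prod]
    have h0B : (0 : C) ∉ B := by simp [hB]
    have hsplit : (T 1).erase 0 = A.erase 0 ∪ B := by
      ext t
      simp only [Finset.mem_erase, Finset.mem_union, hA, hB, Finset.mem_filter]
      constructor
      · rintro ⟨h1, h2⟩
        by_cases h3 : t = 0 ∨ σ < lam t
        · exact Or.inl ⟨h1, h2, h3⟩
        · exact Or.inr ⟨h2, h3⟩
      · rintro (⟨h1, h2, _⟩ | ⟨h2, h3⟩)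
        · exact ⟨h1, h2⟩
        · exact ⟨fun h => h3 (Or.inl h), h2⟩
    have hdisj : Disjoint (A.erase 0) B := by
      rw [Finset.disjoint_left]
      intro t ht htB
      have h1 := (Finset.mem_filter.1 (Finset.mem_of_mem_erase ht)).2
      exact (Finset.mem_filter.1 htB).2 h1
    rw [hsplit, Finset.prod_union hdisj]
    congr 1
    rw [Finset.prod_congr rfl (g := fun _ => R)]
    · simp
    · intro t ht
      rw [← norm_pow]
      exact hBn t ht
  have hprod : ∏ t ∈ A.erase 0, ‖t‖ ^ (p ^ h) ≤ R' := by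
    have h1 : ∏ t ∈ A.erase 0, ‖t‖ ^ (p ^ h) ≤ ∏ _t ∈ A.erase 0, R' := by
      refine Finset.prod_le_prod (fun t _ => by positivity) fun t ht => ?_
      rw [← norm_pow]
      exact hAR' t (Finset.mem_of_mem_erase ht)
    rw [Finset.prod_const] at h1
    refine h1.trans ?_
    have h2 : 1 ≤ (A.erase 0).card := by
      rw [Finset.card_erase_of_mem h0A]
      have : 1 ≤ p ^ (d - r) := Nat.one_le_pow _ _ hp.out.pos
      omega
    calc R' ^ (A.erase 0).card ≤ R' ^ 1 :=
          pow_le_pow_of_le_one hR'0.le (hR'R.trans hR1).le h2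
      _ = R' := pow_one _
  have hlast : ‖w i0‖ < R ^ B.card := by
    rw [hw0]
    calc _ ≤ R' * R ^ B.card := mul_le_mul_of_nonneg_right hprod (by positivity)
      _ < 1 * R ^ B.card := mul_lt_mul_of_pos_right (hR'R.trans hR1) (by positivity)
      _ = _ := one_mul _
  linarith

end Crest.Agent.LT3COD
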