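/- rid 227 (S0351): module CURVE (coefficients of `lg(c')` for a curve `c'` over `E`). -/
import Crest.Agent.LT3Spec4
import Crest.Agent.LT3APIA

set_option autoImplicit false
open Crest.LubinTate
open Crest Crest.GeometryTopology

namespace Crest.Agent.LT3CURVE

open LT3

section gen

variable {R S : Type} [CommRing R] [CommRing S]

theorem zc_mon (b : R) (j : ℕ) : ZC (PowerSeries.C b * PowerSeries.X ^ (j + 1) : PowerSeries R) := by
  show PowerSeries.constantCoeff (PowerSeries.C b * PowerSeries.X ^ (j + 1) : PowerSeries R) = 0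
  simp

/-- lower coefficients of `f +_F b X^{j+1}`. -/
theorem coeff_fadd_mon (F : FormalGroup R) {f : PowerSeries R} (hf : ZC f) (b : R) (j i : ℕ)
    (hi : i ≤ j + 1) :
    PowerSeries.coeff i (fadd F f (PowerSeries.C b * PowerSeries.X ^ (j + 1) : PowerSeries R) :
      PowerSeries R) = PowerSeries.coeff i f + if i = j + 1 then b else 0 := by
  obtain ⟨G, hG⟩ := LT3APIA.exists_factor F
  have h : (fadd F f (PowerSeries.C b * PowerSeries.X ^ (j + 1) : PowerSeries R) : PowerSeries R) =
      f + PowerSeries.C b * PowerSeries.X ^ (j + 1) + f * ((PowerSeries.C b *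
        PowerSeries.X ^ (j + 1)) * (MvPowerSeries.subst ![f, PowerSeries.C b *
          PowerSeries.X ^ (j + 1)] G : PowerSeries R)) :=
    LT3APIA.fadd_eq F hG hf (zc_mon b j)
  obtain ⟨f1, hf1⟩ : (PowerSeries.X : PowerSeries R) ∣ f := PowerSeries.X_dvd_iff.2 hf
  rw [h]
  generalize (MvPowerSeries.subst ![f, PowerSeries.C b *
          PowerSeries.X ^ (j + 1)] G : PowerSeries R) = g
  have h2 : f * ((PowerSeries.C b * PowerSeries.X ^ (j + 1)) * g) =
      PowerSeries.X ^ (j + 2) * (f1 * PowerSeries.C b * g) := by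
    rw [hf1]; ring
  rw [h2, map_add, map_add, PowerSeries.coeff_X_pow_mul', if_neg (by omega), add_zero,
    PowerSeries.coeff_C_mul, PowerSeries.coeff_X_pow]
  congr 1
  split_ifs <;> simp

theorem coeff_cmp (φ : PowerSeries R) {a : PowerSeries R} (ha : ZC a) (j : ℕ) :
    PowerSeries.coeff j (cmp φ a : PowerSeries R) =
      ∑ᶠ d : ℕ, PowerSeries.coeff d φ * PowerSeries.coeff j (a ^ d) := by
  have := PowerSeries.coeff_subst' (LT3APIA.hs1 ha) φ j
  exact this

theorem coeff_cmp_congr (φ : PowerSeries R) {a a' : PowerSeries R} (ha : ZC a) (ha' : ZC a')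
    (j : ℕ) (h : ∀ i ≤ j, PowerSeries.coeff i a = PowerSeries.coeff i a') :
    PowerSeries.coeff j (cmp φ a : PowerSeries R) = PowerSeries.coeff j (cmp φ a' : PowerSeries R) := by
  rw [coeff_cmp φ ha, coeff_cmp φ ha']
  congr 1
  ext d
  have h1 : (PowerSeries.X : PowerSeries R) ^ (j + 1) ∣ a - a' := by
    rw [PowerSeries.X_pow_dvd_iff]
    intro m hm
    rw [map_sub, h m (by omega), sub_self]
  have h2 : (PowerSeries.X : PowerSeries R) ^ (j + 1) ∣ a ^ d - a' ^ d :=
    h1.trans (sub_dvd_pow_sub_pow a a' d)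
  have h3 := (PowerSeries.X_pow_dvd_iff.1 h2) j (by omega)
  rw [map_sub, sub_eq_zero] at h3
  rw [h3]

theorem coeff_cmp_mon (φ : PowerSeries R) (b : R) (i j : ℕ) :
    PowerSeries.coeff j (cmp φ (PowerSeries.C b * PowerSeries.X ^ (i + 1) : PowerSeries R) :
      PowerSeries R) = if (i + 1) ∣ j then PowerSeries.coeff (j / (i + 1)) φ * b ^ (j / (i + 1))
        else 0 := by
  rw [coeff_cmp φ (zc_mon b i)]
  have h1 : ∀ d : ℕ, PowerSeries.coeff j ((PowerSeries.C b * PowerSeries.X ^ (i + 1) :
      PowerSeries R) ^ d) = if j = (i + 1) * d then b ^ d else 0 := by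
    intro d
    rw [mul_pow, ← pow_mul, ← map_pow, PowerSeries.coeff_C_mul, PowerSeries.coeff_X_pow]
    split_ifs <;> simp
  split_ifs with h
  · obtain ⟨e, he⟩ := h
    have he' : j / (i + 1) = e := by rw [he]; exact Nat.mul_div_cancel_left e (by omega)
    rw [he', finsum_eq_single _ e]
    · rw [h1, if_pos he]
    · intro d hd
      rw [h1, if_neg, mul_zero]
      intro h2
      apply hd
      have : (i + 1) * d = (i + 1) * e := by rw [← h2, ← he]
      exact Nat.eq_of_mul_eq_mul_left (by omega) this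
  · rw [← finsum_zero (α := ℕ)]
    congr 1
    ext d
    rw [h1, if_neg, mul_zero]
    intro h2
    exact h ⟨d, h2⟩

/-- `Σ^F_{i ≤ j} β_i X^i` -/
noncomputable def ps (F : FormalGroup R) (β : ℕ → R) : ℕ → PowerSeries R
  | 0 => 0
  | j + 1 => fadd F (ps F β j) (PowerSeries.C (β (j + 1)) * PowerSeries.X ^ (j + 1) : PowerSeries R)

theorem zc_ps (F : FormalGroup R) (β : ℕ → R) (j : ℕ) : ZC (ps F β j) := by
  induction j with
  | zero => exact LT3APIA.zc_zero
  | succ j ih => exact LT3APIA.zc_fadd F ih (zc_mon _ _)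

theorem map_ps (r : R →+* S) (F : FormalGroup R) (β : ℕ → R) (j : ℕ) :
    PowerSeries.map r (ps F β j) = ps (F.map r) (fun i => r (β i)) j := by
  induction j with
  | zero => simp [ps]
  | succ j ih =>
    have h := LT3APIA.map_fadd r F (zc_ps F β j) (zc_mon (β (j + 1)) j)
    have h2 : PowerSeries.map r (ps F β (j + 1)) = fadd (F.map r) (PowerSeries.map r (ps F β j))
      (PowerSeries.map r (PowerSeries.C (β (j + 1)) * PowerSeries.X ^ (j + 1) : PowerSeries R)) := h
    rw [h2, ih, map_mul, map_pow, PowerSeries.map_X, PowerSeries.map_C]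
    rfl

theorem ps_zero (F : FormalGroup R) {β : ℕ → R} (j : ℕ) (h : ∀ i ≤ j, β i = 0) :
    ps F β j = 0 := by
  induction j with
  | zero => rfl
  | succ j ih =>
    rw [ps, ih (fun i hi => h i (by omega)), h (j + 1) le_rfl, map_zero, zero_mul]
    exact LT3APIA.fadd_zero F LT3APIA.zc_zero

end gen

theorem coeff_lg_ps {C : Type} [Field C] [CharZero C] (hLOG : Spec4.LOG) (G : FormalGroup C)
    (β : ℕ → C) (N j : ℕ) :
    PowerSeries.coeff j (cmp (lg G) (ps G β N) : PowerSeries C) =
      ∑ i ∈ (Finset.Ico 1 (N + 1)).filter (· ∣ j),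
        PowerSeries.coeff (j / i) (lg G) * β i ^ (j / i) := by
  obtain ⟨_, hL⟩ := hLOG
  obtain ⟨h0, _, hadd, _⟩ := hL C G
  induction N with
  | zero =>
    have h1 := hadd Unit (0 : PowerSeries C) (0 : PowerSeries C) LT3APIA.zc_zero LT3APIA.zc_zero
    have h2 : fadd G (0 : PowerSeries C) (0 : PowerSeries C) = 0 :=
      LT3APIA.fadd_zero G LT3APIA.zc_zero
    rw [h2] at h1
    have h3 : (cmp (lg G) (0 : PowerSeries C) : PowerSeries C) = 0 := by
      have h4 := add_left_cancel (a := (cmp (lg G) (0 : PowerSeries C) : PowerSeries C))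
        (b := 0) (c := cmp (lg G) (0 : PowerSeries C)) (by rw [add_zero]; exact h1)
      exact h4.symm
    show PowerSeries.coeff j (cmp (lg G) (0 : PowerSeries C) : PowerSeries C) = _
    rw [h3]
    simp
  | succ N ih =>
    have h1 : (cmp (lg G) (ps G β (N + 1)) : PowerSeries C) = cmp (lg G) (ps G β N) +
        cmp (lg G) (PowerSeries.C (β (N + 1)) * PowerSeries.X ^ (N + 1) : PowerSeries C) :=
      hadd Unit _ _ (zc_ps G β N) (zc_mon _ _)
    rw [h1, map_add, ih, coeff_cmp_mon, Finset.sum_filter, Finset.sum_filter,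
      Finset.sum_Ico_succ_top (b := N + 1) (by omega)]

theorem ideal_le (p : ℕ) [Fact p.Prime] (n : ℕ) {C : Type} [NontriviallyNormedField C]
    {ι : WittVector p (GaloisField p n) →+* C}
    {w : Fin (n - 1) → C} {x : LTRing p n →+* C} (hx : IsEvW p n ι w x) :
    ∃ r : ℝ, 0 ≤ r ∧ r < 1 ∧ ‖(p : C)‖ ≤ r ∧ ∀ i, ‖w i‖ ≤ r := by
  classical
  let s : Finset ℝ := insert ‖(p : C)‖ (Finset.univ.image fun i => ‖w i‖)
  have hs : s.Nonempty := ⟨_, Finset.mem_insert_self _ _⟩
  refine ⟨s.max' hs, ?_, ?_, ?_, ?_⟩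
  · exact (norm_nonneg (p : C)).trans (s.le_max' _ (Finset.mem_insert_self _ _))
  · have h1 : ∀ y ∈ s, y < 1 := by
      intro y hy
      rcases Finset.mem_insert.1 hy with h | h
      · rw [h]; exact hx.hp
      · obtain ⟨i, _, hi⟩ := Finset.mem_image.1 h
        rw [← hi]; exact hx.hw i
    exact h1 _ (s.max'_mem hs)
  · exact s.le_max' _ (Finset.mem_insert_self _ _)
  · intro i
    exact s.le_max' _ (Finset.mem_insert_of_mem (Finset.mem_image_of_mem _ (Finset.mem_univ i)))

/-- the recursive choice of the coefficients. -/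
theorem exists_beta {k : Type} [Field k] (Γ : FormalGroup k) (c : PowerSeries k) (M : ℕ)
    (hM : 1 ≤ M) (hc : ∀ i, i < M → PowerSeries.coeff i c = 0) :
    ∃ β : ℕ → k, (∀ i, i < M → β i = 0) ∧ β M = PowerSeries.coeff M c ∧
      ∀ j i, i ≤ j → PowerSeries.coeff i (ps Γ β j) = PowerSeries.coeff i c := by
  let S : ℕ → PowerSeries k := fun j => Nat.rec (0 : PowerSeries k) (fun j s =>
    fadd Γ s (PowerSeries.C (PowerSeries.coeff (j + 1) c - PowerSeries.coeff (j + 1) s) *
      PowerSeries.X ^ (j + 1) : PowerSeries k)) j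
  have hS0 : S 0 = 0 := rfl
  have hS1 : ∀ j, S (j + 1) = fadd Γ (S j) (PowerSeries.C (PowerSeries.coeff (j + 1) c -
    PowerSeries.coeff (j + 1) (S j)) * PowerSeries.X ^ (j + 1) : PowerSeries k) := fun j => rfl
  let β : ℕ → k := fun i => PowerSeries.coeff i c - PowerSeries.coeff i (S (i - 1))
  have hSp : ∀ j, S j = ps Γ β j := by
    intro j
    induction j with
    | zero => rfl
    | succ j ih => rw [hS1, ps, ih]; simp only [β, Nat.add_sub_cancel, ih]
  have hc0 : PowerSeries.coeff 0 c = 0 := hc 0 (by omega)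
  have hzc : ∀ j, PowerSeries.coeff 0 (ps Γ β j) = 0 := by
    intro j
    have := zc_ps Γ β j
    rw [PowerSeries.coeff_zero_eq_constantCoeff_apply]
    exact this
  have hmain : ∀ j i, i ≤ j → PowerSeries.coeff i (ps Γ β j) = PowerSeries.coeff i c := by
    intro j
    induction j with
    | zero =>
      intro i hi
      obtain rfl : i = 0 := by omega
      rw [hzc, hc0]
    | succ j ih =>
      intro i hi
      rw [ps, coeff_fadd_mon Γ (zc_ps Γ β j) _ j i hi]
      split_ifs with h
      · subst h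
        have h5 : β (j + 1) = PowerSeries.coeff (j + 1) c -
          PowerSeries.coeff (j + 1) (ps Γ β j) := by
          rw [← hSp j]; rfl
        rw [h5]
        ring
      · rw [add_zero]; exact ih i (by omega)
  have hβ0 : ∀ i, i < M → β i = 0 := by
    intro i
    induction i using Nat.strong_induction_on with
    | _ i ih =>
      intro hi
      simp only [β]
      rw [hc i hi, hSp, ps_zero Γ (i - 1)]
      · simp
      · intro l hl
        rcases Nat.eq_zero_or_pos i with h0 | h0
        · have hl0 : l = 0 := by omega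
          subst hl0
          simp only [β]
          rw [hc0, hSp, hzc, sub_zero]
        · exact ih l (by omega) (by omega)
  refine ⟨β, hβ0, ?_, hmain⟩
  show PowerSeries.coeff M c - PowerSeries.coeff M (S (M - 1)) = _
  rw [hSp, ps_zero Γ (M - 1) (fun i hi => hβ0 i (by omega)), map_zero, sub_zero]

theorem main (W : ApiW) (hLOG : Spec4.LOG) (hLGB : Spec4.LGB) : Spec4.CURVE := by
  intro p _ n Γ H hn hcomm hred C _ _ _ _ ι w x hx
  obtain ⟨r, hr0, hr1, hrp, hrw⟩ := ideal_le p n hx
  obtain ⟨B, hB, hb⟩ := hLGB p C hx.hp r hr0 hr1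
  refine ⟨B, hB, ?_⟩
  intro c M hM hc
  obtain ⟨β, hβ0, hβM, hβ⟩ := exists_beta Γ c M hM hc
  refine ⟨β, hβ0, hβM, ?_⟩
  intro c' hc' hcc j hj
  have hIG : IG (H.map x) := W.ig p n hx H hcomm
  -- the lifted formal sum
  let b : ℕ → LTRing p n := fun i => MvPowerSeries.C (WittVector.teichmuller p (β i))
  have hresb : ∀ i, LTRing.residue p n (b i) = β i := by
    intro i
    simp only [b, LTRing.residue, RingHom.comp_apply, MvPowerSeries.constantCoeff_C]
    exact WittVector.teichmuller_coeff_zero p (β i)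
  have hresS : PowerSeries.map (LTRing.residue p n) (ps H b j) = ps Γ β j := by
    rw [map_ps, hred, show (fun i => LTRing.residue p n (b i)) = β from funext hresb]
  let c'' : PowerSeries (LTRing p n) := PowerSeries.mk fun i =>
    if i ≤ j then PowerSeries.coeff i c' else PowerSeries.coeff i (ps H b j)
  have hzS : ZC (ps H b j) := zc_ps H b j
  have hzc'' : ZC c'' := by
    show PowerSeries.constantCoeff c'' = 0
    rw [← PowerSeries.coeff_zero_eq_constantCoeff_apply]
    simp only [c'', PowerSeries.coeff_mk, Nat.zero_le, if_true]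
    rw [PowerSeries.coeff_zero_eq_constantCoeff_apply]
    exact hc'
  have hEq : EqM (mE p n) c'' (ps H b j) := by
    intro e
    have he : e = Finsupp.single () (e ()) := by
      ext; simp
    rw [he]
    change PowerSeries.coeff (e ()) c'' - PowerSeries.coeff (e ()) (ps H b j) ∈ mE p n
    simp only [c'', PowerSeries.coeff_mk]
    split_ifs with h
    · rw [mE, RingHom.mem_ker, map_sub]
      have h1 : LTRing.residue p n (PowerSeries.coeff (e ()) c') = PowerSeries.coeff (e ()) c := by
        rw [← hcc, PowerSeries.coeff_map]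
      have h2 : LTRing.residue p n (PowerSeries.coeff (e ()) (ps H b j)) =
          PowerSeries.coeff (e ()) c := by
        rw [← hβ j (e ()) h, ← hresS, PowerSeries.coeff_map]
      rw [h1, h2, sub_self]
    · rw [sub_self]; exact Ideal.zero_mem _
  have hμ : InI (mE p n) (fsub H c'' (ps H b j)) :=
    (LT3APIA.fsub_mem_iff (mE p n) H hzc'' hzS).2 hEq
  have hzμ : ZC (fsub H c'' (ps H b j)) := LT3APIA.zc_fsub H hzc'' hzS
  have hsum : fadd H (fsub H c'' (ps H b j)) (ps H b j) = c'' := LT3APIA.fsub_fadd H hzc'' hzS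
  generalize hμd : (fsub H c'' (ps H b j) : PowerSeries (LTRing p n)) = μ at hμ hzμ hsum
  have hmapc : PowerSeries.map x c'' = fadd (H.map x) (PowerSeries.map x μ)
      (PowerSeries.map x (ps H b j)) := by
    rw [← hsum]
    exact LT3APIA.map_fadd x H hzμ hzS
  have hzxμ : ZC (PowerSeries.map x μ) := LT3APIA.map_zc x hzμ
  have hzxS : ZC (PowerSeries.map x (ps H b j)) := LT3APIA.map_zc x hzS
  have hzxc : ZC (PowerSeries.map x c') := LT3APIA.map_zc x hc'
  have hzxc'' : ZC (PowerSeries.map x c'') := LT3APIA.map_zc x hzc''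
  have h1 : PowerSeries.coeff j (cmp (lg (H.map x)) (PowerSeries.map x c') : PowerSeries C) =
      PowerSeries.coeff j (cmp (lg (H.map x)) (PowerSeries.map x c'') : PowerSeries C) := by
    apply coeff_cmp_congr _ hzxc hzxc''
    intro i hi
    rw [PowerSeries.coeff_map, PowerSeries.coeff_map]
    simp only [c'', PowerSeries.coeff_mk, if_pos hi]
  have h2 : (cmp (lg (H.map x)) (PowerSeries.map x c'') : PowerSeries C) =
      cmp (lg (H.map x)) (PowerSeries.map x μ) +
        cmp (lg (H.map x)) (PowerSeries.map x (ps H b j)) := by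
    rw [hmapc]
    exact (hLOG.2 C (H.map x)).2.2.1 Unit _ _ hzxμ hzxS
  have h3 : PowerSeries.coeff j (cmp (lg (H.map x)) (PowerSeries.map x (ps H b j)) :
      PowerSeries C) = ∑ i ∈ j.divisors, PowerSeries.coeff (j / i) (lg (H.map x)) *
                ι (WittVector.teichmuller p (β i)) ^ (j / i) := by
    rw [map_ps, coeff_lg_ps hLOG (H.map x) _ j j]
    apply Finset.sum_congr rfl
    intro i _
    simp only [b, W.x_C p n hx]
  rw [h1, h2, map_add, h3, add_sub_cancel_right]
  apply hb (H.map x) hIG (PowerSeries.map x μ) hzxμ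
  intro i
  rw [PowerSeries.coeff_map]
  have := W.mem_pow p n hx r hr0 hrp hrw 1 (PowerSeries.coeff i μ) (by
    rw [pow_one]
    exact hμ (Finsupp.single () i))
  simpa using this

end Crest.Agent.LT3CURVE
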