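/- rid 227 (S0351): size of the displacement of the parameter under a move. -/
import Crest.Agent.LT3Spec3

set_option autoImplicit false

namespace Crest.Agent.LT3DELTA
open Crest.Agent.LT3

theorem main (hBASIS : Spec3.BASIS) (hDUAL : Spec3.DUAL) (hYY2 : Spec3.YY2) (hYR : Spec3.YR) :
    Spec3.DELTA := by
  intro p _ n h d r C _ _ _ _ _ Γ F ι w x i0 ρ T σ S c V₀ hsys
  classical
  have hnd : h + d = n := hsys.st.hn
  have hp0 : (0 : ℝ) < p := by exact_mod_cast (Fact.out : p.Prime).pos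
  obtain ⟨r', τ, h1, h2, -, h3, h4, h5, h6, h7⟩ := hBASIS p n h d C (F.map x) (w i0) T σ S c V₀
    hnd hsys.ts hsys.sc
  have hbas : Bas p n (F.map x) T σ r' τ := ⟨h1, h2, h3, h4, h5, h6 h2, h7⟩
  set V : ℝ := (p : ℝ) ^ n * σ with hV
  have hVpos : 0 < V := mul_pos (pow_pos hp0 _) hsys.sc.σpos
  obtain ⟨-, -, ⟨C₂, hC₂, hC₂'⟩, -⟩ := hDUAL p n h d r C Γ F ι w x i0 ρ T σ S c V₀ hsys r' τ hbas
  have hyy := fun j => hYY2 p n h d r C Γ F ι w x i0 ρ T σ S c V₀ hsys (τ j) (hbas.seq j)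
  choose C₃ K₃ hC₃ hK₃ using hyy
  have hval : ∀ j : Fin d, ∃ Vj, V ≤ Vj ∧ HasV p n (τ j) Vj := by
    intro j
    by_cases hj : j.1 < r'
    · exact ⟨V, le_refl _, hbas.dom j hj⟩
    · obtain ⟨-, Vj, h8, h9⟩ := hbas.nondom j (by omega)
      exact ⟨Vj, h8.le, h9⟩
  choose Vj hVj1 hVj2 using hval
  have hρ0 : 0 ≤ ρ := (norm_nonneg _).trans (hsys.hρ i0)
  -- total constant
  set C5 : ℝ := 1 + ∑ j, C₃ j with hC5
  have hC5' : ∀ j, C₃ j ≤ C5 := by
    intro j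
    have := Finset.single_le_sum (f := C₃) (fun j _ => (hC₃ j).le) (Finset.mem_univ j)
    linarith
  have hC50 : 0 < C5 := by
    have : 0 ≤ ∑ j, C₃ j := Finset.sum_nonneg fun j _ => (hC₃ j).le
    linarith
  obtain ⟨K₂, hK₂⟩ : ∃ K₂ : ℕ, ∀ K, K₂ ≤ K → C₂ * C5 * ρ ^ (K + 1) < 1 := by
    have h1 : Filter.Tendsto (fun K : ℕ => C₂ * C5 * ρ ^ (K + 1)) Filter.atTop
        (nhds (C₂ * C5 * 0)) :=
      ((Filter.tendsto_add_atTop_iff_nat 1).2
        (tendsto_pow_atTop_nhds_zero_of_lt_one hρ0 hsys.hρ1)).const_mul _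
    rw [mul_zero] at h1
    exact Filter.eventually_atTop.1 (h1.eventually (gt_mem_nhds one_pos))
  refine ⟨C₂, K₂ + ∑ j, K₃ j, hC₂, ?_⟩
  intro K m hK ω w' x' ψ hω hmv
  have hK3' : ∀ j, K₃ j ≤ K := by
    intro j
    have := Finset.single_le_sum (f := K₃) (fun j _ => Nat.zero_le _) (Finset.mem_univ j)
    omega
  -- the maximum of the displacements
  obtain ⟨iM, -, hiM⟩ := Finset.exists_max_image (Finset.univ : Finset (Fin d))
    (fun i => ‖w' i - w i‖) ⟨i0, Finset.mem_univ _⟩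
  set ε : ℝ := ‖w' iM - w iM‖ with hε
  have hε0 : 0 ≤ ε := norm_nonneg _
  have hεle : ∀ i, ‖w' i - w i‖ ≤ ε := fun i => hiM i (Finset.mem_univ _)
  set S1 : ℝ := S ((p : ℝ) ^ (m + n * K) * V) with hS1
  have hyr : ∀ j : Fin d, ∃ N₀ : ℕ, ∀ N, N₀ ≤ N →
      ‖gmul (F.map x) (p ^ N) (ψ (τ j N))‖ ≤ Real.exp (-S1) := by
    intro j
    obtain ⟨N₀, hN₀⟩ := hYR p n h d r C Γ F ι w x i0 ρ T σ S c V₀ hsys K m ω ω hω hω
      w' x' ψ hmv w' x' ψ hmv (τ j) (τ j) (Vj j) (hVpos.trans_le (hVj1 j)) (hbas.seq _)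
      (hbas.seq _) (hVj2 j) (hVj2 j)
    refine ⟨N₀, fun N hN => (hN₀ N hN).1.trans (Real.exp_le_exp.2 (neg_le_neg ?_))⟩
    have hpp : 0 < (p : ℝ) ^ (m + n * K) := pow_pos hp0 _
    exact hsys.sc.Smono.monotoneOn (Set.mem_Ioi.2 (mul_pos hpp hVpos))
      (Set.mem_Ioi.2 (mul_pos hpp (hVpos.trans_le (hVj1 j))))
      (mul_le_mul_of_nonneg_left (hVj1 j) hpp.le)
  have hej : ∀ j, ‖ee p F x (τ j 1) (fun i => w' i - w i)‖ ≤
      max (Real.exp (-S1)) (C5 * ε ^ 2) := by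
    intro j
    obtain ⟨N₀, hN₀⟩ := hyr j
    have h8 := hN₀ (N₀ + 1) (by omega)
    have h9 := hK₃ j K m (hK3' j) ω w' x' ψ hmv (N₀ + 1) (by omega) ε hε0 hεle
    have h10 : ee p F x (τ j 1) (fun i => w' i - w i) =
        (gmul (F.map x) (p ^ (N₀ + 1)) (ψ (τ j (N₀ + 1))) +
          ee p F x (τ j 1) (fun i => w' i - w i)) +
        -(gmul (F.map x) (p ^ (N₀ + 1)) (ψ (τ j (N₀ + 1)))) := by ring
    rw [h10]
    refine (IsUltrametricDist.norm_add_le_max _ _).trans (max_le ?_ ?_)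
    · refine h9.trans (le_max_of_le_right ?_)
      exact mul_le_mul_of_nonneg_right (hC5' j) (sq_nonneg _)
    · rw [norm_neg]
      exact le_max_of_le_left h8
  have hmain := hC₂' (fun i => w' i - w i) (max (Real.exp (-S1)) (C5 * ε ^ 2))
    (le_max_of_le_left (Real.exp_pos _).le) hej iM
  have hmain' : ε ≤ C₂ * max (Real.exp (-S1)) (C5 * ε ^ 2) := hmain
  have hfin : ε ≤ C₂ * Real.exp (-S1) := by
    rcases le_total (Real.exp (-S1)) (C5 * ε ^ 2) with h8 | h8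
    · rw [max_eq_right h8] at hmain'
      rcases eq_or_lt_of_le hε0 with h9 | h9
      · rw [← h9]; exact mul_nonneg hC₂.le (Real.exp_pos _).le
      · exfalso
        have h10 := hK₂ K (by omega)
        have h11 : ε ≤ ρ ^ (K + 1) := hmv.near iM
        have h12 : C₂ * C5 * ε < 1 :=
          lt_of_le_of_lt (mul_le_mul_of_nonneg_left h11 (mul_nonneg hC₂.le hC50.le)) h10
        nlinarith
    · rw [max_eq_left h8] at hmain'
      exact hmain'
  intro i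
  exact (hεle i).trans hfin

end Crest.Agent.LT3DELTA
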