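/- rid 227 (S0351): module DIM (the tangent space has dimension at most `r`). -/
import Crest.Agent.LT3Spec3

set_option autoImplicit false
open Crest.LubinTate

namespace Crest.Agent.LT3DIM

section dec

variable (p : ℕ) [hp : Fact p.Prime] {k : Type} [Field k] {r : ℕ}

/-- the exponent vector. -/
noncomputable def ex (e : Fin r → Fin p) : Fin r →₀ ℕ :=
  Finsupp.equivFunOnFinite.symm (fun i => (e i : ℕ))

omit hp in
@[simp] theorem ex_apply (e : Fin r → Fin p) (i : Fin r) : ex p e i = (e i : ℕ) := rfl

theorem exists_dec [CharP k p] [Finite k] (f : MvPowerSeries (Fin r) k) :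
    ∃ g : (Fin r → Fin p) → MvPowerSeries (Fin r) k,
      f = ∑ e, (g e) ^ p * MvPowerSeries.monomial (ex p e) 1 := by
  classical
  have hp0 : p ≠ 0 := hp.out.ne_zero
  have hE : ExpChar k p := ExpChar.prime hp.out
  let g : (Fin r → Fin p) → MvPowerSeries (Fin r) k := fun e m =>
    (frobeniusEquiv k p).symm (MvPowerSeries.coeff (p • m + ex p e) f)
  have hg : ∀ e m, MvPowerSeries.coeff m (g e) =
      (frobeniusEquiv k p).symm (MvPowerSeries.coeff (p • m + ex p e) f) := fun e m => rfl
  refine ⟨g, ?_⟩
  ext v
  rw [map_sum]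
  have hterm : ∀ e, MvPowerSeries.coeff v (g e ^ p * MvPowerSeries.monomial (ex p e) 1) =
      if ex p e ≤ v then MvPowerSeries.coeff (v - ex p e) (g e ^ p) else 0 := by
    intro e
    rw [MvPowerSeries.coeff_mul_monomial, mul_one]
  have hpow : ∀ e, g e ^ p = MvPowerSeries.map (frobenius k p) (MvPowerSeries.expand p hp0 (g e)) :=
    fun e => (MvPowerSeries.map_frobenius_expand p hp0).symm
  let e0 : Fin r → Fin p := fun i => ⟨v i % p, Nat.mod_lt _ hp.out.pos⟩
  rw [Finset.sum_eq_single e0]
  · rw [hterm, if_pos]
    · let m : Fin r →₀ ℕ := Finsupp.equivFunOnFinite.symm (fun i => v i / p)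
      have hm : v - ex p e0 = p • m := by
        ext i
        simp only [Finsupp.tsub_apply, ex_apply, Finsupp.smul_apply, smul_eq_mul, e0, m,
          Finsupp.equivFunOnFinite_symm_apply_apply]
        have := Nat.mod_add_div (v i) p
        omega
      have hm' : p • m + ex p e0 = v := by
        ext i
        simp only [Finsupp.add_apply, ex_apply, Finsupp.smul_apply, smul_eq_mul, e0, m,
          Finsupp.equivFunOnFinite_symm_apply_apply]
        have := Nat.mod_add_div (v i) p
        omega
      rw [hm, hpow, MvPowerSeries.coeff_map, MvPowerSeries.coeff_expand_smul, hg, hm',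
        ← coe_frobeniusEquiv, RingEquiv.apply_symm_apply]
    · intro i
      simp only [ex_apply, e0]
      exact Nat.mod_le _ _
  · intro e _ he
    rw [hterm]
    split_ifs with h
    · have hex : ∃ i, (e i : ℕ) ≠ v i % p := by
        by_contra hcon
        push Not at hcon
        exact he (funext fun i => Fin.ext (hcon i))
      obtain ⟨i, hi⟩ := hex
      rw [hpow, MvPowerSeries.coeff_map, MvPowerSeries.coeff_expand_of_not_dvd (i := i), map_zero]
      intro hdvd
      simp only [Finsupp.tsub_apply, ex_apply] at hdvd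
      apply hi
      have h1 : (e i : ℕ) ≤ v i := h i
      have h2 : (e i : ℕ) ≡ v i [MOD p] := (Nat.modEq_iff_dvd' h1).2 hdvd
      have h3 := h2
      rw [Nat.ModEq, Nat.mod_eq_of_lt (e i).2] at h3
      exact h3
    · rfl
  · intro h
    exact absurd (Finset.mem_univ _) h

end dec

section deg

/-- degree of a field homomorphism. -/
noncomputable def rk {E H : Type} [Field E] [Field H] (f : E →+* H) : ℕ :=
  @Module.finrank E H _ _ f.toAlgebra.toModule

theorem rk_mul {E F G H : Type} [Field E] [Field F] [Field G] [Field H] (a : E →+* F)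
    (b : F →+* H) (c : E →+* G) (e : G →+* H) (h : b.comp a = e.comp c) :
    rk a * rk b = rk c * rk e := by
  let _ := a.toAlgebra
  let _ := b.toAlgebra
  let _ := c.toAlgebra
  let _ := e.toAlgebra
  let _ : Algebra E H := (b.comp a).toAlgebra
  have : IsScalarTower E F H := IsScalarTower.of_algebraMap_eq' rfl
  have : IsScalarTower E G H := IsScalarTower.of_algebraMap_eq' h
  exact (Module.finrank_mul_finrank E F H).trans (Module.finrank_mul_finrank E G H).symm

theorem rk_eq {E H : Type} [Field E] [Field H] (f : E →+* H) :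
    rk f = Module.finrank f.fieldRange H := by
  let _ := f.toAlgebra
  refine Algebra.finrank_eq_of_equiv_equiv
    (RingEquiv.ofBijective f.rangeRestrictField ⟨?_, ?_⟩) (RingEquiv.refl H) ?_
  · exact f.rangeRestrictField.injective
  · rintro ⟨y, z, rfl⟩; exact ⟨z, rfl⟩
  · ext z; rfl

theorem rk_pos {E H : Type} [Field E] [Field H] (f : E →+* H) (hf : f.Finite) : 0 < rk f := by
  let _ := f.toAlgebra
  have : Module.Finite E H := hf
  exact Module.finrank_pos (R := E) (M := H)

end deg

section greedy

theorem greedy {F L : Type} [Field F] [Field L] [Algebra F L] [FiniteDimensional F L] (p : ℕ)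
    [hp : Fact p.Prime] [CharP L p] (hpow : ∀ y : L, ∃ a : F, algebraMap F L a = y ^ p) (A : Set L)
    (hA : IntermediateField.adjoin F A = ⊤) :
    ∃ (m : ℕ) (b : Fin m → L), (∀ i, b i ∈ A) ∧ p ^ m ≤ Module.finrank F L ∧
      IntermediateField.adjoin F (Set.range b) = ⊤ := by
  by_contra hcon
  push Not at hcon
  have key : ∀ m : ℕ, ∃ b : Fin m → L, (∀ i, b i ∈ A) ∧
      p ^ m ≤ Module.finrank F (IntermediateField.adjoin F (Set.range b)) := by
    intro m
    induction m with
    | zero =>
      refine ⟨Fin.elim0, fun i => i.elim0, ?_⟩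
      rw [pow_zero]
      exact Module.finrank_pos
    | succ m ih =>
      obtain ⟨b, hb, hdeg⟩ := ih
      set E := IntermediateField.adjoin F (Set.range b) with hE
      have hle : Module.finrank F E ≤ Module.finrank F L := by
        have := IntermediateField.finrank_dvd_of_le_right (le_top : E ≤ ⊤)
        rw [IntermediateField.finrank_top'] at this
        exact Nat.le_of_dvd Module.finrank_pos this
      have hne : E ≠ ⊤ := hcon m b hb (hdeg.trans hle)
      obtain ⟨c, hcA, hcE⟩ : ∃ c ∈ A, c ∉ E := by
        by_contra h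
        push Not at h
        exact hne (top_le_iff.1 (hA ▸ IntermediateField.adjoin_le_iff.2 h))
      refine ⟨Fin.cons c b, ?_, ?_⟩
      · intro i
        refine Fin.cases ?_ (fun j => ?_) i
        · simpa using hcA
        · simpa using hb j
      · have hrange : Set.range (Fin.cons c b : Fin (m + 1) → L) = Set.range b ∪ {c} := by
          rw [Fin.range_cons, Set.union_comm]; rfl
        rw [hrange, ← IntermediateField.adjoin_adjoin_left]
        change p ^ (m + 1) ≤ Module.finrank F (IntermediateField.adjoin E {c})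
        rw [← Module.finrank_mul_finrank F E (IntermediateField.adjoin E {c}), pow_succ]
        refine Nat.mul_le_mul hdeg ?_
        obtain ⟨a, ha⟩ := hpow c
        have hirr : Irreducible (Polynomial.X ^ p - Polynomial.C (algebraMap F E a)) := by
          apply X_pow_sub_C_irreducible_of_prime hp.out
          intro y hy
          apply hcE
          have h1 : (y : L) ^ p = c ^ p := by
            rw [← ha]
            have := congrArg (algebraMap E L) hy
            rw [map_pow] at this
            exact this
          have h2 : (y : L) = c := frobenius_inj L p (by simpa [frobenius_def] using h1)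
          rw [← h2]; exact y.2
        have hroot : Polynomial.aeval c
            (Polynomial.X ^ p - Polynomial.C (algebraMap F E a) : Polynomial E) = 0 := by
          simp only [map_sub, map_pow, Polynomial.aeval_X, Polynomial.aeval_C]
          rw [← ha, sub_eq_zero]; rfl
        have hmonic : (Polynomial.X ^ p - Polynomial.C (algebraMap F E a) : Polynomial E).Monic :=
          Polynomial.monic_X_pow_sub_C _ hp.out.ne_zero
        have hmin := minpoly.eq_of_irreducible_of_monic hirr hroot hmonic
        have hint : IsIntegral E c := ⟨_, hmonic, hroot⟩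
        rw [IntermediateField.adjoin.finrank hint, ← hmin, Polynomial.natDegree_X_pow_sub_C]
  obtain ⟨b, hb, hdeg⟩ := key (Module.finrank F L)
  have hle : Module.finrank F (IntermediateField.adjoin F (Set.range b)) ≤ Module.finrank F L := by
    have := IntermediateField.finrank_dvd_of_le_right
      (le_top : IntermediateField.adjoin F (Set.range b) ≤ ⊤)
    rw [IntermediateField.finrank_top'] at this
    exact Nat.le_of_dvd Module.finrank_pos this
  exact absurd (hdeg.trans hle) (not_le.2 (Nat.lt_pow_self hp.out.one_lt))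

end greedy


section frac

open scoped nonZeroDivisors

variable (p : ℕ) [hp : Fact p.Prime] {k : Type} [Field k] [Finite k] [CharP k p] {r : ℕ}

theorem finrank_frac (K : Type) [Field K] [CharP K p] [Algebra (MvPowerSeries (Fin r) k) K]
    [IsFractionRing (MvPowerSeries (Fin r) k) K] :
    Module.finrank (frobenius K p).fieldRange K ≤ p ^ r ∧
      Module.Finite (frobenius K p).fieldRange K := by
  classical
  set F := (frobenius K p).fieldRange with hF
  let X : (Fin r → Fin p) → K := fun e =>
    algebraMap (MvPowerSeries (Fin r) k) K (MvPowerSeries.monomial (ex p e) 1)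
  have hspan : (⊤ : Submodule F K) ≤ Submodule.span F (Set.range X) := by
    intro u _
    obtain ⟨a, s, hs, rfl⟩ := IsFractionRing.div_surjective (A := MvPowerSeries (Fin r) k) u
    have hs0 : algebraMap (MvPowerSeries (Fin r) k) K s ≠ 0 :=
      IsFractionRing.to_map_ne_zero_of_mem_nonZeroDivisors hs
    obtain ⟨g, hg⟩ := exists_dec p (a * s ^ (p - 1))
    have h1 : algebraMap (MvPowerSeries (Fin r) k) K a / algebraMap (MvPowerSeries (Fin r) k) K s =
        ∑ e, ((algebraMap (MvPowerSeries (Fin r) k) K (g e) /
          algebraMap (MvPowerSeries (Fin r) k) K s) ^ p) * X e := by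
      have h2 := congrArg (algebraMap (MvPowerSeries (Fin r) k) K) hg
      rw [map_mul, map_pow, map_sum] at h2
      have h3 : ∀ e, ((algebraMap (MvPowerSeries (Fin r) k) K (g e) /
          algebraMap (MvPowerSeries (Fin r) k) K s) ^ p) * X e =
          algebraMap (MvPowerSeries (Fin r) k) K (g e ^ p * MvPowerSeries.monomial (ex p e) 1) *
            ((algebraMap (MvPowerSeries (Fin r) k) K s) ^ p)⁻¹ := by
        intro e
        rw [map_mul, map_pow, div_pow]
        simp only [X]
        field_simp
      simp_rw [h3]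
      rw [← Finset.sum_mul, ← h2, eq_mul_inv_iff_mul_eq₀ (pow_ne_zero p hs0)]
      have h4 : (algebraMap (MvPowerSeries (Fin r) k) K s) ^ p =
          algebraMap (MvPowerSeries (Fin r) k) K s *
            (algebraMap (MvPowerSeries (Fin r) k) K s) ^ (p - 1) := by
        rw [← pow_succ', Nat.sub_add_cancel hp.out.one_lt.le]
      rw [h4]
      field_simp
    rw [h1]
    refine Submodule.sum_mem _ fun e _ => ?_
    have h5 : ((algebraMap (MvPowerSeries (Fin r) k) K (g e) /
          algebraMap (MvPowerSeries (Fin r) k) K s) ^ p) * X e =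
        (⟨(algebraMap (MvPowerSeries (Fin r) k) K (g e) /
          algebraMap (MvPowerSeries (Fin r) k) K s) ^ p, ⟨_, rfl⟩⟩ : F) • X e := rfl
    rw [h5]
    exact Submodule.smul_mem _ _ (Submodule.subset_span ⟨e, rfl⟩)
  constructor
  · have := finrank_le_of_span_eq_top (top_le_iff.1 hspan)
    simpa [Fintype.card_fun, Fintype.card_fin] using this
  · rw [Module.finite_def, ← top_le_iff.1 hspan]
    exact Submodule.fg_span (Set.finite_range X)

end frac

section der

variable {k : Type} [Field k] {d : ℕ} {C : Type} [Field C]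

/-- the ring homomorphism `f ↦ x f + D_δ(f) ε`. -/
noncomputable def dh (x : MvPowerSeries (Fin d) k →+* C) (δ : Fin d → C) :
    MvPowerSeries (Fin d) k →+* TrivSqZeroExt C C where
  toFun f := TrivSqZeroExt.inl (x f) +
    TrivSqZeroExt.inr (∑ i, x (MvPowerSeries.pderiv k i f) * δ i)
  map_one' := by
    ext <;> simp
  map_zero' := by
    ext <;> simp
  map_add' f g := by
    ext
    · simp
    · simp [add_mul, Finset.sum_add_distrib]
  map_mul' f g := by
    ext
    · simp
    · simp only [TrivSqZeroExt.snd_add, TrivSqZeroExt.snd_inl, TrivSqZeroExt.snd_inr, zero_add,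
        TrivSqZeroExt.snd_mul, TrivSqZeroExt.fst_add, TrivSqZeroExt.fst_inl,
        TrivSqZeroExt.fst_inr, add_zero, smul_eq_mul, MulOpposite.smul_eq_mul_unop,
        MulOpposite.unop_op, Derivation.leibniz, map_add, map_mul]
      rw [Finset.mul_sum, Finset.sum_mul, ← Finset.sum_add_distrib]
      refine Finset.sum_congr rfl fun i _ => ?_
      ring

@[simp] theorem fst_dh (x : MvPowerSeries (Fin d) k →+* C) (δ : Fin d → C)
    (f : MvPowerSeries (Fin d) k) : (dh x δ f).fst = x f := by
  simp [dh]

@[simp] theorem snd_dh (x : MvPowerSeries (Fin d) k →+* C) (δ : Fin d → C)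
    (f : MvPowerSeries (Fin d) k) :
    (dh x δ f).snd = ∑ i, x (MvPowerSeries.pderiv k i f) * δ i := by
  simp [dh]

end der



section pbasis

open scoped nonZeroDivisors

attribute [local instance] FractionRing.liftAlgebra

theorem exists_pbasis (p : ℕ) [hp : Fact p.Prime] {k : Type} [Field k] [Finite k] [CharP k p]
    {r : ℕ} {A : Type} [CommRing A] [IsDomain A] [Algebra (MvPowerSeries (Fin r) k) A]
    (hinj : Function.Injective (algebraMap (MvPowerSeries (Fin r) k) A))
    [Module.Finite (MvPowerSeries (Fin r) k) A] [CharP A p] :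
    ∃ (m : ℕ) (a : Fin m → A), m ≤ r ∧
      Subfield.closure (Set.range (fun y : FractionRing A => y ^ p) ∪
        Set.range (fun i => algebraMap A (FractionRing A) (a i))) = ⊤ := by
  classical
  have hdom : IsDomain (MvPowerSeries (Fin r) k) := NoZeroDivisors.to_isDomain _
  have htf : Module.IsTorsionFree (MvPowerSeries (Fin r) k) A :=
    Module.isTorsionFree_iff_algebraMap_injective.2 hinj
  have hfd : FiniteDimensional (FractionRing (MvPowerSeries (Fin r) k)) (FractionRing A) :=
    inferInstance
  have hcR0 : CharP (MvPowerSeries (Fin r) k) p :=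
    charP_of_injective_ringHom (f := (MvPowerSeries.C : k →+* MvPowerSeries (Fin r) k))
      MvPowerSeries.C_injective p
  have hcK0 : CharP (FractionRing (MvPowerSeries (Fin r) k)) p :=
    charP_of_injective_ringHom (IsFractionRing.injective (MvPowerSeries (Fin r) k)
      (FractionRing (MvPowerSeries (Fin r) k))) p
  have hcL : CharP (FractionRing A) p :=
    charP_of_injective_ringHom (IsFractionRing.injective A (FractionRing A)) p
  obtain ⟨hd1, hf1⟩ := finrank_frac p (k := k) (r := r) (FractionRing (MvPowerSeries (Fin r) k))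
  have hrk : rk (frobenius (FractionRing (MvPowerSeries (Fin r) k)) p) *
      rk (algebraMap (FractionRing (MvPowerSeries (Fin r) k)) (FractionRing A)) =
      rk (algebraMap (FractionRing (MvPowerSeries (Fin r) k)) (FractionRing A)) *
        rk (frobenius (FractionRing A) p) :=
    rk_mul _ _ _ _ (RingHom.frobenius_comm
      (algebraMap (FractionRing (MvPowerSeries (Fin r) k)) (FractionRing A)) p)
  have hpos : 0 < rk (algebraMap (FractionRing (MvPowerSeries (Fin r) k)) (FractionRing A)) := by
    have h1 : (algebraMap (FractionRing (MvPowerSeries (Fin r) k)) (FractionRing A)).Finite :=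
      RingHom.finite_algebraMap.2 hfd
    exact rk_pos _ h1
  have hrk2 : rk (frobenius (FractionRing (MvPowerSeries (Fin r) k)) p) =
      rk (frobenius (FractionRing A) p) := by
    rw [mul_comm] at hrk
    exact Nat.eq_of_mul_eq_mul_left hpos hrk
  rw [rk_eq, rk_eq] at hrk2
  have hFL : Module.finrank (frobenius (FractionRing A) p).fieldRange (FractionRing A) ≤ p ^ r := by
    rw [← hrk2]; exact hd1
  have hFLpos : 0 <
      Module.finrank (frobenius (FractionRing A) p).fieldRange (FractionRing A) := by
    rw [← hrk2]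
    exact Module.finrank_pos
  have hFLfin : FiniteDimensional (frobenius (FractionRing A) p).fieldRange (FractionRing A) :=
    Module.finite_of_finrank_pos hFLpos
  obtain ⟨m, b, hbA, hbm, hbtop⟩ := greedy (F := (frobenius (FractionRing A) p).fieldRange)
    (L := FractionRing A) p
    (fun y => ⟨⟨y ^ p, ⟨y, rfl⟩⟩, rfl⟩) (Set.range (algebraMap A (FractionRing A))) (by
      rw [eq_top_iff]
      intro u _
      obtain ⟨a, s, hs, rfl⟩ := IsFractionRing.div_surjective (A := A) u
      exact div_mem (IntermediateField.subset_adjoin _ _ ⟨a, rfl⟩)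
        (IntermediateField.subset_adjoin _ _ ⟨s, rfl⟩))
  choose a ha using hbA
  refine ⟨m, a, (Nat.pow_le_pow_iff_right hp.out.one_lt).1 (hbm.trans hFL), ?_⟩
  have hb : (fun i => algebraMap A (FractionRing A) (a i)) = b := funext ha
  rw [hb, eq_top_iff]
  have h1 := congrArg IntermediateField.toSubfield hbtop
  rw [IntermediateField.adjoin_toSubfield] at h1
  rw [IntermediateField.top_toSubfield] at h1
  rw [← h1, Subfield.closure_le]
  rintro u (⟨⟨_, ⟨y, rfl⟩⟩, rfl⟩ | hu)
  · exact Subfield.subset_closure (Or.inl ⟨y, rfl⟩)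
  · exact Subfield.subset_closure (Or.inr hu)

end pbasis

section final

open scoped nonZeroDivisors

theorem ext_hom {k : Type} [Field k] {d : ℕ} {C : Type} [NormedField C]
    (P : Ideal (MvPowerSeries (Fin d) k)) [P.IsPrime]
    (x : MvPowerSeries (Fin d) k →+* C) (hx : ∀ f, x f = 0 ↔ f ∈ P) (δ : Fin d → C)
    (hδ : δ ∈ LT3.TT x) :
    ∃ h : FractionRing (MvPowerSeries (Fin d) k ⧸ P) →+* TrivSqZeroExt C C,
      ∀ f : MvPowerSeries (Fin d) k,
        h (algebraMap (MvPowerSeries (Fin d) k ⧸ P) (FractionRing (MvPowerSeries (Fin d) k ⧸ P))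
          (Ideal.Quotient.mk P f)) = dh x δ f := by
  have hker : ∀ f ∈ P, dh x δ f = 0 := by
    intro f hf
    have hxf : x f = 0 := (hx f).2 hf
    ext
    · simp [hxf]
    · simp only [snd_dh, TrivSqZeroExt.snd_zero]
      exact hδ f hxf
  have hunit : ∀ y : (MvPowerSeries (Fin d) k ⧸ P)⁰,
      IsUnit (Ideal.Quotient.lift P (dh x δ) hker y) := by
    rintro ⟨y, hy⟩
    obtain ⟨f, rfl⟩ := Ideal.Quotient.mk_surjective y
    rw [TrivSqZeroExt.isUnit_iff_isUnit_fst]
    have hne : x f ≠ 0 := by
      intro h0
      have h1 : (Ideal.Quotient.mk P f : MvPowerSeries (Fin d) k ⧸ P) = 0 :=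
        Ideal.Quotient.eq_zero_iff_mem.2 ((hx f).1 h0)
      exact nonZeroDivisors.ne_zero hy h1
    simp only [Ideal.Quotient.lift_mk, fst_dh]
    exact IsUnit.mk0 _ hne
  refine ⟨IsLocalization.lift hunit, fun f => ?_⟩
  rw [IsLocalization.lift_eq, Ideal.Quotient.lift_mk]

theorem core (p : ℕ) [hp : Fact p.Prime] {k : Type} [Field k] {d : ℕ} {C : Type} [NormedField C]
    [CharP C p] (P : Ideal (MvPowerSeries (Fin d) k)) [P.IsPrime]
    (x : MvPowerSeries (Fin d) k →+* C) (hx : ∀ f, x f = 0 ↔ f ∈ P) (m : ℕ)
    (a : Fin m → MvPowerSeries (Fin d) k ⧸ P)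
    (hclos : Subfield.closure (Set.range (fun y : FractionRing (MvPowerSeries (Fin d) k ⧸ P) =>
      y ^ p) ∪ Set.range (fun i => algebraMap _ (FractionRing (MvPowerSeries (Fin d) k ⧸ P))
        (a i))) = ⊤) :
    Module.finrank C (LT3.TT x) ≤ m := by
  classical
  have hbt : ∀ i, ∃ t : MvPowerSeries (Fin d) k, Ideal.Quotient.mk P t = a i :=
    fun i => Ideal.Quotient.mk_surjective (a i)
  choose bt hbt using hbt
  let Φ : LT3.TT x →ₗ[C] (Fin m → C) :=
    (LinearMap.pi fun i => ∑ l, x (MvPowerSeries.pderiv k l (bt i)) • LinearMap.proj l) ∘ₗ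
      (LT3.TT x).subtype
  have hΦ : ∀ δ i, Φ δ i = ∑ l, x (MvPowerSeries.pderiv k l (bt i)) * δ.1 l := by
    intro δ i
    simp [Φ]
  have hΦinj : Function.Injective Φ := by
    rw [← LinearMap.ker_eq_bot, LinearMap.ker_eq_bot']
    intro δ hδ
    obtain ⟨h1, hh1⟩ := ext_hom P x hx δ.1 δ.2
    obtain ⟨h2, hh2⟩ := ext_hom P x hx 0 (Submodule.zero_mem _)
    -- the first components agree
    have hfst : ∀ u : FractionRing (MvPowerSeries (Fin d) k ⧸ P), (h1 u).fst = (h2 u).fst := by
      have h3 : (TrivSqZeroExt.fstHom C C C).toRingHom.comp h1 =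
          (TrivSqZeroExt.fstHom C C C).toRingHom.comp h2 := by
        refine IsLocalization.ringHom_ext (MvPowerSeries (Fin d) k ⧸ P)⁰ ?_
        refine RingHom.ext fun y => ?_
        obtain ⟨f, rfl⟩ := Ideal.Quotient.mk_surjective y
        simp [hh1, hh2]
      intro u
      exact congrArg (fun g : FractionRing (MvPowerSeries (Fin d) k ⧸ P) →+* C => g u) h3
    have hpw : ∀ z : TrivSqZeroExt C C, (z ^ p).snd = 0 := by
      intro z
      rw [TrivSqZeroExt.snd_pow]
      have h0 : ((p : ℕ) : C) = 0 := CharP.cast_eq_zero C p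
      rw [nsmul_eq_mul, h0, zero_mul]
    have h12 : h1 = h2 := by
      refine RingHom.eq_of_eqOn_of_field_closure_eq_top hclos ?_
      rintro u (⟨y, rfl⟩ | ⟨i, rfl⟩)
      · simp only [map_pow]
        ext
        · rw [TrivSqZeroExt.fst_pow, TrivSqZeroExt.fst_pow, hfst]
        · rw [hpw, hpw]
      · simp only
        rw [← hbt i, hh1, hh2]
        ext
        · simp
        · rw [snd_dh, snd_dh, ← hΦ δ i, hδ]
          simp
    ext l
    have h3 := hh1 (MvPowerSeries.X l)
    rw [h12, hh2] at h3
    have h4 := congrArg TrivSqZeroExt.snd h3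
    rw [snd_dh, snd_dh] at h4
    have h5 : ∑ i, x (MvPowerSeries.pderiv k i (MvPowerSeries.X l)) * δ.1 i = δ.1 l := by
      rw [Finset.sum_eq_single l]
      · simp
      · intro i _ hil
        rw [MvPowerSeries.pderiv_X_of_ne (Ne.symm hil)]
        simp
      · intro h; exact absurd (Finset.mem_univ _) h
    rw [h5] at h4
    simpa using h4.symm
  have := LinearMap.finrank_le_finrank_of_injective hΦinj
  rwa [Module.finrank_fin_fun] at this

end final

theorem main : LT3.Spec3.DIM := by
  intro p hp n d hn P hP r hr hrd β hβC hinj hfin C _ hC x hx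
  let _ : Algebra (MvPowerSeries (Fin r) (GaloisField p n))
      (MvPowerSeries (Fin d) (GaloisField p n) ⧸ P) := ((Ideal.Quotient.mk P).comp β).toAlgebra
  have hmf : Module.Finite (MvPowerSeries (Fin r) (GaloisField p n))
      (MvPowerSeries (Fin d) (GaloisField p n) ⧸ P) := hfin
  have hc : CharP (MvPowerSeries (Fin d) (GaloisField p n) ⧸ P) p := by
    have h1 : CharP (MvPowerSeries (Fin r) (GaloisField p n)) p :=
      charP_of_injective_ringHom (f := (MvPowerSeries.C : GaloisField p n →+*
        MvPowerSeries (Fin r) (GaloisField p n))) MvPowerSeries.C_injective p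
    exact charP_of_injective_ringHom hinj p
  obtain ⟨m, a, hmr, hclos⟩ := exists_pbasis p (k := GaloisField p n) (r := r)
    (A := MvPowerSeries (Fin d) (GaloisField p n) ⧸ P) hinj
  exact (core p P x hx m a hclos).trans hmr

end Crest.Agent.LT3DIM
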