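/- rid 227 (S0351): the functionals `e_{τ_j(1)}` form a basis of the dual space. -/
import Crest.Agent.LT3Spec3

set_option autoImplicit false

namespace Crest.Agent.LT3DUAL
open Crest.Agent.LT3

theorem main (hETA : Spec3.ETA) : Spec3.DUAL := by
  intro p _ n h d r C _ _ _ _ _ Γ F ι w x i0 ρ T σ S c V₀ hsys r' τ hbas
  classical
  obtain ⟨hadd, hnd⟩ := hETA p n h d Γ F hsys.st C ι w x hsys.isEv (w i0) T hsys.ts
  let L : (Fin d → C) →ₗ[C] (Fin d → C) :=
    { toFun := fun δ j => ee p F x (τ j 1) δ
      map_add' := by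
        intro a b
        funext j
        simp only [ee, Pi.add_apply, mul_add, Finset.sum_add_distrib]
      map_smul' := by
        intro a b
        funext j
        simp only [ee, Pi.smul_apply, smul_eq_mul, RingHom.id_apply, Finset.mul_sum]
        refine Finset.sum_congr rfl fun i _ => ?_
        ring }
  have hL : ∀ δ j, L δ j = ee p F x (τ j 1) δ := fun δ j => rfl
  have hinj : Function.Injective L := by
    rw [← LinearMap.ker_eq_bot, LinearMap.ker_eq_bot']
    intro δ hδ
    by_contra hne
    obtain ⟨t, ht, ht'⟩ := hnd δ hne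
    exact ht' (hbas.gen (fun t => ee p F x t δ) (hadd δ) (fun i => congr_fun hδ i) t ht)
  have hsurj : Function.Surjective L := LinearMap.injective_iff_surjective.1 hinj
  let e : (Fin d → C) ≃ₗ[C] (Fin d → C) := LinearEquiv.ofBijective L ⟨hinj, hsurj⟩
  have he : ∀ δ, e δ = L δ := fun δ => rfl
  let b : Fin d → Fin d → C := fun j => e.symm (Pi.single j 1)
  have hb : ∀ δ : Fin d → C, δ = ∑ j, L δ j • b j := by
    intro δ
    apply hinj
    rw [map_sum]
    funext l
    simp only [map_smul]
    have : ∀ j, L (b j) = Pi.single j 1 := fun j => by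
      rw [← he]; exact e.apply_symm_apply _
    simp only [this, Finset.sum_apply, Pi.smul_apply, smul_eq_mul]
    rw [Finset.sum_eq_single l]
    · simp
    · intro j _ hj
      rw [Pi.single_eq_of_ne (Ne.symm hj), mul_zero]
    · intro h; exact absurd (Finset.mem_univ _) h
  refine ⟨?_, ?_, ?_, ?_⟩
  · intro D
    refine ⟨fun j => ∑ l, D l * b j l, fun δ => ?_⟩
    conv_lhs => rw [hb δ]
    simp only [Finset.sum_apply, Pi.smul_apply, smul_eq_mul, Finset.mul_sum, Finset.sum_mul]
    rw [Finset.sum_comm]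
    refine Finset.sum_congr rfl fun j _ => Finset.sum_congr rfl fun l _ => ?_
    rw [hL]
    ring
  · intro D' hD'
    funext j
    have h1 := hD' (b j)
    have h2 : ∀ l, ee p F x (τ l 1) (b j) = (Pi.single j 1 : Fin d → C) l := by
      intro l
      have : L (b j) = Pi.single j 1 := by rw [← he]; exact e.apply_symm_apply _
      rw [← hL, this]
    simp only [h2] at h1
    rw [Finset.sum_eq_single j] at h1
    · simpa using h1
    · intro l _ hl
      rw [Pi.single_eq_of_ne hl, mul_zero]
    · intro h; exact absurd (Finset.mem_univ _) h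
  · refine ⟨1 + ∑ j, ∑ i, ‖b j i‖, ?_, ?_⟩
    · have : 0 ≤ ∑ j, ∑ i, ‖b j i‖ :=
        Finset.sum_nonneg fun j _ => Finset.sum_nonneg fun i _ => norm_nonneg _
      linarith
    · intro δ M hM hδ i
      have h1 : δ i = ∑ j, L δ j * b j i := by
        conv_lhs => rw [hb δ]
        simp only [Finset.sum_apply, Pi.smul_apply, smul_eq_mul]
      rw [h1]
      calc ‖∑ j, L δ j * b j i‖ ≤ ∑ j, ‖L δ j * b j i‖ := norm_sum_le _ _
        _ ≤ ∑ j, M * ∑ i, ‖b j i‖ := by
            refine Finset.sum_le_sum fun j _ => ?_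
            rw [norm_mul]
            have h2 : ‖b j i‖ ≤ ∑ i, ‖b j i‖ :=
              Finset.single_le_sum (f := fun i => ‖b j i‖) (fun i _ => norm_nonneg _)
                (Finset.mem_univ i)
            exact mul_le_mul (hδ j) h2 (norm_nonneg _) hM
        _ = (∑ j, ∑ i, ‖b j i‖) * M := by
            rw [← Finset.mul_sum, mul_comm]
        _ ≤ (1 + ∑ j, ∑ i, ‖b j i‖) * M := by nlinarith
  · intro v
    obtain ⟨δ, hδ⟩ := hsurj v
    exact ⟨δ, fun j => congr_fun hδ j⟩

end Crest.Agent.LT3DUAL
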