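/- rid 227 (S0351): API X, evaluation points of `k[[X_0..X_{d-1}]]`. -/
import Crest.Agent.LT3Spec2
import Crest.Agent.LT3RINGE

set_option autoImplicit false
set_option linter.unusedSectionVars false
open Crest.LubinTate

namespace Crest.Agent.LT3PTX
open Crest.Agent.LT3

section

variable {C : Type} [NontriviallyNormedField C] {k : Type} [Field k] [Finite k]

theorem iota_norm (ι : k →+* C) (c : k) (hc : c ≠ 0) : ‖ι c‖ = 1 := by
  have := Fintype.ofFinite k
  have h1 := FiniteField.pow_card_sub_one_eq_one c hc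
  have h2 : ‖ι c‖ ^ (Fintype.card k - 1) = 1 := by
    rw [← norm_pow, ← map_pow, h1, map_one, norm_one]
  have h3 : Fintype.card k - 1 ≠ 0 := by
    have := Fintype.one_lt_card (α := k)
    omega
  exact (pow_eq_one_iff_of_nonneg (norm_nonneg _) h3).mp h2

theorem iota_le (ι : k →+* C) (c : k) : ‖ι c‖ ≤ 1 := by
  by_cases hc : c = 0
  · subst hc; simp
  · exact (iota_norm ι c hc).le

theorem int_map {σ : Type} (ι : k →+* C) (f : MvPowerSeries σ k) :
    Int1 (MvPowerSeries.map ι f) := fun e => by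
  rw [MvPowerSeries.coeff_map]; exact iota_le ι _

variable {d : ℕ}

theorem mem_mR {f : MvPowerSeries (Fin d) k} : f ∈ mR k d ↔ MvPowerSeries.constantCoeff f = 0 :=
  Iff.rfl

theorem mR_eq : mR k d = LT3RINGE.DD (⊥ : Ideal k) 1 := by
  ext f
  rw [LT3RINGE.DD_one_mem, mem_mR, Ideal.mem_bot]

theorem mem_mR_pow (j : ℕ) (f : MvPowerSeries (Fin d) k)
    (h : ∀ e : Fin d →₀ ℕ, e.degree < j → MvPowerSeries.coeff e f = 0) : f ∈ (mR k d) ^ j := by
  rw [mR_eq]
  refine LT3RINGE.DD_le_pow _ j fun e => ?_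
  rcases Nat.lt_or_ge e.degree j with h1 | h1
  · rw [h e h1]; exact Ideal.zero_mem _
  · rw [Nat.sub_eq_zero_of_le h1, pow_zero, Ideal.one_eq_top]; trivial

end

section

variable {C : Type} [NontriviallyNormedField C] [CompleteSpace C] [IsUltrametricDist C]
  {k : Type} [Field k] [Finite k] {d : ℕ}

theorem exists_rho (w : Fin d → C) (hw : ∀ i, ‖w i‖ < 1) (ρ : ℝ) (hρ : 0 ≤ ρ)
    (h : ∀ i, ‖w i‖ ≤ ρ) : ∃ r : ℝ, 0 ≤ r ∧ r < 1 ∧ r ≤ ρ ∧ ∀ i, ‖w i‖ ≤ r := by
  rcases isEmpty_or_nonempty (Fin d) with he | he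
  · exact ⟨0, le_rfl, one_pos, hρ, fun i => (he.false i).elim⟩
  · obtain ⟨i, hi⟩ := Finite.exists_max (fun i => ‖w i‖)
    exact ⟨‖w i‖, norm_nonneg _, hw i, h i, hi⟩

theorem le_one (hE : ApiE) {ι : k →+* C} {w : Fin d → C}
    {x : MvPowerSeries (Fin d) k →+* C} (hx : IsEv ι w x) (f) : ‖x f‖ ≤ 1 := by
  rw [hx.hx]; exact hE.evm_le_one (int_map ι f) hx.hw

theorem mem_one (hE : ApiE) {ι : k →+* C} {w : Fin d → C}
    {x : MvPowerSeries (Fin d) k →+* C} (hx : IsEv ι w x) (ρ : ℝ) (hρ : 0 ≤ ρ)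
    (h : ∀ i, ‖w i‖ ≤ ρ) (f) (hf : f ∈ mR k d) : ‖x f‖ ≤ ρ := by
  obtain ⟨r, hr0, hr1, hr2, hr3⟩ := exists_rho w hx.hw ρ hρ h
  refine le_trans ?_ hr2
  rw [hx.hx]
  refine hE.evm_le_of_zc r hr0 hr1 (int_map ι f) ?_ hr3
  unfold ZC
  rw [MvPowerSeries.constantCoeff_map, mem_mR.mp hf, map_zero]

theorem mem_pow (hE : ApiE) {ι : k →+* C} {w : Fin d → C}
    {x : MvPowerSeries (Fin d) k →+* C} (hx : IsEv ι w x) (ρ : ℝ) (hρ : 0 ≤ ρ)
    (h : ∀ i, ‖w i‖ ≤ ρ) (j : ℕ) : ∀ f, f ∈ (mR k d) ^ j → ‖x f‖ ≤ ρ ^ j := by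
  induction j with
  | zero => intro f _; rw [pow_zero]; exact le_one hE hx f
  | succ j ih =>
    intro f hf
    rw [pow_succ] at hf
    refine Submodule.mul_induction_on hf ?_ ?_
    · intro a ha b hb
      rw [map_mul, norm_mul, pow_succ]
      exact mul_le_mul (ih a ha) (mem_one hE hx ρ hρ h b hb) (norm_nonneg _) (pow_nonneg hρ j)
    · intro a b ha hb
      rw [map_add]
      exact (IsUltrametricDist.norm_add_le_max _ _).trans (max_le ha hb)

/-- evaluation as a ring hom -/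
noncomputable def evHom (hE : ApiE) (ι : k →+* C) (w : Fin d → C) (hw : ∀ i, ‖w i‖ < 1) :
    MvPowerSeries (Fin d) k →+* C where
  toFun f := evm (MvPowerSeries.map ι f) w
  map_one' := by
    rw [map_one, ← map_one (MvPowerSeries.C : C →+* MvPowerSeries (Fin d) C)]
    exact hE.evm_C 1 w
  map_mul' f g := by rw [map_mul]; exact hE.evm_mul (int_map ι f) (int_map ι g) hw
  map_zero' := by
    rw [map_zero, ← map_zero (MvPowerSeries.C : C →+* MvPowerSeries (Fin d) C)]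
    exact hE.evm_C 0 w
  map_add' f g := by rw [map_add]; exact hE.evm_add (int_map ι f) (int_map ι g) hw

theorem evHom_isEv (hE : ApiE) (ι : k →+* C) (w : Fin d → C) (hw : ∀ i, ‖w i‖ < 1) :
    IsEv ι w (evHom hE ι w hw) := ⟨hw, fun _ => rfl⟩

theorem x_C (hE : ApiE) {ι : k →+* C} {w : Fin d → C}
    {x : MvPowerSeries (Fin d) k →+* C} (hx : IsEv ι w x) (c) :
    x (MvPowerSeries.C c) = ι c := by
  rw [hx.hx, MvPowerSeries.map_C]; exact hE.evm_C _ _

theorem x_X (hE : ApiE) {ι : k →+* C} {w : Fin d → C}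
    {x : MvPowerSeries (Fin d) k →+* C} (hx : IsEv ι w x) (i) :
    x (MvPowerSeries.X i) = w i := by
  rw [hx.hx, MvPowerSeries.map_X]; exact hE.evm_X _ _

theorem comp (hE : ApiE) {ι : k →+* C} {w : Fin d → C}
    {x : MvPowerSeries (Fin d) k →+* C} (hx : IsEv ι w x)
    (φ : MvPowerSeries (Fin d) k →+* MvPowerSeries (Fin d) k)
    (h1 : ∀ c, φ (MvPowerSeries.C c) = MvPowerSeries.C c)
    (h2 : ∀ f, f ∈ mR k d → φ f ∈ mR k d) :
    IsEv ι (fun i => x (φ (MvPowerSeries.X i))) (x.comp φ) := by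
  obtain ⟨r, hr0, hr1, -, hr3⟩ := exists_rho w hx.hw 1 zero_le_one (fun i => (hx.hw i).le)
  have hXm : ∀ i, (MvPowerSeries.X i : MvPowerSeries (Fin d) k) ∈ mR k d := fun i => by
    rw [mem_mR]; simp
  have hr4 : ∀ i, ‖x (φ (MvPowerSeries.X i))‖ ≤ r := fun i =>
    mem_one hE hx r hr0 hr3 _ (h2 _ (hXm i))
  have hw' : ∀ i, ‖x (φ (MvPowerSeries.X i))‖ < 1 := fun i => (hr4 i).trans_lt hr1
  refine ⟨hw', fun f => ?_⟩
  set x' := evHom hE ι (fun i => x (φ (MvPowerSeries.X i))) hw' with hx'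
  have hx'' : IsEv ι _ x' := evHom_isEv hE ι _ hw'
  change (x.comp φ) f = x' f
  have hpoly : ∀ P : MvPolynomial (Fin d) k,
      (x.comp φ) (P : MvPowerSeries (Fin d) k) = x' (P : MvPowerSeries (Fin d) k) := by
    intro P
    have : (x.comp φ).comp (MvPolynomial.coeToMvPowerSeries.ringHom) =
        x'.comp (MvPolynomial.coeToMvPowerSeries.ringHom) := by
      refine MvPolynomial.ringHom_ext ?_ ?_
      · intro c
        simp only [RingHom.comp_apply, MvPolynomial.coeToMvPowerSeries.ringHom_apply,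
          MvPolynomial.coe_C]
        rw [h1, x_C hE hx, x_C hE hx'']
      · intro i
        simp only [RingHom.comp_apply, MvPolynomial.coeToMvPowerSeries.ringHom_apply,
          MvPolynomial.coe_X]
        rw [x_X hE hx'']
    exact DFunLike.congr_fun this P
  have key : ∀ j : ℕ, ‖(x.comp φ) f - x' f‖ ≤ r ^ j := by
    intro j
    set P := MvPowerSeries.truncTotal j f with hP
    have hg : f - (P : MvPowerSeries (Fin d) k) ∈ (mR k d) ^ j := by
      refine mem_mR_pow j _ fun e he => ?_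
      rw [map_sub, MvPolynomial.coeff_coe, hP, MvPowerSeries.coeff_truncTotal _ he, sub_self]
    have e1 : (x.comp φ) f - x' f = (x.comp φ) (f - (P : MvPowerSeries (Fin d) k)) -
        x' (f - (P : MvPowerSeries (Fin d) k)) := by
      rw [map_sub, map_sub, hpoly P]; ring
    rw [e1]
    have hφ : φ (f - (P : MvPowerSeries (Fin d) k)) ∈ (mR k d) ^ j := by
      have h3 : (mR k d).map φ ≤ mR k d := Ideal.map_le_iff_le_comap.mpr h2
      have h4 := Ideal.mem_map_of_mem φ hg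
      rw [Ideal.map_pow] at h4
      exact Ideal.pow_right_mono h3 j h4
    have b1 := mem_pow hE hx r hr0 hr3 j _ hφ
    have b2 := mem_pow hE hx'' r hr0 hr4 j _ hg
    rw [sub_eq_add_neg]
    refine (IsUltrametricDist.norm_add_le_max _ _).trans (max_le b1 ?_)
    rwa [norm_neg]
  have h5 : Filter.Tendsto (fun j : ℕ => r ^ j) Filter.atTop (nhds 0) :=
    tendsto_pow_atTop_nhds_zero_of_lt_one hr0 hr1
  have h6 : ‖(x.comp φ) f - x' f‖ ≤ 0 := ge_of_tendsto' h5 key
  exact sub_eq_zero.mp (norm_le_zero_iff.mp h6)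

theorem pderiv_map (ι : k →+* C) (i : Fin d) (f : MvPowerSeries (Fin d) k) :
    MvPowerSeries.pderiv C i (MvPowerSeries.map ι f) =
      MvPowerSeries.map ι (MvPowerSeries.pderiv k i f) := by
  ext e
  rw [MvPowerSeries.coeff_pderiv, MvPowerSeries.coeff_map, MvPowerSeries.coeff_map,
    MvPowerSeries.coeff_pderiv, map_mul, map_add, map_natCast, map_one]

theorem taylor (hE : ApiE) {ι : k →+* C} {w w' : Fin d → C}
    {x x' : MvPowerSeries (Fin d) k →+* C} (hx : IsEv ι w x) (hx' : IsEv ι w' x') (ε : ℝ)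
    (hε : 0 ≤ ε) (h : ∀ i, ‖w' i - w i‖ ≤ ε) (f) :
    ‖x' f - x f - ∑ i, x (MvPowerSeries.pderiv k i f) * (w' i - w i)‖ ≤ ε ^ 2 := by
  have := hE.evm_taylor ε hε (int_map ι f) hx.hw hx'.hw h
  rw [hx'.hx, hx.hx]
  convert this using 5 with i
  rw [hx.hx, pderiv_map]

theorem lip (hE : ApiE) {ι : k →+* C} {w w' : Fin d → C}
    {x x' : MvPowerSeries (Fin d) k →+* C} (hx : IsEv ι w x) (hx' : IsEv ι w' x') (ε : ℝ)
    (hε : 0 ≤ ε) (h : ∀ i, ‖w' i - w i‖ ≤ ε) (f) : ‖x' f - x f‖ ≤ ε := by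
  rw [hx'.hx, hx.hx]
  exact hE.evm_lip ε hε (int_map ι f) hx'.hw hx.hw h

theorem comm_map {R S : Type} [CommRing R] [CommRing S] (r : R →+* S) (F : FormalGroup R)
    (hF : F.IsComm) : (F.map r).IsComm := by
  constructor
  have h1 := hF.comm
  have h2 := congrArg (MvPowerSeries.map r) h1
  rw [MvPowerSeries.map_subst MvPowerSeries.HasSubst.X_X] at h2
  have h3 : (F.map r).toPowerSeries = MvPowerSeries.map r F.toPowerSeries := rfl
  rw [h3]
  conv_lhs => rw [h2]
  congr 1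
  funext s
  fin_cases s <;> simp

theorem ig (hE : ApiE) {ι : k →+* C} {w : Fin d → C}
    {x : MvPowerSeries (Fin d) k →+* C} (hx : IsEv ι w x)
    (F : FormalGroup (MvPowerSeries (Fin d) k)) (hF : F.IsComm) : IG (F.map x) := by
  refine ⟨comm_map x F hF, fun e => ?_⟩
  have h3 : (F.map x).toPowerSeries = MvPowerSeries.map x F.toPowerSeries := rfl
  rw [h3, MvPowerSeries.coeff_map]
  exact le_one hE hx _

theorem mul_lip (hE : ApiE) (hC : ApiC) {ι : k →+* C} {w w' : Fin d → C}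
    {x x' : MvPowerSeries (Fin d) k →+* C} (hx : IsEv ι w x) (hx' : IsEv ι w' x') (ε : ℝ)
    (hε : 0 ≤ ε) (h : ∀ i, ‖w' i - w i‖ ≤ ε) (F : FormalGroup (MvPowerSeries (Fin d) k))
    (m : ℕ) (z : C) (hz : ‖z‖ < 1) : ‖gmul (F.map x') m z - gmul (F.map x) m z‖ ≤ ε := by
  unfold gmul
  rw [← hC.mul_map x', ← hC.mul_map x, ← hE.ev_eq, ← hE.ev_eq]
  have i1 : Int1 (PowerSeries.map x (mulSeries F m) : MvPowerSeries Unit C) := fun e => by
    unfold PowerSeries.map
    rw [MvPowerSeries.coeff_map]; exact le_one hE hx _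
  have i2 : Int1 (PowerSeries.map x' (mulSeries F m) : MvPowerSeries Unit C) := fun e => by
    unfold PowerSeries.map
    rw [MvPowerSeries.coeff_map]; exact le_one hE hx' _
  rw [← hE.evm_sub i2 i1 (fun _ => hz)]
  refine hE.evm_le ε hε (fun e => ?_) (fun _ => hz)
  rw [map_sub]
  unfold PowerSeries.map
  rw [MvPowerSeries.coeff_map, MvPowerSeries.coeff_map]
  exact lip hE hx hx' ε hε h _

end

theorem main (hE : ApiE) (_hA : ApiA) (hC : ApiC) : ApiX where
  iota_norm := fun ι c hc => iota_norm ι c hc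
  le_one := fun hx f => le_one hE hx f
  x_C := fun hx c => x_C hE hx c
  x_X := fun hx i => x_X hE hx i
  mem_pow := fun hx ρ hρ h j f hf => mem_pow hE hx ρ hρ h j f hf
  comp := fun hx φ h1 h2 => comp hE hx φ h1 h2
  lip := fun hx hx' ε hε h f => lip hE hx hx' ε hε h f
  taylor := fun hx hx' ε hε h f => taylor hE hx hx' ε hε h f
  ig := fun hx F hF => ig hE hx F hF
  mul_lip := fun hx hx' ε hε h F _ m z hz => mul_lip hE hC hx hx' ε hε h F m z hz

end Crest.Agent.LT3PTX
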