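/- rid 227 (S0351): EMB, the generic analytic point of `R/P`. -/
import Crest.Agent.LT3Spec3
import Crest.Agent.LT3PTX

set_option autoImplicit false
set_option linter.unusedSectionVars false
open Crest.LubinTate
open Crest Crest.GeometryTopology

namespace Crest.Agent.LT3EMB

open LT3

section gen

variable {C : Type} [NontriviallyNormedField C] [IsUltrametricDist C]

lemma sum_le {ι : Type} (s : Finset ι) (f : ι → C) (M : ℝ) (hM : 0 ≤ M)
    (h : ∀ i ∈ s, ‖f i‖ ≤ M) : ‖∑ i ∈ s, f i‖ ≤ M :=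
  IsUltrametricDist.norm_sum_le_of_forall_le_of_nonneg hM h

lemma int_norm {B : Type} [CommRing B] (φ : B →+* C) (hφ : ∀ b, ‖φ b‖ ≤ 1)
    (F : Polynomial B) (hF : F.Monic) (z : C) (hz : F.eval₂ φ z = 0) : ‖z‖ ≤ 1 := by
  by_contra hcon
  rw [not_le] at hcon
  rw [Polynomial.eval₂_eq_sum_range, Finset.sum_range_succ, hF.coeff_natDegree, map_one,
    one_mul] at hz
  rcases Nat.eq_zero_or_pos F.natDegree with h0 | h0
  · rw [h0] at hz
    simp at hz
  · have h1 : ‖∑ i ∈ Finset.range F.natDegree, φ (F.coeff i) * z ^ i‖ ≤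
        ‖z‖ ^ (F.natDegree - 1) := by
      refine sum_le _ _ _ (by positivity) fun i hi => ?_
      rw [Finset.mem_range] at hi
      rw [norm_mul, norm_pow]
      calc ‖φ (F.coeff i)‖ * ‖z‖ ^ i ≤ 1 * ‖z‖ ^ i := by
            gcongr
            exact hφ _
        _ = ‖z‖ ^ i := one_mul _
        _ ≤ ‖z‖ ^ (F.natDegree - 1) := pow_le_pow_right₀ hcon.le (by omega)
    have h2 : ‖z‖ ^ F.natDegree ≤ ‖z‖ ^ (F.natDegree - 1) := by
      rw [← norm_pow]
      have h3 : z ^ F.natDegree = -∑ i ∈ Finset.range F.natDegree, φ (F.coeff i) * z ^ i :=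
        (eq_neg_of_add_eq_zero_right hz)
      rw [h3, norm_neg]
      exact h1
    have h4 : ‖z‖ ^ (F.natDegree - 1) < ‖z‖ ^ F.natDegree :=
      pow_lt_pow_right₀ hcon (by omega)
    exact absurd h2 (not_le.2 h4)

lemma unit_norm {R : Type} [CommRing R] (x : R →+* C) (hx : ∀ f, ‖x f‖ ≤ 1) (u : R)
    (hu : IsUnit u) : ‖x u‖ = 1 := by
  obtain ⟨v, hv⟩ := hu.exists_right_inv
  have h1 : ‖x u‖ * ‖x v‖ = 1 := by
    rw [← norm_mul, ← map_mul, hv, map_one, norm_one]
  refine le_antisymm (hx u) ?_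
  by_contra hcon
  rw [not_le] at hcon
  have : ‖x u‖ * ‖x v‖ < 1 := by
    calc ‖x u‖ * ‖x v‖ ≤ ‖x u‖ * 1 := by
          gcongr
          exact hx v
      _ < 1 := by rw [mul_one]; exact hcon
  exact absurd h1 this.ne

lemma lt_one {k : Type} [Field k] {r d : ℕ} (β : MvPowerSeries (Fin r) k →+*
    MvPowerSeries (Fin d) k) (x : MvPowerSeries (Fin d) k →+* C) (hx : ∀ f, ‖x f‖ ≤ 1)
    (ρ : ℝ) (hρ0 : 0 ≤ ρ) (hρ : ρ < 1) (hmB : ∀ b ∈ mR k r, ‖x (β b)‖ ≤ ρ)
    (F : Polynomial (MvPowerSeries (Fin r) k)) (hF : F.Monic) (i : Fin d)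
    (hz : F.eval₂ (x.comp β) (x (MvPowerSeries.X i)) = 0) :
    ‖x (MvPowerSeries.X i)‖ < 1 := by
  classical
  set z := x (MvPowerSeries.X i) with hzdef
  have hex : ∃ a, F.coeff a ∉ mR k r := by
    refine ⟨F.natDegree, ?_⟩
    rw [hF.coeff_natDegree]
    intro h
    have : (MvPowerSeries.constantCoeff (1 : MvPowerSeries (Fin r) k)) = 0 := h
    rw [map_one] at this
    exact one_ne_zero this
  set a := Nat.find hex with ha
  have ha1 : F.coeff a ∉ mR k r := Nat.find_spec hex
  have ha2 : ∀ j, j < a → F.coeff j ∈ mR k r := fun j hj => by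
    have := Nat.find_min hex hj
    exact not_not.1 this
  have ha3 : a ≤ F.natDegree := Polynomial.le_natDegree_of_ne_zero (fun h => ha1 (by
    rw [h]; exact Ideal.zero_mem _))
  set u : MvPowerSeries (Fin d) k := ∑ j ∈ Finset.range (F.natDegree + 1 - a),
    β (F.coeff (a + j)) * MvPowerSeries.X i ^ j with hu
  have hunit : IsUnit u := by
    rw [MvPowerSeries.isUnit_iff_constantCoeff, isUnit_iff_ne_zero, hu, map_sum,
      Finset.sum_eq_single 0]
    · rw [pow_zero, mul_one, add_zero]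
      have h1 : IsUnit (F.coeff a) := by
        rw [MvPowerSeries.isUnit_iff_constantCoeff, isUnit_iff_ne_zero]
        exact ha1
      have h2 := h1.map β
      rw [MvPowerSeries.isUnit_iff_constantCoeff, isUnit_iff_ne_zero] at h2
      exact h2
    · intro j _ hj
      rw [map_mul, map_pow, MvPowerSeries.constantCoeff_X, zero_pow hj, mul_zero]
    · intro h
      exfalso
      apply h
      rw [Finset.mem_range]
      omega
  have hsum : ∑ j ∈ Finset.range a, x (β (F.coeff j)) * z ^ j + z ^ a * x u = 0 := by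
    rw [Polynomial.eval₂_eq_sum_range] at hz
    have h1 : F.natDegree + 1 = a + (F.natDegree + 1 - a) := by omega
    rw [h1, Finset.sum_range_add] at hz
    rw [← hz]
    congr 1
    rw [hu, map_sum, Finset.mul_sum]
    refine Finset.sum_congr rfl fun j _ => ?_
    rw [map_mul, map_pow, pow_add, RingHom.comp_apply]
    ring
  have hz1 : ‖z‖ ≤ 1 := hx _
  have h3 : ‖z‖ ^ a ≤ ρ := by
    have h4 : z ^ a * x u = -∑ j ∈ Finset.range a, x (β (F.coeff j)) * z ^ j :=
      eq_neg_of_add_eq_zero_right hsum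
    have h5 : ‖z‖ ^ a = ‖z ^ a * x u‖ := by
      rw [norm_mul, unit_norm x hx u hunit, mul_one, norm_pow]
    rw [h5, h4, norm_neg]
    refine sum_le _ _ _ hρ0 fun j hj => ?_
    rw [norm_mul, norm_pow]
    calc ‖x (β (F.coeff j))‖ * ‖z‖ ^ j ≤ ρ * 1 := by
          apply mul_le_mul (hmB _ (ha2 j (Finset.mem_range.1 hj)))
            (pow_le_one₀ (norm_nonneg _) hz1) (by positivity) hρ0
      _ = ρ := mul_one _
  by_contra hcon
  rw [not_lt] at hcon
  have : 1 ≤ ‖z‖ ^ a := one_le_pow₀ hcon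
  linarith

/-- a ring hom with `x (C c) = ι c` and `‖x X_i‖ < 1`, `‖x f‖ ≤ 1` is an evaluation. -/
lemma isEv_of [CompleteSpace C] (hE : ApiE) {k : Type} [Field k] [Finite k] {d : ℕ} (ι : k →+* C)
    (x : MvPowerSeries (Fin d) k →+* C) (hx : ∀ f, ‖x f‖ ≤ 1)
    (hxC : ∀ c, x (MvPowerSeries.C c) = ι c) (hxX : ∀ i, ‖x (MvPowerSeries.X i)‖ < 1) :
    IsEv ι (fun i => x (MvPowerSeries.X i)) x := by
  obtain ⟨r, hr0, hr1, -, hr3⟩ := LT3PTX.exists_rho (fun i => x (MvPowerSeries.X i)) hxX 1
    zero_le_one (fun i => hx _)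
  refine ⟨hxX, fun f => ?_⟩
  set x' := LT3PTX.evHom hE ι (fun i => x (MvPowerSeries.X i)) hxX with hx'
  have hx'' : IsEv ι _ x' := LT3PTX.evHom_isEv hE ι _ hxX
  change x f = x' f
  have hpoly : ∀ P : MvPolynomial (Fin d) k,
      x (P : MvPowerSeries (Fin d) k) = x' (P : MvPowerSeries (Fin d) k) := by
    intro P
    have : x.comp (MvPolynomial.coeToMvPowerSeries.ringHom) =
        x'.comp (MvPolynomial.coeToMvPowerSeries.ringHom) := by
      refine MvPolynomial.ringHom_ext ?_ ?_
      · intro c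
        simp only [RingHom.comp_apply, MvPolynomial.coeToMvPowerSeries.ringHom_apply,
          MvPolynomial.coe_C]
        rw [hxC, LT3PTX.x_C hE hx'']
      · intro i
        simp only [RingHom.comp_apply, MvPolynomial.coeToMvPowerSeries.ringHom_apply,
          MvPolynomial.coe_X]
        rw [LT3PTX.x_X hE hx'']
    exact DFunLike.congr_fun this P
  have hone : ∀ f ∈ mR k d, ‖x f‖ ≤ r := by
    intro f hf
    have h1 := LT3RINGE.decomp f
    have h2 : MvPowerSeries.constantCoeff f = 0 := hf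
    rw [h2, map_zero, zero_add] at h1
    rw [h1, map_sum]
    refine sum_le _ _ _ hr0 fun i _ => ?_
    rw [map_mul, norm_mul]
    calc ‖x (MvPowerSeries.X i)‖ * ‖x (LT3RINGE.slice f i)‖ ≤ r * 1 :=
          mul_le_mul (hr3 i) (hx _) (norm_nonneg _) hr0
      _ = r := mul_one _
  have hpow : ∀ (j : ℕ) (f), f ∈ (mR k d) ^ j → ‖x f‖ ≤ r ^ j := by
    intro j
    induction j with
    | zero => intro f _; rw [pow_zero]; exact hx f
    | succ j ih =>
      intro f hf
      rw [pow_succ] at hf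
      refine Submodule.mul_induction_on hf ?_ ?_
      · intro a ha b hb
        rw [map_mul, norm_mul, pow_succ]
        exact mul_le_mul (ih a ha) (hone b hb) (norm_nonneg _) (pow_nonneg hr0 j)
      · intro a b ha hb
        rw [map_add]
        exact (IsUltrametricDist.norm_add_le_max _ _).trans (max_le ha hb)
  have key : ∀ j : ℕ, ‖x f - x' f‖ ≤ r ^ j := by
    intro j
    set P := MvPowerSeries.truncTotal j f with hP
    have hg : f - (P : MvPowerSeries (Fin d) k) ∈ (mR k d) ^ j := by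
      refine LT3PTX.mem_mR_pow j _ fun e he => ?_
      rw [map_sub, MvPolynomial.coeff_coe, hP, MvPowerSeries.coeff_truncTotal _ he, sub_self]
    have e1 : x f - x' f = x (f - (P : MvPowerSeries (Fin d) k)) -
        x' (f - (P : MvPowerSeries (Fin d) k)) := by
      rw [map_sub, map_sub, hpoly P]; ring
    rw [e1]
    have b1 := hpow j _ hg
    have b2 := LT3PTX.mem_pow hE hx'' r hr0 hr3 j _ hg
    rw [sub_eq_add_neg]
    refine (IsUltrametricDist.norm_add_le_max _ _).trans (max_le b1 ?_)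
    rwa [norm_neg]
  have h5 : Filter.Tendsto (fun j : ℕ => r ^ j) Filter.atTop (nhds 0) :=
    tendsto_pow_atTop_nhds_zero_of_lt_one hr0 hr1
  have h6 : ‖x f - x' f‖ ≤ 0 := ge_of_tendsto' h5 key
  exact sub_eq_zero.mp (norm_le_zero_iff.mp h6)

end gen

theorem main (hE : ApiE) (hA : Spec3.EMBa) : Spec3.EMB := by
  classical
  intro p _ n d hn P hP r hr hrd β hβC hβX hinj hfin
  obtain ⟨C, iC, iCc, iCu, iCa, iCp, ι, w0, x0, hev0, hx0inj, hw0eq, hdisc⟩ := hA p n r hn hr
  let q := Ideal.Quotient.mk P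
  have hAdom : IsDomain (MvPowerSeries (Fin d) (GaloisField p n) ⧸ P) :=
    Ideal.Quotient.isDomain P
  let algBA : Algebra (MvPowerSeries (Fin r) (GaloisField p n))
    (MvPowerSeries (Fin d) (GaloisField p n) ⧸ P) := (q.comp β).toAlgebra
  let algBC : Algebra (MvPowerSeries (Fin r) (GaloisField p n)) C := x0.toAlgebra
  have hfinBA : Module.Finite (MvPowerSeries (Fin r) (GaloisField p n))
    (MvPowerSeries (Fin d) (GaloisField p n) ⧸ P) := hfin
  have hint : Algebra.IsIntegral (MvPowerSeries (Fin r) (GaloisField p n))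
    (MvPowerSeries (Fin d) (GaloisField p n) ⧸ P) := Algebra.IsIntegral.of_finite _ _
  have hf1 : FaithfulSMul (MvPowerSeries (Fin r) (GaloisField p n))
    (MvPowerSeries (Fin d) (GaloisField p n) ⧸ P) := by
    rw [faithfulSMul_iff_algebraMap_injective]
    exact hinj
  have hf2 : FaithfulSMul (MvPowerSeries (Fin r) (GaloisField p n)) C := by
    rw [faithfulSMul_iff_algebraMap_injective]
    exact hx0inj
  have hBdom : IsDomain (MvPowerSeries (Fin r) (GaloisField p n)) := NoZeroDivisors.to_isDomain _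
  have hBn : Nontrivial (MvPowerSeries (Fin r) (GaloisField p n)) := inferInstance
  have halg : Algebra.IsAlgebraic (MvPowerSeries (Fin r) (GaloisField p n))
    (MvPowerSeries (Fin d) (GaloisField p n) ⧸ P) := inferInstance
  let x1 : (MvPowerSeries (Fin d) (GaloisField p n) ⧸ P)
    →ₐ[MvPowerSeries (Fin r) (GaloisField p n)] C := IsAlgClosed.lift
  let x : MvPowerSeries (Fin d) (GaloisField p n) →+* C := x1.toRingHom.comp q
  have hxβ : ∀ b, x (β b) = x0 b := fun b => x1.commutes b
  have hxβ' : x.comp β = x0 := RingHom.ext hxβ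
  have hker : ∀ y, x1 y = 0 → y = 0 := by
    intro y hy
    have h1 : Ideal.comap (algebraMap (MvPowerSeries (Fin r) (GaloisField p n))
        (MvPowerSeries (Fin d) (GaloisField p n) ⧸ P)) (RingHom.ker x1.toRingHom) = ⊥ := by
      rw [eq_bot_iff]
      intro b hb
      rw [Ideal.mem_comap, RingHom.mem_ker] at hb
      have h2 : x0 b = 0 := by
        rw [← hxβ]
        exact hb
      rw [Ideal.mem_bot]
      exact hx0inj (by rw [h2, map_zero])
    have h2 := Ideal.eq_bot_of_comap_eq_bot h1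
    have h3 : y ∈ RingHom.ker x1.toRingHom := hy
    rw [h2] at h3
    exact h3
  have hx1inj : Function.Injective x1 := (injective_iff_map_eq_zero x1).2 hker
  have hle0 : ∀ b, ‖x0 b‖ ≤ 1 := fun b => LT3PTX.le_one hE hev0 b
  have hintpoly : ∀ y : (MvPowerSeries (Fin d) (GaloisField p n) ⧸ P),
      ∃ F : Polynomial (MvPowerSeries (Fin r) (GaloisField p n)), F.Monic ∧
        F.eval₂ x0 (x1 y) = 0 := by
    intro y
    obtain ⟨F, hF, hFy⟩ := hint.isIntegral y
    refine ⟨F, hF, ?_⟩
    have h1 := congrArg x1.toRingHom hFy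
    rw [map_zero, Polynomial.hom_eval₂] at h1
    have h2 : x1.toRingHom.comp (algebraMap (MvPowerSeries (Fin r) (GaloisField p n))
        (MvPowerSeries (Fin d) (GaloisField p n) ⧸ P)) = x0 := RingHom.ext hxβ
    rw [h2] at h1
    exact h1
  have hle : ∀ f, ‖x f‖ ≤ 1 := by
    intro f
    obtain ⟨F, hF, hFy⟩ := hintpoly (q f)
    exact int_norm x0 hle0 F hF _ hFy
  obtain ⟨ρ, hρ0, hρ1, -, hρ⟩ := LT3PTX.exists_rho w0 hev0.hw 1 zero_le_one
    (fun i => (hev0.hw i).le)
  have hmB : ∀ b ∈ mR (GaloisField p n) r, ‖x (β b)‖ ≤ ρ := by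
    intro b hb
    rw [hxβ]
    exact LT3PTX.mem_one hE hev0 ρ hρ0 hρ b hb
  have hXlt : ∀ i, ‖x (MvPowerSeries.X i)‖ < 1 := by
    intro i
    obtain ⟨F, hF, hFy⟩ := hintpoly (q (MvPowerSeries.X i))
    refine lt_one β x hle ρ hρ0 hρ1 hmB F hF i ?_
    rw [hxβ']
    exact hFy
  have hxC : ∀ c, x (MvPowerSeries.C c) = ι c := by
    intro c
    rw [← hβC, hxβ]
    exact LT3PTX.x_C hE hev0 c
  have hev : IsEv ι (fun i => x (MvPowerSeries.X i)) x := isEv_of hE ι x hle hxC hXlt
  refine ⟨C, iC, iCc, iCu, iCa, iCp, ι, fun i => x (MvPowerSeries.X i), x, hev, ?_, ?_, ?_⟩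
  · intro f
    constructor
    · intro h
      exact Ideal.Quotient.eq_zero_iff_mem.1 (hker (q f) h)
    · intro h
      show x1 (q f) = 0
      rw [Ideal.Quotient.eq_zero_iff_mem.2 h, map_zero]
  · -- Disc
    intro ζ hζ
    obtain ⟨f, hf0, hfζ⟩ := hζ
    let algAC : Algebra (MvPowerSeries (Fin d) (GaloisField p n) ⧸ P) C := x1.toRingHom.toAlgebra
    have htower : IsScalarTower (MvPowerSeries (Fin r) (GaloisField p n))
      (MvPowerSeries (Fin d) (GaloisField p n) ⧸ P) C :=
      IsScalarTower.of_algebraMap_eq (fun b => (hxβ b).symm)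
    have hζA : IsAlgebraic (MvPowerSeries (Fin d) (GaloisField p n) ⧸ P) ζ := by
      refine ⟨f.map q, ?_, ?_⟩
      · intro h
        apply hf0
        have h1 := congrArg (Polynomial.map x1.toRingHom) h
        rw [Polynomial.map_map, Polynomial.map_zero] at h1
        exact h1
      · rw [Polynomial.aeval_def, Polynomial.eval₂_map]
        exact hfζ
    have hζB : IsAlgebraic (MvPowerSeries (Fin r) (GaloisField p n)) ζ :=
      hζA.restrictScalars _
    obtain ⟨G, hG⟩ := hfinBA.fg_top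
    let Z : Finset C := insert ζ (G.image x1)
    have hZ : ∀ ζ' ∈ Z, ∃ f : Polynomial (MvPowerSeries (Fin r) (GaloisField p n)),
        f ≠ 0 ∧ f.eval₂ x0 ζ' = 0 := by
      intro ζ' hζ'
      rw [Finset.mem_insert, Finset.mem_image] at hζ'
      rcases hζ' with rfl | ⟨y, _, rfl⟩
      · obtain ⟨F, hF0, hF⟩ := hζB
        exact ⟨F, hF0, hF⟩
      · obtain ⟨F, hF, hFy⟩ := hintpoly y
        exact ⟨F, hF.ne_zero, hFy⟩
    obtain ⟨D, s, hD, hs0, hs1, hval⟩ := hdisc Z hZ
    refine ⟨D, s, hD, hs0, hs1, fun y hy hy0 => hval y ?_ hy0⟩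
    have hsub : Subfield.closure (Set.range x ∪ {ζ}) ≤
        Subfield.closure (Set.range x0 ∪ (Z : Set C)) := by
      rw [Subfield.closure_le]
      rintro y (⟨g, rfl⟩ | hy)
      · have h1 : q g ∈ Submodule.span (MvPowerSeries (Fin r) (GaloisField p n)) (G : Set _) := by
          rw [hG]
          trivial
        show x1 (q g) ∈ _
        refine Submodule.span_induction (p := fun y _ => x1 y ∈
          Subfield.closure (Set.range x0 ∪ (Z : Set C))) ?_ ?_ ?_ ?_ h1
        · intro y hy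
          apply Subfield.subset_closure
          right
          rw [Finset.mem_coe, Finset.mem_insert]
          right
          exact Finset.mem_image_of_mem _ hy
        · rw [map_zero]
          exact Subfield.zero_mem _
        · intro a b _ _ ha hb
          rw [map_add]
          exact Subfield.add_mem _ ha hb
        · intro b a _ ha
          rw [map_smul, Algebra.smul_def]
          refine Subfield.mul_mem _ ?_ ha
          apply Subfield.subset_closure
          left
          exact ⟨b, rfl⟩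
      · apply Subfield.subset_closure
        right
        rw [Set.mem_singleton_iff] at hy
        rw [hy]
        exact Finset.mem_insert_self _ _
    exact hsub hy
  · intro i0 hi0
    have h1 : x (MvPowerSeries.X i0) = w0 ⟨0, hr⟩ := by
      have h2 := (hβX ⟨0, hr⟩ i0).1 rfl hi0
      rw [← h2, hxβ]
      exact LT3PTX.x_X hE hev0 _
    refine ⟨?_, ?_⟩
    · show x (MvPowerSeries.X i0) ≠ 0
      rw [h1]
      intro h
      have h3 : x0 (MvPowerSeries.X ⟨0, hr⟩) = x0 0 := by
        rw [map_zero, LT3PTX.x_X hE hev0, h]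
      have h4 := hx0inj h3
      have h5 := congrArg (MvPowerSeries.coeff (Finsupp.single (⟨0, hr⟩ : Fin r) 1)) h4
      rw [MvPowerSeries.coeff_X, if_pos rfl, map_zero] at h5
      exact one_ne_zero h5
    · intro i hi
      show ‖x (MvPowerSeries.X i)‖ ≤ ‖x (MvPowerSeries.X i0)‖
      rw [h1]
      have hi2 := i.2
      have h2 := (hβX ⟨i.1 - (d - r), by omega⟩ i).2 (show 1 ≤ i.1 - (d - r) by omega)
        (show i.1 = d - r + (i.1 - (d - r)) by omega)
      rw [← h2, hxβ, LT3PTX.x_X hE hev0]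
      exact (hw0eq _ _).le

end Crest.Agent.LT3EMB
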