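/- rid 227 (S0351): module EMB0: an analytic point with kernel `P`. -/
import Crest.Agent.LT3Spec4
import Crest.Agent.LT3RINGE

set_option autoImplicit false
open Crest.LubinTate

namespace Crest.Agent.LT3EMB0
open Crest.Agent.LT3

/-- integral elements have norm at most one. -/
theorem norm_le_one_of_monic {B C : Type} [CommRing B] [NormedField C] [IsUltrametricDist C]
    (f : B →+* C) (hf : ∀ b, ‖f b‖ ≤ 1) {a : C} {q : Polynomial B} (hq : q.Monic)
    (h : q.eval₂ f a = 0) : ‖a‖ ≤ 1 := by
  by_contra h1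
  push Not at h1
  rw [Polynomial.eval₂_eq_sum_range, Finset.sum_range_succ] at h
  have h2 : f (q.coeff q.natDegree) = 1 := by rw [hq.coeff_natDegree, map_one]
  rw [h2, one_mul] at h
  have h3 : a ^ q.natDegree = - ∑ i ∈ Finset.range q.natDegree, f (q.coeff i) * a ^ i := by
    rw [eq_neg_iff_add_eq_zero, add_comm]; exact h
  rcases hn : q.natDegree with _ | k
  · rw [hn] at h3
    simp at h3
  · rw [hn] at h3
    have h4 : ‖∑ i ∈ Finset.range (k + 1), f (q.coeff i) * a ^ i‖ ≤ ‖a‖ ^ k := by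
      apply IsUltrametricDist.norm_sum_le_of_forall_le_of_nonneg (by positivity)
      intro i hi
      rw [Finset.mem_range] at hi
      rw [norm_mul, norm_pow]
      calc ‖f (q.coeff i)‖ * ‖a‖ ^ i ≤ 1 * ‖a‖ ^ k := by
            apply mul_le_mul (hf _) (pow_le_pow_right₀ h1.le (by omega)) (by positivity)
              (by positivity)
        _ = ‖a‖ ^ k := one_mul _
    have h5 : ‖a‖ ^ (k + 1) ≤ ‖a‖ ^ k := by
      rw [← norm_pow, h3, norm_neg]; exact h4
    rw [pow_succ] at h5
    have h6 : 0 < ‖a‖ ^ k := by positivity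
    nlinarith

theorem exists_lift {B A C : Type} [CommRing B] [CommRing A] [IsDomain A] [Algebra B A] [Field C]
    [IsAlgClosed C] [Algebra B C] [Algebra.IsIntegral B A]
    (hBA : Function.Injective (algebraMap B A)) (hBC : Function.Injective (algebraMap B C)) :
    Nonempty (A →ₐ[B] C) := by
  have : FaithfulSMul B A := (faithfulSMul_iff_algebraMap_injective B A).mpr hBA
  have : FaithfulSMul B C := (faithfulSMul_iff_algebraMap_injective B C).mpr hBC
  have : IsDomain B := hBA.isDomain (algebraMap B A)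
  have : Module.IsTorsionFree B A := Module.isTorsionFree_iff_faithfulSMul.mpr inferInstance
  have : Module.IsTorsionFree B C := Module.isTorsionFree_iff_faithfulSMul.mpr inferInstance
  have : Algebra.IsAlgebraic B A := inferInstance
  exact ⟨IsAlgClosed.lift⟩

theorem lift_le_one {B A C : Type} [CommRing B] [CommRing A] [Algebra B A] [NormedField C]
    [IsUltrametricDist C] [Algebra B C] [Algebra.IsIntegral B A]
    (hle : ∀ b, ‖algebraMap B C b‖ ≤ 1) (y : A →ₐ[B] C) (a : A) : ‖y a‖ ≤ 1 := by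
  obtain ⟨q, hq, hqa⟩ := Algebra.IsIntegral.isIntegral (R := B) a
  refine norm_le_one_of_monic (algebraMap B C) hle hq ?_
  have h1 : (y : A →+* C).comp (algebraMap B A) = algebraMap B C := by
    ext b
    simp
  rw [← h1]
  have h2 := Polynomial.hom_eval₂ q (algebraMap B A) (y : A →+* C) a
  rw [hqa, map_zero] at h2
  exact h2.symm

theorem mem_radical {B A : Type} [CommRing B] [IsLocalRing B] [CommRing A]
    [IsLocalRing A] [Algebra B A] [Algebra.IsIntegral B A] {a : A}
    (ha : a ∈ IsLocalRing.maximalIdeal A) :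
    a ∈ ((IsLocalRing.maximalIdeal B).map (algebraMap B A)).radical := by
  rw [Ideal.radical_eq_sInf, Ideal.mem_sInf]
  rintro (J : Ideal A) ⟨hJ1, hJ2⟩
  rw [Ideal.map_le_iff_le_comap] at hJ1
  have h3 : (J.comap (algebraMap B A)).IsPrime := hJ2.comap _
  have h4 : IsLocalRing.maximalIdeal B = J.comap (algebraMap B A) :=
    (IsLocalRing.maximalIdeal.isMaximal B).eq_of_le h3.ne_top hJ1
  have h5 : J.IsMaximal := by
    apply Ideal.isMaximal_of_isIntegral_of_isMaximal_comap (R := B)
    rw [← h4]; exact IsLocalRing.maximalIdeal.isMaximal B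
  rw [IsLocalRing.eq_maximalIdeal h5]
  exact ha

/-- extension of a point along an integral injective extension of local rings. -/
theorem extend {B A C : Type} [CommRing B] [IsLocalRing B] [CommRing A] [IsDomain A]
    [IsLocalRing A] [Algebra B A] [NormedField C] [IsUltrametricDist C] [IsAlgClosed C]
    [Algebra B C] [Algebra.IsIntegral B A] (hBA : Function.Injective (algebraMap B A))
    (hBC : Function.Injective (algebraMap B C)) (hle : ∀ b, ‖algebraMap B C b‖ ≤ 1)
    (hlt : ∀ b ∈ IsLocalRing.maximalIdeal B, ‖algebraMap B C b‖ < 1) :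
    ∃ y : A →ₐ[B] C, Function.Injective y ∧ (∀ a, ‖y a‖ ≤ 1) ∧
      (∀ a ∈ IsLocalRing.maximalIdeal A, ‖y a‖ < 1) := by
  obtain ⟨y⟩ := exists_lift (C := C) hBA hBC
  have hy1 : ∀ a, ‖y a‖ ≤ 1 := lift_le_one hle y
  refine ⟨y, ?_, hy1, ?_⟩
  · have h0 : RingHom.ker (y : A →+* C) = ⊥ := by
      apply Ideal.eq_bot_of_comap_eq_bot (R := B)
      rw [eq_bot_iff]
      intro b hb
      rw [Ideal.mem_comap, RingHom.mem_ker] at hb
      have h1 : algebraMap B C b = 0 := by
        rw [← y.commutes b]; exact hb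
      rw [Ideal.mem_bot]
      apply hBC
      rw [h1, map_zero]
    exact (RingHom.injective_iff_ker_eq_bot (y : A →+* C)).mpr h0
  · intro a ha
    let J0 : Ideal A :=
      { carrier := {a | ‖y a‖ < 1}
        add_mem' := by
          intro a b ha hb
          rw [Set.mem_ofPred_eq, map_add]
          exact lt_of_le_of_lt (IsUltrametricDist.norm_add_le_max _ _) (max_lt ha hb)
        zero_mem' := by
          rw [Set.mem_ofPred_eq, map_zero, norm_zero]; exact one_pos
        smul_mem' := by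
          intro c a ha
          rw [Set.mem_ofPred_eq, smul_eq_mul, map_mul, norm_mul]
          have h1 := hy1 c
          have h2 : ‖y a‖ < 1 := ha
          calc ‖y c‖ * ‖y a‖ ≤ 1 * ‖y a‖ := mul_le_mul_of_nonneg_right h1 (norm_nonneg _)
            _ < 1 := by rw [one_mul]; exact h2 }
    obtain ⟨M, hM⟩ := mem_radical (B := B) ha
    have h2 : (IsLocalRing.maximalIdeal B).map (algebraMap B A) ≤ J0 := by
      rw [Ideal.map_le_iff_le_comap]
      intro b hb
      change ‖y (algebraMap B A b)‖ < 1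
      rw [y.commutes]
      exact hlt b hb
    have h3 : ‖y (a ^ M)‖ < 1 := h2 hM
    by_contra h4
    push Not at h4
    rw [map_pow, norm_pow] at h3
    exact absurd (one_le_pow₀ h4 (n := M)) (not_le.mpr h3)

/-- a ring homomorphism from a power series ring is the evaluation. -/
theorem is_eval (AE : ApiE1) {W C : Type} [CommRing W] [NontriviallyNormedField C]
    [CompleteSpace C] [IsUltrametricDist C] {d : ℕ} (ι : W →+* C) (hι : ∀ c, ‖ι c‖ ≤ 1)
    (x : MvPowerSeries (Fin d) W →+* C) (hx1 : ∀ f, ‖x f‖ ≤ 1)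
    (hxC : ∀ c, x (MvPowerSeries.C c) = ι c) (hw : ∀ i, ‖x (MvPowerSeries.X i)‖ < 1) :
    ∀ f, x f = evm (MvPowerSeries.map ι f) (fun i => x (MvPowerSeries.X i)) := by
  classical
  have hInt : ∀ f : MvPowerSeries (Fin d) W, Int1 (MvPowerSeries.map ι f) := by
    intro f e
    rw [MvPowerSeries.coeff_map]; exact hι _
  let e : MvPowerSeries (Fin d) W →+* C :=
    { toFun := fun f => evm (MvPowerSeries.map ι f) (fun i => x (MvPowerSeries.X i))
      map_one' := by
        rw [map_one, ← map_one (MvPowerSeries.C (σ := Fin d) (R := C)), AE.evm_C]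
      map_mul' := by
        intro f g
        rw [map_mul, AE.evm_mul (hInt f) (hInt g) hw]
      map_zero' := by
        rw [map_zero, ← map_zero (MvPowerSeries.C (σ := Fin d) (R := C)), AE.evm_C]
      map_add' := by
        intro f g
        rw [map_add, AE.evm_add (hInt f) (hInt g) hw] }
  have he1 : ∀ f, ‖e f‖ ≤ 1 := fun f => AE.evm_le_one (hInt f) hw
  have heC : ∀ c, e (MvPowerSeries.C c) = ι c := by
    intro c
    change evm (MvPowerSeries.map ι (MvPowerSeries.C c)) _ = _
    rw [MvPowerSeries.map_C, AE.evm_C]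
  have heX : ∀ i, e (MvPowerSeries.X i) = x (MvPowerSeries.X i) := by
    intro i
    change evm (MvPowerSeries.map ι (MvPowerSeries.X i)) _ = _
    rw [MvPowerSeries.map_X, AE.evm_X]
  obtain ⟨ρ, hρ0, hρ1, hρ⟩ : ∃ ρ : ℝ, 0 ≤ ρ ∧ ρ < 1 ∧ ∀ i : Fin d, ‖x (MvPowerSeries.X i)‖ ≤ ρ := by
    let s : NNReal := Finset.univ.sup (fun i : Fin d => ‖x (MvPowerSeries.X i)‖₊)
    refine ⟨s, s.2, ?_, ?_⟩
    · have : s < 1 := by
        rw [Finset.sup_lt_iff (by simp)]
        intro i _
        exact_mod_cast hw i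
      exact_mod_cast this
    · intro i
      have : ‖x (MvPowerSeries.X i)‖₊ ≤ s := Finset.le_sup (f := fun i : Fin d =>
        ‖x (MvPowerSeries.X i)‖₊) (Finset.mem_univ i)
      exact_mod_cast this
  have key : ∀ (N : ℕ) (f : MvPowerSeries (Fin d) W), ‖x f - e f‖ ≤ ρ ^ N := by
    intro N
    induction N with
    | zero =>
      intro f
      rw [pow_zero, sub_eq_add_neg]
      refine (IsUltrametricDist.norm_add_le_max _ _).trans (max_le (hx1 f) ?_)
      rw [norm_neg]; exact he1 f
    | succ N ih =>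
      intro f
      have h1 : x f - e f = ∑ i : Fin d, x (MvPowerSeries.X i) *
          (x (LT3RINGE.slice f i) - e (LT3RINGE.slice f i)) := by
        conv_lhs => rw [LT3RINGE.decomp f]
        rw [map_add, map_add, hxC, heC, map_sum, map_sum, add_sub_add_left_eq_sub,
          ← Finset.sum_sub_distrib]
        refine Finset.sum_congr rfl fun i _ => ?_
        rw [map_mul, map_mul, heX]
        ring
      rw [h1]
      apply IsUltrametricDist.norm_sum_le_of_forall_le_of_nonneg (by positivity)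
      intro i _
      rw [norm_mul, pow_succ']
      exact mul_le_mul (hρ i) (ih _) (norm_nonneg _) hρ0
  intro f
  have h0 : ‖x f - e f‖ ≤ 0 := by
    refine ge_of_tendsto' (tendsto_pow_atTop_nhds_zero_of_lt_one hρ0 hρ1) ?_
    intro N
    exact key N f
  have h1 : x f - e f = 0 := norm_le_zero_iff.mp h0
  exact sub_eq_zero.mp h1

theorem main (AE : ApiE1) (h0a : Spec4.EMB0a) : Spec4.EMB0 := by
  intro p hp n h h1 hn P hP β hβC hβX hinj hfin
  have hn1 : 1 ≤ n := h1.trans hn
  obtain ⟨C, i1, i2, i3, i4, i5, ι, w0, x0, hev, hx0⟩ := h0a p n (n - h) hn1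
  have hIntx : ∀ f : MvPowerSeries (Fin (n - h)) (WittVector p (GaloisField p n)),
      Int1 (MvPowerSeries.map ι f) := by
    intro f e
    rw [MvPowerSeries.coeff_map]; exact hev.hι _
  have hx01 : ∀ f, ‖x0 f‖ ≤ 1 := by
    intro f
    rw [hev.hx]; exact AE.evm_le_one (hIntx f) hev.hw
  have hx0C : ∀ c, x0 (MvPowerSeries.C c) = ι c := by
    intro c
    rw [hev.hx, MvPowerSeries.map_C, AE.evm_C]
  obtain ⟨ρ, hρ0, hρ1, hρ⟩ : ∃ ρ : ℝ, 0 ≤ ρ ∧ ρ < 1 ∧ ∀ i : Fin (n - h), ‖w0 i‖ ≤ ρ := by
    let s : NNReal := Finset.univ.sup (fun i : Fin (n - h) => ‖w0 i‖₊)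
    refine ⟨s, s.2, ?_, ?_⟩
    · have : s < 1 := by
        rw [Finset.sup_lt_iff (by simp)]
        intro i _
        exact_mod_cast hev.hw i
      exact_mod_cast this
    · intro i
      have : ‖w0 i‖₊ ≤ s := Finset.le_sup (f := fun i : Fin (n - h) => ‖w0 i‖₊)
        (Finset.mem_univ i)
      exact_mod_cast this
  have hlt : ∀ b ∈ IsLocalRing.maximalIdeal
      (MvPowerSeries (Fin (n - h)) (WittVector p (GaloisField p n))), ‖x0 b‖ < 1 := by
    intro b hb
    have hb0 : WittVector.constantCoeff (MvPowerSeries.constantCoeff b) = 0 := by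
      by_contra hne
      rw [IsLocalRing.mem_maximalIdeal, mem_nonunits_iff] at hb
      apply hb
      rw [MvPowerSeries.isUnit_iff_constantCoeff]
      exact WittVector.isUnit_of_coeff_zero_ne_zero _ hne
    have hb1 : MvPowerSeries.constantCoeff b ∈
        Ideal.span {(p : WittVector p (GaloisField p n))} := by
      rw [← WittVector.ker_constantCoeff]; exact hb0
    rw [Ideal.mem_span_singleton] at hb1
    obtain ⟨c, hc⟩ := hb1
    have h2 : x0 b = x0 (MvPowerSeries.C (MvPowerSeries.constantCoeff b)) +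
        x0 (b - MvPowerSeries.C (MvPowerSeries.constantCoeff b)) := by
      rw [← map_add]; congr 1; ring
    rw [h2]
    refine lt_of_le_of_lt (IsUltrametricDist.norm_add_le_max _ _) (max_lt ?_ ?_)
    · rw [hx0C, hc, map_mul, norm_mul, map_natCast]
      calc ‖(p : C)‖ * ‖ι c‖ ≤ ‖(p : C)‖ * 1 :=
            mul_le_mul_of_nonneg_left (hev.hι c) (norm_nonneg _)
        _ < 1 := by rw [mul_one]; exact hev.hp
    · refine lt_of_le_of_lt ?_ hρ1
      rw [hev.hx]
      refine AE.evm_le_of_zc ρ hρ0 hρ1 (hIntx _) ?_ hρ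
      rw [ZC, MvPowerSeries.constantCoeff_map]
      simp
  have hPI := hP
  haveI : Nontrivial (LTRing p n ⧸ P) := Ideal.Quotient.nontrivial_iff.mpr hP.ne_top
  haveI : IsLocalRing (LTRing p n ⧸ P) :=
    IsLocalRing.of_surjective' (Ideal.Quotient.mk P) Ideal.Quotient.mk_surjective
  letI aBA : Algebra (MvPowerSeries (Fin (n - h)) (WittVector p (GaloisField p n)))
    (LTRing p n ⧸ P) := ((Ideal.Quotient.mk P).comp β).toAlgebra
  letI aBC : Algebra (MvPowerSeries (Fin (n - h)) (WittVector p (GaloisField p n))) C :=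
    x0.toAlgebra
  haveI : Algebra.IsIntegral (MvPowerSeries (Fin (n - h)) (WittVector p (GaloisField p n)))
    (LTRing p n ⧸ P) := ⟨hfin.to_isIntegral⟩
  obtain ⟨y, hyinj, hy1, hylt⟩ := extend
    (B := MvPowerSeries (Fin (n - h)) (WittVector p (GaloisField p n)))
    (A := LTRing p n ⧸ P) (C := C) hinj hx0 hx01 hlt
  let x : LTRing p n →+* C := (y : (LTRing p n ⧸ P) →+* C).comp (Ideal.Quotient.mk P)
  have hx1 : ∀ f, ‖x f‖ ≤ 1 := fun f => hy1 _
  have hxβ : ∀ b, x (β b) = x0 b := fun b => y.commutes b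
  have hxC : ∀ c, x (MvPowerSeries.C c) = ι c := by
    intro c
    rw [← hβC, hxβ, hx0C]
  have hw : ∀ i, ‖x (MvPowerSeries.X i)‖ < 1 := by
    intro i
    apply hylt
    rw [IsLocalRing.mem_maximalIdeal, mem_nonunits_iff]
    intro hu
    have hloc : IsLocalHom (Ideal.Quotient.mk P) :=
      IsLocalHom.of_surjective _ Ideal.Quotient.mk_surjective
    have h2 : IsUnit (MvPowerSeries.X i : LTRing p n) := (isUnit_map_iff (Ideal.Quotient.mk P) _).mp hu
    rw [MvPowerSeries.isUnit_iff_constantCoeff, MvPowerSeries.constantCoeff_X] at h2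
    exact not_isUnit_zero h2
  refine ⟨C, i1, i2, i3, i4, i5, ι, fun i => x (MvPowerSeries.X i), x,
    ⟨hev.hp, hev.hι, hw, is_eval AE ι hev.hι x hx1 hxC hw⟩, ?_⟩
  intro f
  constructor
  · intro hf
    have h2 : Ideal.Quotient.mk P f = 0 := hyinj (by rw [map_zero]; exact hf)
    exact Ideal.Quotient.eq_zero_iff_mem.mp h2
  · intro hf
    change y (Ideal.Quotient.mk P f) = 0
    rw [Ideal.Quotient.eq_zero_iff_mem.mpr hf, map_zero]

end Crest.Agent.LT3EMB0
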