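/- rid 227 (S0351), module EMB0a: a generic point of `W[[X_0..X_{m-1}]]`. -/
import Crest.Agent.LT3Spec3
import Crest.Agent.LT3Spec4

set_option autoImplicit false
set_option linter.unusedSectionVars false
open Crest.LubinTate
open Crest Crest.GeometryTopology

namespace Crest.Agent.LT3EMB0a

open LT3

/-! ### the perfect field `κ` -/

section kappa

variable (p : ℕ) [Fact p.Prime] (k : Type) [Field k] [CharP k p] (m : ℕ)

abbrev F0 : Type := FractionRing (MvPolynomial (Fin m) k)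

instance : CharP (F0 k m) p :=
  charP_of_injective_ringHom (IsFractionRing.injective (MvPolynomial (Fin m) k) (F0 k m)) p

abbrev kap : Type := PerfectClosure (F0 k m) p

noncomputable def ph : MvPolynomial (Fin m) k →+* kap p k m :=
  (PerfectClosure.of (F0 k m) p).comp (algebraMap (MvPolynomial (Fin m) k) (F0 k m))

lemma ph_inj : Function.Injective (ph p k m) :=
  (PerfectClosure.of (F0 k m) p).injective.comp
    (IsFractionRing.injective (MvPolynomial (Fin m) k) (F0 k m))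

end kappa

/-! ### divisibility in `W(k)` -/

section wk

variable {p : ℕ} [Fact p.Prime] {k : Type} [Field k] [CharP k p] [PerfectRing k p]

lemma coeff_zero_ne {b : WittVector p k} (hb : ¬ (p : WittVector p k) ∣ b) :
    WittVector.constantCoeff b ≠ 0 := by
  intro h
  have h1 : b ∈ RingHom.ker (WittVector.constantCoeff (p := p) (R := k)) := h
  rw [WittVector.ker_constantCoeff, Ideal.mem_span_singleton] at h1
  exact hb h1

lemma exists_min {m : ℕ} (f : (Fin m →₀ ℕ) → WittVector p k) (hf : f ≠ 0) :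
    ∃ (N : ℕ) (h : (Fin m →₀ ℕ) → WittVector p k) (e1 : Fin m →₀ ℕ),
      (∀ e, f e * (p : WittVector p k) ^ e.degree = (p : WittVector p k) ^ N * h e) ∧
      (∀ e, N < e.degree → (p : WittVector p k) ∣ h e) ∧
      WittVector.constantCoeff (h e1) ≠ 0 ∧ e1.degree ≤ N := by
  classical
  have hp0 : (p : WittVector p k) ≠ 0 := WittVector.p_nonzero p k
  obtain ⟨e0, he0⟩ : ∃ e0, f e0 ≠ 0 := by
    by_contra hcon
    push Not at hcon
    exact hf (funext hcon)
  have hex : ∃ M : ℕ, ¬ ∀ e, (p : WittVector p k) ^ M ∣ f e * (p : WittVector p k) ^ e.degree := by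
    obtain ⟨v, b, hb, hfb⟩ := WittVector.exists_eq_pow_p_mul (f e0) he0
    refine ⟨v + e0.degree + 1, fun hall => ?_⟩
    have h1 := hall e0
    rw [hfb] at h1
    have h2 : (p : WittVector p k) ^ v * b * (p : WittVector p k) ^ e0.degree =
        (p : WittVector p k) ^ (v + e0.degree) * b := by ring
    rw [h2, pow_succ] at h1
    have h3 : (p : WittVector p k) ∣ b :=
      (mul_dvd_mul_iff_left (pow_ne_zero _ hp0)).1 h1
    have h4 : WittVector.constantCoeff b = 0 := by
      have : b ∈ RingHom.ker (WittVector.constantCoeff (p := p) (R := k)) := by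
        rw [WittVector.ker_constantCoeff, Ideal.mem_span_singleton]
        exact h3
      exact this
    exact hb h4
  have hspec := Nat.find_spec hex
  have hmin : ∀ M', M' < Nat.find hex →
      ∀ e, (p : WittVector p k) ^ M' ∣ f e * (p : WittVector p k) ^ e.degree := by
    intro M' hM'
    have := Nat.find_min hex hM'
    push Not at this
    exact this
  generalize Nat.find hex = M at hspec hmin
  cases M with
  | zero => exact absurd (fun e => by simp) hspec
  | succ N =>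
    have hN := hmin N (Nat.lt_succ_self N)
    push Not at hspec
    choose h hh using hN
    obtain ⟨e1, he1⟩ := hspec
    have hd : ∀ e, N < e.degree → (p : WittVector p k) ∣ h e := by
      intro e he
      obtain ⟨t, ht⟩ := Nat.exists_eq_add_of_lt he
      have h1 := hh e
      rw [ht] at h1
      have h2 : (p : WittVector p k) ^ N * ((p : WittVector p k) * (f e * (p : WittVector p k) ^ t)) =
          (p : WittVector p k) ^ N * h e := by
        rw [← h1]; ring
      exact ⟨_, (mul_left_cancel₀ (pow_ne_zero _ hp0) h2).symm⟩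
    have hnd : ¬ (p : WittVector p k) ∣ h e1 := by
      intro hcon
      apply he1
      rw [hh e1, pow_succ]
      exact mul_dvd_mul_left _ hcon
    refine ⟨N, h, e1, hh, hd, coeff_zero_ne hnd, ?_⟩
    by_contra hlt
    push Not at hlt
    exact hnd (hd e1 hlt)

end wk

/-! ### the point -/

section pt

variable (hE : LT3.ApiE1) {p : ℕ} [Fact p.Prime] {k : Type} [Field k] [CharP k p]
  [PerfectRing k p] {m : ℕ} {C : Type} [NontriviallyNormedField C] [CompleteSpace C]
  [IsUltrametricDist C]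

include hE in
lemma int_map (ι : WittVector p k →+* C) (hι : ∀ c, ‖ι c‖ ≤ 1)
    (f : MvPowerSeries (Fin m) (WittVector p k)) : Int1 (MvPowerSeries.map ι f) := by
  intro e
  rw [MvPowerSeries.coeff_map]
  exact hι _

include hE in
/-- evaluation as a ring homomorphism -/
lemma exists_x (ι : WittVector p k →+* C) (hι : ∀ c, ‖ι c‖ ≤ 1) (w : Fin m → C)
    (hw : ∀ i, ‖w i‖ < 1) :
    ∃ x : MvPowerSeries (Fin m) (WittVector p k) →+* C,
      ∀ f, x f = evm (MvPowerSeries.map ι f) w := by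
  refine ⟨{ toFun := fun f => evm (MvPowerSeries.map ι f) w
            map_one' := ?_
            map_mul' := ?_
            map_zero' := ?_
            map_add' := ?_ }, fun f => rfl⟩
  · rw [map_one, ← map_one (MvPowerSeries.C (σ := Fin m) (R := C)), hE.evm_C]
  · intro f g
    rw [map_mul, hE.evm_mul (int_map hE ι hι f) (int_map hE ι hι g) hw]
  · rw [map_zero, ← map_zero (MvPowerSeries.C (σ := Fin m) (R := C)), hE.evm_C]
  · intro f g
    rw [map_add, hE.evm_add (int_map hE ι hι f) (int_map hE ι hι g) hw]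

include hE in
lemma nonzero_of (ι : WittVector p k →+* C) (hι : ∀ c, ‖ι c‖ ≤ 1) (hp : ‖(p : C)‖ < 1)
    [CharZero C] (ω : Fin m → C) (hω : ∀ i, ‖ω i‖ ≤ 1)
    (hgen : ∀ (h : (Fin m →₀ ℕ) → WittVector p k) (S : Finset (Fin m →₀ ℕ))
      (e1 : Fin m →₀ ℕ), e1 ∈ S → WittVector.constantCoeff (h e1) ≠ 0 →
      ‖∑ e ∈ S, ι (h e) * ∏ i, ω i ^ e i‖ = 1)
    (f : MvPowerSeries (Fin m) (WittVector p k)) (hf : f ≠ 0) :
    evm (MvPowerSeries.map ι f) (fun i => (p : C) * ω i) ≠ 0 := by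
  classical
  intro h0
  have hp0 : (0 : ℝ) < ‖(p : C)‖ := by
    rw [norm_pos_iff]
    exact_mod_cast (Fact.out : p.Prime).ne_zero
  obtain ⟨N, h, e1, hh, hd, hc, he1⟩ := exists_min (fun e => MvPowerSeries.coeff e f)
    (fun hcon => hf (MvPowerSeries.ext fun e => congrFun hcon e))
  have hw : ∀ i, ‖(p : C) * ω i‖ < 1 := by
    intro i
    rw [norm_mul]
    calc ‖(p : C)‖ * ‖ω i‖ ≤ ‖(p : C)‖ * 1 := by gcongr; exact hω i
      _ < 1 := by rw [mul_one]; exact hp
  have hs := hE.hasSum_evm (int_map hE ι hι f) hw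
  rw [h0] at hs
  -- rewrite the terms
  have hterm : ∀ e : Fin m →₀ ℕ, MvPowerSeries.coeff e (MvPowerSeries.map ι f) *
      ∏ i, ((p : C) * ω i) ^ e i = (p : C) ^ N * (ι (h e) * ∏ i, ω i ^ e i) := by
    intro e
    have h1 := congrArg ι (hh e)
    rw [map_mul, map_mul, map_pow, map_pow, map_natCast] at h1
    have h2 : ∏ i, ((p : C) * ω i) ^ e i = (p : C) ^ e.degree * ∏ i, ω i ^ e i := by
      rw [Finsupp.degree_eq_sum, ← Finset.prod_pow_eq_pow_sum, ← Finset.prod_mul_distrib]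
      exact Finset.prod_congr rfl fun i _ => mul_pow _ _ _
    rw [h2, MvPowerSeries.coeff_map, ← mul_assoc, h1, mul_assoc]
  simp_rw [hterm] at hs
  have hprod : ∀ e : Fin m →₀ ℕ, ‖∏ i, ω i ^ e i‖ ≤ 1 := by
    intro e
    rw [norm_prod]
    refine Finset.prod_le_one (fun i _ => norm_nonneg _) fun i _ => ?_
    rw [norm_pow]
    exact pow_le_one₀ (norm_nonneg _) (hω i)
  -- the tail
  have htail : ∀ e : Fin m →₀ ℕ, N < e.degree →
      ‖(p : C) ^ N * (ι (h e) * ∏ i, ω i ^ e i)‖ ≤ ‖(p : C)‖ ^ N * ‖(p : C)‖ := by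
    intro e he
    obtain ⟨c, hc⟩ := hd e he
    rw [hc, map_mul, map_natCast, norm_mul, norm_pow, norm_mul, norm_mul]
    refine mul_le_mul_of_nonneg_left ?_ (by positivity)
    calc ‖(p : C)‖ * ‖ι c‖ * ‖∏ i, ω i ^ e i‖ ≤ ‖(p : C)‖ * 1 * 1 := by
          gcongr
          · exact hι c
          · exact hprod e
      _ = ‖(p : C)‖ := by ring
  set S : Finset (Fin m →₀ ℕ) := (Finsupp.finite_of_degree_le (σ := Fin m) N).toFinset with hS
  have hmemS : ∀ e, e ∈ S ↔ e.degree ≤ N := by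
    intro e
    rw [hS, Set.Finite.mem_toFinset]
    rfl
  have hpN : 0 < ‖(p : C)‖ ^ N := pow_pos hp0 N
  have hev := hs.eventually (Metric.ball_mem_nhds (0 : C) hpN)
  have hev2 := hev.and (Filter.eventually_ge_atTop S)
  obtain ⟨T, hT1, hT2⟩ := hev2.exists
  rw [← Finset.sum_sdiff hT2] at hT1
  have hsd : ‖∑ e ∈ T \ S, (p : C) ^ N * (ι (h e) * ∏ i, ω i ^ e i)‖ ≤
      ‖(p : C)‖ ^ N * ‖(p : C)‖ := by
    refine IsUltrametricDist.norm_sum_le_of_forall_le_of_nonneg (by positivity) fun e he => ?_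
    rw [Finset.mem_sdiff, hmemS, not_le] at he
    exact htail e he.2
  have hmain : ‖∑ e ∈ S, (p : C) ^ N * (ι (h e) * ∏ i, ω i ^ e i)‖ = ‖(p : C)‖ ^ N := by
    rw [← Finset.mul_sum, norm_mul, norm_pow, hgen h S e1 ((hmemS e1).2 he1) hc, mul_one]
  have hT3 : ‖∑ e ∈ T \ S, (p : C) ^ N * (ι (h e) * ∏ i, ω i ^ e i) +
      ∑ e ∈ S, (p : C) ^ N * (ι (h e) * ∏ i, ω i ^ e i)‖ < ‖(p : C)‖ ^ N := by
    simpa [Metric.mem_ball, dist_zero_right] using hT1
  have hlt : ‖(p : C)‖ ^ N * ‖(p : C)‖ < ‖(p : C)‖ ^ N := by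
    calc ‖(p : C)‖ ^ N * ‖(p : C)‖ < ‖(p : C)‖ ^ N * 1 := by gcongr
      _ = _ := mul_one _
  have h4 : ∑ e ∈ S, (p : C) ^ N * (ι (h e) * ∏ i, ω i ^ e i) =
      (∑ e ∈ T \ S, (p : C) ^ N * (ι (h e) * ∏ i, ω i ^ e i) +
      ∑ e ∈ S, (p : C) ^ N * (ι (h e) * ∏ i, ω i ^ e i)) -
      ∑ e ∈ T \ S, (p : C) ^ N * (ι (h e) * ∏ i, ω i ^ e i) := by ring
  have h5 : ‖∑ e ∈ S, (p : C) ^ N * (ι (h e) * ∏ i, ω i ^ e i)‖ < ‖(p : C)‖ ^ N := by
    rw [h4, sub_eq_add_neg]
    refine lt_of_le_of_lt (IsUltrametricDist.norm_add_le_max _ _) ?_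
    rw [norm_neg]
    exact max_lt hT3 (lt_of_le_of_lt hsd hlt)
  rw [hmain] at h5
  exact lt_irrefl _ h5

end pt

theorem main (hE : LT3.ApiE1) (hW : LT3.Spec4.WFIELD) (hC : LT3.Spec3.CLOSC) :
    LT3.Spec4.EMB0a := by
  intro p hp n m hn
  classical
  set k := GaloisField p n with hk
  obtain ⟨K, i1, i2, i3, j, hjp, hj1, hju, hK0⟩ := hW p (kap p k m)
  obtain ⟨C, c1, c2, c3, c4, f, hf, -⟩ := hC K
  have hC0 : CharZero C := charZero_of_injective_ringHom f.injective
  -- the maps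
  set φ : k →+* kap p k m := (ph p k m).comp MvPolynomial.C with hφ
  set ι : WittVector p k →+* C := (f.comp j).comp (WittVector.map φ) with hι
  set ω : Fin m → C := fun i => f (j (WittVector.teichmuller p (ph p k m (MvPolynomial.X i))))
    with hω
  have hpC : ‖(p : C)‖ < 1 := by
    rw [← map_natCast f, hf]; exact hjp
  have hι1 : ∀ c, ‖ι c‖ ≤ 1 := fun c => by
    show ‖f (j (WittVector.map φ c))‖ ≤ 1
    rw [hf]; exact hj1 _
  have hω1 : ∀ i, ‖ω i‖ ≤ 1 := fun i => by
    rw [hω]; dsimp only; rw [hf]; exact hj1 _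
  have hw : ∀ i, ‖(p : C) * ω i‖ < 1 := by
    intro i
    rw [norm_mul]
    calc ‖(p : C)‖ * ‖ω i‖ ≤ ‖(p : C)‖ * 1 := by gcongr; exact hω1 i
      _ < 1 := by rw [mul_one]; exact hpC
  obtain ⟨x, hx⟩ := exists_x hE ι hι1 (fun i => (p : C) * ω i) hw
  refine ⟨C, c1, c2, c3, c4, hC0, ι, fun i => (p : C) * ω i, x,
    ⟨hpC, hι1, hw, hx⟩, ?_⟩
  rw [injective_iff_map_eq_zero]
  intro g hg
  by_contra hg0
  rw [hx] at hg
  refine nonzero_of hE ι hι1 hpC ω hω1 ?_ g hg0 hg
  intro h S e1 he1 hc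
  -- the sum comes from `W(κ)`
  have h1 : ∑ e ∈ S, ι (h e) * ∏ i, ω i ^ e i =
      f (j (∑ e ∈ S, WittVector.map φ (h e) *
        ∏ i, (WittVector.teichmuller p (ph p k m (MvPolynomial.X i))) ^ e i)) := by
    simp only [map_sum, map_mul, map_prod, map_pow, hι, hω, RingHom.comp_apply]
  rw [h1, hf]
  refine hju _ ?_
  have h2 : WittVector.constantCoeff (∑ e ∈ S, WittVector.map φ (h e) *
        ∏ i, (WittVector.teichmuller p (ph p k m (MvPolynomial.X i))) ^ e i) =
      ph p k m (∑ e ∈ S, MvPolynomial.monomial e (WittVector.constantCoeff (h e))) := by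
    rw [map_sum, map_sum]
    refine Finset.sum_congr rfl fun e _ => ?_
    rw [map_mul, map_prod, MvPolynomial.monomial_eq, map_mul]
    congr 1
    rw [Finsupp.prod_fintype _ _ (fun i => pow_zero _), map_prod]
    refine Finset.prod_congr rfl fun i _ => ?_
    rw [map_pow, map_pow]
    congr 1
  rw [h2]
  intro hcon
  have h3 := (injective_iff_map_eq_zero (ph p k m)).1 (ph_inj p k m) _ hcon
  have h4 := congrArg (MvPolynomial.coeff e1) h3
  rw [MvPolynomial.coeff_sum, MvPolynomial.coeff_zero] at h4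
  simp only [MvPolynomial.coeff_monomial] at h4
  rw [Finset.sum_ite_eq' S e1 (fun e => WittVector.constantCoeff (h e)), if_pos he1] at h4
  exact hc h4

end Crest.Agent.LT3EMB0a
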