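import Crest.Agent.LT3Spec3

set_option autoImplicit false
set_option linter.unusedSectionVars false
open Crest.LubinTate
open Crest Crest.GeometryTopology

namespace Crest.Agent.LT3EMBa

open LT3

section gen

variable (k : Type) [Field k] (r : ℕ)

abbrev kap : Type := FractionRing (MvPolynomial (Fin r) k)

noncomputable def la (i : Fin r) : kap k r :=
  algebraMap (MvPolynomial (Fin r) k) (kap k r) (MvPolynomial.X i)

noncomputable def av (i : Fin r) : MvPowerSeries Unit (kap k r) :=
  (PowerSeries.C (la k r i) * PowerSeries.X : PowerSeries (kap k r))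

lemma hav : MvPowerSeries.HasSubst (av k r) := by
  refine MvPowerSeries.hasSubst_of_constantCoeff_zero fun s => ?_
  show PowerSeries.constantCoeff (PowerSeries.C (la k r s) * PowerSeries.X : PowerSeries (kap k r))
    = 0
  simp

noncomputable def g : MvPowerSeries (Fin r) k →+* PowerSeries (kap k r) :=
  (MvPowerSeries.substAlgHom (hav k r)).toRingHom

lemma av_prod (d : Fin r →₀ ℕ) : (d.prod fun s e => av k r s ^ e) =
    (PowerSeries.C (d.prod fun s e => la k r s ^ e) * PowerSeries.X ^ d.degree :
      PowerSeries (kap k r)) := by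
  have h : ∀ s : Fin r, ∀ e : ℕ, av k r s ^ e =
      (PowerSeries.C (la k r s ^ e) : PowerSeries (kap k r)) * PowerSeries.X ^ e := by
    intro s e
    show (PowerSeries.C (la k r s) * PowerSeries.X : PowerSeries (kap k r)) ^ e = _
    rw [mul_pow, map_pow]
  rw [Finsupp.prod_congr (g2 := fun s e => (PowerSeries.C (la k r s ^ e) :
    PowerSeries (kap k r)) * PowerSeries.X ^ e) (fun s _ => h s _)]
  rw [Finsupp.prod, Finset.prod_mul_distrib, Finsupp.prod, map_prod, Finset.prod_pow_eq_pow_sum]
  rfl

lemma coeff_g (m : ℕ) (f : MvPowerSeries (Fin r) k) :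
    PowerSeries.coeff m (g k r f) = algebraMap (MvPolynomial (Fin r) k) (kap k r)
      (∑ d ∈ Finset.finsuppAntidiag Finset.univ m,
        MvPolynomial.monomial d (MvPowerSeries.coeff d f)) := by
  have h0 : g k r f = MvPowerSeries.subst (av k r) f := by
    rw [← MvPowerSeries.coe_substAlgHom (hav k r)]
    rfl
  rw [h0]
  show MvPowerSeries.coeff (Finsupp.single () m) _ = _
  rw [MvPowerSeries.coeff_subst (hav k r)]
  have h1 : ∀ d : Fin r →₀ ℕ, MvPowerSeries.coeff d f •
      (MvPowerSeries.coeff (Finsupp.single () m) (d.prod fun s e => av k r s ^ e)) =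
      if d.degree = m then algebraMap (MvPolynomial (Fin r) k) (kap k r)
        (MvPolynomial.monomial d (MvPowerSeries.coeff d f)) else 0 := by
    intro d
    rw [av_prod]
    show MvPowerSeries.coeff d f • PowerSeries.coeff m (PowerSeries.C _ * PowerSeries.X ^ d.degree)
      = _
    rw [PowerSeries.coeff_C_mul, PowerSeries.coeff_X_pow]
    split_ifs with h2 h3 h3
    · rw [MvPolynomial.monomial_eq, mul_one, map_mul, Algebra.smul_def,
        IsScalarTower.algebraMap_apply k (MvPolynomial (Fin r) k) (kap k r)]
      congr 1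
      rw [Finsupp.prod, Finsupp.prod, map_prod]
      simp only [map_pow]
      rfl
    · exact absurd h2.symm h3
    · exact absurd h3.symm h2
    · rw [mul_zero, smul_zero]
  rw [finsum_congr h1, finsum_eq_sum_of_support_subset (s := Finset.finsuppAntidiag Finset.univ m)]
  · rw [map_sum]
    refine Finset.sum_congr rfl fun d hd => ?_
    rw [if_pos]
    rw [Finset.mem_finsuppAntidiag] at hd
    rw [Finsupp.degree_eq_sum]
    exact hd.1
  · intro d hd
    rw [Function.mem_support] at hd
    have : d.degree = m := by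
      by_contra hne
      exact hd (if_neg hne)
    rw [Finset.mem_coe, Finset.mem_finsuppAntidiag]
    exact ⟨by rw [← Finsupp.degree_eq_sum]; exact this, Finset.subset_univ _⟩

lemma g_inj : Function.Injective (g k r) := by
  rw [injective_iff_map_eq_zero]
  intro f hf
  ext d
  have h := coeff_g k r d.degree f
  rw [hf] at h
  have h2 : (∑ d' ∈ Finset.finsuppAntidiag Finset.univ d.degree,
        MvPolynomial.monomial d' (MvPowerSeries.coeff d' f)) = 0 := by
    apply IsFractionRing.injective (MvPolynomial (Fin r) k) (kap k r)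
    rw [← h, map_zero, map_zero]
  have h3 := congrArg (MvPolynomial.coeff d) h2
  classical
  rw [MvPolynomial.coeff_sum, MvPolynomial.coeff_zero, Finset.sum_eq_single d] at h3
  · rw [MvPolynomial.coeff_monomial, if_pos rfl] at h3
    rw [h3, map_zero]
  · intro b _ hb
    rw [MvPolynomial.coeff_monomial, if_neg hb]
  · intro hd
    exfalso
    apply hd
    rw [Finset.mem_finsuppAntidiag]
    exact ⟨(Finsupp.degree_eq_sum d).symm, Finset.subset_univ _⟩

lemma g_X (i : Fin r) : g k r (MvPowerSeries.X i) = av k r i :=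
  MvPowerSeries.substAlgHom_X (hav k r) i

lemma g_monomial (e : Fin r →₀ ℕ) (c : k) : g k r (MvPowerSeries.monomial e c) =
    (PowerSeries.C (algebraMap k (kap k r) c) : PowerSeries (kap k r)) *
      (e.prod fun s n => av k r s ^ n) := by
  have h := MvPowerSeries.substAlgHom_monomial (hav k r) e c
  have h2 : (algebraMap k (MvPowerSeries Unit (kap k r)) c : MvPowerSeries Unit (kap k r)) =
      (PowerSeries.C (algebraMap k (kap k r) c) : PowerSeries (kap k r)) := by
    rw [MvPowerSeries.algebraMap_apply]
    rfl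
  rw [h2] at h
  exact h

lemma coeff_g_zero (N : ℕ) (f : MvPowerSeries (Fin r) k)
    (hf : ∀ e : Fin r →₀ ℕ, e.degree < N → MvPowerSeries.coeff e f = 0) :
    ∀ m, m < N → PowerSeries.coeff m (g k r f) = 0 := by
  intro m hm
  rw [coeff_g, Finset.sum_eq_zero, map_zero]
  intro d hd
  rw [Finset.mem_finsuppAntidiag] at hd
  rw [hf d, map_zero]
  rw [Finsupp.degree_eq_sum, hd.1]
  exact hm

end gen

section an

variable {K : Type} [NontriviallyNormedField K] {κ : Type} [Field κ] (j : PowerSeries κ →+* K)
  (hj : ∀ f : PowerSeries κ, f ≠ 0 → ‖j f‖ = (1 / 2 : ℝ) ^ f.order.toNat)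

include hj

lemma j_le (N : ℕ) (f : PowerSeries κ) (hf : ∀ m, m < N → PowerSeries.coeff m f = 0) :
    ‖j f‖ ≤ (1 / 2 : ℝ) ^ N := by
  by_cases h0 : f = 0
  · rw [h0, map_zero, norm_zero]
    positivity
  · rw [hj f h0]
    have h1 : (N : ℕ∞) ≤ f.order := PowerSeries.nat_le_order _ _ hf
    have h2 : N ≤ f.order.toNat := by
      have h3 : f.order ≠ ⊤ := by
        intro h
        exact h0 (PowerSeries.order_eq_top.1 h)
      rw [← ENat.coe_toNat h3] at h1
      exact_mod_cast h1
    exact pow_le_pow_of_le_one (by norm_num) (by norm_num) h2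

lemma j_inj : Function.Injective j := by
  rw [injective_iff_map_eq_zero]
  intro f hf
  by_contra h
  have h1 := hj f h
  rw [hf, norm_zero] at h1
  have : (0 : ℝ) < (1 / 2 : ℝ) ^ f.order.toNat := by positivity
  exact absurd h1 this.ne

end an

theorem main (hL : Spec3.LAUR) (hC : Spec3.CLOSC) : Spec3.EMBa := by
  intro p _ n r hn hr
  obtain ⟨K, iK, iKc, iKu, j, hj, hval⟩ := hL (kap (GaloisField p n) r)
  obtain ⟨C, iC, iCc, iCu, iCa, f, hf, hmin⟩ := hC K
  let ι : GaloisField p n →+* C :=
    (f.comp (j.comp (PowerSeries.C : kap (GaloisField p n) r →+* _))).comp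
      (algebraMap (GaloisField p n) (kap (GaloisField p n) r))
  let w : Fin r → C := fun i => f (j (av (GaloisField p n) r i))
  let x : MvPowerSeries (Fin r) (GaloisField p n) →+* C := (f.comp j).comp (g (GaloisField p n) r)
  have hchar : CharP C p := charP_of_injective_ringHom ι.injective p
  have hx : ∀ φ, x φ = f (j (g (GaloisField p n) r φ)) := fun _ => rfl
  have hι : ∀ c, ι c = f (j (PowerSeries.C (algebraMap (GaloisField p n)
    (kap (GaloisField p n) r) c))) := fun _ => rfl
  have hwn : ∀ i, ‖w i‖ = 1 / 2 := by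
    intro i
    show ‖f (j (av (GaloisField p n) r i))‖ = 1 / 2
    have h1 : (PowerSeries.C (la (GaloisField p n) r i) * PowerSeries.X :
        PowerSeries (kap (GaloisField p n) r)) ≠ 0 := by
      refine mul_ne_zero ?_ PowerSeries.X_ne_zero
      intro h
      have h2 : la (GaloisField p n) r i = 0 := by
        have := congrArg PowerSeries.constantCoeff h
        simpa using this
      have h3 : (MvPolynomial.X i : MvPolynomial (Fin r) (GaloisField p n)) = 0 := by
        apply IsFractionRing.injective (MvPolynomial (Fin r) (GaloisField p n))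
          (kap (GaloisField p n) r)
        rw [map_zero]
        exact h2
      exact MvPolynomial.X_ne_zero i h3
    have h4 := hj _ h1
    rw [hf]
    show ‖j (PowerSeries.C (la (GaloisField p n) r i) * PowerSeries.X)‖ = 1 / 2
    rw [h4]
    have h5 : (PowerSeries.C (la (GaloisField p n) r i) * PowerSeries.X :
        PowerSeries (kap (GaloisField p n) r)).order = 1 := by
      have h6 : la (GaloisField p n) r i ≠ 0 := by
        intro h
        apply h1
        rw [h, map_zero, zero_mul]
      rw [PowerSeries.order_mul, PowerSeries.order_X]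
      have : (PowerSeries.C (la (GaloisField p n) r i) :
          PowerSeries (kap (GaloisField p n) r)).order = 0 := by
        apply PowerSeries.order_eq_nat.2
        refine ⟨by simpa using h6, fun i hi => absurd hi (by omega)⟩
      rw [this, zero_add]
    rw [h5]
    norm_num
  have hmono : ∀ (e : Fin r →₀ ℕ) (c : GaloisField p n),
      x (MvPowerSeries.monomial e c) = ι c * ∏ i, w i ^ e i := by
    intro e c
    rw [hx, g_monomial, map_mul, map_mul, hι]
    congr 1
    rw [Finsupp.prod_fintype _ _ (fun i => pow_zero _), map_prod, map_prod]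
    exact Finset.prod_congr rfl fun i _ => by rw [map_pow, map_pow]
  have hxle : ∀ (N : ℕ) (φ : MvPowerSeries (Fin r) (GaloisField p n)),
      (∀ e : Fin r →₀ ℕ, e.degree < N → MvPowerSeries.coeff e φ = 0) →
      ‖x φ‖ ≤ (1 / 2 : ℝ) ^ N := by
    intro N φ hφ
    rw [hx, hf]
    exact j_le j hj N _ (coeff_g_zero _ _ N φ hφ)
  have hsum : ∀ φ : MvPowerSeries (Fin r) (GaloisField p n),
      HasSum (fun e : Fin r →₀ ℕ => MvPowerSeries.coeff e (MvPowerSeries.map ι φ) *
        ∏ i, w i ^ e i) (x φ) := by
    classical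
    intro φ
    rw [HasSum]
    simp only [SummationFilter.unconditional_filter]
    rw [Metric.tendsto_atTop]
    intro ε hε
    obtain ⟨N, hN⟩ := exists_pow_lt_of_lt_one hε (show (1 / 2 : ℝ) < 1 by norm_num)
    refine ⟨(Finset.range N).biUnion (fun m => Finset.finsuppAntidiag Finset.univ m),
      fun s hs => ?_⟩
    refine lt_of_le_of_lt ?_ hN
    rw [dist_comm, dist_eq_norm]
    have h1 : ∑ e ∈ s, MvPowerSeries.coeff e (MvPowerSeries.map ι φ) * ∏ i, w i ^ e i =
        x (∑ e ∈ s, MvPowerSeries.monomial e (MvPowerSeries.coeff e φ)) := by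
      rw [map_sum]
      refine Finset.sum_congr rfl fun e _ => ?_
      rw [hmono, MvPowerSeries.coeff_map]
    rw [h1, ← map_sub]
    refine hxle N _ fun e he => ?_
    have hes : e ∈ s := by
      apply hs
      rw [Finset.mem_biUnion]
      refine ⟨e.degree, Finset.mem_range.2 he, ?_⟩
      rw [Finset.mem_finsuppAntidiag]
      exact ⟨(Finsupp.degree_eq_sum e).symm, Finset.subset_univ _⟩
    rw [map_sub, map_sum, Finset.sum_eq_single e]
    · rw [MvPowerSeries.coeff_monomial_same, sub_self]
    · intro b _ hb
      exact MvPowerSeries.coeff_monomial_ne (Ne.symm hb) _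
    · intro h
      exact absurd hes h
  have hxinj : Function.Injective x := by
    intro a b hab
    exact g_inj _ _ (j_inj j hj (f.injective hab))
  refine ⟨C, iC, iCc, iCu, iCa, hchar, ι, w, x, ⟨fun i => ?_, fun φ => ?_⟩, hxinj,
    fun i i' => by rw [hwn, hwn], ?_⟩
  · rw [hwn]; norm_num
  · exact (hsum φ).tsum_eq.symm
  · intro Z hZ
    letI : Algebra K C := f.toAlgebra
    have hint : ∀ ζ ∈ (Z : Set C), IsIntegral K ζ := by
      intro ζ hζ
      obtain ⟨F, hF0, hF⟩ := hZ ζ hζ
      rw [← isAlgebraic_iff_isIntegral]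
      refine ⟨F.map (j.comp (g (GaloisField p n) r)), ?_, ?_⟩
      · rw [Ne, Polynomial.map_eq_zero_iff]
        · exact hF0
        · intro a b hab
          exact g_inj _ _ (j_inj j hj hab)
      · rw [Polynomial.aeval_def, Polynomial.eval₂_map]
        exact hF
    let L : IntermediateField K C := IntermediateField.adjoin K (Z : Set C)
    haveI : FiniteDimensional K L := by
      have : Finite (Z : Set C) := Z.finite_toSet
      exact IntermediateField.finiteDimensional_adjoin hint
    have hsub : Subfield.closure (Set.range x ∪ (Z : Set C)) ≤ L.toSubfield := by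
      rw [Subfield.closure_le]
      rintro y (⟨φ, rfl⟩ | hy)
      · exact L.algebraMap_mem (j (g (GaloisField p n) r φ))
      · exact IntermediateField.subset_adjoin K _ hy
    refine ⟨Module.finrank K L, 1 / 2, Module.finrank_pos, by norm_num, by norm_num,
      fun y hy hy0 => ?_⟩
    have hyL : y ∈ L := hsub hy
    have hyint : IsIntegral K (⟨y, hyL⟩ : L) := Algebra.IsIntegral.isIntegral _
    have hdvd : (minpoly K (⟨y, hyL⟩ : L)).natDegree ∣ Module.finrank K L :=
      minpoly.degree_dvd hyint
    have hev : (minpoly K (⟨y, hyL⟩ : L)).eval₂ f y = 0 := by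
      have h1 := minpoly.aeval K (⟨y, hyL⟩ : L)
      have h2 := congrArg (algebraMap L C) h1
      rw [map_zero, ← Polynomial.aeval_algebraMap_apply] at h2
      exact h2
    have h3 := hmin _ y (minpoly.monic hyint) (minpoly.irreducible hyint) hev
    have h4 : (minpoly K (⟨y, hyL⟩ : L)).coeff 0 ≠ 0 := by
      apply minpoly.coeff_zero_ne_zero hyint
      intro h
      exact hy0 (congrArg Subtype.val h)
    obtain ⟨a, ha⟩ := hval _ h4
    obtain ⟨b, hb⟩ := hdvd
    refine ⟨a * b, ?_⟩
    rw [hb, pow_mul, h3, ha, zpow_mul, zpow_natCast]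

end Crest.Agent.LT3EMBa
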