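/- rid 227 (S0351), module YY1 (helper25). -/
import Crest.Agent.LT3Spec3

set_option autoImplicit false
open Crest.LubinTate
open Crest Crest.GeometryTopology

namespace Crest.Agent.LT3YY1

open Crest.Agent.LT3

variable {C : Type} [NontriviallyNormedField C] [CompleteSpace C] [IsUltrametricDist C]

omit [CompleteSpace C] in
theorem norm_sub_le_max_aux (a b : C) : ‖a - b‖ ≤ max ‖a‖ ‖b‖ := by
  rw [sub_eq_add_neg]
  calc ‖a + -b‖ ≤ max ‖a‖ ‖-b‖ := IsUltrametricDist.norm_add_le_max _ _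
    _ = _ := by rw [norm_neg]

/-- `[p^M] y` has norm at most `‖y‖^{q^M}`. -/
theorem pow_bound (Gi : ApiG) {p h d : ℕ} {G : FormalGroup C} {w0 : C} {T : ℕ → Finset C}
    (ts : TSys p h d G w0 T) (M : ℕ) {y : C} (hy : ‖y‖ < 1) :
    ‖gmul G (p ^ M) y‖ ≤ ‖y‖ ^ (p ^ (h * M)) := by
  classical
  obtain ⟨u, hu, he⟩ := ts.prod M y hy
  have hun : ‖u‖ = 1 := by
    have h1 : ‖u‖ = ‖(1 : C)‖ := by
      by_contra hc
      have h2 := IsUltrametricDist.norm_add_eq_max_of_norm_ne_norm (x := u) (y := -1)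
        (by rw [norm_neg]; exact hc)
      rw [← sub_eq_add_neg, norm_neg, norm_one] at h2
      have : (1 : ℝ) ≤ ‖u - 1‖ := by rw [h2]; exact le_max_right _ _
      linarith
    rw [h1, norm_one]
  have h0 : (0 : C) ∈ T M := (ts.mem M 0).2 ⟨by simp, Gi.mul_zero ts.ig _⟩
  rw [he, norm_mul, hun, one_mul, norm_prod, ← Finset.mul_prod_erase _ _ h0, sub_zero, norm_pow]
  have hle : ∏ t ∈ (T M).erase 0, ‖(y - t) ^ (p ^ (h * M))‖ ≤ 1 := by
    apply Finset.prod_le_one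
    · intro t _; exact norm_nonneg _
    · intro t ht
      rw [norm_pow]
      apply pow_le_one₀ (norm_nonneg _)
      have h2 : ‖t‖ < 1 := ((ts.mem M t).1 (Finset.mem_of_mem_erase ht)).1
      calc ‖y - t‖ ≤ max ‖y‖ ‖t‖ := norm_sub_le_max_aux _ _
        _ ≤ 1 := max_le hy.le h2.le
  calc ‖y‖ ^ (p ^ (h * M)) * ∏ t ∈ (T M).erase 0, ‖(y - t) ^ (p ^ (h * M))‖
      ≤ ‖y‖ ^ (p ^ (h * M)) * 1 := by
        apply mul_le_mul_of_nonneg_left hle (by positivity)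
    _ = _ := mul_one _

/-- a homomorphism-like map commutes with multiplication by `m`. -/
theorem psi_gmul (Gi : ApiG) {G G' : FormalGroup C} (hG : IG G) (hG' : IG G') {ψ : C → C}
    (hn : ∀ z : C, ‖z‖ < 1 → ‖ψ z‖ = ‖z‖)
    (hh : ∀ z z' : C, ‖z‖ < 1 → ‖z'‖ < 1 → ψ (gadd G z z') = gadd G' (ψ z) (ψ z'))
    (m : ℕ) {z : C} (hz : ‖z‖ < 1) : ψ (gmul G m z) = gmul G' m (ψ z) := by
  have hz' : ‖ψ z‖ < 1 := by rw [hn z hz]; exact hz
  induction m with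
  | zero =>
    rw [Gi.zero_mul hG hz, Gi.zero_mul hG' hz']
    have := hn 0 (by simp)
    rw [norm_zero] at this
    exact norm_eq_zero.1 this
  | succ m ih =>
    have hm : ‖gmul G m z‖ < 1 := lt_of_le_of_lt (Gi.mul_norm_le hG m hz) hz
    rw [Gi.add_mul hG m 1 hz, Gi.add_mul hG' m 1 hz', Gi.one_mul hG hz, Gi.one_mul hG' hz',
      hh _ _ hm hz, ih]

/-- elements of a compatible sequence. -/
theorem seq_step (Gi : ApiG) {p h d : ℕ} {G : FormalGroup C} {w0 : C} {T : ℕ → Finset C}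
    (ts : TSys p h d G w0 T) {τ : ℕ → C} (hτ : IsSeq p G T τ) (M a : ℕ) :
    gmul G (p ^ a) (τ (M + a)) = τ M := by
  have hb : ∀ N, ‖τ N‖ < 1 := fun N => ((ts.mem N _).1 (hτ.mem N)).1
  induction a with
  | zero => rw [pow_zero, Nat.add_zero]; exact Gi.one_mul ts.ig (hb M)
  | succ a ih =>
    rw [pow_succ, Gi.mul_mul ts.ig _ _ (hb _)]
    have : gmul G p (τ (M + (a + 1))) = τ (M + a) := hτ.step (M + a)
    rw [this, ih]

theorem main (Gi : ApiG) (X : ApiX) : LT3.Spec3.YY1 := by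
  intro p _ n h d r C _ _ _ _ _ Γ F ι w x i0 ρ T σ S c V₀ hs K m ω w' x' ψ hm τ hτ M N hMN ε hε hw
  obtain ⟨a, rfl⟩ := Nat.exists_eq_add_of_le hMN
  have ts := hs.ts
  have hG : IG (F.map x) := ts.ig
  have hG' : IG (F.map x') := X.ig hm.isEv F hs.st.commF
  have hb : ∀ N, ‖τ N‖ < 1 := fun N => ((ts.mem N _).1 (hτ.mem N)).1
  have hy : ‖ψ (τ (M + a))‖ < 1 := by rw [hm.norm _ (hb _)]; exact hb _
  have h1 : ψ (τ M) = gmul (F.map x') (p ^ a) (ψ (τ (M + a))) := by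
    rw [← psi_gmul Gi hG hG' hm.norm hm.hom (p ^ a) (hb _), seq_step Gi ts hτ]
  have h2 : gmul (F.map x) (p ^ (M + a)) (ψ (τ (M + a))) =
      gmul (F.map x) (p ^ M) (gmul (F.map x) (p ^ a) (ψ (τ (M + a)))) := by
    rw [pow_add, Gi.mul_mul hG _ _ hy]
  have hu1 : ‖gmul (F.map x) (p ^ a) (ψ (τ (M + a)))‖ < 1 :=
    lt_of_le_of_lt (Gi.mul_norm_le hG _ hy) hy
  have hu2 : ‖gmul (F.map x') (p ^ a) (ψ (τ (M + a)))‖ < 1 :=
    lt_of_le_of_lt (Gi.mul_norm_le hG' _ hy) hy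
  rw [h1, h2]
  have hv1 : ‖gmul (F.map x) (p ^ M) (gmul (F.map x) (p ^ a) (ψ (τ (M + a))))‖ < 1 :=
    lt_of_le_of_lt (Gi.mul_norm_le hG _ hu1) hu1
  have hv2 : ‖gmul (F.map x) (p ^ M) (gmul (F.map x') (p ^ a) (ψ (τ (M + a))))‖ < 1 :=
    lt_of_le_of_lt (Gi.mul_norm_le hG _ hu2) hu2
  rw [← Gi.sub_norm hG hv1 hv2, ← Gi.mul_sub hG _ hu1 hu2]
  have hd : ‖gsub (F.map x) (gmul (F.map x) (p ^ a) (ψ (τ (M + a))))
      (gmul (F.map x') (p ^ a) (ψ (τ (M + a))))‖ ≤ ε := by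
    rw [Gi.sub_norm hG hu1 hu2, norm_sub_rev]
    exact X.mul_lip hs.isEv hm.isEv ε hε hw F hs.st.commF _ _ hy
  have hd1 : ‖gsub (F.map x) (gmul (F.map x) (p ^ a) (ψ (τ (M + a))))
      (gmul (F.map x') (p ^ a) (ψ (τ (M + a))))‖ < 1 := by
    rw [Gi.sub_norm hG hu1 hu2]
    exact lt_of_le_of_lt (norm_sub_le_max_aux _ _) (max_lt hu1 hu2)
  calc _ ≤ _ := pow_bound Gi ts M hd1
    _ ≤ ε ^ (p ^ (h * M)) := pow_le_pow_left₀ (norm_nonneg _) hd _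

end Crest.Agent.LT3YY1
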