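/- rid 227 (S0351): common lemmas on the derivative functional `ee` (used by YY2 and ETA), helper25. -/
import Crest.Agent.LT3Spec3
import Crest.Agent.LT3PTX
import Crest.Agent.LT3YY1

set_option autoImplicit false
set_option linter.unusedSectionVars false
open Crest.LubinTate
open Crest Crest.GeometryTopology

namespace Crest.Agent.LT3EE

open Crest.Agent.LT3

variable {C : Type} [NontriviallyNormedField C] [CompleteSpace C] [IsUltrametricDist C]

theorem sum_norm_le {ι : Type} (s : Finset ι) (f : ι → C) {r : ℝ} (hr : 0 ≤ r)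
    (h : ∀ i ∈ s, ‖f i‖ ≤ r) : ‖∑ i ∈ s, f i‖ ≤ r := by
  classical
  induction s using Finset.induction_on with
  | empty => simpa using hr
  | insert a s ha ih =>
    rw [Finset.sum_insert ha]
    refine (IsUltrametricDist.norm_add_le_max _ _).trans (max_le (h a (by simp)) (ih ?_))
    intro i hi; exact h i (by simp [hi])

theorem hasSum_norm_le {ι : Type} {f : ι → C} {a : C} (h : HasSum f a) {r : ℝ} (hr : 0 ≤ r)
    (hf : ∀ i, ‖f i‖ ≤ r) : ‖a‖ ≤ r := by
  have h1 : Filter.Tendsto (fun s : Finset ι => ‖∑ i ∈ s, f i‖) Filter.atTop (nhds ‖a‖) :=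
    (continuous_norm.tendsto a).comp h
  refine le_of_tendsto h1 (Filter.Eventually.of_forall fun s => ?_)
  exact sum_norm_le s f hr (fun i _ => hf i)

variable {k : Type} [Field k] [Finite k] {d : ℕ} {ι : k →+* C} {w w' : Fin d → C}
  {x x' : MvPowerSeries (Fin d) k →+* C}

/-- the series `Σ_l δ_l ∂_l [p]_F` over `C`. -/
noncomputable def gs (p : ℕ) (F : FormalGroup (MvPowerSeries (Fin d) k))
    (x : MvPowerSeries (Fin d) k →+* C) (δ : Fin d → C) : PowerSeries C :=
  PowerSeries.mk fun j =>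
    ∑ i, x (MvPowerSeries.pderiv k i (PowerSeries.coeff j (mulSeries F p))) * δ i

theorem int1_of_coeff {f : PowerSeries C} (h : ∀ j, ‖PowerSeries.coeff j f‖ ≤ 1) : Int1 f := by
  intro e
  obtain ⟨m, rfl⟩ : ∃ m : ℕ, e = Finsupp.single () m := ⟨e (), by ext; simp⟩
  exact h m

theorem int1_coeff {f : PowerSeries C} (h : Int1 f) (j : ℕ) : ‖PowerSeries.coeff j f‖ ≤ 1 :=
  h (Finsupp.single () j)

/-- one-variable partial series. -/
theorem int1_pd (X : ApiX) (hx : IsEv ι w x) (p : ℕ) (F : FormalGroup (MvPowerSeries (Fin d) k))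
    (i : Fin d) : Int1 (PowerSeries.mk fun j =>
      x (MvPowerSeries.pderiv k i (PowerSeries.coeff j (mulSeries F p))) : PowerSeries C) := by
  apply int1_of_coeff
  intro j
  rw [PowerSeries.coeff_mk]
  exact X.le_one hx _

theorem hasSum_ee (hE : ApiE) (X : ApiX) (hx : IsEv ι w x) (p : ℕ)
    (F : FormalGroup (MvPowerSeries (Fin d) k)) (δ : Fin d → C) {z : C} (hz : ‖z‖ < 1) :
    HasSum (fun j : ℕ => PowerSeries.coeff j (gs p F x δ) * z ^ j) (ee p F x z δ) := by
  unfold ee
  have h1 : ∀ i : Fin d, HasSum (fun j : ℕ =>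
      (x (MvPowerSeries.pderiv k i (PowerSeries.coeff j (mulSeries F p))) * z ^ j) * δ i)
      (ev (PowerSeries.mk fun j =>
        x (MvPowerSeries.pderiv k i (PowerSeries.coeff j (mulSeries F p)))) z * δ i) := by
    intro i
    have := (hE.hasSum_ev (int1_pd X hx p F i) hz).mul_right (δ i)
    simpa only [PowerSeries.coeff_mk] using this
  have h2 := hasSum_sum (s := (Finset.univ : Finset (Fin d))) (fun i _ => h1 i)
  refine h2.congr_fun ?_
  intro j
  rw [gs, PowerSeries.coeff_mk, Finset.sum_mul]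
  apply Finset.sum_congr rfl
  intro i _
  ring

theorem ee_eq_ev (hE : ApiE) (X : ApiX) (hx : IsEv ι w x) (p : ℕ)
    (F : FormalGroup (MvPowerSeries (Fin d) k)) (δ : Fin d → C) {z : C} (hz : ‖z‖ < 1) :
    ee p F x z δ = ev (gs p F x δ) z := ((hasSum_ee hE X hx p F δ hz).tsum_eq).symm

omit [CompleteSpace C] [IsUltrametricDist C] [Finite k] in
theorem ee_smul (p : ℕ) (F : FormalGroup (MvPowerSeries (Fin d) k)) (x : MvPowerSeries (Fin d) k →+* C)
    (z s : C) (δ : Fin d → C) : ee p F x z (fun i => s * δ i) = s * ee p F x z δ := by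
  unfold ee
  rw [Finset.mul_sum]
  apply Finset.sum_congr rfl
  intro i _
  ring

/-- Taylor expansion of `[p]` in the parameter. -/
theorem gmul_taylor (hE : ApiE) (hC : ApiC) (X : ApiX) (hx : IsEv ι w x) (hx' : IsEv ι w' x')
    (p : ℕ) (F : FormalGroup (MvPowerSeries (Fin d) k)) {ε : ℝ} (hε : 0 ≤ ε)
    (hw : ∀ i, ‖w' i - w i‖ ≤ ε) {z : C} (hz : ‖z‖ < 1) :
    ‖gmul (F.map x') p z - gmul (F.map x) p z - ee p F x z (fun i => w' i - w i)‖ ≤ ε ^ 2 := by
  have i1 : Int1 (PowerSeries.map x (mulSeries F p)) := by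
    apply int1_of_coeff; intro j; rw [PowerSeries.coeff_map]; exact X.le_one hx _
  have i2 : Int1 (PowerSeries.map x' (mulSeries F p)) := by
    apply int1_of_coeff; intro j; rw [PowerSeries.coeff_map]; exact X.le_one hx' _
  unfold gmul
  rw [← hC.mul_map x', ← hC.mul_map x]
  have h := ((hE.hasSum_ev i2 hz).sub (hE.hasSum_ev i1 hz)).sub
    (hasSum_ee hE X hx p F (fun i => w' i - w i) hz)
  refine hasSum_norm_le h (by positivity) ?_
  intro j
  rw [PowerSeries.coeff_map, PowerSeries.coeff_map, gs, PowerSeries.coeff_mk, ← sub_mul,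
    ← sub_mul, norm_mul, norm_pow]
  calc _ ≤ ε ^ 2 * 1 := by
        apply mul_le_mul (X.taylor hx hx' ε hε hw _) (pow_le_one₀ (norm_nonneg _) hz.le)
          (by positivity) (by positivity)
    _ = ε ^ 2 := mul_one _

/-- coefficients at exponents not divisible by `p^h` vanish. -/
theorem coeff_eq_zero {p : ℕ} [Fact p.Prime] {n h : ℕ} {Γ : FormalGroup (GaloisField p n)}
    {F : FormalGroup (MvPowerSeries (Fin d) (GaloisField p n))} (st : Strat p n h d Γ F) (j : ℕ)
    (hj : ¬ p ^ h ∣ j) : PowerSeries.coeff j (mulSeries F p) = 0 := by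
  have := st.c3 0 (Nat.zero_le _) j (by simpa using hj)
  unfold varIdeal at this
  have h0 : {f : MvPowerSeries (Fin d) (GaloisField p n) | ∃ l : Fin d, l.1 < 0 ∧
      f = MvPowerSeries.X l} = ∅ := by
    ext f; simp
  rw [h0, Ideal.span_empty] at this
  simpa using this

/-- a series with only exponents divisible by `q` is a series in `X^q`. -/
theorem eq_cmp {q : ℕ} (hq : q ≠ 0) (f : PowerSeries C)
    (hf : ∀ j, ¬ q ∣ j → PowerSeries.coeff j f = 0) :
    f = cmp (PowerSeries.mk fun j => PowerSeries.coeff (q * j) f)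
      (PowerSeries.X ^ q : PowerSeries C) := by
  ext j
  have h := PowerSeries.coeff_subst_X_pow (R := C) (S := C) hq
    (PowerSeries.mk fun j => PowerSeries.coeff (q * j) f) j
  have h' : PowerSeries.coeff j (cmp (PowerSeries.mk fun j => PowerSeries.coeff (q * j) f)
      (PowerSeries.X ^ q : PowerSeries C) : PowerSeries C) =
      if q ∣ j then PowerSeries.coeff (j / q) (PowerSeries.mk fun j => PowerSeries.coeff (q * j) f)
        else 0 := h
  rw [h']
  split_ifs with hj
  · rw [PowerSeries.coeff_mk, Nat.mul_div_cancel' hj]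
  · exact hf j hj

theorem ev_Xpow (hE : ApiE) (q : ℕ) (z : C) : ev (PowerSeries.X ^ q : PowerSeries C) z = z ^ q := by
  have := hE.ev_poly (Polynomial.X ^ q : Polynomial C) z
  rw [Polynomial.eval_pow, Polynomial.eval_X] at this
  rw [← this]
  congr 1
  simp

theorem ev_eq_ev_pow (hE : ApiE) {q : ℕ} (hq : q ≠ 0) (f : PowerSeries C) (hi : Int1 f)
    (hf : ∀ j, ¬ q ∣ j → PowerSeries.coeff j f = 0) {z : C} (hz : ‖z‖ < 1) :
    ev f z = ev (PowerSeries.mk fun j => PowerSeries.coeff (q * j) f) (z ^ q) := by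
  have i1 : Int1 (PowerSeries.mk fun j => PowerSeries.coeff (q * j) f : PowerSeries C) := by
    apply int1_of_coeff; intro j; rw [PowerSeries.coeff_mk]; exact int1_coeff hi _
  have i2 : Int1 (PowerSeries.X ^ q : PowerSeries C) := by
    apply int1_of_coeff; intro j; rw [PowerSeries.coeff_X_pow]; split_ifs <;> simp
  have hz2 : ZC (PowerSeries.X ^ q : PowerSeries C) := by
    show PowerSeries.constantCoeff (PowerSeries.X ^ q : PowerSeries C) = 0
    rw [map_pow, PowerSeries.constantCoeff_X, zero_pow hq]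
  conv_lhs => rw [eq_cmp hq f hf]
  rw [hE.ev_cmp i1 i2 hz2 hz, ev_Xpow hE]

/-- `e_z(δ)` is Lipschitz in `z^q`. -/
theorem ee_lip (hE : ApiE) (X : ApiX) {p : ℕ} [Fact p.Prime] [CharP C p] {n h : ℕ}
    {Γ : FormalGroup (GaloisField p n)}
    {F : FormalGroup (MvPowerSeries (Fin d) (GaloisField p n))} (st : Strat p n h d Γ F)
    {ι : GaloisField p n →+* C} {w : Fin d → C}
    {x : MvPowerSeries (Fin d) (GaloisField p n) →+* C} (hx : IsEv ι w x) (δ : Fin d → C)
    {M : ℝ} (hM : 0 ≤ M) (hδ : ∀ i, ‖δ i‖ ≤ M) {z z' : C} (hz : ‖z‖ < 1) (hz' : ‖z'‖ < 1) :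
    ‖ee p F x z δ - ee p F x z' δ‖ ≤ ‖z - z'‖ ^ (p ^ h) * M := by
  have hq : p ^ h ≠ 0 := pow_ne_zero _ (Fact.out (p := p.Prime)).ne_zero
  unfold ee
  rw [← Finset.sum_sub_distrib]
  apply sum_norm_le _ _ (by positivity)
  intro i _
  rw [← sub_mul, norm_mul]
  apply mul_le_mul _ (hδ i) (norm_nonneg _) (by positivity)
  set f : PowerSeries C := PowerSeries.mk fun j =>
    x (MvPowerSeries.pderiv (GaloisField p n) i (PowerSeries.coeff j (mulSeries F p))) with hf
  have hi : Int1 f := int1_pd X hx p F i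
  have hv : ∀ j, ¬ p ^ h ∣ j → PowerSeries.coeff j f = 0 := by
    intro j hj
    rw [hf, PowerSeries.coeff_mk, coeff_eq_zero st j hj, map_zero, map_zero]
  have i1 : Int1 (PowerSeries.mk fun j => PowerSeries.coeff (p ^ h * j) f : PowerSeries C) := by
    apply int1_of_coeff; intro j; rw [PowerSeries.coeff_mk]; exact int1_coeff hi _
  rw [ev_eq_ev_pow hE hq f hi hv hz, ev_eq_ev_pow hE hq f hi hv hz']
  have hp1 : ‖z ^ (p ^ h)‖ < 1 := by
    rw [norm_pow]; exact pow_lt_one₀ (norm_nonneg _) hz hq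
  have hp2 : ‖z' ^ (p ^ h)‖ < 1 := by
    rw [norm_pow]; exact pow_lt_one₀ (norm_nonneg _) hz' hq
  refine (hE.ev_lip i1 hp1 hp2).trans ?_
  have : z ^ (p ^ h) - z' ^ (p ^ h) = (z - z') ^ (p ^ h) := by
    have : ExpChar C p := ExpChar.prime Fact.out
    rw [sub_pow_expChar_pow]
  rw [this, norm_pow]

/-- the formal sum is Lipschitz in the parameter. -/
theorem gadd_lip (hE : ApiE) (X : ApiX) (hx : IsEv ι w x) (hx' : IsEv ι w' x')
    (F : FormalGroup (MvPowerSeries (Fin d) k)) {ε : ℝ} (hε : 0 ≤ ε)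
    (hw : ∀ i, ‖w' i - w i‖ ≤ ε) {z z' : C} (hz : ‖z‖ < 1) (hz' : ‖z'‖ < 1) :
    ‖gadd (F.map x') z z' - gadd (F.map x) z z'‖ ≤ ε := by
  have e1 : (F.map x).toPowerSeries = MvPowerSeries.map x F.toPowerSeries := rfl
  have e2 : (F.map x').toPowerSeries = MvPowerSeries.map x' F.toPowerSeries := rfl
  have i1 : Int1 (MvPowerSeries.map x F.toPowerSeries) := by
    intro e; rw [MvPowerSeries.coeff_map]; exact X.le_one hx _
  have i2 : Int1 (MvPowerSeries.map x' F.toPowerSeries) := by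
    intro e; rw [MvPowerSeries.coeff_map]; exact X.le_one hx' _
  have hb : ∀ i, ‖(![z, z'] : Fin 2 → C) i‖ < 1 := by
    intro i; fin_cases i
    · exact hz
    · exact hz'
  unfold gadd
  rw [e1, e2, ← hE.evm_sub i2 i1 hb]
  refine hE.evm_le ε hε (fun e => ?_) hb
  rw [map_sub, MvPowerSeries.coeff_map, MvPowerSeries.coeff_map]
  exact X.lip hx hx' ε hε hw _

end Crest.Agent.LT3EE
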