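/- rid 227 (S0351), module ETA: additivity and nondegeneracy of `e_t` (helper25). -/
import Crest.Agent.LT3EE

set_option autoImplicit false
open Crest.LubinTate
open Crest Crest.GeometryTopology

namespace Crest.Agent.LT3ETA

open Crest.Agent.LT3

variable {C : Type} [NontriviallyNormedField C] [CompleteSpace C] [IsUltrametricDist C]

omit [CompleteSpace C] [IsUltrametricDist C] in
theorem exists_bound {d : ℕ} (δ : Fin d → C) : ∃ B : ℝ, 1 ≤ B ∧ ∀ i, ‖δ i‖ ≤ B := by
  refine ⟨1 + ∑ i, ‖δ i‖, ?_, ?_⟩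
  · have : 0 ≤ ∑ i, ‖δ i‖ := Finset.sum_nonneg fun i _ => norm_nonneg _
    linarith
  · intro i
    have : ‖δ i‖ ≤ ∑ i, ‖δ i‖ :=
      Finset.single_le_sum (f := fun i => ‖δ i‖) (fun i _ => norm_nonneg _) (Finset.mem_univ i)
    linarith

theorem additive (hE : ApiE) (hC : ApiC) (Gi : ApiG) (X : ApiX)
    {p : ℕ} [Fact p.Prime] [CharP C p] {n h d : ℕ}
    {Γ : FormalGroup (GaloisField p n)}
    {F : FormalGroup (MvPowerSeries (Fin d) (GaloisField p n))} (st : Strat p n h d Γ F)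
    {ι : GaloisField p n →+* C} {w : Fin d → C}
    {x : MvPowerSeries (Fin d) (GaloisField p n) →+* C} (hx : IsEv ι w x) {w0 : C}
    {T : ℕ → Finset C} (ts : TSys p h d (F.map x) w0 T) (δ : Fin d → C) {t t' : C}
    (ht : t ∈ T 1) (ht' : t' ∈ T 1) :
    ee p F x (gadd (F.map x) t t') δ = ee p F x t δ + ee p F x t' δ := by
  have hG : IG (F.map x) := ts.ig
  obtain ⟨hb, hz⟩ := (ts.mem 1 t).1 ht
  obtain ⟨hb', hz'⟩ := (ts.mem 1 t').1 ht'
  rw [pow_one] at hz hz'
  have hp2 : 2 ≤ p := (Fact.out (p := p.Prime)).two_le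
  have hh := st.hh
  have hq2 : 2 ≤ p ^ h := le_trans hp2 (Nat.le_self_pow (by omega) p)
  obtain ⟨B, hB1, hB⟩ := exists_bound δ
  have hB0 : 0 < B := by linarith
  set u : C := gadd (F.map x) t t' with hu
  have hub : ‖u‖ < 1 := Gi.add_ball hG hb hb'
  have huz : gmul (F.map x) p u = 0 := by
    rw [hu, Gi.mul_add hG p hb hb', hz, hz', Gi.zero_add hG (by simp)]
  -- the key estimate
  have key : ∀ s : C, s ≠ 0 → ‖s‖ * B < 1 →
      ‖ee p F x u δ - (ee p F x t δ + ee p F x t' δ)‖ ≤ ‖s‖ * B ^ 2 := by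
    intro s hs0 hsB
    set ε : ℝ := ‖s‖ * B with hε
    have hε0 : 0 ≤ ε := by positivity
    set w' : Fin d → C := fun i => w i + s * δ i with hw'
    have hsδ : ∀ i, ‖s * δ i‖ ≤ ε := by
      intro i; rw [norm_mul]; exact mul_le_mul_of_nonneg_left (hB i) (norm_nonneg _)
    have hw'1 : ∀ i, ‖w' i‖ < 1 := by
      intro i
      exact lt_of_le_of_lt (IsUltrametricDist.norm_add_le_max _ _)
        (max_lt (hx.hw i) (lt_of_le_of_lt (hsδ i) hsB))
    have hdw : ∀ i, w' i - w i = s * δ i := by intro i; simp [hw']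
    have hdw' : (fun i => w' i - w i) = fun i => s * δ i := funext hdw
    have hwε : ∀ i, ‖w' i - w i‖ ≤ ε := by intro i; rw [hdw]; exact hsδ i
    let x' := LT3PTX.evHom hE ι w' hw'1
    have hx' : IsEv ι w' x' := LT3PTX.evHom_isEv hE ι w' hw'1
    have hG' : IG (F.map x') := X.ig hx' F st.commF
    set u' : C := gadd (F.map x') t t' with hu'
    have hub' : ‖u'‖ < 1 := Gi.add_ball hG' hb hb'
    have huu : ‖u' - u‖ ≤ ε := LT3EE.gadd_lip hE X hx hx' F hε0 hwε hb hb'
    -- expansions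
    have a1 := LT3EE.gmul_taylor hE hC X hx hx' p F hε0 hwε hb
    have a2 := LT3EE.gmul_taylor hE hC X hx hx' p F hε0 hwε hb'
    have a3 := LT3EE.gmul_taylor hE hC X hx hx' p F hε0 hwε hub'
    rw [hz, hdw', LT3EE.ee_smul] at a1
    rw [hz', hdw', LT3EE.ee_smul] at a2
    rw [hdw', LT3EE.ee_smul] at a3
    have b1 : ‖gmul (F.map x') p t‖ ≤ ε := by
      have := X.mul_lip hx hx' ε hε0 hwε F st.commF p t hb
      rwa [hz, sub_zero] at this
    have b2 : ‖gmul (F.map x') p t'‖ ≤ ε := by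
      have := X.mul_lip hx hx' ε hε0 hwε F st.commF p t' hb'
      rwa [hz', sub_zero] at this
    have c1 : ‖gmul (F.map x') p u' - (gmul (F.map x') p t + gmul (F.map x') p t')‖ ≤ ε ^ 2 := by
      rw [hu', Gi.mul_add hG' p hb hb']
      refine (Gi.add_approx hG' (lt_of_le_of_lt b1 hsB) (lt_of_le_of_lt b2 hsB)).trans ?_
      rw [pow_two]
      exact mul_le_mul b1 b2 (norm_nonneg _) hε0
    have hpow : ‖u' - u‖ ^ (p ^ h) ≤ ε ^ 2 := by
      calc ‖u' - u‖ ^ (p ^ h) ≤ ε ^ (p ^ h) := pow_le_pow_left₀ (norm_nonneg _) huu _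
        _ ≤ ε ^ 2 := pow_le_pow_of_le_one hε0 hsB.le hq2
    have c2 : ‖gmul (F.map x) p u'‖ ≤ ε ^ 2 := by
      have hsub : ‖gsub (F.map x) u' u‖ = ‖u' - u‖ := Gi.sub_norm hG hub' hub
      have hsublt : ‖gsub (F.map x) u' u‖ < 1 := by
        rw [hsub]; exact lt_of_le_of_lt huu hsB
      have e1 := LT3YY1.pow_bound Gi ts 1 hsublt
      rw [pow_one, mul_one, Gi.mul_sub hG p hub' hub, huz, hsub] at e1
      have hbz : ‖gmul (F.map x) p u'‖ < 1 := lt_of_le_of_lt (Gi.mul_norm_le hG p hub') hub'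
      rw [Gi.sub_norm hG hbz (by simp), sub_zero] at e1
      exact e1.trans hpow
    have c3 : ‖s * ee p F x u' δ - s * ee p F x u δ‖ ≤ ε ^ 2 := by
      have := LT3EE.ee_lip hE X st hx (fun i => s * δ i) hε0 hsδ hub' hub
      rw [LT3EE.ee_smul, LT3EE.ee_smul] at this
      refine this.trans ?_
      calc ‖u' - u‖ ^ (p ^ h) * ε ≤ ε ^ 2 * 1 :=
            mul_le_mul hpow hsB.le hε0 (by positivity)
        _ = ε ^ 2 := mul_one _
    have hfin : ‖s * (ee p F x u δ - (ee p F x t δ + ee p F x t' δ))‖ ≤ ε ^ 2 := by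
      have e : s * (ee p F x u δ - (ee p F x t δ + ee p F x t' δ)) =
          -(s * ee p F x u' δ - s * ee p F x u δ) +
          (-(gmul (F.map x') p u' - gmul (F.map x) p u' - s * ee p F x u' δ) +
          (-(gmul (F.map x) p u') +
          ((gmul (F.map x') p u' - (gmul (F.map x') p t + gmul (F.map x') p t')) +
          ((gmul (F.map x') p t - 0 - s * ee p F x t δ) +
           (gmul (F.map x') p t' - 0 - s * ee p F x t' δ))))) := by ring
      rw [e]
      refine (IsUltrametricDist.norm_add_le_max _ _).trans (max_le (by rw [norm_neg]; exact c3) ?_)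
      refine (IsUltrametricDist.norm_add_le_max _ _).trans (max_le (by rw [norm_neg]; exact a3) ?_)
      refine (IsUltrametricDist.norm_add_le_max _ _).trans (max_le (by rw [norm_neg]; exact c2) ?_)
      refine (IsUltrametricDist.norm_add_le_max _ _).trans (max_le c1 ?_)
      exact (IsUltrametricDist.norm_add_le_max _ _).trans (max_le a1 a2)
    rw [norm_mul] at hfin
    have hs1 : 0 < ‖s‖ := norm_pos_iff.2 hs0
    have : ‖s‖ * ‖ee p F x u δ - (ee p F x t δ + ee p F x t' δ)‖ ≤ ‖s‖ * (‖s‖ * B ^ 2) := by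
      refine hfin.trans (le_of_eq ?_)
      rw [hε]; ring
    exact le_of_mul_le_mul_left this hs1
  -- conclude
  by_contra hne
  have hpos : 0 < ‖ee p F x u δ - (ee p F x t δ + ee p F x t' δ)‖ :=
    norm_pos_iff.2 (sub_ne_zero.2 hne)
  set E0 := ‖ee p F x u δ - (ee p F x t δ + ee p F x t' δ)‖ with hE0
  obtain ⟨s, hs1, hs2⟩ := NormedField.exists_norm_lt C
    (r := min (1 / B) (E0 / B ^ 2)) (by positivity)
  have hs0 : s ≠ 0 := norm_pos_iff.1 hs1
  have h1 : ‖s‖ * B < 1 := by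
    have := lt_of_lt_of_le hs2 (min_le_left _ _)
    rwa [lt_div_iff₀ hB0] at this
  have h2 : ‖s‖ * B ^ 2 < E0 := by
    have := lt_of_lt_of_le hs2 (min_le_right _ _)
    rwa [lt_div_iff₀ (by positivity)] at this
  have := key s hs0 h1
  linarith

theorem nondeg (hE : ApiE) (_Gi : ApiG) (X : ApiX) (hS : LT3.Spec2.STRASS)
    {p : ℕ} [Fact p.Prime] [CharP C p] {n h d : ℕ}
    {Γ : FormalGroup (GaloisField p n)}
    {F : FormalGroup (MvPowerSeries (Fin d) (GaloisField p n))} (st : Strat p n h d Γ F)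
    {ι : GaloisField p n →+* C} {w : Fin d → C}
    {x : MvPowerSeries (Fin d) (GaloisField p n) →+* C} (hx : IsEv ι w x) {w0 : C}
    {T : ℕ → Finset C} (ts : TSys p h d (F.map x) w0 T) (δ : Fin d → C) (hδ : δ ≠ 0) :
    ∃ t ∈ T 1, ee p F x t δ ≠ 0 := by
  classical
  by_contra hcon
  push Not at hcon
  have hp : p.Prime := Fact.out
  have hq : p ^ h ≠ 0 := pow_ne_zero _ hp.ne_zero
  have : Nonempty (Fin d) := ⟨⟨0, st.hd⟩⟩
  obtain ⟨l0, hl0⟩ := Finite.exists_max (fun i => ‖δ i‖)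
  have hl0ne : δ l0 ≠ 0 := by
    intro h0
    apply hδ
    funext i
    have := hl0 i
    rw [h0, norm_zero] at this
    exact norm_le_zero_iff.1 this
  have hl0p : 0 < ‖δ l0‖ := norm_pos_iff.2 hl0ne
  set δ' : Fin d → C := fun i => (δ l0)⁻¹ * δ i with hδ'
  have hδ'1 : ∀ i, ‖δ' i‖ ≤ 1 := by
    intro i
    rw [hδ']
    simp only [norm_mul, norm_inv]
    rw [inv_mul_le_iff₀ hl0p, mul_one]
    exact hl0 i
  have hδ'l : δ' l0 = 1 := by rw [hδ']; exact inv_mul_cancel₀ hl0ne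
  -- the series
  set g : PowerSeries C := LT3EE.gs p F x δ' with hg
  have hgi : Int1 g := by
    apply LT3EE.int1_of_coeff
    intro j
    rw [hg, LT3EE.gs, PowerSeries.coeff_mk]
    apply LT3EE.sum_norm_le _ _ zero_le_one
    intro i _
    rw [norm_mul]
    exact mul_le_one₀ (X.le_one hx _) (norm_nonneg _) (hδ'1 i)
  have hgv : ∀ j, ¬ p ^ h ∣ j → PowerSeries.coeff j g = 0 := by
    intro j hj
    rw [hg, LT3EE.gs, PowerSeries.coeff_mk]
    apply Finset.sum_eq_zero
    intro i _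
    rw [LT3EE.coeff_eq_zero st j hj, map_zero, map_zero, zero_mul]
  set gt : PowerSeries C := PowerSeries.mk fun j => PowerSeries.coeff (p ^ h * j) g with hgt
  have hgti : Int1 gt := by
    apply LT3EE.int1_of_coeff; intro j; rw [hgt, PowerSeries.coeff_mk]
    exact LT3EE.int1_coeff hgi _
  have hlead : PowerSeries.coeff (p ^ l0.1) gt = 1 := by
    rw [hgt, PowerSeries.coeff_mk, hg, LT3EE.gs, PowerSeries.coeff_mk, ← pow_add, st.c2 l0]
    rw [Finset.sum_eq_single l0]
    · rw [MvPowerSeries.pderiv_X_self, map_one, one_mul, hδ'l]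
    · intro i _ hi
      rw [MvPowerSeries.pderiv_X_of_ne (Ne.symm hi), map_zero, zero_mul]
    · intro h; exact absurd (Finset.mem_univ _) h
  have hinj : Function.Injective (fun t : C => t ^ (p ^ h)) := by
    intro a b hab
    have hab' : a ^ (p ^ h) = b ^ (p ^ h) := hab
    have : ExpChar C p := ExpChar.prime Fact.out
    have h1 : (a - b) ^ (p ^ h) = 0 := by rw [sub_pow_expChar_pow, hab', sub_self]
    exact sub_eq_zero.1 (pow_eq_zero_iff hq |>.1 h1)
  have hcard := hS C gt (p ^ l0.1) hgti (by rw [hlead, norm_one])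
    ((T 1).image (fun t => t ^ (p ^ h))) (by
      intro z hz
      obtain ⟨t, ht, rfl⟩ := Finset.mem_image.1 hz
      have hb := ((ts.mem 1 t).1 ht).1
      refine ⟨by rw [norm_pow]; exact pow_lt_one₀ (norm_nonneg _) hb hq, ?_⟩
      rw [← LT3EE.ev_eq_ev_pow hE hq g hgi hgv hb, hg, ← LT3EE.ee_eq_ev hE X hx p F δ' hb, hδ',
        LT3EE.ee_smul, hcon t ht, mul_zero])
  rw [Finset.card_image_of_injective _ hinj, ts.card 1, mul_one] at hcard
  have : p ^ l0.1 < p ^ d := Nat.pow_lt_pow_right hp.one_lt l0.2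
  omega

theorem main (hE : ApiE) (hC : ApiC) (Gi : ApiG) (X : ApiX) (hS : LT3.Spec2.STRASS) :
    LT3.Spec3.ETA := by
  intro p _ n h d Γ F st C _ _ _ _ _ ι w x hx w0 T ts
  refine ⟨?_, ?_⟩
  · intro δ t ht t' ht'
    exact additive hE hC Gi X st hx ts δ ht ht'
  · intro δ hδ
    exact nondeg hE Gi X hS st hx ts δ hδ

end Crest.Agent.LT3ETA
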