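import Crest.Agent.LT3Spec2

set_option autoImplicit false
open Crest.LubinTate
open Crest Crest.GeometryTopology

namespace Crest.Agent.LT3EVALa

open LT3 Filter Topology

section
variable {C : Type} [NontriviallyNormedField C] [CompleteSpace C] [IsUltrametricDist C]
variable {σ : Type} [Fintype σ]

omit [CompleteSpace C] in
theorem nonarchRing : NonarchimedeanRing C :=
  { is_nonarchimedean := NonarchimedeanAddGroup.is_nonarchimedean }

omit [CompleteSpace C] [IsUltrametricDist C] in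
theorem exists_rho {z : σ → C} (hz : ∀ i, ‖z i‖ < 1) : ∃ ρ : ℝ, 0 ≤ ρ ∧ ρ < 1 ∧ ∀ i, ‖z i‖ ≤ ρ := by
  rcases isEmpty_or_nonempty σ with h | h
  · exact ⟨0, le_rfl, one_pos, fun i => (h.false i).elim⟩
  · obtain ⟨i0, hi0⟩ := Finite.exists_max (fun i => ‖z i‖)
    exact ⟨‖z i0‖, norm_nonneg _, hz i0, hi0⟩

omit [CompleteSpace C] [IsUltrametricDist C] in
theorem norm_mono_le {z : σ → C} {ρ : ℝ} (hρ : ∀ i, ‖z i‖ ≤ ρ) (e : σ →₀ ℕ) :
    ‖∏ i, z i ^ e i‖ ≤ ρ ^ (∑ i, e i) := by
  rw [norm_prod, ← Finset.prod_pow_eq_pow_sum]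
  apply Finset.prod_le_prod
  · intro i _; exact norm_nonneg _
  · intro i _
    rw [norm_pow]
    exact pow_le_pow_left₀ (norm_nonneg _) (hρ i) _

theorem finite_deg (N : ℕ) : {e : σ →₀ ℕ | ∑ i, e i ≤ N}.Finite := by
  classical
  refine (Set.finite_Iic (Finsupp.equivFunOnFinite.symm (fun _ : σ => N))).subset ?_
  intro e he
  simp only [Set.mem_ofPred_eq] at he
  intro i
  have : e i ≤ ∑ i, e i := Finset.single_le_sum (f := fun i => e i) (fun i _ => Nat.zero_le _) (Finset.mem_univ i)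
  simpa using this.trans he

omit [CompleteSpace C] [IsUltrametricDist C] in
theorem norm_term_le {f : MvPowerSeries σ C} {z : σ → C} {ρ : ℝ} (hf : Int1 f)
    (hρ : ∀ i, ‖z i‖ ≤ ρ) (e : σ →₀ ℕ) :
    ‖MvPowerSeries.coeff e f * ∏ i, z i ^ e i‖ ≤ ρ ^ (∑ i, e i) := by
  rw [norm_mul]
  calc _ ≤ 1 * ‖∏ i, z i ^ e i‖ := by gcongr; exact hf e
    _ ≤ _ := by rw [one_mul]; exact norm_mono_le hρ e

theorem summable_evm {f : MvPowerSeries σ C} {z : σ → C} (hf : Int1 f) (hz : ∀ i, ‖z i‖ < 1) :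
    Summable (fun e : σ →₀ ℕ => MvPowerSeries.coeff e f * ∏ i, z i ^ e i) := by
  apply NonarchimedeanAddGroup.summable_of_tendsto_cofinite_zero
  obtain ⟨ρ, h0, h1, hρ⟩ := exists_rho hz
  rw [Metric.tendsto_nhds]
  intro ε hε
  obtain ⟨N, hN⟩ := exists_pow_lt_of_lt_one hε h1
  refine (finite_deg (σ := σ) N).subset ?_
  intro e he
  simp only [Set.mem_compl_iff, Set.mem_ofPred_eq, dist_zero_right, not_lt] at he ⊢
  by_contra hcon
  push Not at hcon
  have := norm_term_le hf hρ e
  have h2 : ρ ^ (∑ i, e i) ≤ ρ ^ N := pow_le_pow_of_le_one h0 h1.le hcon.le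
  linarith

theorem evm_add {f g : MvPowerSeries σ C} {z : σ → C} (hf : Int1 f) (hg : Int1 g)
    (hz : ∀ i, ‖z i‖ < 1) : evm (f + g) z = evm f z + evm g z := by
  unfold evm
  rw [← (summable_evm hf hz).tsum_add (summable_evm hg hz)]
  congr 1; ext e
  rw [map_add, add_mul]

theorem evm_sub {f g : MvPowerSeries σ C} {z : σ → C} (hf : Int1 f) (hg : Int1 g)
    (hz : ∀ i, ‖z i‖ < 1) : evm (f - g) z = evm f z - evm g z := by
  unfold evm
  rw [← (summable_evm hf hz).tsum_sub (summable_evm hg hz)]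
  congr 1; ext e
  rw [map_sub, sub_mul]

theorem cauchy_aux {A : Type} [AddCommMonoid A] [Finset.HasAntidiagonal A] {F G : A → C}
    (hF : Summable F) (hG : Summable G) :
    (∑' n, F n) * ∑' n, G n = ∑' n, ∑ kl ∈ Finset.HasAntidiagonal.antidiagonal n, F kl.1 * G kl.2 := by
  have := nonarchRing (C := C)
  have hs : Summable (fun x : A × A => F x.1 * G x.2) := hF.mul_of_nonarchimedean hG
  exact hF.tsum_mul_tsum_eq_tsum_sum_antidiagonal hG hs

theorem evm_mul {f g : MvPowerSeries σ C} {z : σ → C} (hf : Int1 f) (hg : Int1 g)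
    (hz : ∀ i, ‖z i‖ < 1) : evm (f * g) z = evm f z * evm g z := by
  classical
  unfold evm
  rw [cauchy_aux (summable_evm hf hz) (summable_evm hg hz)]
  congr 1; ext e
  rw [MvPowerSeries.coeff_mul, Finset.sum_mul]
  apply Finset.sum_congr rfl
  intro x hx
  rw [Finset.HasAntidiagonal.mem_antidiagonal] at hx
  have : (∏ i, z i ^ e i) = (∏ i, z i ^ x.1 i) * ∏ i, z i ^ x.2 i := by
    rw [← Finset.prod_mul_distrib]
    apply Finset.prod_congr rfl
    intro i _
    rw [← pow_add, ← hx]; rfl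
  rw [this]; ring

omit [IsUltrametricDist C] [CompleteSpace C] in
theorem ev_eq (f : PowerSeries C) (z : C) : evm f (fun _ : Unit => z) = ev f z := by
  unfold evm ev
  let e : ℕ ≃ (Unit →₀ ℕ) :=
    { toFun := fun n => Finsupp.single () n
      invFun := fun f => f ()
      left_inv := fun n => by simp
      right_inv := fun f => by ext; simp }
  rw [← e.tsum_eq]
  congr 1; ext j
  simp [e, PowerSeries.coeff]

omit [IsUltrametricDist C] [CompleteSpace C] in
theorem evm_C (c : C) (z : σ → C) : evm (MvPowerSeries.C c) z = c := by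
  classical
  unfold evm
  rw [tsum_eq_single 0]
  · simp
  · intro e he
    rw [MvPowerSeries.coeff_C_of_ne_zero he, zero_mul]

omit [IsUltrametricDist C] [CompleteSpace C] in
theorem evm_X (i : σ) (z : σ → C) : evm (MvPowerSeries.X i) z = z i := by
  classical
  unfold evm
  rw [tsum_eq_single (Finsupp.single i 1)]
  · rw [MvPowerSeries.coeff_index_single_self_X, one_mul, Finset.prod_eq_single i]
    · simp
    · intro j _ hj
      rw [Finsupp.single_eq_of_ne hj, pow_zero]
    · simp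
  · intro e he
    rw [MvPowerSeries.coeff_X, if_neg he, zero_mul]

theorem evm_le {f : MvPowerSeries σ C} {z : σ → C} (ρ : ℝ) (h0 : 0 ≤ ρ)
    (hf : ∀ e, ‖MvPowerSeries.coeff e f‖ ≤ ρ) (hz : ∀ i, ‖z i‖ < 1) : ‖evm f z‖ ≤ ρ := by
  unfold evm
  apply IsUltrametricDist.norm_tsum_le_of_forall_le_of_nonneg h0
  intro e
  rw [norm_mul]
  have h1 : ‖∏ i, z i ^ e i‖ ≤ 1 := by
    refine (norm_mono_le (ρ := 1) (fun i => (hz i).le) e).trans ?_
    rw [one_pow]
  calc _ ≤ ρ * 1 := by gcongr; exact hf e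
    _ = ρ := mul_one _

theorem evm_le_of_zc {f : MvPowerSeries σ C} {z : σ → C} (ρ : ℝ) (h0 : 0 ≤ ρ) (h1 : ρ < 1)
    (hf : Int1 f) (hc : ZC f) (hz : ∀ i, ‖z i‖ ≤ ρ) : ‖evm f z‖ ≤ ρ := by
  unfold evm
  apply IsUltrametricDist.norm_tsum_le_of_forall_le_of_nonneg h0
  intro e
  by_cases he : e = 0
  · subst he
    have : MvPowerSeries.coeff 0 f = 0 := hc
    rw [this, zero_mul, norm_zero]; exact h0
  · refine (norm_term_le hf hz e).trans ?_
    have hpos : 1 ≤ ∑ i, e i := by
      rw [Nat.one_le_iff_ne_zero]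
      intro h
      apply he
      ext i
      have := (Finset.sum_eq_zero_iff.1 h) i (Finset.mem_univ i)
      simpa using this
    calc ρ ^ (∑ i, e i) ≤ ρ ^ 1 := pow_le_pow_of_le_one h0 h1.le hpos
      _ = ρ := pow_one _

end

theorem main : ApiE1 where
  hasSum_evm := fun hf hz => (summable_evm hf hz).hasSum
  hasSum_ev := by
    intro C _ _ _ f z hf hz
    have h := summable_evm (σ := Unit) hf (z := fun _ => z) (fun _ => hz)
    let e : ℕ ≃ (Unit →₀ ℕ) :=
      { toFun := fun n => Finsupp.single () n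
        invFun := fun f => f ()
        left_inv := fun n => by simp
        right_inv := fun f => by ext; simp }
    have h2 := e.summable_iff.2 h
    have h3 : ((fun e : Unit →₀ ℕ => MvPowerSeries.coeff e f * ∏ i, (fun _ : Unit => z) i ^ e i) ∘ e)
        = fun j : ℕ => PowerSeries.coeff j f * z ^ j := by
      ext j
      simp [e, PowerSeries.coeff]
    rw [h3] at h2
    exact h2.hasSum
  ev_eq := fun f z => ev_eq f z
  evm_add := fun hf hg hz => evm_add hf hg hz
  evm_sub := fun hf hg hz => evm_sub hf hg hz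
  evm_mul := fun hf hg hz => evm_mul hf hg hz
  ev_add := by
    intro C _ _ _ f g z hf hg hz
    rw [← ev_eq, ← ev_eq, ← ev_eq]
    exact evm_add (σ := Unit) hf hg (fun _ => hz)
  ev_mul := by
    intro C _ _ _ f g z hf hg hz
    rw [← ev_eq, ← ev_eq, ← ev_eq]
    exact evm_mul (σ := Unit) hf hg (fun _ => hz)
  evm_C := fun c z => evm_C c z
  evm_X := fun i z => evm_X i z
  ev_C := by
    intro C _ _ _ c z
    rw [← ev_eq]
    exact evm_C (σ := Unit) c _
  ev_X := by
    intro C _ _ _ z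
    rw [← ev_eq]
    exact evm_X (σ := Unit) () (fun _ => z)
  ev_poly := by
    intro C _ _ _ f z
    unfold ev
    rw [tsum_eq_sum (s := Finset.range (f.natDegree + 1)), Polynomial.eval_eq_sum_range]
    · simp
    · intro j hj
      rw [Finset.mem_range, not_lt] at hj
      rw [Polynomial.coeff_coe, Polynomial.coeff_eq_zero_of_natDegree_lt (by omega), zero_mul]
  evm_le_one := fun hf hz => evm_le 1 zero_le_one hf hz
  evm_le := fun ρ h0 hf hz => evm_le ρ h0 hf hz
  evm_le_of_zc := fun ρ h0 h1 hf hc hz => evm_le_of_zc ρ h0 h1 hf hc hz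
  ev_le_of_zc := by
    intro C _ _ _ f z hf hc hz
    rw [← ev_eq]
    exact evm_le_of_zc (σ := Unit) ‖z‖ (norm_nonneg _) hz hf hc (fun _ => le_rfl)
  int_add := by
    intro C _ _ _ σ f g hf hg e
    rw [map_add]
    exact (IsUltrametricDist.norm_add_le_max _ _).trans (max_le (hf e) (hg e))
  int_neg := by
    intro C _ _ _ σ f hf e
    rw [map_neg, norm_neg]; exact hf e
  int_mul := by
    classical
    intro C _ _ _ σ f g hf hg e
    rw [MvPowerSeries.coeff_mul]
    apply IsUltrametricDist.norm_sum_le_of_forall_le_of_nonneg zero_le_one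
    intro x _
    rw [norm_mul]
    exact mul_le_one₀ (hf _) (norm_nonneg _) (hg _)
  int_X := by
    classical
    intro C _ _ _ σ i e
    rw [MvPowerSeries.coeff_X]
    split_ifs
    · simp
    · simp

end Crest.Agent.LT3EVALa
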