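/- rid 227 (S0351), module EVALb: evaluation of power series and substitution (helper22). -/
import Crest.Agent.LT3Spec2

set_option autoImplicit false
open Crest.LubinTate
open Crest Crest.GeometryTopology

namespace Crest.Agent.LT3EVALb

open Crest.Agent.LT3

section

variable {C : Type} [NontriviallyNormedField C] [CompleteSpace C] [IsUltrametricDist C]

omit [CompleteSpace C] [IsUltrametricDist C] in
theorem int1_one {σ : Type} : Int1 (1 : MvPowerSeries σ C) := by
  classical
  intro e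
  rw [MvPowerSeries.coeff_one]
  split_ifs <;> simp

theorem int1_pow (A : ApiE1) {σ : Type} {f : MvPowerSeries σ C} (hf : Int1 f) (n : ℕ) :
    Int1 (f ^ n) := by
  induction n with
  | zero => rw [pow_zero]; exact int1_one
  | succ n ih => rw [pow_succ]; exact A.int_mul ih hf

theorem int1_prod (A : ApiE1) {σ ι : Type} (s : Finset ι) (f : ι → MvPowerSeries σ C)
    (hf : ∀ i ∈ s, Int1 (f i)) : Int1 (∏ i ∈ s, f i) := by
  classical
  induction s using Finset.induction_on with
  | empty => rw [Finset.prod_empty]; exact int1_one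
  | insert i s hi ih =>
    rw [Finset.prod_insert hi]
    exact A.int_mul (hf i (Finset.mem_insert_self i s))
      (ih fun j hj => hf j (Finset.mem_insert_of_mem hj))

theorem evm_one (A : ApiE1) {σ : Type} [Fintype σ] (z : σ → C) :
    evm (1 : MvPowerSeries σ C) z = 1 := by
  have := A.evm_C (σ := σ) (1 : C) z
  rwa [map_one] at this

theorem evm_pow (A : ApiE1) {σ : Type} [Fintype σ] {f : MvPowerSeries σ C} {z : σ → C}
    (hf : Int1 f) (hz : ∀ i, ‖z i‖ < 1) (n : ℕ) : evm (f ^ n) z = (evm f z) ^ n := by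
  induction n with
  | zero => rw [pow_zero, pow_zero]; exact evm_one A z
  | succ n ih => rw [pow_succ, pow_succ, A.evm_mul (int1_pow A hf n) hf hz, ih]

theorem evm_prod (A : ApiE1) {σ ι : Type} [Fintype σ] (s : Finset ι) (f : ι → MvPowerSeries σ C)
    {z : σ → C} (hf : ∀ i ∈ s, Int1 (f i)) (hz : ∀ i, ‖z i‖ < 1) :
    evm (∏ i ∈ s, f i) z = ∏ i ∈ s, evm (f i) z := by
  classical
  induction s using Finset.induction_on with
  | empty => rw [Finset.prod_empty, Finset.prod_empty]; exact evm_one A z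
  | insert i s hi ih =>
    have h1 := hf i (Finset.mem_insert_self i s)
    have h2 : ∀ j ∈ s, Int1 (f j) := fun j hj => hf j (Finset.mem_insert_of_mem hj)
    rw [Finset.prod_insert hi, Finset.prod_insert hi, A.evm_mul h1 (int1_prod A s f h2) hz, ih h2]

/-- the monomial `a^d`. -/
noncomputable def mon {σ τ : Type} (a : σ → MvPowerSeries τ C) (d : σ →₀ ℕ) :
    MvPowerSeries τ C := d.prod fun s n => a s ^ n

theorem int1_mon (A : ApiE1) {σ τ : Type} {a : σ → MvPowerSeries τ C} (ha : ∀ i, Int1 (a i))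
    (d : σ →₀ ℕ) : Int1 (mon a d) :=
  int1_prod A _ _ fun i _ => int1_pow A (ha i) _

theorem evm_mon (A : ApiE1) {σ τ : Type} [Fintype σ] [Fintype τ] {a : σ → MvPowerSeries τ C}
    {z : τ → C} (ha : ∀ i, Int1 (a i)) (hz : ∀ i, ‖z i‖ < 1) (d : σ →₀ ℕ) :
    evm (mon a d) z = ∏ i, (evm (a i) z) ^ d i := by
  unfold mon
  rw [Finsupp.prod_fintype _ _ (fun _ => pow_zero _), evm_prod A _ _
    (fun i _ => int1_pow A (ha i) _) hz]
  exact Finset.prod_congr rfl fun i _ => evm_pow A (ha i) hz _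

omit [CompleteSpace C] [IsUltrametricDist C] in
theorem coeff_mon {σ τ : Type} [Fintype σ] {a : σ → MvPowerSeries τ C} (ha : ∀ i, ZC (a i))
    (d : σ →₀ ℕ) (e : τ →₀ ℕ) (h : e.degree < d.degree) : MvPowerSeries.coeff e (mon a d) = 0 := by
  unfold mon
  rw [Finsupp.prod_fintype _ _ (fun _ => pow_zero _)]
  apply MvPowerSeries.coeff_of_lt_order
  have h1 : ∑ i, ((d i : ℕ) : ℕ∞) ≤ ∑ i, (a i ^ d i).order :=
    Finset.sum_le_sum fun i _ =>
      MvPowerSeries.le_order_pow_of_constantCoeff_eq_zero (d i) (ha i)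
  have h2 := h1.trans (MvPowerSeries.le_order_prod (fun i => a i ^ d i) Finset.univ)
  refine lt_of_lt_of_le ?_ h2
  rw [Finsupp.degree_eq_sum d] at h
  exact_mod_cast h

theorem int_subst (A : ApiE1) {σ τ : Type} [Fintype σ] {f : MvPowerSeries σ C}
    {a : σ → MvPowerSeries τ C} (hf : Int1 f) (ha : ∀ i, Int1 (a i)) (hz : ∀ i, ZC (a i)) :
    Int1 (MvPowerSeries.subst a f) := by
  have hs : MvPowerSeries.HasSubst a := MvPowerSeries.hasSubst_of_constantCoeff_zero hz
  intro e
  rw [MvPowerSeries.coeff_subst hs]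
  apply finsum_induction (fun x : C => ‖x‖ ≤ 1)
  · simp
  · intro x y hx hy
    exact (IsUltrametricDist.norm_add_le_max x y).trans (max_le hx hy)
  · intro d
    rw [smul_eq_mul, norm_mul]
    exact mul_le_one₀ (hf d) (norm_nonneg _) (int1_mon A ha d e)

omit [CompleteSpace C] [IsUltrametricDist C] in
theorem exists_rho {τ : Type} [Fintype τ] {z : τ → C} (hz : ∀ i, ‖z i‖ < 1) :
    ∃ ρ : ℝ, 0 ≤ ρ ∧ ρ < 1 ∧ ∀ i, ‖z i‖ ≤ ρ := by
  rcases isEmpty_or_nonempty τ with h | h
  · exact ⟨0, le_rfl, zero_lt_one, fun i => (h.false i).elim⟩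
  · obtain ⟨i, hi⟩ := Finite.exists_max (fun i => ‖z i‖)
    exact ⟨‖z i‖, norm_nonneg _, hz i, hi⟩

theorem summable_T (A : ApiE1) {σ τ : Type} [Fintype σ] [Fintype τ] {f : MvPowerSeries σ C}
    {a : σ → MvPowerSeries τ C} {z : τ → C} (hf : Int1 f) (ha : ∀ i, Int1 (a i))
    (hzc : ∀ i, ZC (a i)) (hz : ∀ i, ‖z i‖ < 1) :
    Summable (Function.uncurry fun (d : σ →₀ ℕ) (e : τ →₀ ℕ) =>
      MvPowerSeries.coeff d f * MvPowerSeries.coeff e (mon a d) * ∏ i, z i ^ e i) := by
  apply NonarchimedeanAddGroup.summable_of_tendsto_cofinite_zero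
  rw [tendsto_zero_iff_norm_tendsto_zero, Metric.tendsto_nhds]
  intro ε hε
  obtain ⟨ρ, hρ0, hρ1, hρ⟩ := exists_rho hz
  obtain ⟨N, hN⟩ := exists_pow_lt_of_lt_one hε hρ1
  rw [Filter.eventually_cofinite]
  refine Set.Finite.subset ((Finsupp.finite_of_degree_lt (σ := σ) N).prod
    (Finsupp.finite_of_degree_lt (σ := τ) N)) ?_
  rintro ⟨d, e⟩ hde
  simp only [Set.mem_ofPred_eq, Function.uncurry_apply_pair, dist_zero_right, norm_norm,
    not_lt] at hde
  have hprod : ‖∏ i, z i ^ e i‖ ≤ ρ ^ e.degree := by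
    rw [norm_prod, Finsupp.degree_eq_sum, ← Finset.prod_pow_eq_pow_sum]
    refine Finset.prod_le_prod (fun _ _ => norm_nonneg _) fun i _ => ?_
    rw [norm_pow]
    exact pow_le_pow_left₀ (norm_nonneg _) (hρ i) _
  have hle : ‖MvPowerSeries.coeff d f * MvPowerSeries.coeff e (mon a d) * ∏ i, z i ^ e i‖ ≤
      ρ ^ e.degree := by
    rw [norm_mul, norm_mul]
    calc ‖MvPowerSeries.coeff d f‖ * ‖MvPowerSeries.coeff e (mon a d)‖ * ‖∏ i, z i ^ e i‖
        ≤ 1 * ρ ^ e.degree := by
          apply mul_le_mul _ hprod (norm_nonneg _) zero_le_one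
          exact mul_le_one₀ (hf d) (norm_nonneg _) (int1_mon A ha d e)
      _ = _ := one_mul _
  have hed : e.degree < N := by
    by_contra hc
    rw [not_lt] at hc
    have := pow_le_pow_of_le_one hρ0 hρ1.le hc
    linarith
  have hdd : d.degree ≤ e.degree := by
    by_contra hc
    rw [not_le] at hc
    rw [coeff_mon hzc d e hc] at hde
    simp at hde
    linarith
  exact ⟨lt_of_le_of_lt hdd hed, hed⟩

theorem evm_subst (A : ApiE1) {σ τ : Type} [Fintype σ] [Fintype τ] {f : MvPowerSeries σ C}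
    {a : σ → MvPowerSeries τ C} {z : τ → C} (hf : Int1 f) (ha : ∀ i, Int1 (a i))
    (hzc : ∀ i, ZC (a i)) (hz : ∀ i, ‖z i‖ < 1) :
    evm (MvPowerSeries.subst a f) z = evm f (fun i => evm (a i) z) := by
  have hs : MvPowerSeries.HasSubst a := MvPowerSeries.hasSubst_of_constantCoeff_zero hzc
  have hT := summable_T A hf ha hzc hz
  have h1 : evm (MvPowerSeries.subst a f) z = ∑' (e : τ →₀ ℕ), ∑' (d : σ →₀ ℕ),
      MvPowerSeries.coeff d f * MvPowerSeries.coeff e (mon a d) * ∏ i, z i ^ e i := by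
    unfold evm
    apply tsum_congr
    intro e
    have h3 := tsum_eq_finsum (L := SummationFilter.unconditional _)
      (MvPowerSeries.coeff_subst_finite hs f e)
    rw [MvPowerSeries.coeff_subst hs, ← h3, tsum_mul_right]
    rfl
  have h2 : evm f (fun i => evm (a i) z) = ∑' (d : σ →₀ ℕ), ∑' (e : τ →₀ ℕ),
      MvPowerSeries.coeff d f * MvPowerSeries.coeff e (mon a d) * ∏ i, z i ^ e i := by
    show ∑' d : σ →₀ ℕ, MvPowerSeries.coeff d f * ∏ i, evm (a i) z ^ d i = _
    apply tsum_congr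
    intro d
    rw [← evm_mon A ha hz d]
    unfold evm
    rw [← tsum_mul_left]
    apply tsum_congr
    intro e
    ring
  rw [h1, h2]
  exact hT.tsum_comm

end

theorem main (A : ApiE1) : ApiE2 where
  evm_subst := fun hf ha hzc hz => evm_subst A hf ha hzc hz
  evm_cmp := by
    intro C _ _ _ σ _ φ a z hφ ha hzc hz
    have h := evm_subst A (f := φ) (a := fun _ : Unit => a) (z := z) hφ (fun _ => ha)
      (fun _ => hzc) hz
    exact h.trans (A.ev_eq φ (evm a z))
  ev_cmp := by
    intro C _ _ _ φ a z hφ ha hzc hz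
    have h := evm_subst A (f := φ) (a := fun _ : Unit => a) (z := fun _ : Unit => z) hφ
      (fun _ => ha) (fun _ => hzc) (fun _ => hz)
    rw [← A.ev_eq (cmp φ a : PowerSeries C) z, ← A.ev_eq a z, ← A.ev_eq φ]
    exact h
  int_subst := fun hf ha hz => int_subst A hf ha hz
  int_cmp := by
    intro C _ _ _ σ φ a hφ ha hzc
    exact int_subst A (f := φ) (a := fun _ : Unit => a) hφ (fun _ => ha) (fun _ => hzc)

end Crest.Agent.LT3EVALb
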