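/- rid 227 (S0351), module EVALc: Lipschitz and Taylor estimates (API E3). -/
import Crest.Agent.LT3Spec2

set_option autoImplicit false
set_option linter.unusedSectionVars false
open Crest.LubinTate
open Crest Crest.GeometryTopology

namespace Crest.Agent.LT3EVALc
open LT3

section
variable {C : Type} [NontriviallyNormedField C] [IsUltrametricDist C]

lemma norm_nat_le_one (n : ℕ) : ‖(n : C)‖ ≤ 1 := IsUltrametricDist.norm_natCast_le_one C n

lemma hasSum_norm_le {ι : Type} {f : ι → C} {a : C} {ε : ℝ} (hε : 0 ≤ ε) (h : HasSum f a)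
    (hf : ∀ i, ‖f i‖ ≤ ε) : ‖a‖ ≤ ε := by
  rw [← h.tsum_eq]
  exact IsUltrametricDist.norm_tsum_le_of_forall_le_of_nonneg hε hf

lemma norm_add_le' {a b : C} {ε : ℝ} (ha : ‖a‖ ≤ ε) (hb : ‖b‖ ≤ ε) : ‖a + b‖ ≤ ε :=
  (IsUltrametricDist.norm_add_le_max a b).trans (max_le ha hb)

lemma norm_mul_le_of_le_one {a b : C} {ε : ℝ} (hε : 0 ≤ ε) (ha : ‖a‖ ≤ ε) (hb : ‖b‖ ≤ 1) :
    ‖a * b‖ ≤ ε := by
  rw [norm_mul]
  calc ‖a‖ * ‖b‖ ≤ ε * 1 := mul_le_mul ha hb (norm_nonneg _) hε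
    _ = ε := mul_one _

lemma norm_pow_le_one {a : C} (ha : ‖a‖ ≤ 1) (n : ℕ) : ‖a ^ n‖ ≤ 1 := by
  rw [norm_pow]; exact pow_le_one₀ (norm_nonneg _) ha

lemma norm_prod_le_one {σ : Type} {z : σ → C} (hz : ∀ i, ‖z i‖ ≤ 1) (e : σ → ℕ)
    (s : Finset σ) : ‖∏ i ∈ s, z i ^ e i‖ ≤ 1 := by
  rw [norm_prod]
  exact Finset.prod_le_one (fun _ _ => norm_nonneg _) (fun i _ => norm_pow_le_one (hz i) _)

lemma pow_taylor {x x' : C} (hx : ‖x‖ ≤ 1) (hx' : ‖x'‖ ≤ 1) {ε : ℝ} (hε : 0 ≤ ε)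
    (h : ‖x' - x‖ ≤ ε) (n : ℕ) :
    ‖x' ^ n - x ^ n‖ ≤ ε ∧ ‖x' ^ n - x ^ n - n * x ^ (n - 1) * (x' - x)‖ ≤ ε ^ 2 := by
  induction n with
  | zero => simp [hε]
  | succ n ih =>
    obtain ⟨h1, h2⟩ := ih
    refine ⟨?_, ?_⟩
    · have e1 : x' ^ (n + 1) - x ^ (n + 1) = (x' ^ n - x ^ n) * x' + (x' - x) * x ^ n := by ring
      rw [e1]
      exact norm_add_le' (norm_mul_le_of_le_one hε h1 hx')
        (norm_mul_le_of_le_one hε h (norm_pow_le_one hx n))
    · have e0 : (n : C) * x ^ n = n * x ^ (n - 1) * x := by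
        cases n with
        | zero => simp
        | succ m => simp [pow_succ]; ring
      have e1 : x' ^ (n + 1) - x ^ (n + 1) - ((n + 1 : ℕ) : C) * x ^ (n + 1 - 1) * (x' - x)
          = (x' ^ n - x ^ n - n * x ^ (n - 1) * (x' - x)) * x' +
            ((x' - x) * (x' - x)) * (n * x ^ (n - 1)) := by
        have : (n + 1 : ℕ) - 1 = n := rfl
        rw [this]
        push_cast
        linear_combination (x - x') * e0
      rw [e1]
      refine norm_add_le' (norm_mul_le_of_le_one (sq_nonneg _) h2 hx')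
        (norm_mul_le_of_le_one (sq_nonneg _) ?_
          (norm_mul_le_of_le_one zero_le_one (norm_nat_le_one n) (norm_pow_le_one hx _)))
      rw [norm_mul, sq]
      exact mul_le_mul h h (norm_nonneg _) hε

lemma prod_taylor {σ : Type} [DecidableEq σ] {z z' : σ → C} {ε : ℝ} (hε : 0 ≤ ε)
    (hz : ∀ i, ‖z i‖ ≤ 1) (hz' : ∀ i, ‖z' i‖ ≤ 1) (h : ∀ i, ‖z' i - z i‖ ≤ ε) (e : σ →₀ ℕ)
    (s : Finset σ) :
    ‖∏ i ∈ s, z' i ^ e i - ∏ i ∈ s, z i ^ e i‖ ≤ ε ∧
    ‖∏ i ∈ s, z' i ^ e i - ∏ i ∈ s, z i ^ e i -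
      ∑ i ∈ s, (e i : C) * (∏ j ∈ s, z j ^ (e - Finsupp.single i 1 : σ →₀ ℕ) j) *
        (z' i - z i)‖ ≤ ε ^ 2 := by
  induction s using Finset.induction_on with
  | empty => simp [hε]
  | insert k s hk ih =>
    obtain ⟨h1, h2⟩ := ih
    obtain ⟨k1, k2⟩ := pow_taylor (hz k) (hz' k) hε (h k) (e k)
    rw [Finset.prod_insert hk, Finset.prod_insert hk, Finset.sum_insert hk]
    set a := z k ^ e k
    set a' := z' k ^ e k
    set b := ∏ i ∈ s, z i ^ e i
    set b' := ∏ i ∈ s, z' i ^ e i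
    have ha : ‖a‖ ≤ 1 := norm_pow_le_one (hz k) _
    have ha' : ‖a'‖ ≤ 1 := norm_pow_le_one (hz' k) _
    have hb : ‖b‖ ≤ 1 := norm_prod_le_one hz _ s
    have hb' : ‖b'‖ ≤ 1 := norm_prod_le_one hz' _ s
    refine ⟨?_, ?_⟩
    · have e1 : a' * b' - a * b = (a' - a) * b' + (b' - b) * a := by ring
      rw [e1]
      exact norm_add_le' (norm_mul_le_of_le_one hε k1 hb') (norm_mul_le_of_le_one hε h1 ha)
    · have e2 : ∀ i ∈ s, (e i : C) *
          (∏ j ∈ insert k s, z j ^ (e - Finsupp.single i 1 : σ →₀ ℕ) j) * (z' i - z i) =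
          a * ((e i : C) * (∏ j ∈ s, z j ^ (e - Finsupp.single i 1 : σ →₀ ℕ) j) *
          (z' i - z i)) := by
        intro i hi
        have hik : i ≠ k := fun h => hk (h ▸ hi)
        rw [Finset.prod_insert hk]
        have : (e - Finsupp.single i 1 : σ →₀ ℕ) k = e k := by
          rw [Finsupp.tsub_apply, Finsupp.single_eq_of_ne (by tauto)]; simp
        rw [this]
        ring
      have e3 : ∏ j ∈ insert k s, z j ^ (e - Finsupp.single k 1 : σ →₀ ℕ) j =
          z k ^ (e k - 1) * b := by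
        rw [Finset.prod_insert hk]
        congr 1
        · simp
        · refine Finset.prod_congr rfl fun j hj => ?_
          have hjk : j ≠ k := fun h => hk (h ▸ hj)
          rw [Finsupp.tsub_apply, Finsupp.single_eq_of_ne (by tauto)]; simp
      rw [Finset.sum_congr rfl e2, ← Finset.mul_sum, e3]
      set db := ∑ i ∈ s, (e i : C) * (∏ j ∈ s, z j ^ (e - Finsupp.single i 1 : σ →₀ ℕ) j) *
        (z' i - z i)
      set x := z k ^ (e k - 1)
      have e4 : a' * b' - a * b - ((e k : C) * (x * b) * (z' k - z k) + a * db) =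
          (a' - a - (e k : C) * x * (z' k - z k)) * b + ((b' - b - db) * a
            + (a' - a) * (b' - b)) := by ring
      rw [e4]
      refine norm_add_le' (norm_mul_le_of_le_one (sq_nonneg _) k2 hb) (norm_add_le'
        (norm_mul_le_of_le_one (sq_nonneg _) h2 ha) ?_)
      rw [norm_mul, sq]
      exact mul_le_mul k1 h1 (norm_nonneg _) hε

end

section
variable {C : Type} [NontriviallyNormedField C] [CompleteSpace C] [IsUltrametricDist C]

lemma int_pderiv {σ : Type} (i : σ) {f : MvPowerSeries σ C} (hf : Int1 f) :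
    Int1 (MvPowerSeries.pderiv C i f) := by
  intro e
  rw [MvPowerSeries.coeff_pderiv]
  refine norm_mul_le_of_le_one zero_le_one (hf _) ?_
  have := norm_nat_le_one (C := C) (e i + 1)
  push_cast at this
  exact this

lemma hasSum_pderiv (E : ApiE1) {σ : Type} [Fintype σ] [DecidableEq σ] (i : σ)
    {f : MvPowerSeries σ C}
    (hf : Int1 f) {z : σ → C} (hz : ∀ i, ‖z i‖ < 1) :
    HasSum (fun e : σ →₀ ℕ => MvPowerSeries.coeff e f *
      ((e i : C) * ∏ j, z j ^ (e - Finsupp.single i 1 : σ →₀ ℕ) j))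
      (evm (MvPowerSeries.pderiv C i f) z) := by
  have h1 := E.hasSum_evm (int_pderiv i hf) hz
  have hinj : Function.Injective (fun e : σ →₀ ℕ => e + Finsupp.single i 1) :=
    add_left_injective _
  rw [← hinj.hasSum_iff]
  · convert h1 using 2 with e
    simp only [Function.comp]
    rw [MvPowerSeries.coeff_pderiv]
    have : (e + Finsupp.single i 1 - Finsupp.single i 1 : σ →₀ ℕ) = e := by
      ext j; simp
    rw [this]
    simp
    ring
  · intro e he
    have : e i = 0 := by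
      by_contra hne
      apply he
      refine ⟨e - Finsupp.single i 1, ?_⟩
      simp only
      rw [tsub_add_cancel_of_le]
      rw [Finsupp.single_le_iff]
      omega
    simp [this]

lemma evm_lip (E : ApiE1) {σ : Type} [Fintype σ] {f : MvPowerSeries σ C} {z z' : σ → C} (ε : ℝ)
    (hε : 0 ≤ ε) (hf : Int1 f) (hz : ∀ i, ‖z i‖ < 1) (hz' : ∀ i, ‖z' i‖ < 1)
    (h : ∀ i, ‖z i - z' i‖ ≤ ε) : ‖evm f z - evm f z'‖ ≤ ε := by
  classical
  refine hasSum_norm_le hε ((E.hasSum_evm hf hz).sub (E.hasSum_evm hf hz')) fun e => ?_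
  rw [← mul_sub, mul_comm]
  exact norm_mul_le_of_le_one hε (prod_taylor hε (fun i => (hz' i).le) (fun i => (hz i).le) h e
    Finset.univ).1 (hf e)

lemma evm_taylor (E : ApiE1) {σ : Type} [Fintype σ] {f : MvPowerSeries σ C} {z z' : σ → C}
    (ε : ℝ)
    (hε : 0 ≤ ε) (hf : Int1 f) (hz : ∀ i, ‖z i‖ < 1) (hz' : ∀ i, ‖z' i‖ < 1)
    (h : ∀ i, ‖z' i - z i‖ ≤ ε) :
    ‖evm f z' - evm f z - ∑ i, evm (MvPowerSeries.pderiv C i f) z * (z' i - z i)‖ ≤ ε ^ 2 := by
  classical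
  have hs : HasSum (fun e : σ →₀ ℕ => ∑ i, (MvPowerSeries.coeff e f *
      ((e i : C) * ∏ j, z j ^ (e - Finsupp.single i 1 : σ →₀ ℕ) j)) * (z' i - z i))
      (∑ i, evm (MvPowerSeries.pderiv C i f) z * (z' i - z i)) :=
    hasSum_sum fun i _ => (hasSum_pderiv E i hf hz).mul_right _
  refine hasSum_norm_le (sq_nonneg _)
    (((E.hasSum_evm hf hz').sub (E.hasSum_evm hf hz)).sub hs) fun e => ?_
  have e1 : MvPowerSeries.coeff e f * ∏ i, z' i ^ e i - MvPowerSeries.coeff e f * ∏ i, z i ^ e i -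
      ∑ i, (MvPowerSeries.coeff e f *
      ((e i : C) * ∏ j, z j ^ (e - Finsupp.single i 1 : σ →₀ ℕ) j)) * (z' i - z i) =
      (∏ i, z' i ^ e i - ∏ i, z i ^ e i - ∑ i, (e i : C) *
        (∏ j, z j ^ (e - Finsupp.single i 1 : σ →₀ ℕ) j) * (z' i - z i)) *
        MvPowerSeries.coeff e f := by
    rw [sub_mul, Finset.sum_mul, sub_mul, mul_comm (MvPowerSeries.coeff e f),
      mul_comm (MvPowerSeries.coeff e f)]
    congr 1
    exact Finset.sum_congr rfl fun i _ => by ring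
  rw [e1]
  exact norm_mul_le_of_le_one (sq_nonneg _) (prod_taylor hε (fun i => (hz i).le)
    (fun i => (hz' i).le) h e Finset.univ).2 (hf e)

end

theorem main (E : ApiE1) : ApiE3 where
  evm_lip := fun ε hε hf hz hz' h => evm_lip E ε hε hf hz hz' h
  ev_lip := by
    intro C _ _ _ f z z' hf hz hz'
    rw [← E.ev_eq, ← E.ev_eq]
    exact evm_lip E (σ := Unit) _ (norm_nonneg _) hf (fun _ => hz) (fun _ => hz')
      (fun _ => le_rfl)
  ev_taylor := by
    intro C _ _ _ f z z' hf hz hz'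
    have := evm_taylor E (σ := Unit) (f := f) (z := fun _ => z) (z' := fun _ => z')
      (‖z' - z‖) (norm_nonneg _) hf (fun _ => hz) (fun _ => hz') (fun _ => le_rfl)
    rw [← E.ev_eq, ← E.ev_eq, ← E.ev_eq]
    simp only [Finset.univ_unique, Finset.sum_singleton] at this
    exact this
  evm_taylor := fun ε hε hf hz hz' h => evm_taylor E ε hε hf hz hz' h

end Crest.Agent.LT3EVALc
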