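/- rid 227 (S0351): module FIN2 (value identity and congruence for suitable `m`). -/
import Crest.Agent.LT3Spec3

set_option autoImplicit false
set_option linter.unusedSectionVars false

namespace Crest.Agent.LT3FIN2
open Crest Crest.LubinTate Crest.Agent.LT3

section basic

variable {C : Type} [NontriviallyNormedField C] [IsUltrametricDist C]

theorem nadd (a b : C) : ‖a + b‖ ≤ max ‖a‖ ‖b‖ := IsUltrametricDist.norm_add_le_max a b

theorem norm_eq_of_sub_lt {a b : C} (h : ‖a - b‖ < ‖b‖) : ‖a‖ = ‖b‖ := by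
  have h1 : a = (a - b) + b := by ring
  rw [h1, IsUltrametricDist.norm_add_eq_max_of_norm_ne_norm (ne_of_lt h)]
  exact max_eq_right h.le

theorem pow_sub_lt {a b : C} (ha : ‖a‖ ≤ 1) (hb : ‖b‖ ≤ 1) (h : ‖a - b‖ < 1) (k : ℕ) :
    ‖a ^ k - b ^ k‖ < 1 := by
  induction k with
  | zero => simp
  | succ k ih =>
    have h1 : a ^ (k + 1) - b ^ (k + 1) = (a ^ k - b ^ k) * a + b ^ k * (a - b) := by ring
    rw [h1]
    refine lt_of_le_of_lt (nadd _ _) (max_lt ?_ ?_)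
    · rw [norm_mul]
      calc ‖a ^ k - b ^ k‖ * ‖a‖ ≤ ‖a ^ k - b ^ k‖ * 1 :=
            mul_le_mul_of_nonneg_left ha (norm_nonneg _)
        _ < 1 := by rw [mul_one]; exact ih
    · rw [norm_mul, norm_pow]
      calc ‖b‖ ^ k * ‖a - b‖ ≤ 1 * ‖a - b‖ :=
            mul_le_mul_of_nonneg_right (pow_le_one₀ (norm_nonneg _) hb) (norm_nonneg _)
        _ < 1 := by rw [one_mul]; exact h

theorem sum_norm_lt {s : ℕ} (f : Fin s → C) {r : ℝ} (hr : 0 < r) (h : ∀ i, ‖f i‖ < r) :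
    ‖∑ i, f i‖ < r := by
  classical
  have : ∀ S : Finset (Fin s), ‖∑ i ∈ S, f i‖ < r := by
    intro S
    induction S using Finset.induction_on with
    | empty => simpa using hr
    | insert a S ha ih =>
      rw [Finset.sum_insert ha]
      exact lt_of_le_of_lt (nadd _ _) (max_lt (h a) ih)
  exact this _

theorem sum_castLE {r' d : ℕ} (h : r' ≤ d) (f : Fin d → C) (hf : ∀ l : Fin d, r' ≤ l.1 → f l = 0) :
    ∑ l, f l = ∑ l : Fin r', f (Fin.castLE h l) := by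
  symm
  apply Finset.sum_of_injOn (Fin.castLE h)
  · intro a _ b _ hab
    exact Fin.castLE_injective h hab
  · intro a _; simp
  · intro l _ hl
    apply hf l
    by_contra hcon
    push Not at hcon
    apply hl
    exact ⟨⟨l.1, hcon⟩, by simp, by ext; simp⟩
  · intro l _; rfl

/-- the ratio of `Y^ω` and `Y^1`, given that both are close to `cM Σ^{p^i}`. -/
theorem ratio_core {y y1 s s1 c z : C} {L : ℝ} (hL : 0 < L) (P : ℕ) (h : ‖y - c * s ^ P‖ < L)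
    (h1 : ‖y1 - c * s1 ^ P‖ < L) (hs1 : ‖c * s1 ^ P‖ = L)
    (hss : ‖s / s1‖ = 1) (hz : ‖z‖ = 1) (hz1 : ‖s / s1 - z‖ < 1) :
    ‖y / y1 - z ^ P‖ < 1 := by
  have hy1 : ‖y1‖ = L := by rw [← hs1]; exact norm_eq_of_sub_lt (by rw [hs1]; exact h1)
  have hy10 : y1 ≠ 0 := by rw [← norm_pos_iff, hy1]; exact hL
  have hcs1 : c * s1 ^ P ≠ 0 := by rw [← norm_pos_iff, hs1]; exact hL
  have hc0 : c ≠ 0 := left_ne_zero_of_mul hcs1
  have hs10 : s1 ^ P ≠ 0 := right_ne_zero_of_mul hcs1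
  have h2 : ‖y / y1 - (s / s1) ^ P‖ < 1 := by
    have e1 : y / y1 - (s / s1) ^ P =
        ((y - c * s ^ P) - (y1 - c * s1 ^ P) * (s / s1) ^ P) / y1 := by
      rw [div_pow]
      field_simp
      ring
    rw [e1, norm_div, hy1, div_lt_one hL, sub_eq_add_neg]
    refine lt_of_le_of_lt (nadd _ _) (max_lt h ?_)
    rw [norm_neg, norm_mul, norm_pow, hss, one_pow, mul_one]
    exact h1
  have h3 := pow_sub_lt hss.le hz.le hz1 P
  have e2 : y / y1 - z ^ P = (y / y1 - (s / s1) ^ P) + ((s / s1) ^ P - z ^ P) := by ring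
  rw [e2]
  exact lt_of_le_of_lt (nadd _ _) (max_lt h2 h3)

end basic

theorem iota_norm {p n : ℕ} [Fact p.Prime] {C : Type} [NontriviallyNormedField C]
    (ι : GaloisField p n →+* C) (w : GaloisField p n) (hw : w ≠ 0) : ‖ι w‖ = 1 := by
  classical
  have : Fintype (GaloisField p n) := Fintype.ofFinite _
  have h1 := FiniteField.pow_card_sub_one_eq_one w hw
  have h2 : ‖ι w‖ ^ (Fintype.card (GaloisField p n) - 1) = 1 := by
    rw [← norm_pow, ← map_pow, h1, map_one, norm_one]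
  have h3 : Fintype.card (GaloisField p n) - 1 ≠ 0 := by
    have := Fintype.one_lt_card (α := GaloisField p n)
    omega
  exact (pow_eq_one_iff_of_nonneg (norm_nonneg _) h3).mp h2

open Filter in
theorem main (hLEMM : Spec3.LEMM) (hYR : Spec3.YR) (hYO : Spec3.YO) : Spec3.FIN2 := by
  classical
  intro p _ n h d r C _ _ _ _ _ Γ F ι w x i0 ρ T σ S c V₀ sys r' τ bas τ' v hτ' hτ'1 hv hτ'v
    i cM D' hcM hD'0 hD' hrel
  have hhd : h + d = n := sys.st.hn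
  have hp2 : 2 ≤ p := (Fact.out : p.Prime).two_le
  have hp0 : (0 : ℝ) < p := by exact_mod_cast (by omega : 0 < p)
  have hσ := sys.sc.σpos
  set V₁ : ℝ := (p : ℝ) ^ n * σ with hV₁
  have hV₁0 : 0 < V₁ := by positivity
  obtain ⟨s, rfl⟩ : ∃ s, r' = s + 1 := ⟨r' - 1, by have := bas.one; omega⟩
  let e : Fin (s + 1) → Fin d := Fin.castLE bas.le
  have he : ∀ l, (e l).1 < s + 1 := fun l => l.2
  let Dd : Fin (s + 1) → C := fun l => D' (e l)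
  obtain ⟨M1, hM1, hDM, hDM'⟩ : ∃ M1 : ℝ, 0 < M1 ∧ (∀ l, ‖Dd l‖ ≤ M1) ∧ ∃ l, ‖Dd l‖ = M1 := by
    obtain ⟨l, _, hl⟩ := Finset.exists_max_image (Finset.univ : Finset (Fin (s + 1)))
      (fun l => ‖Dd l‖) Finset.univ_nonempty
    refine ⟨‖Dd l‖, ?_, fun l' => hl l' (Finset.mem_univ _), l, rfl⟩
    obtain ⟨l₀, hl₀⟩ := hD'
    have h1 : l₀.1 < s + 1 := by
      by_contra hcon
      exact hl₀ (hD'0 l₀ (by omega))
    have h2 : ‖Dd ⟨l₀.1, h1⟩‖ ≤ ‖Dd l‖ := hl _ (Finset.mem_univ _)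
    have h3 : Dd ⟨l₀.1, h1⟩ = D' l₀ := rfl
    rw [h3] at h2
    exact lt_of_lt_of_le (norm_pos_iff.mpr hl₀) h2
  obtain ⟨K₀, hK₀⟩ := hLEMM p n h d C (F.map x) (w i0) T σ S c V₀ hhd sys.ts sys.sc s
    (fun l => τ (e l)) V₁ hV₁0 (fun l => bas.seq _) (fun l => bas.dom _ (he l)) bas.indep Dd M1
    hM1 hDM hDM'
  obtain ⟨Km, hKm⟩ := sys.mv
  obtain ⟨A, hAdef⟩ : ∃ A : ℝ, A = ‖cM‖ * M1 ^ (p ^ i) := ⟨_, rfl⟩
  have hA : 0 < A := by
    rw [hAdef]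
    have := norm_pos_iff.mpr hcM
    positivity
  obtain ⟨Kr, hKr⟩ := hrel (min 1 A / 4) (by positivity)
  refine ⟨A, max K₀ (max Km Kr), hA, fun K hK => ?_⟩
  have hKa : K₀ ≤ K := (le_max_left _ _).trans hK
  have hKb : Km ≤ K := ((le_max_left _ _).trans (le_max_right _ _)).trans hK
  have hKc : Kr ≤ K := ((le_max_right _ _).trans (le_max_right _ _)).trans hK
  obtain ⟨m, hm1, hm2, hNBV, N₀, hN₀⟩ := hK₀ K hKa
  refine ⟨m, hm1, hm2, ?_⟩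
  choose w' x' ψ hmv using fun ω => hKm K hKb m ω
  have E1 : ∀ᶠ N in atTop, N₀ ≤ N := eventually_ge_atTop N₀
  have E2 : ∀ᶠ N in atTop, ∀ ω : GaloisField p n, ∀ l : Fin (s + 1), ω ≠ 0 →
      ‖gmul (F.map x) (p ^ N) (ψ 1 (τ (e 0) N))‖ =
        Real.exp (-S ((p : ℝ) ^ (m + n * K) * V₁)) ∧
      ‖gmul (F.map x) (p ^ N) (ψ ω (τ (e l) N)) / gmul (F.map x) (p ^ N) (ψ 1 (τ (e 0) N)) -
          (ι ω / ι 1) ^ (p ^ (h * N) *
              cntf T N ((p : ℝ) ^ (m + n * K) * V₁ / (p : ℝ) ^ (n * N))) *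
            (τ (e l) N / τ (e 0) N) ^ (p ^ (m + n * K) * (p ^ (h * N) *
              cntf T N ((p : ℝ) ^ (m + n * K) * V₁ / (p : ℝ) ^ (n * N))))‖ < 1 := by
    rw [eventually_all]; intro ω
    rw [eventually_all]; intro l
    by_cases hω : ω = 0
    · exact Eventually.of_forall (fun N hh => absurd hω hh)
    · obtain ⟨N₁, hN₁⟩ := hYR p n h d r C Γ F ι w x i0 ρ T σ S c V₀ sys K m ω 1 hω one_ne_zero
        (w' ω) (x' ω) (ψ ω) (hmv ω) (w' 1) (x' 1) (ψ 1) (hmv 1) (τ (e l)) (τ (e 0)) V₁ hV₁0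
        (bas.seq _) (bas.seq _) (bas.dom _ (he l)) (bas.dom _ (he 0))
      refine (eventually_ge_atTop N₁).mono (fun N hN _ => ?_)
      have := (hN₁ N hN).2 hNBV
      exact ⟨this.2.1, this.2.2⟩
  have E3 : ∀ᶠ N in atTop, ∀ ω : GaloisField p n, ω ≠ 0 →
      ‖gmul (F.map x) (p ^ N) (ψ ω (τ' N)) -
            cM * (∑ l, D' l * gmul (F.map x) (p ^ N) (ψ ω (τ l N))) ^ (p ^ i)‖ ≤
          (min 1 A / 4) * (Real.exp (-S ((p : ℝ) ^ (m + n * K) * v)) +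
            Real.exp (-((p : ℝ) ^ i * S ((p : ℝ) ^ (m + n * K) * V₁)))) := by
    rw [eventually_all]; intro ω
    by_cases hω : ω = 0
    · exact Eventually.of_forall (fun N hh => absurd hω hh)
    · obtain ⟨N₁, hN₁⟩ := hKr K m hKc hm2 ω (w' ω) (x' ω) (ψ ω) hω (hmv ω)
      exact (eventually_ge_atTop N₁).mono (fun N hN _ => hN₁ N hN)
  obtain ⟨N₂, hN₂⟩ := hYO p n h d r C Γ F ι w x i0 ρ T σ S c V₀ sys K m w' x' ψ
    (fun ω _ => hmv ω) τ' v hv hτ' hτ'v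
  have E4 : ∀ᶠ N in atTop, N₂ ≤ N := eventually_ge_atTop N₂
  obtain ⟨N, h1, h2, h3, h4⟩ := (E1.and (E2.and (E3.and E4))).exists
  obtain ⟨hlt, hsum⟩ := hN₀ N h1
  obtain ⟨⟨ω₀, hω₀, hyo1⟩, hyo2⟩ := hN₂ N h4
  -- abbreviations
  obtain ⟨cnt, hcnt⟩ : ∃ cnt, cnt = cntf T N ((p : ℝ) ^ (m + n * K) * V₁ / (p : ℝ) ^ (n * N)) :=
    ⟨_, rfl⟩
  rw [← hcnt] at hsum
  simp only [← hcnt] at h2
  obtain ⟨S₁, hS₁⟩ : ∃ S₁, S₁ = S ((p : ℝ) ^ (m + n * K) * V₁) := ⟨_, rfl⟩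
  obtain ⟨Sv, hSv⟩ : ∃ Sv, Sv = S ((p : ℝ) ^ (m + n * K) * v) := ⟨_, rfl⟩
  rw [← hSv] at hyo1 hyo2
  simp only [← hS₁, ← hSv] at h2 h3 ⊢
  let g : GaloisField p n → Fin d → C := fun ω l => gmul (F.map x) (p ^ N) (ψ ω (τ l N))
  let y : GaloisField p n → C := fun ω => gmul (F.map x) (p ^ N) (ψ ω (τ' N))
  let Sg : GaloisField p n → C := fun ω => ∑ l, D' l * g ω l
  let ζ : GaloisField p n → C := fun ω => ι ω ^ (p ^ (h * N) * cnt)
  obtain ⟨X, hX⟩ : ∃ X : C, X = ∑ l, Dd l * (τ (e l) N / τ (e 0) N) ^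
    (p ^ (m + n * K) * (p ^ (h * N) * cnt)) := ⟨_, rfl⟩
  have hXn : ‖X‖ = M1 := by rw [hX]; exact hsum
  have hX0 : X ≠ 0 := by rw [← norm_pos_iff, hXn]; exact hM1
  have hζn : ∀ ω, ω ≠ 0 → ‖ζ ω‖ = 1 := fun ω hω => by
    simp only [ζ]; rw [norm_pow, iota_norm ι ω hω, one_pow]
  have hζ1 : ζ 1 = 1 := by simp only [ζ, map_one, one_pow]
  obtain ⟨g0, hg0⟩ : ∃ g0 : C, g0 = gmul (F.map x) (p ^ N) (ψ 1 (τ (e 0) N)) := ⟨_, rfl⟩
  simp only [← hg0] at h2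
  have hg0n : ‖g0‖ = Real.exp (-S₁) := (h2 1 0 one_ne_zero).1
  have hg00 : g0 ≠ 0 := by rw [← norm_pos_iff, hg0n]; exact Real.exp_pos _
  have hSgeq : ∀ ω, Sg ω = ∑ l, Dd l * g ω (e l) := fun ω => by
    simp only [Sg, Dd]
    rw [sum_castLE bas.le (fun l => D' l * g ω l) (fun l hl => by rw [hD'0 l hl, zero_mul])]
  have hSg : ∀ ω, ω ≠ 0 → ‖Sg ω / g0 - ζ ω * X‖ < M1 := by
    intro ω hω
    have e1 : Sg ω / g0 - ζ ω * X = ∑ l, Dd l * (g ω (e l) / g0 -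
        (ι ω / ι 1) ^ (p ^ (h * N) * cnt) * (τ (e l) N / τ (e 0) N) ^
    (p ^ (m + n * K) * (p ^ (h * N) * cnt))) := by
      rw [hSgeq, hX, Finset.sum_div, Finset.mul_sum, ← Finset.sum_sub_distrib]
      refine Finset.sum_congr rfl (fun l _ => ?_)
      simp only [ζ, map_one, div_one]
      ring
    rw [e1]
    apply sum_norm_lt _ hM1
    intro l
    rw [norm_mul]
    have h5 := (h2 ω l hω).2
    calc ‖Dd l‖ * _ ≤ M1 * _ := mul_le_mul_of_nonneg_right (hDM l) (norm_nonneg _)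
      _ < M1 * 1 := mul_lt_mul_of_pos_left h5 hM1
      _ = M1 := mul_one _
  have hSgg : ∀ ω, ω ≠ 0 → ‖Sg ω / g0‖ = M1 := by
    intro ω hω
    have h5 : ‖ζ ω * X‖ = M1 := by rw [norm_mul, hζn ω hω, one_mul, hXn]
    rw [← h5]
    apply norm_eq_of_sub_lt
    rw [h5]
    exact hSg ω hω
  have hSgn : ∀ ω, ω ≠ 0 → ‖Sg ω‖ = M1 * Real.exp (-S₁) := by
    intro ω hω
    have h5 := hSgg ω hω
    rw [norm_div, hg0n, div_eq_iff (Real.exp_pos _).ne'] at h5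
    exact h5
  have hSgr : ∀ ω, ω ≠ 0 → ‖Sg ω / Sg 1‖ = 1 := by
    intro ω hω
    rw [norm_div, hSgn ω hω, hSgn 1 one_ne_zero]
    exact div_self (by positivity)
  have hSgz : ∀ ω, ω ≠ 0 → ‖Sg ω / Sg 1 - ζ ω‖ < 1 := by
    intro ω hω
    have h5 := hSgg 1 one_ne_zero
    have h50 : Sg 1 / g0 ≠ 0 := by rw [← norm_pos_iff, h5]; exact hM1
    have h51 : Sg 1 ≠ 0 := fun h0 => h50 (by rw [h0, zero_div])
    have e1 : Sg ω / Sg 1 - ζ ω = ((Sg ω / g0 - ζ ω * X) - ζ ω * (Sg 1 / g0 - ζ 1 * X)) /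
        (Sg 1 / g0) := by
      rw [hζ1]; field_simp; ring
    rw [e1, norm_div, h5, div_lt_one hM1, sub_eq_add_neg]
    refine lt_of_le_of_lt (nadd _ _) (max_lt (hSg ω hω) ?_)
    rw [norm_neg, norm_mul, hζn ω hω, one_mul]
    exact hSg 1 one_ne_zero
  -- the main comparison
  obtain ⟨W, hW⟩ : ∃ W : ℝ, W = A * Real.exp (-((p : ℝ) ^ i * S₁)) := ⟨_, rfl⟩
  have hU : ∀ ω, ω ≠ 0 → ‖cM * (Sg ω) ^ (p ^ i)‖ = W := by
    intro ω hω
    rw [norm_mul, norm_pow, hSgn ω hω, mul_pow, ← Real.exp_nat_mul, hW, hAdef, ← mul_assoc]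
    congr 2
    push_cast
    ring
  obtain ⟨L, hL⟩ : ∃ L : ℝ, L = Real.exp (-Sv) := ⟨_, rfl⟩
  have hL0 : 0 < L := by rw [hL]; exact Real.exp_pos _
  have hW0 : 0 < W := by rw [hW]; positivity
  have hbd : ∀ ω, ω ≠ 0 → ‖y ω - cM * (Sg ω) ^ (p ^ i)‖ ≤ L / 4 + W / 4 := by
    intro ω hω
    refine (h3 ω hω).trans ?_
    rw [← hL, mul_add]
    have e1 : min 1 A ≤ 1 := min_le_left _ _
    have e2 : min 1 A ≤ A := min_le_right _ _
    have e3 := Real.exp_pos (-((p : ℝ) ^ i * S₁))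
    have e4 : min 1 A / 4 * L ≤ L / 4 := by nlinarith
    have e5 : min 1 A / 4 * Real.exp (-((p : ℝ) ^ i * S₁)) ≤ W / 4 := by rw [hW]; nlinarith
    linarith
  have hLW : L = W := by
    by_contra hne
    have h5 : ‖y ω₀‖ = L := by rw [hL]; exact hyo1
    have h6 := hbd ω₀ hω₀
    have h7 : ‖y ω₀ + -(cM * (Sg ω₀) ^ (p ^ i))‖ = max L W := by
      rw [IsUltrametricDist.norm_add_eq_max_of_norm_ne_norm, norm_neg, h5, hU ω₀ hω₀]
      rw [norm_neg, h5, hU ω₀ hω₀]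
      exact hne
    rw [← sub_eq_add_neg] at h7
    rw [h7] at h6
    have h8 : L ≤ max L W := le_max_left _ _
    have h9 : W ≤ max L W := le_max_right _ _
    linarith
  refine ⟨by rw [← hL, ← hW, hLW], ?_⟩
  have hbd' : ∀ ω, ω ≠ 0 → ‖y ω - cM * (Sg ω) ^ (p ^ i)‖ < L := by
    intro ω hω
    have := hbd ω hω
    rw [← hLW] at this
    linarith
  have hyn : ∀ ω, ω ≠ 0 → ‖y ω‖ = L := by
    intro ω hω
    rw [hLW, ← hU ω hω]
    apply norm_eq_of_sub_lt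
    rw [hU ω hω, ← hLW]
    exact hbd' ω hω
  have hyr : ∀ ω, ω ≠ 0 → ‖y ω / y 1 - ζ ω ^ (p ^ i)‖ < 1 := fun ω hω =>
    ratio_core hL0 (p ^ i) (hbd' ω hω) (hbd' 1 one_ne_zero)
      (by rw [hU 1 one_ne_zero, hLW]) (hSgr ω hω) (hζn ω hω) (hSgz ω hω)
  -- the exponent
  obtain ⟨c₁, hc₁⟩ : ∃ c₁, c₁ = c ((p : ℝ) ^ (m + n * K) * V₁) := ⟨_, rfl⟩
  have hc2 := sys.sc.hc N ((p : ℝ) ^ (m + n * K) * V₁ / (p : ℝ) ^ (n * N)) (by positivity) hlt
  have e1 : (p : ℝ) ^ (n * N) * ((p : ℝ) ^ (m + n * K) * V₁ / (p : ℝ) ^ (n * N)) =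
      (p : ℝ) ^ (m + n * K) * V₁ := by field_simp
  rw [e1, ← hcnt, ← hc₁] at hc2
  have hc3 : c₁ ≤ d * N := by
    have : p ^ c₁ ∣ p ^ (d * N) := ⟨cnt, hc2.symm⟩
    exact (Nat.pow_dvd_pow_iff_le_right (by omega)).mp this
  have hc4 : cnt = p ^ (d * N - c₁) := by
    apply Nat.eq_of_mul_eq_mul_left (pow_pos (by omega : 0 < p) c₁)
    rw [hc2, ← pow_add]
    congr 1
    omega
  have hB := (hyo2 (h * N + (d * N - c₁) + i) (fun ω hω => ⟨by rw [← hL]; exact hyn ω hω, by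
    have := hyr ω hω
    simp only [ζ, y] at this
    rw [hc4, ← pow_add, ← pow_mul, ← pow_add] at this
    exact this⟩)).2
  rw [← hc₁]
  obtain ⟨cv, hcv⟩ : ∃ cv, cv = c ((p : ℝ) ^ (m + n * K) * v) := ⟨_, rfl⟩
  rw [← hcv] at hB ⊢
  have hB' : (n : ℤ) ∣ ((h * N + (d * N - c₁) + i + cv : ℕ) : ℤ) := by exact_mod_cast hB
  have e5 : (i : ℤ) + cv - c₁ = ((h * N + (d * N - c₁) + i + cv : ℕ) : ℤ) - n * N := by
    rw [← hhd]
    push_cast [Nat.cast_sub hc3]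
    ring
  rw [e5]
  exact dvd_sub hB' (dvd_mul_right _ _)

end Crest.Agent.LT3FIN2
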