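/- rid 227 (S0351): FIN3. -/
import Crest.Agent.LT3Spec3

set_option autoImplicit false

namespace Crest.Agent.LT3FIN3
open Crest.Agent.LT3 Crest.LubinTate

section Shift

variable {p n : ℕ} {C : Type} [NontriviallyNormedField C] [CompleteSpace C] [IsUltrametricDist C]
  {G : FormalGroup C} {T : ℕ → Finset C}

theorem shift_isSeq (AG : ApiG) (hG : IG G)
    (hT : ∀ N t, t ∈ T N ↔ ‖t‖ < 1 ∧ gmul G (p ^ N) t = 0)
    {τ : ℕ → C} (hτ : IsSeq p G T τ) (l : ℕ) : IsSeq p G T (shift l τ) := by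
  have h0 : ∀ N, (0 : C) ∈ T N := fun N => (hT N 0).mpr ⟨by simp, AG.mul_zero hG _⟩
  refine ⟨?_, ?_, ?_⟩
  · simp only [shift, Nat.zero_sub]; exact hτ.zero
  · intro N
    simp only [shift]
    by_cases h : l ≤ N
    · have h1 := (hT _ _).mp (hτ.mem (N - l))
      rw [hT]
      refine ⟨h1.1, ?_⟩
      have h2 : p ^ N = p ^ l * p ^ (N - l) := by rw [← pow_add]; congr 1; omega
      rw [h2, AG.mul_mul hG _ _ h1.1, h1.2, AG.mul_zero hG]
    · have : N - l = 0 := by omega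
      rw [this, hτ.zero]; exact h0 N
  · intro N
    simp only [shift]
    by_cases h : l ≤ N
    · have : N + 1 - l = (N - l) + 1 := by omega
      rw [this]; exact hτ.step _
    · have h1 : N + 1 - l = 0 := by omega
      have h2 : N - l = 0 := by omega
      rw [h1, h2, hτ.zero]; exact AG.mul_zero hG _

omit [CompleteSpace C] [IsUltrametricDist C] in
theorem shift_hasV (hp : 0 < p) {τ : ℕ → C} {V : ℝ} (hτ : HasV p n τ V) (l : ℕ) :
    HasV p n (shift l τ) ((p : ℝ) ^ (n * l) * V) := by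
  obtain ⟨N₀, h⟩ := hτ
  refine ⟨N₀ + l, fun N hN => ?_⟩
  obtain ⟨h1, h2⟩ := h (N - l) (by omega)
  refine ⟨h1, ?_⟩
  simp only [shift]
  rw [h2]
  have hp' : (p : ℝ) ≠ 0 := by positivity
  have h3 : (p : ℝ) ^ (n * N) = (p : ℝ) ^ (n * l) * (p : ℝ) ^ (n * (N - l)) := by
    rw [← pow_add]; congr 1
    rw [← mul_add]; congr 1; omega
  rw [h3]
  field_simp

end Shift

theorem sum_castLE {M : Type} [AddCommMonoid M] {r' d : ℕ} (hr : r' ≤ d) (f : Fin d → M)
    (hf : ∀ l : Fin d, r' ≤ l.1 → f l = 0) : ∑ i : Fin r', f (Fin.castLE hr i) = ∑ l, f l := by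
  refine Finset.sum_of_injOn (Fin.castLE hr) ?_ ?_ ?_ ?_
  · intro a _ b _ hab
    exact Fin.castLE_injective hr hab
  · intro a _; simp
  · intro l _ hl
    apply hf
    by_contra hcon
    push Not at hcon
    apply hl
    exact ⟨⟨l.1, hcon⟩, by simp, rfl⟩
  · intro i _; rfl

theorem norm_sum_le' {C : Type} [NormedField C] [IsUltrametricDist C] {ι : Type}
    (s : Finset ι) (f : ι → C) (M : ℝ) (hM : 0 ≤ M) (h : ∀ i ∈ s, ‖f i‖ ≤ M) :
    ‖∑ i ∈ s, f i‖ ≤ M := IsUltrametricDist.norm_sum_le_of_forall_le_of_nonneg hM h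

theorem norm_sum_lt' {C : Type} [NormedField C] [IsUltrametricDist C] {ι : Type}
    (s : Finset ι) (f : ι → C) (M : ℝ) (hM : 0 < M) (h : ∀ i ∈ s, ‖f i‖ < M) :
    ‖∑ i ∈ s, f i‖ < M := by
  classical
  induction s using Finset.induction_on with
  | empty => simpa using hM
  | insert a s ha ih =>
    rw [Finset.sum_insert ha]
    refine lt_of_le_of_lt (IsUltrametricDist.norm_add_le_max _ _) (max_lt ?_ ?_)
    · exact h a (Finset.mem_insert_self a s)
    · exact ih fun i hi => h i (Finset.mem_insert_of_mem hi)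

theorem norm_sub_le'' {C : Type} [NormedField C] [IsUltrametricDist C] {a b c : C} {M : ℝ}
    (h1 : ‖a - b‖ ≤ M) (h2 : ‖b - c‖ ≤ M) : ‖a - c‖ ≤ M := by
  have : a - c = (a - b) + (b - c) := by ring
  rw [this]
  exact (IsUltrametricDist.norm_add_le_max _ _).trans (max_le h1 h2)

theorem main (AG : ApiG) (hLEMM : Spec3.LEMM) (hYR : Spec3.YR) (hYY : Spec3.YY1)
    (hAs : Spec3.ASYM) : Spec3.FIN3 := by
  classical
  intro p hp n h d r C _ _ _ _ _ Γ F ι w x i0 ρ T σ S c V₀ hS r' τ hB τ' l hl hτ' hτ'1 hV'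
    hInd cM D' hcM hD'0 hD'ne hApp
  -- basic data
  have hG := hS.ts.ig
  have hT := hS.ts.mem
  have hp0 : 0 < p := hp.out.pos
  have hp1 : 1 < p := hp.out.one_lt
  have hpR : (0 : ℝ) < (p : ℝ) := by exact_mod_cast hp0
  have hσ := hS.sc.σpos
  have hσ1 : 0 < (p : ℝ) ^ n * σ := by positivity
  set V1 : ℝ := (p : ℝ) ^ n * σ with hV1
  set v : ℝ := (p : ℝ) ^ (n * l) * V1 with hv
  have hv0 : 0 < v := by positivity
  have hnd := hS.st.hn
  have hh := hS.st.hh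
  have hd := hS.st.hd
  obtain ⟨hAs1, _, _, hAs4⟩ := hAs p n h d C (F.map x) (w i0) T σ S c V₀ hnd hh hd hS.sc
  obtain ⟨B, KB, hKB⟩ := hAs4 V1 l hσ1
  -- the constant of `[p^l]` at zero
  have h0T : (0 : C) ∈ T l := (hT l 0).mpr ⟨by simp, AG.mul_zero hG _⟩
  obtain ⟨cl, hcl, hlin⟩ := hS.ts.lin l 0 h0T
  set ql : ℕ := p ^ (h * l) with hql
  have hql0 : 0 < ql := pow_pos hp0 _
  have hlin' : ∀ z : C, ‖z‖ < 1 → ‖gmul (F.map x) (p ^ l) z - cl * z ^ ql‖ ≤ ‖z ^ ql‖ ^ 2 := by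
    intro z hz
    have := hlin z hz
    rw [zero_pow hql0.ne', sub_zero] at this
    exact this
  -- new coefficients
  let D2 : Fin r' → C := fun i => cM * D' (Fin.castLE hB.le i) ^ ql / cl
  let fam : Fin (r' + 1) → ℕ → C :=
    Fin.cons τ' (fun i : Fin r' => shift l (τ (Fin.castLE hB.le i)))
  have hfam0 : fam 0 = τ' := rfl
  have hfamS : ∀ i : Fin r', fam i.succ = shift l (τ (Fin.castLE hB.le i)) := fun i => rfl
  let DD : Fin (r' + 1) → C := Fin.cons 1 (fun i => - D2 i)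
  have hDD0 : DD 0 = 1 := rfl
  have hDDS : ∀ i : Fin r', DD i.succ = - D2 i := fun i => rfl
  have hfamSeq : ∀ i, IsSeq p (F.map x) T (fam i) := by
    intro i
    refine Fin.cases ?_ (fun j => ?_) i
    · exact hτ'
    · exact shift_isSeq AG hG hT (hB.seq _) l
  have hfamV : ∀ i, HasV p n (fam i) v := by
    intro i
    refine Fin.cases ?_ (fun j => ?_) i
    · exact hV'
    · rw [hfamS]
      exact shift_hasV hp0 (hB.dom _ (by simp)) l
  -- maximum of coefficients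
  obtain ⟨M, hM1, hMle, hMatt⟩ : ∃ M : ℝ, 1 ≤ M ∧ (∀ i, ‖DD i‖ ≤ M) ∧ ∃ i, ‖DD i‖ = M := by
    obtain ⟨i, _, hi⟩ := Finset.exists_max_image (Finset.univ : Finset (Fin (r' + 1)))
      (fun i => ‖DD i‖) Finset.univ_nonempty
    refine ⟨‖DD i‖, ?_, fun j => hi j (Finset.mem_univ _), i, rfl⟩
    have := hi 0 (Finset.mem_univ _)
    simpa [hDD0] using this
  have hM0 : 0 < M := by linarith
  obtain ⟨K0, hK0⟩ := hLEMM p n h d C (F.map x) (w i0) T σ S c V₀ hnd hS.ts hS.sc r' fam v hv0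
    hfamSeq hfamV (hInd hB.le) DD M hM0 hMle hMatt
  -- a bound for auxiliary coefficients
  obtain ⟨M2, hM20, hM2a, hM2b⟩ : ∃ M2 : ℝ, 0 < M2 ∧ (∀ i : Fin r', ‖D2 i‖ ≤ M2) ∧
      (∀ i : Fin r', ‖cM * D' (Fin.castLE hB.le i) ^ ql‖ ≤ M2) := by
    refine ⟨1 + ∑ i : Fin r', ‖D2 i‖ + ∑ i : Fin r', ‖cM * D' (Fin.castLE hB.le i) ^ ql‖,
      ?_, ?_, ?_⟩
    · have h1 : 0 ≤ ∑ i : Fin r', ‖D2 i‖ := Finset.sum_nonneg fun _ _ => norm_nonneg _
      have h2 : 0 ≤ ∑ i : Fin r', ‖cM * D' (Fin.castLE hB.le i) ^ ql‖ :=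
        Finset.sum_nonneg fun _ _ => norm_nonneg _
      linarith
    · intro i
      have h1 : ‖D2 i‖ ≤ ∑ i : Fin r', ‖D2 i‖ :=
        Finset.single_le_sum (f := fun i => ‖D2 i‖) (fun _ _ => norm_nonneg _) (Finset.mem_univ i)
      have h2 : 0 ≤ ∑ i : Fin r', ‖cM * D' (Fin.castLE hB.le i) ^ ql‖ :=
        Finset.sum_nonneg fun _ _ => norm_nonneg _
      linarith
    · intro i
      have h1 : 0 ≤ ∑ i : Fin r', ‖D2 i‖ := Finset.sum_nonneg fun _ _ => norm_nonneg _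
      have h2 : ‖cM * D' (Fin.castLE hB.le i) ^ ql‖ ≤
          ∑ i : Fin r', ‖cM * D' (Fin.castLE hB.le i) ^ ql‖ :=
        Finset.single_le_sum (f := fun i : Fin r' => ‖cM * D' (Fin.castLE hB.le i) ^ ql‖)
          (fun _ _ => norm_nonneg _) (Finset.mem_univ i)
      linarith
  obtain ⟨KS, hKS⟩ := hAs1 V1 hσ1 (|B + Real.log (2 * M2)|)
  -- eta
  obtain ⟨Kη, hKη⟩ := hApp (1 / (2 * (1 + Real.exp B))) (by positivity)
  obtain ⟨Kmv, hKmv⟩ := hS.mv
  let K : ℕ := max (max (max K0 KB) (max KS Kη)) Kmv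
  have hKK0 : K0 ≤ K := le_trans (le_trans (le_max_left _ _) (le_max_left _ _)) (le_max_left _ _)
  have hKKB : KB ≤ K := le_trans (le_trans (le_max_right _ _) (le_max_left _ _)) (le_max_left _ _)
  have hKKS : KS ≤ K := le_trans (le_trans (le_max_left _ _) (le_max_right _ _)) (le_max_left _ _)
  have hKKη : Kη ≤ K := le_trans (le_trans (le_max_right _ _) (le_max_right _ _)) (le_max_left _ _)
  have hKKmv : Kmv ≤ K := le_max_right _ _
  obtain ⟨m, hm1, hmn, hNBV, NL, hNL⟩ := hK0 K hKK0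
  obtain ⟨w', x', ψ, hMove⟩ := hKmv K hKKmv m 1
  have hSv := hKB K hKKB m hmn
  have hS1 := hKS K hKKS m hmn
  set S1 : ℝ := S ((p : ℝ) ^ (m + n * K) * V1) with hS1def
  set Sv : ℝ := S ((p : ℝ) ^ (m + n * K) * v) with hSvdef
  -- norms
  obtain ⟨Nη, hNη⟩ := hKη K m hKKη hmn 1 w' x' ψ one_ne_zero hMove
  -- YR for pairs
  have hYRi : ∀ i : Fin (r' + 1), ∃ N₀ : ℕ, ∀ N, N₀ ≤ N →
      ‖gmul (F.map x) (p ^ N) (ψ (τ' N))‖ = Real.exp (-Sv) ∧
      ‖gmul (F.map x) (p ^ N) (ψ (fam i N)) / gmul (F.map x) (p ^ N) (ψ (τ' N)) -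
        (fam i N / τ' N) ^ (p ^ (m + n * K) * (p ^ (h * N) *
              cntf T N ((p : ℝ) ^ (m + n * K) * v / (p : ℝ) ^ (n * N))))‖ < 1 := by
    intro i
    obtain ⟨N₀, hN₀⟩ := hYR p n h d r C Γ F ι w x i0 ρ T σ S c V₀ hS K m 1 1 one_ne_zero
      one_ne_zero w' x' ψ hMove w' x' ψ hMove (fam i) τ' v hv0 (hfamSeq i) hτ' (hfamV i) hV'
    refine ⟨N₀, fun N hN => ?_⟩
    obtain ⟨_, h2⟩ := hN₀ N hN
    obtain ⟨_, h4, h5⟩ := h2 hNBV
    refine ⟨h4, ?_⟩
    rw [map_one, div_one, one_pow, one_mul] at h5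
    exact h5
  choose NY hNY using hYRi
  have hYRd : ∀ i : Fin r', ∃ N₀ : ℕ, ∀ N, N₀ ≤ N →
      ‖gmul (F.map x) (p ^ N) (ψ (τ (Fin.castLE hB.le i) N))‖ ≤ Real.exp (-S1) := by
    intro i
    obtain ⟨N₀, hN₀⟩ := hYR p n h d r C Γ F ι w x i0 ρ T σ S c V₀ hS K m 1 1 one_ne_zero
      one_ne_zero w' x' ψ hMove w' x' ψ hMove (τ (Fin.castLE hB.le i)) (τ (Fin.castLE hB.le i))
      V1 hσ1 (hB.seq _) (hB.seq _) (hB.dom _ (by simp)) (hB.dom _ (by simp))
    exact ⟨N₀, fun N hN => (hN₀ N hN).1⟩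
  choose ND hND using hYRd
  -- epsilon
  have hρ0 : 0 ≤ ρ := (norm_nonneg _).trans (hS.hρ i0)
  set ε : ℝ := ρ ^ (K + 1) with hε
  have hε0 : 0 ≤ ε := pow_nonneg hρ0 _
  have hε1 : ε < 1 := pow_lt_one₀ hρ0 hS.hρ1 (by omega)
  obtain ⟨Nt, hNt⟩ : ∃ Nt : ℕ, ∀ N, Nt ≤ N → ε ^ N ≤ min 1 (Real.exp (-Sv) / (2 * M2)) := by
    have h1 : Filter.Tendsto (fun N : ℕ => ε ^ N) Filter.atTop (nhds 0) :=
      tendsto_pow_atTop_nhds_zero_of_lt_one hε0 hε1
    have h2 : 0 < min 1 (Real.exp (-Sv) / (2 * M2)) := by positivity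
    have h3 := (h1.eventually (gt_mem_nhds h2))
    rw [Filter.eventually_atTop] at h3
    obtain ⟨Nt, h4⟩ := h3
    exact ⟨Nt, fun N hN => (h4 N hN).le⟩
  -- choose N
  let N : ℕ := max NL (max Nη ((∑ i, NY i) + (∑ i, ND i) + l + Nt))
  have hN1 : NL ≤ N := le_max_left _ _
  have hN2 : Nη ≤ N := le_trans (le_max_left _ _) (le_max_right _ _)
  have hN3 : (∑ i, NY i) + (∑ i, ND i) + l + Nt ≤ N :=
    le_trans (le_max_right _ _) (le_max_right _ _)
  have hNYi : ∀ i, NY i ≤ N := fun i => by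
    have := Finset.single_le_sum (f := NY) (fun _ _ => Nat.zero_le _) (Finset.mem_univ i)
    omega
  have hNDi : ∀ i, ND i ≤ N - l := fun i => by
    have := Finset.single_le_sum (f := ND) (fun _ _ => Nat.zero_le _) (Finset.mem_univ i)
    omega
  have hlN : l ≤ N := by omega
  have hNtN : Nt ≤ N - l := by omega
  obtain ⟨_, hLN⟩ := hNL N hN1
  have hA := hNη N hN2
  have hYτ' : ‖gmul (F.map x) (p ^ N) (ψ (τ' N))‖ = Real.exp (-Sv) := (hNY 0 N (hNYi 0)).1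
  set Yτ' : C := gmul (F.map x) (p ^ N) (ψ (τ' N)) with hYτ'def
  have hYne : Yτ' ≠ 0 := by
    intro h0; rw [h0, norm_zero] at hYτ'
    exact (Real.exp_pos _).ne hYτ'
  let Yf : Fin (r' + 1) → C := fun i => gmul (F.map x) (p ^ N) (ψ (fam i N))
  -- lower bound
  have hlow : Real.exp (-Sv) ≤ ‖∑ i, DD i * Yf i‖ := by
    let R : Fin (r' + 1) → C := fun i => (fam i N / τ' N) ^ (p ^ (m + n * K) * (p ^ (h * N) *
              cntf T N ((p : ℝ) ^ (m + n * K) * v / (p : ℝ) ^ (n * N))))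
    have h1 : ‖∑ i, DD i * R i‖ = M := hLN
    have h2 : ‖∑ i, DD i * (Yf i / Yτ' - R i)‖ < M := by
      apply norm_sum_lt' _ _ _ hM0
      intro i _
      rw [norm_mul]
      have h3 := (hNY i N (hNYi i)).2
      have h4 := hMle i
      have h5 : ‖Yf i / Yτ' - R i‖ < 1 := h3
      rcases eq_or_lt_of_le (norm_nonneg (DD i)) with h6 | h6
      · rw [← h6, zero_mul]; exact hM0
      · calc ‖DD i‖ * ‖Yf i / Yτ' - R i‖ < ‖DD i‖ * 1 := by
              exact mul_lt_mul_of_pos_left h5 h6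
          _ ≤ M := by rw [mul_one]; exact h4
    have h3 : ∑ i, DD i * Yf i = Yτ' * (∑ i, DD i * (Yf i / Yτ' - R i) + ∑ i, DD i * R i) := by
      rw [← Finset.sum_add_distrib, Finset.mul_sum]
      refine Finset.sum_congr rfl fun i _ => ?_
      field_simp
      ring
    rw [h3, norm_mul, hYτ']
    have h4 : ‖∑ i, DD i * (Yf i / Yτ' - R i) + ∑ i, DD i * R i‖ = M := by
      rw [← h1]
      rw [IsUltrametricDist.norm_add_eq_max_of_norm_ne_norm (by rw [h1]; exact h2.ne)]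
      rw [h1]
      exact max_eq_right h2.le
    rw [h4]
    have := Real.exp_pos (-Sv)
    nlinarith
  -- rewriting the sum
  have hsum : ∑ i, DD i * Yf i = Yτ' - ∑ i : Fin r', D2 i *
      gmul (F.map x) (p ^ l) (gmul (F.map x) (p ^ (N - l)) (ψ (τ (Fin.castLE hB.le i) (N - l)))) := by
    rw [Fin.sum_univ_succ]
    have h1 : DD 0 * Yf 0 = Yτ' := by
      change 1 * gmul (F.map x) (p ^ N) (ψ (τ' N)) = Yτ'
      rw [one_mul]
    rw [h1, sub_eq_add_neg, ← Finset.sum_neg_distrib]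
    congr 1
    refine Finset.sum_congr rfl fun i _ => ?_
    rw [hDDS, neg_mul]
    congr 2
    change gmul (F.map x) (p ^ N) (ψ (τ (Fin.castLE hB.le i) (N - l))) = _
    have h2 : p ^ N = p ^ l * p ^ (N - l) := by rw [← pow_add]; congr 1; omega
    have h3 : ‖ψ (τ (Fin.castLE hB.le i) (N - l))‖ < 1 := by
      have h4 := ((hT _ _).mp ((hB.seq (Fin.castLE hB.le i)).mem (N - l))).1
      rw [hMove.norm _ h4]; exact h4
    rw [h2, AG.mul_mul hG _ _ h3]
  -- upper bound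
  have hhalf : 0 < Real.exp (-Sv) / 2 := by positivity
  have hup1 : ‖Yτ' - cM * (∑ l', D' l' * gmul (F.map x) (p ^ N) (ψ (τ l' N))) ^ ql‖ ≤
      Real.exp (-Sv) / 2 := by
    refine hA.trans ?_
    rw [← hSvdef, ← hS1def]
    have h1 : Real.exp (-((p : ℝ) ^ (h * l) * S1)) = Real.exp B * Real.exp (-Sv) := by
      rw [← Real.exp_add]
      congr 1
      rw [hSv]; ring
    rw [h1]
    have h2 : 0 < 1 + Real.exp B := by positivity
    rw [div_mul_eq_mul_div, one_mul, div_le_iff₀ (by positivity)]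
    apply le_of_eq
    ring
  have hexp1 : M2 * Real.exp (-S1) ^ (2 * ql) ≤ Real.exp (-Sv) / 2 := by
    have hqlR : ((ql : ℕ) : ℝ) = (p : ℝ) ^ (h * l) := by rw [hql]; push_cast; rfl
    have hql1 : (1 : ℝ) ≤ (ql : ℝ) := by exact_mod_cast hql0
    have h1 : B + Real.log (2 * M2) ≤ (ql : ℝ) * S1 := by
      have h2 : B + Real.log (2 * M2) ≤ S1 := (le_abs_self _).trans hS1
      have h3 : 0 ≤ S1 := (abs_nonneg _).trans hS1
      nlinarith
    have h4 : Real.exp (-S1) ^ (2 * ql) = Real.exp (-(2 * (ql : ℝ) * S1)) := by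
      rw [← Real.exp_nat_mul]
      congr 1
      push_cast
      ring
    rw [h4, hSv, ← hqlR]
    have h5 : M2 = Real.exp (Real.log (2 * M2)) / 2 := by
      rw [Real.exp_log (by positivity)]; ring
    rw [h5]
    rw [div_mul_eq_mul_div, ← Real.exp_add]
    apply div_le_div_of_nonneg_right _ (by norm_num)
    apply Real.exp_le_exp.mpr
    nlinarith
  have hup2 : ‖cM * (∑ l', D' l' * gmul (F.map x) (p ^ N) (ψ (τ l' N))) ^ ql -
      ∑ i : Fin r', D2 i * gmul (F.map x) (p ^ l)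
        (gmul (F.map x) (p ^ (N - l)) (ψ (τ (Fin.castLE hB.le i) (N - l))))‖ ≤
      Real.exp (-Sv) / 2 := by
    have h1 : cM * (∑ l', D' l' * gmul (F.map x) (p ^ N) (ψ (τ l' N))) ^ ql =
        ∑ i : Fin r', cM * (D' (Fin.castLE hB.le i) *
          gmul (F.map x) (p ^ N) (ψ (τ (Fin.castLE hB.le i) N))) ^ ql := by
      rw [hql, sum_pow_char_pow, Finset.mul_sum]
      symm
      apply sum_castLE hB.le (fun l' => cM * (D' l' *
          gmul (F.map x) (p ^ N) (ψ (τ l' N))) ^ (p ^ (h * l)))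
      intro l' hl'
      rw [hD'0 l' hl', zero_mul, zero_pow hql0.ne', mul_zero]
    rw [h1, ← Finset.sum_sub_distrib]
    apply norm_sum_le' _ _ _ hhalf.le
    intro i _
    set y : C := gmul (F.map x) (p ^ (N - l)) (ψ (τ (Fin.castLE hB.le i) (N - l))) with hy
    set z : C := gmul (F.map x) (p ^ N) (ψ (τ (Fin.castLE hB.le i) N)) with hz
    have hτball := ((hT _ _).mp ((hB.seq (Fin.castLE hB.le i)).mem (N - l))).1
    have hyS : ‖y‖ ≤ Real.exp (-S1) := hND i (N - l) (hNDi i)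
    have hy1 : ‖y‖ < 1 := by
      have h3 : ‖ψ (τ (Fin.castLE hB.le i) (N - l))‖ < 1 := by
        rw [hMove.norm _ hτball]; exact hτball
      exact lt_of_le_of_lt (AG.mul_norm_le hG _ h3) h3
    have hzy : ‖z - y‖ ≤ min 1 (Real.exp (-Sv) / (2 * M2)) := by
      have h3 := hYY p n h d r C Γ F ι w x i0 ρ T σ S c V₀ hS K m 1 w' x' ψ hMove
        (τ (Fin.castLE hB.le i)) (hB.seq _) (N - l) N (Nat.sub_le _ _) ε hε0 hMove.near
      refine h3.trans ((pow_le_pow_of_le_one hε0 hε1.le ?_).trans (hNt (N - l) hNtN))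
      calc N - l ≤ p ^ (N - l) := (Nat.lt_pow_self hp1).le
        _ ≤ p ^ (h * (N - l)) := Nat.pow_le_pow_right hp0 (Nat.le_mul_of_pos_left _ (by omega))
    have hdiff : cM * (D' (Fin.castLE hB.le i) * z) ^ ql - D2 i * gmul (F.map x) (p ^ l) y =
        cM * D' (Fin.castLE hB.le i) ^ ql * (z - y) ^ ql -
          D2 i * (gmul (F.map x) (p ^ l) y - cl * y ^ ql) := by
      have h4 : (z - y) ^ ql = z ^ ql - y ^ ql := by rw [hql, sub_pow_char_pow]
      have h5 : D2 i * cl = cM * D' (Fin.castLE hB.le i) ^ ql := by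
        simp only [D2]; field_simp
      rw [h4, mul_pow, mul_sub, mul_sub, ← mul_assoc (D2 i) cl, h5]
      ring
    rw [hdiff, sub_eq_add_neg]
    refine (IsUltrametricDist.norm_add_le_max _ _).trans (max_le ?_ ?_)
    · rw [norm_mul, norm_pow]
      have h6 : ‖z - y‖ ^ ql ≤ Real.exp (-Sv) / (2 * M2) := by
        have h7 : ‖z - y‖ ≤ 1 := hzy.trans (min_le_left _ _)
        calc ‖z - y‖ ^ ql ≤ ‖z - y‖ ^ 1 := pow_le_pow_of_le_one (norm_nonneg _) h7 hql0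
          _ ≤ _ := by rw [pow_one]; exact hzy.trans (min_le_right _ _)
      calc ‖cM * D' (Fin.castLE hB.le i) ^ ql‖ * ‖z - y‖ ^ ql
          ≤ M2 * (Real.exp (-Sv) / (2 * M2)) :=
            mul_le_mul (hM2b i) h6 (by positivity) hM20.le
        _ = Real.exp (-Sv) / 2 := by field_simp
    · rw [norm_neg, norm_mul]
      have h6 : ‖gmul (F.map x) (p ^ l) y - cl * y ^ ql‖ ≤ Real.exp (-S1) ^ (2 * ql) := by
        refine (hlin' y hy1).trans ?_
        rw [norm_pow, ← pow_mul, mul_comm ql 2]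
        exact pow_le_pow_left₀ (norm_nonneg _) hyS _
      calc ‖D2 i‖ * ‖gmul (F.map x) (p ^ l) y - cl * y ^ ql‖
          ≤ M2 * Real.exp (-S1) ^ (2 * ql) := mul_le_mul (hM2a i) h6 (norm_nonneg _) hM20.le
        _ ≤ _ := hexp1
  have hup := norm_sub_le'' hup1 hup2
  rw [← hsum] at hup
  have := Real.exp_pos (-Sv)
  linarith

end Crest.Agent.LT3FIN3
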