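/- rid 227 (S0351): module FINAL0 (a stable prime is closed under the derivations). -/
import Mathlib
import Crest.Agent.LT3Spec4
import Crest.Agent.LT3END

set_option autoImplicit false
open Crest.LubinTate
open Crest Crest.GeometryTopology
open Filter Topology

namespace Crest.Agent.LT3FINAL0

open Crest.Agent.LT3

/-- coefficients of `a +_Γ b` below the order of `b`. -/
theorem coeff_fadd_of_OG (hA : ApiA) {R : Type} [CommRing R] (G : FormalGroup R)
    {a b : PowerSeries R} {M : ℕ} (hM : 1 ≤ M) (ha : ZC a)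
    (hb : LT3END.OG M (b : MvPowerSeries Unit R)) {i : ℕ} (hi : i < M) :
    PowerSeries.coeff i (fadd G a b : PowerSeries R) = PowerSeries.coeff i a := by
  have h1 := LT3END.fadd_add_right G (x := (a : MvPowerSeries Unit R)) (y := 0) (e := b) hM
    (LT3END.OG.of_zc ha) (LT3END.OG.zero _) hb
  rw [zero_add, hA.fadd_zero G ha] at h1
  have h2 := LT3END.coeff_of_OG (φ := fadd G a b - a - b) h1 i (by omega)
  have h3 := LT3END.coeff_of_OG hb i hi
  rw [map_sub, map_sub, h3, sub_zero, sub_eq_zero] at h2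
  exact h2

/-- linear algebra. -/
theorem exists_Lam {K : Type} [Field K] {m n : ℕ} (hmn : m + 1 = n) (D : Fin m → K)
    (hD : ∃ i, D i ≠ 0) (z : Fin n → K) (A : Fin n → Fin m → K) :
    ∃ (Λ : Fin n → K) (κ : K), (∃ s, Λ s ≠ 0) ∧ ∑ s, Λ s * z s = 0 ∧
      ∀ δ : Fin m → K, ∑ s, Λ s * ∑ i, A s i * δ i = κ * ∑ i, D i * δ i := by
  let Ψ : ((Fin n → K) × K) →ₗ[K] (K × (Fin m → K)) :=
    { toFun := fun u => (∑ s, u.1 s * z s, fun i => ∑ s, u.1 s * A s i - u.2 * D i)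
      map_add' := by
        intro u v
        ext
        · simp [add_mul, Finset.sum_add_distrib]
        · simp only [Prod.fst_add, Pi.add_apply, add_mul, Finset.sum_add_distrib, Prod.snd_add]
          ring
      map_smul' := by
        intro c u
        ext
        · simp [mul_assoc, Finset.mul_sum]
        · simp only [Prod.smul_fst, Pi.smul_apply, smul_eq_mul, Prod.smul_snd, RingHom.id_apply,
            mul_assoc, mul_sub, Finset.mul_sum] }
  have hker : LinearMap.ker Ψ ≠ ⊥ := by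
    apply LinearMap.ker_ne_bot_of_finrank_lt
    simp
    omega
  obtain ⟨u, hu, hu0⟩ := Submodule.exists_mem_ne_zero_of_ne_bot hker
  rw [LinearMap.mem_ker] at hu
  have h1 : ∑ s, u.1 s * z s = 0 := congrArg Prod.fst hu
  have h2 : ∀ i, ∑ s, u.1 s * A s i - u.2 * D i = 0 := fun i => congrFun (congrArg Prod.snd hu) i
  refine ⟨u.1, u.2, ?_, h1, ?_⟩
  · by_contra hcon
    push Not at hcon
    obtain ⟨i, hi⟩ := hD
    have h3 := h2 i
    simp only [hcon, zero_mul, Finset.sum_const_zero, zero_sub, neg_eq_zero, mul_eq_zero] at h3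
    apply hu0
    ext s
    · exact hcon s
    · exact h3.resolve_right hi
  · intro δ
    have h3 : ∀ s, u.1 s * ∑ i, A s i * δ i = ∑ i, u.1 s * A s i * δ i := by
      intro s
      rw [Finset.mul_sum]
      exact Finset.sum_congr rfl fun i _ => by ring
    simp_rw [h3]
    rw [Finset.sum_comm, Finset.mul_sum]
    refine Finset.sum_congr rfl fun i _ => ?_
    rw [← Finset.sum_mul, sub_eq_zero.mp (h2 i)]
    ring

/-- a lift of a series over `k` to a series over `E`. -/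
theorem exists_lift (p : ℕ) [Fact p.Prime] (n : ℕ) {c : PowerSeries (GaloisField p n)}
    (hc : ZC c) : ∃ c' : PowerSeries (LTRing p n), ZC c' ∧
      PowerSeries.map (LTRing.residue p n) c' = c := by
  refine ⟨PowerSeries.mk fun i => MvPowerSeries.C
    (WittVector.teichmuller p (PowerSeries.coeff i c)), ?_, ?_⟩
  · have h0 : PowerSeries.coeff 0 c = 0 := by
      rw [PowerSeries.coeff_zero_eq_constantCoeff]; exact hc
    change PowerSeries.constantCoeff _ = _
    rw [← PowerSeries.coeff_zero_eq_constantCoeff_apply, PowerSeries.coeff_mk, h0,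
      WittVector.teichmuller_zero, map_zero]
  · ext i
    rw [PowerSeries.coeff_map, PowerSeries.coeff_mk]
    unfold LTRing.residue
    rw [RingHom.comp_apply, MvPowerSeries.constantCoeff_C]
    exact WittVector.teichmuller_coeff_zero p _

theorem pow_mem_mE {p : ℕ} [Fact p.Prime] {n : ℕ}
    {φ : LTRing p n →ₐ[WittVector p (GaloisField p n)] LTRing p n}
    {I : Ideal (LTRing p n)} (h : ∀ f ∈ I, φ f ∈ I) (k : ℕ) : ∀ f ∈ I, (φ ^ k) f ∈ I := by
  induction k with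
  | zero => intro f hf; exact hf
  | succ k ih =>
    intro f hf
    rw [pow_succ']
    exact h _ (ih f hf)

set_option maxHeartbeats 2000000 in
theorem main (hA : ApiA) (hEND : LT3.Spec.END) (hW : ApiW) (hGB : ApiGB)
    (hPER : LT3.Spec4.PER) (hLNZ : LT3.Spec4.LNZ) (hLOWER : LT3.Spec4.LOWER)
    (hRELAT : LT3.Spec4.RELAT) (hGAUSS : LT3.Spec4.GAUSS) (hITER : LT3.Spec4.ITER) :
    LT3.Spec4.FINAL0 := by
  intro p _ n Γ H hn hHc hΓc hΓ hres P hmv C _ _ _ _ _ ι w x hx hker F hF i₀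
  by_contra hcon
  have hm : (n - 1) + 1 = n := by omega
  set D : Fin (n - 1) → C := fun i => x (MvPowerSeries.pderiv _ i F) with hD
  have hDi : D i₀ ≠ 0 := fun h0 => hcon ((hker _).mp h0)
  have hp2 : p.Prime := Fact.out
  have hpC : (p : C) ≠ 0 := Nat.cast_ne_zero.mpr hp2.ne_zero
  have hp0 : 0 < ‖(p : C)‖ := norm_pos_iff.mpr hpC
  have hp1 : ‖(p : C)‖ < 1 := hx.hp
  -- radii
  obtain ⟨r₀, hpr₀, hr₀1, hwr₀⟩ : ∃ r₀ : ℝ, ‖(p : C)‖ ≤ r₀ ∧ r₀ < 1 ∧ ∀ i, ‖w i‖ ≤ r₀ := by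
    have hne : (Finset.univ : Finset (Fin (n - 1))).Nonempty := ⟨i₀, Finset.mem_univ _⟩
    refine ⟨max ‖(p : C)‖ (Finset.univ.sup' hne fun i => ‖w i‖),
      le_max_left _ _, max_lt hp1 ?_, fun i => ?_⟩
    · exact (Finset.sup'_lt_iff hne).mpr fun i _ => hx.hw i
    · exact (Finset.le_sup' (fun i => ‖w i‖) (Finset.mem_univ i)).trans (le_max_right _ _)
  set r : ℝ := (r₀ + 1) / 2 with hr
  have hr₀r : r₀ < r := by rw [hr]; linarith
  have hr1 : r < 1 := by rw [hr]; linarith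
  have hr0 : 0 < r := by linarith
  have hpr : ‖(p : C)‖ ≤ r := by linarith
  -- the level `K`
  obtain ⟨K₀, hK₀⟩ := hmv
  obtain ⟨k, hk⟩ := exists_pow_lt_of_lt_one hp0 hr1
  set K : ℕ := max (max K₀ 2) k with hK
  have hKK₀ : K₀ ≤ K := (le_max_left _ _).trans (le_max_left _ _)
  have hK2 : 2 ≤ K := (le_max_right _ _).trans (le_max_left _ _)
  have hKk : k ≤ K := le_max_right _ _
  have hKr : r ^ (K * (p - 1)) ≤ ‖(p : C)‖ := by
    refine (pow_le_pow_of_le_one hr0.le hr1.le ?_).trans hk.le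
    have : 1 ≤ p - 1 := by have := hp2.two_le; omega
    nlinarith
  -- periods
  obtain ⟨B, L, hB, hGL, hper⟩ := hPER p n Γ H hn hHc hΓ hres C ι hx.hι r hpr hr1
  have hz : ∀ s : Fin n, HasL p n (lg (H.map x)) s.1 (evm (L s) w) := fun s =>
    ⟨B, hB, fun N => hper w x hx r₀ hr₀r hwr₀ s N⟩
  have hzne := hLNZ p n Γ H hn hHc hΓ hres C ι w x hx (fun s => evm (L s) w) hz
  obtain ⟨Λ, κ, hΛ, hΛz, hΛA⟩ := exists_Lam hm D ⟨i₀, hDi⟩ (fun s => evm (L s) w)
    (fun s i => evm (MvPowerSeries.pderiv C i (L s)) w)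
  obtain ⟨t, ω, U, htn, hω, hU, hlow⟩ := hLOWER p n Γ H hn hHc hΓ hres C ι w x hx
    (fun s => evm (L s) w) hz hzne Λ hΛ
  obtain ⟨a, ha, ha0, hat⟩ := hEND p n hn Γ hΓc hΓ ω t
  obtain ⟨φ, θ, hφP, hφ, hθ, hθr, -⟩ := hK₀ K hKK₀ a ha
  have hφm : ∀ f ∈ mE p n, φ f ∈ mE p n := by
    intro f hf
    have h1 : φ f - f ∈ mE p n := Ideal.pow_le_self (by omega) (hφ f)
    have := (mE p n).add_mem h1 hf
    rwa [sub_add_cancel] at this
  -- the constant
  set C' : ℝ := (∑ s, ‖Λ s‖) * (B / r ^ 2) + ‖κ‖ + 1 with hC'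
  have hsumΛ : 0 ≤ ∑ s, ‖Λ s‖ := Finset.sum_nonneg fun _ _ => norm_nonneg _
  have hC'pos : 0 < C' := by positivity
  -- the key inequality
  have key : ∀ j : ℕ, 1 ≤ j → ‖(p : C)‖ ^ (K + j) * U ≤ C' * (‖(p : C)‖ ^ j) ^ 2 := by
    intro j hj
    obtain ⟨θj, a', ha', hθj, hθjr⟩ := hITER p n Γ H hn hHc hΓc hΓ hres K hK2 a ha φ θ hφ hθ hθr j
    have hgm := pow_mem_mE (φ := φ) hφm (p ^ j)
    have hxj := hW.comp p n hx (φ ^ (p ^ j)) hgm
    have hδ : ∀ i, ‖x ((φ ^ (p ^ j)) (MvPowerSeries.X i)) - w i‖ ≤ ‖(p : C)‖ ^ j :=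
      hGAUSS p n C ι w x hn hx r hpr hr1 (fun i => (hwr₀ i).trans hr₀r.le) K (by omega) hKr φ hφ j
    set wj : Fin (n - 1) → C := fun i => x ((φ ^ (p ^ j)) (MvPowerSeries.X i)) with hwj
    have hpj : 0 < ‖(p : C)‖ ^ j := pow_pos hp0 _
    have hwjr : ∀ i, ‖wj i‖ ≤ r₀ := by
      intro i
      have h1 : wj i = (wj i - w i) + w i := by ring
      rw [h1]
      refine (IsUltrametricDist.norm_add_le_max _ _).trans (max_le ?_ (hwr₀ i))
      refine (hδ i).trans (le_trans ?_ hpr₀)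
      exact pow_le_of_le_one hp0.le hp1.le (by omega)
    -- `D · δ` is small
    have hDδ : ‖∑ i, D i * (wj i - w i)‖ ≤ (‖(p : C)‖ ^ j) ^ 2 := by
      have h1 := hW.taylor p n hx hxj (‖(p : C)‖ ^ j) hpj.le hδ F
      have h2 : x F = 0 := (hker F).mpr hF
      have h3 : (x.comp (φ ^ (p ^ j)).toRingHom) F = 0 := by
        change x ((φ ^ (p ^ j)) F) = 0
        rw [hker]
        exact pow_mem_mE (φ := φ) (fun f hf => (hφP f).mpr hf) (p ^ j) F hF
      rw [h2, h3, sub_zero, zero_sub, norm_neg] at h1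
      exact h1
    -- the curve `c`
    set c : PowerSeries (GaloisField p n) := fadd Γ a (cmp (mulSeries Γ p) a') with hc
    have haZ : ZC a := ha.1
    have ha'Z : ZC a' := ha'.1
    have hOG : LT3END.OG (p ^ n)
        (cmp (mulSeries Γ p) a' : MvPowerSeries Unit (GaloisField p n)) := by
      apply LT3END.OG_cmp _ (LT3END.OG.of_zc ha'Z)
      intro i hi
      rw [hΓ, PowerSeries.coeff_X_pow, if_neg (by omega)]
    have hpn : 1 ≤ p ^ n := Nat.one_le_pow _ _ hp2.pos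
    have hcoef : ∀ i, i < p ^ n → PowerSeries.coeff i c = PowerSeries.coeff i a := fun i hi =>
      coeff_fadd_of_OG hA Γ (b := cmp (mulSeries Γ p) a') hpn haZ hOG hi
    have htp : p ^ t < p ^ n := Nat.pow_lt_pow_right hp2.one_lt htn
    have hcZ : ZC c := hA.zc_fadd Γ haZ (LT3END.OG.zc (hOG.mono hpn))
    have hc0 : ∀ i, i < p ^ t → PowerSeries.coeff i c = 0 := fun i hi => by
      rw [hcoef i (hi.trans htp), ha0 i hi]
    have hct : PowerSeries.coeff (p ^ t) c = ω := by rw [hcoef _ htp, hat]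
    obtain ⟨c', hc'Z, hc'r⟩ := exists_lift p n hcZ
    obtain ⟨z', hz', hU'⟩ := hlow c hc0 hct c' hc'Z hc'r
    obtain ⟨hcc, hrel⟩ := hRELAT p n Γ H hn hHc hΓc hΓ hres C ι w x hx (φ ^ (p ^ j)) θj hgm hθj
      (K + j) c (by omega) hcZ hθjr
    set cc : C := x (PowerSeries.coeff 1 θj) with hccdef
    have hrel' : ∀ s : Fin n, cc * evm (L s) wj - evm (L s) w = (p : C) ^ (K + j) * z' s := by
      intro s
      exact hrel s.1 (evm (L s) w) (evm (L s) wj) (z' s) (hz s)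
        ⟨B, hB, fun N => hper wj _ hxj r₀ hr₀r hwjr s N⟩ c' hc'Z hc'r (hz' s)
    have hsum : cc * ∑ s, Λ s * (evm (L s) wj - evm (L s) w) =
        (p : C) ^ (K + j) * ∑ s, Λ s * z' s := by
      have h1 : ∑ s, Λ s * (cc * evm (L s) wj - evm (L s) w) =
          (p : C) ^ (K + j) * ∑ s, Λ s * z' s := by
        rw [Finset.mul_sum]
        refine Finset.sum_congr rfl fun s _ => ?_
        rw [hrel' s]; ring
      rw [← h1]
      have h2 : ∑ s, Λ s * (cc * evm (L s) wj - evm (L s) w) =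
          cc * ∑ s, Λ s * evm (L s) wj - ∑ s, Λ s * evm (L s) w := by
        rw [Finset.mul_sum, ← Finset.sum_sub_distrib]
        exact Finset.sum_congr rfl fun s _ => by ring
      have h3 : ∑ s, Λ s * (evm (L s) wj - evm (L s) w) =
          ∑ s, Λ s * evm (L s) wj - ∑ s, Λ s * evm (L s) w := by
        rw [← Finset.sum_sub_distrib]
        exact Finset.sum_congr rfl fun s _ => by ring
      rw [h2, h3, hΛz, sub_zero, sub_zero]
    have hnorm : ‖∑ s, Λ s * (evm (L s) wj - evm (L s) w)‖ = ‖(p : C)‖ ^ (K + j) * U := by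
      have h1 := congrArg norm hsum
      rw [norm_mul, norm_mul, norm_pow, hcc, one_mul, hU'] at h1
      exact h1
    rw [← hnorm]
    -- Taylor
    have htay : ∀ s, ‖evm (L s) wj - evm (L s) w -
        ∑ i, evm (MvPowerSeries.pderiv C i (L s)) w * (wj i - w i)‖ ≤
        B / r ^ 2 * (‖(p : C)‖ ^ j) ^ 2 := fun s =>
      hGB.taylor hr0 hr₀r hwr₀ hwjr hB.le (hGL s) hpj.le hδ
    have hdec : ∑ s, Λ s * (evm (L s) wj - evm (L s) w) =
        ∑ s, Λ s * (evm (L s) wj - evm (L s) w -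
          ∑ i, evm (MvPowerSeries.pderiv C i (L s)) w * (wj i - w i)) +
        κ * ∑ i, D i * (wj i - w i) := by
      rw [← hΛA (fun i => wj i - w i), ← Finset.sum_add_distrib]
      exact Finset.sum_congr rfl fun s _ => by ring
    rw [hdec]
    refine (norm_add_le _ _).trans ?_
    have h1 : ‖∑ s, Λ s * (evm (L s) wj - evm (L s) w -
          ∑ i, evm (MvPowerSeries.pderiv C i (L s)) w * (wj i - w i))‖ ≤
        (∑ s, ‖Λ s‖) * (B / r ^ 2) * (‖(p : C)‖ ^ j) ^ 2 := by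
      refine (norm_sum_le _ _).trans ?_
      rw [mul_assoc, Finset.sum_mul]
      refine Finset.sum_le_sum fun s _ => ?_
      rw [norm_mul]
      exact mul_le_mul_of_nonneg_left (htay s) (norm_nonneg _)
    have h2 : ‖κ * ∑ i, D i * (wj i - w i)‖ ≤ ‖κ‖ * (‖(p : C)‖ ^ j) ^ 2 := by
      rw [norm_mul]
      exact mul_le_mul_of_nonneg_left hDδ (norm_nonneg _)
    have h3 : 0 ≤ (‖(p : C)‖ ^ j) ^ 2 := by positivity
    rw [hC']
    nlinarith
  -- contradiction
  have hpos : 0 < ‖(p : C)‖ ^ K * U / C' := by positivity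
  obtain ⟨j, hj⟩ := exists_pow_lt_of_lt_one hpos hp1
  have h1 := key (j + 1) (by omega)
  have h2 : ‖(p : C)‖ ^ (K + (j + 1)) * U =
      (‖(p : C)‖ ^ K * U) * ‖(p : C)‖ ^ (j + 1) := by rw [pow_add]; ring
  have h3 : 0 < ‖(p : C)‖ ^ (j + 1) := pow_pos hp0 _
  have h4 : ‖(p : C)‖ ^ K * U ≤ C' * ‖(p : C)‖ ^ (j + 1) := by
    rw [h2, sq, ← mul_assoc] at h1
    exact le_of_mul_le_mul_right h1 h3
  have h5 : ‖(p : C)‖ ^ (j + 1) ≤ ‖(p : C)‖ ^ j := by
    rw [pow_succ]
    exact mul_le_of_le_one_right (by positivity) hp1.le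
  rw [lt_div_iff₀ hC'pos] at hj
  have h6 : C' * ‖(p : C)‖ ^ (j + 1) ≤ C' * ‖(p : C)‖ ^ j :=
    mul_le_mul_of_nonneg_left h5 hC'pos.le
  linarith

end Crest.Agent.LT3FINAL0
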