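import Crest.Agent.LT3Spec3

set_option autoImplicit false
open Crest.LubinTate
open Crest Crest.GeometryTopology

namespace Crest.Agent.LT3FININJ

open Crest.Agent.LT3

variable {k : Type} [Field k] {d : ℕ}

/-- series whose coefficients off the variables of `M` vanish lie in the ideal of `M`. -/
lemma mem_span_X (M : Finset (Fin d)) : ∀ f : MvPowerSeries (Fin d) k,
    (∀ e : Fin d →₀ ℕ, (∀ l ∈ M, e l = 0) → MvPowerSeries.coeff e f = 0) →
    f ∈ Ideal.span ((fun l : Fin d => (MvPowerSeries.X l : MvPowerSeries (Fin d) k)) '' (M : Set (Fin d))) := by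
  classical
  induction M using Finset.induction_on with
  | empty =>
    intro f hf
    have : f = 0 := by
      ext e
      simpa using hf e (by simp)
    rw [this]
    exact Ideal.zero_mem _
  | insert a M ha ih =>
    intro f hf
    let f1 : MvPowerSeries (Fin d) k := fun e => if e a = 0 then MvPowerSeries.coeff e f else 0
    have hf1 : ∀ e, MvPowerSeries.coeff e f1 = if e a = 0 then MvPowerSeries.coeff e f else 0 :=
      fun e => rfl
    have h1 : f1 ∈ Ideal.span ((fun l : Fin d => (MvPowerSeries.X l : MvPowerSeries (Fin d) k)) ''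
        (M : Set (Fin d))) := by
      apply ih
      intro e he
      rw [hf1]
      split_ifs with h
      · apply hf
        intro l hl
        rcases Finset.mem_insert.1 hl with rfl | hl
        · exact h
        · exact he l hl
      · rfl
    have h2 : (MvPowerSeries.X a : MvPowerSeries (Fin d) k) ∣ f - f1 := by
      rw [MvPowerSeries.X_dvd_iff]
      intro e he
      rw [map_sub, hf1, if_pos he, sub_self]
    have h3 : f = f1 + (f - f1) := by ring
    rw [h3]
    refine Ideal.add_mem _ ?_ ?_
    · exact Ideal.span_mono (Set.image_mono (by simp)) h1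
    · obtain ⟨g, hg⟩ := h2
      rw [hg]
      exact Ideal.mul_mem_right _ _ (Ideal.subset_span ⟨a, by simp, rfl⟩)

/-- membership in `varIdeal` forces vanishing of coefficients. -/
lemma coeff_varIdeal (i : ℕ) (f : MvPowerSeries (Fin d) k) (hf : f ∈ varIdeal k d i) :
    ∀ (e : Fin d →₀ ℕ) (_ : ∀ l : Fin d, l.1 < i → e l = 0), MvPowerSeries.coeff e f = 0 := by
  classical
  unfold varIdeal at hf
  induction hf using Submodule.span_induction with
  | mem x hx =>
    intro e he
    obtain ⟨l, hl, rfl⟩ := hx
    rw [MvPowerSeries.coeff_X, if_neg]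
    intro h
    have := he l hl
    rw [h] at this
    simp at this
  | zero => intro e he; simp
  | add x y _ _ hx hy => intro e he; rw [map_add, hx e he, hy e he, add_zero]
  | smul a x hx0 hx =>
    intro e he
    rw [smul_eq_mul, MvPowerSeries.coeff_mul]
    apply Finset.sum_eq_zero
    intro uv huv
    rw [Finset.HasAntidiagonal.mem_antidiagonal] at huv
    rw [hx uv.2, mul_zero]
    intro l hl
    have h1 := he l hl
    rw [← huv] at h1
    simp only [Finsupp.coe_add, Pi.add_apply] at h1
    omega

/-- infinite sums `∑ X_a^j c_j`. -/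
lemma exists_sum {r : ℕ} (a : Fin r) (c : ℕ → MvPowerSeries (Fin r) k) :
    ∃ s : MvPowerSeries (Fin r) k, ∀ K : ℕ,
      (MvPowerSeries.X a : MvPowerSeries (Fin r) k) ^ K ∣
        s - ∑ j ∈ Finset.range K, MvPowerSeries.X a ^ j * c j := by
  classical
  let s : MvPowerSeries (Fin r) k := fun e =>
    ∑ j ∈ Finset.range (e a + 1), MvPowerSeries.coeff e (MvPowerSeries.X a ^ j * c j)
  have hs : ∀ e, MvPowerSeries.coeff e s =
      ∑ j ∈ Finset.range (e a + 1), MvPowerSeries.coeff e (MvPowerSeries.X a ^ j * c j) :=
    fun e => rfl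
  refine ⟨s, fun K => ?_⟩
  rw [MvPowerSeries.X_pow_dvd_iff]
  intro e he
  rw [map_sub, hs, map_sum, sub_eq_zero]
  apply Finset.sum_subset
  · intro j hj
    simp only [Finset.mem_range] at hj ⊢
    omega
  · intro j _ hj2
    simp only [Finset.mem_range, not_lt] at hj2
    exact (MvPowerSeries.X_pow_dvd_iff.1 (Dvd.intro _ rfl)) e (by omega)

/-- a series divisible by every power of a variable is zero. -/
lemma eq_zero_of_dvd {r : ℕ} (a : Fin r) (f : MvPowerSeries (Fin r) k)
    (h : ∀ K : ℕ, (MvPowerSeries.X a : MvPowerSeries (Fin r) k) ^ K ∣ f) : f = 0 := by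
  ext e
  exact (MvPowerSeries.X_pow_dvd_iff.1 (h (e a + 1))) e (by omega)

/-- the index embedding. -/
def emb (d r : ℕ) (h1 : 1 ≤ r) (h2 : r ≤ d) : Fin r ↪ Fin d where
  toFun i := if i.1 = 0 then ⟨0, by omega⟩ else ⟨d - r + i.1, by omega⟩
  inj' := by
    intro i j hij
    ext
    dsimp only at hij
    split_ifs at hij with hi hj hj
    · omega
    · have := congrArg Fin.val hij
      simp at this
      omega
    · have := congrArg Fin.val hij
      simp at this
      omega
    · have := congrArg Fin.val hij
      simp at this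
      omega

/-- the filtration argument: modulo `J^N` everything is in a finitely generated submodule. -/
lemma exists_fg {B R A : Type} [CommRing B] [CommRing R] [CommRing A] [Algebra B A]
    (q : R →+* A) (β : B →+* R) (hq : ∀ b, q (β b) = algebraMap B A b)
    {ι : Type} (T : Finset ι) (X : ι → R) (J : Ideal R) (hX : ∀ l ∈ T, X l ∈ J)
    (hdec : ∀ f : R, ∃ b : B, ∃ g : ι → R, f = β b + ∑ l ∈ T, X l * g l) :
    ∀ N : ℕ, ∃ S : Submodule B A, S.FG ∧ ∀ f : R, ∃ s ∈ S, ∃ t ∈ J ^ N, q f = s + q t := by
  intro N
  induction N with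
  | zero =>
    refine ⟨⊥, Submodule.fg_bot, fun f => ⟨0, Submodule.zero_mem _, f, by simp, by simp⟩⟩
  | succ N ih =>
    obtain ⟨S, hS, hS2⟩ := ih
    refine ⟨Submodule.span B {1} ⊔ T.sup (fun l => S.map (LinearMap.mulLeft B (q (X l)))), ?_, ?_⟩
    · refine Submodule.FG.sup (Submodule.fg_span_singleton 1) ?_
      exact Submodule.fg_finset_sup _ _ (fun l _ => hS.map _)
    · intro f
      obtain ⟨b, g, hf⟩ := hdec f
      choose s hs t ht hst using fun l => hS2 (g l)
      refine ⟨algebraMap B A b + ∑ l ∈ T, q (X l) * s l, ?_, ∑ l ∈ T, X l * t l, ?_, ?_⟩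
      · refine Submodule.add_mem_sup ?_ ?_
        · rw [Algebra.algebraMap_eq_smul_one]
          exact Submodule.smul_mem _ _ (Submodule.mem_span_singleton_self 1)
        · refine Submodule.sum_mem _ (fun l hl => ?_)
          have hle : S.map (LinearMap.mulLeft B (q (X l))) ≤
              T.sup (fun l => S.map (LinearMap.mulLeft B (q (X l)))) :=
            Finset.le_sup (f := fun l => S.map (LinearMap.mulLeft B (q (X l)))) hl
          exact hle ⟨s l, hs l, rfl⟩
      · refine Ideal.sum_mem _ (fun l hl => ?_)
        rw [pow_succ']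
        exact Ideal.mul_mem_mul (hX l hl) (ht l)
      · rw [hf, map_add, map_sum, hq, map_sum, add_assoc, ← Finset.sum_add_distrib]
        congr 1
        refine Finset.sum_congr rfl (fun l _ => ?_)
        rw [map_mul, map_mul, hst l]
        ring

lemma emb_range (d r : ℕ) (hr1 : 1 ≤ r) (hrd : r ≤ d) (l : Fin d) (i : Fin r)
    (h : emb d r hr1 hrd i = l) (hl : l.1 ≤ d - r) : i.1 = 0 := by
  by_contra h0
  simp only [emb, Function.Embedding.coeFn_mk] at h
  rw [if_neg h0] at h
  have := congrArg Fin.val h
  simp only at this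
  omega

lemma emb_mem (d r : ℕ) (hr1 : 1 ≤ r) (hrd : r ≤ d) (l : Fin d)
    (h : l ∉ Set.range (emb d r hr1 hrd)) : l.1 ≤ d - r := by
  by_contra hcon
  push Not at hcon
  apply h
  refine ⟨⟨l.1 - (d - r), by omega⟩, ?_⟩
  simp only [emb, Function.Embedding.coeFn_mk]
  rw [if_neg (by omega)]
  ext
  simp only
  omega

/-- topological Nakayama in the direction of one variable. -/
lemma nakayama {r : ℕ} {A : Type} [CommRing A] [IsDomain A] [IsNoetherianRing A]
    [Algebra (MvPowerSeries (Fin r) k) A] (y : Fin r)
    (hne : Ideal.span {algebraMap (MvPowerSeries (Fin r) k) A (MvPowerSeries.X y)} ≠ ⊤)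
    (S : Submodule (MvPowerSeries (Fin r) k) A) (hS : S.FG)
    (h : ∀ a : A, ∃ s ∈ S, ∃ a' : A,
      a = s + algebraMap (MvPowerSeries (Fin r) k) A (MvPowerSeries.X y) * a') : S = ⊤ := by
  classical
  obtain ⟨m, g, hg⟩ := Submodule.fg_iff_exists_fin_generating_family.1 hS
  set x0 := algebraMap (MvPowerSeries (Fin r) k) A (MvPowerSeries.X y) with hx0
  have hstep : ∀ a : A, ∃ (c : Fin m → MvPowerSeries (Fin r) k) (a' : A),
      a = ∑ i, c i • g i + x0 * a' := by
    intro a
    obtain ⟨s, hs, a', ha'⟩ := h a
    rw [← hg, Submodule.mem_span_range_iff_exists_fun] at hs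
    obtain ⟨c, hc⟩ := hs
    exact ⟨c, a', by rw [hc]; exact ha'⟩
  choose c nx hcn using hstep
  rw [eq_top_iff]
  intro a _
  let sq : ℕ → A := fun K => nx^[K] a
  have hsq0 : sq 0 = a := rfl
  have hsqs : ∀ K, sq (K + 1) = nx (sq K) := fun K => Function.iterate_succ_apply' nx K a
  have hexp : ∀ K, a = ∑ i, (∑ j ∈ Finset.range K,
      (MvPowerSeries.X y : MvPowerSeries (Fin r) k) ^ j * c (sq j) i) • g i + x0 ^ K * sq K := by
    intro K
    induction K with
    | zero => simp [hsq0]
    | succ K ih =>
      have h1 := hcn (sq K)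
      rw [← hsqs K] at h1
      conv_lhs => rw [ih, h1]
      have h2 : ∀ i, (∑ j ∈ Finset.range (K + 1),
          (MvPowerSeries.X y : MvPowerSeries (Fin r) k) ^ j * c (sq j) i) • g i =
          (∑ j ∈ Finset.range K,
          (MvPowerSeries.X y : MvPowerSeries (Fin r) k) ^ j * c (sq j) i) • g i +
          x0 ^ K * (c (sq K) i • g i) := by
        intro i
        rw [Finset.sum_range_succ, add_smul]
        congr 1
        rw [mul_smul, Algebra.smul_def, map_pow, ← hx0]
      rw [Finset.sum_congr rfl (fun i _ => h2 i), Finset.sum_add_distrib, mul_add,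
        Finset.mul_sum, pow_succ]
      ring
  choose b hb using fun i => exists_sum y (fun j => c (sq j) i)
  have hmem : a - ∑ i, b i • g i ∈ (⨅ K : ℕ, (Ideal.span {x0}) ^ K) := by
    rw [Ideal.mem_iInf]
    intro K
    rw [Ideal.span_singleton_pow, Ideal.mem_span_singleton]
    have h1 : a - ∑ i, b i • g i = x0 ^ K * sq K -
        ∑ i, (b i - ∑ j ∈ Finset.range K,
          (MvPowerSeries.X y : MvPowerSeries (Fin r) k) ^ j * c (sq j) i) • g i := by
      conv_lhs => rw [hexp K]
      simp only [sub_smul, Finset.sum_sub_distrib]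
      ring
    rw [h1]
    refine dvd_sub (Dvd.intro _ rfl) (Finset.dvd_sum (fun i _ => ?_))
    obtain ⟨t, ht⟩ := hb i K
    rw [ht, mul_smul, Algebra.smul_def, map_pow, ← hx0]
    exact Dvd.intro _ rfl
  rw [Ideal.iInf_pow_eq_bot_of_isDomain _ hne, Ideal.mem_bot, sub_eq_zero] at hmem
  rw [hmem, ← hg]
  exact Submodule.sum_mem _ (fun i _ => Submodule.smul_mem _ _ (Submodule.subset_span ⟨i, rfl⟩))

theorem main : LT3.Spec3.FININJ := by
  classical
  intro p _ n d P hP hX0 r hr1 hrd hle hrad
  set e := emb d r hr1 hrd with he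
  let β : MvPowerSeries (Fin r) (GaloisField p n) →+* MvPowerSeries (Fin d) (GaloisField p n) :=
    (MvPowerSeries.rename e : MvPowerSeries (Fin r) (GaloisField p n) →ₐ[GaloisField p n]
      MvPowerSeries (Fin d) (GaloisField p n)).toRingHom
  let κ : MvPowerSeries (Fin d) (GaloisField p n) →+* MvPowerSeries (Fin r) (GaloisField p n) :=
    (MvPowerSeries.killCompl e : MvPowerSeries (Fin d) (GaloisField p n) →ₐ[GaloisField p n]
      MvPowerSeries (Fin r) (GaloisField p n)).toRingHom
  have hκβ : ∀ b, κ (β b) = b := fun b => MvPowerSeries.killCompl_rename_app (e := e) b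
  have hβX : ∀ i, β (MvPowerSeries.X i) = MvPowerSeries.X (e i) := fun i =>
    MvPowerSeries.rename_X _ i
  have hβc : ∀ (b : MvPowerSeries (Fin r) (GaloisField p n)) (x : Fin r →₀ ℕ),
      MvPowerSeries.coeff (Finsupp.embDomain e x) (β b) = MvPowerSeries.coeff x b := fun b x =>
    MvPowerSeries.coeff_embDomain_rename e b x
  have hd0 : 0 < d := by omega
  let z : Fin d := ⟨0, hd0⟩
  let y0 : Fin r := ⟨0, by omega⟩
  have hey0 : e y0 = z := by
    simp only [he, emb, Function.Embedding.coeFn_mk, y0, z]
    rw [if_pos trivial]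
  have hXz : (MvPowerSeries.X z : MvPowerSeries (Fin d) (GaloisField p n)) ∉ P := hX0 z rfl
  have hv1 : varIdeal (GaloisField p n) d 1 =
      Ideal.span {(MvPowerSeries.X z : MvPowerSeries (Fin d) (GaloisField p n))} := by
    unfold varIdeal
    congr 1
    ext f
    constructor
    · rintro ⟨l, hl, rfl⟩
      have : l = z := by
        ext
        simp only [z]
        omega
      rw [this]
      rfl
    · intro hf
      exact ⟨z, by simp [z], hf⟩
  have hPc : ∀ f ∈ P, MvPowerSeries.constantCoeff f = 0 := by
    intro f hf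
    rw [← MvPowerSeries.coeff_zero_eq_constantCoeff_apply]
    exact coeff_varIdeal _ f (hle hf) 0 (fun _ _ => rfl)
  haveI := hP
  refine ⟨β, ?_, ?_, ?_, ?_, ?_⟩
  · intro c
    exact MvPowerSeries.rename_C _ c
  · intro i l
    constructor
    · intro hi hl
      rw [hβX]
      congr 1
      have h1 : i = y0 := by ext; exact hi
      have h2 : l = z := by ext; exact hl
      rw [h1, h2, hey0]
    · intro hi hl
      rw [hβX]
      congr 1
      simp only [he, emb, Function.Embedding.coeFn_mk]
      rw [if_neg (by omega)]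
      ext
      simp only
      omega
  · -- injectivity
    rw [injective_iff_map_eq_zero]
    intro f hf
    have hf' : β f ∈ P := by
      simpa [Ideal.Quotient.eq_zero_iff_mem] using hf
    have key : ∀ K : ℕ, ∀ f : MvPowerSeries (Fin r) (GaloisField p n), β f ∈ P →
        (MvPowerSeries.X y0 : MvPowerSeries (Fin r) (GaloisField p n)) ^ K ∣ f := by
      intro K
      induction K with
      | zero => intro f _; simp
      | succ K ih =>
        intro f hf
        have h1 : (MvPowerSeries.X y0 : MvPowerSeries (Fin r) (GaloisField p n)) ∣ f := by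
          rw [MvPowerSeries.X_dvd_iff]
          intro m hm
          rw [← hβc]
          apply coeff_varIdeal _ _ (hle hf)
          intro l hl
          by_cases hlr : l ∈ Set.range e
          · obtain ⟨i, rfl⟩ := hlr
            rw [Finsupp.embDomain_apply_self]
            have h0 := emb_range d r hr1 hrd (e i) i rfl (by omega)
            have h1 : i = y0 := by ext; exact h0
            rw [h1]
            exact hm
          · exact Finsupp.embDomain_of_notMem_range _ _ _ hlr
        obtain ⟨g, rfl⟩ := h1
        rw [map_mul, hβX, hey0] at hf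
        have hg : β g ∈ P := (hP.mem_or_mem hf).resolve_left hXz
        rw [pow_succ']
        exact mul_dvd_mul_left _ (ih g hg)
    exact eq_zero_of_dvd y0 f (fun K => key K f hf')
  · -- finiteness
    let φ := (Ideal.Quotient.mk P).comp β
    letI : Algebra (MvPowerSeries (Fin r) (GaloisField p n))
      (MvPowerSeries (Fin d) (GaloisField p n) ⧸ P) := φ.toAlgebra
    change Module.Finite (MvPowerSeries (Fin r) (GaloisField p n))
      (MvPowerSeries (Fin d) (GaloisField p n) ⧸ P)
    have hval : algebraMap (MvPowerSeries (Fin r) (GaloisField p n))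
      (MvPowerSeries (Fin d) (GaloisField p n) ⧸ P) = φ := rfl
    let T : Finset (Fin d) := Finset.univ.filter (fun l => l ∉ Set.range e)
    let J : Ideal (MvPowerSeries (Fin d) (GaloisField p n)) := Ideal.span
      ((fun l : Fin d => (MvPowerSeries.X l : MvPowerSeries (Fin d) (GaloisField p n))) ''
        (T : Set (Fin d)))
    have hJ : J ≤ varIdeal (GaloisField p n) d (d - r + 1) := by
      refine Ideal.span_le.2 ?_
      rintro f ⟨l, hl, rfl⟩
      have hl' : l ∉ Set.range e := (Finset.mem_filter.1 hl).2
      have := emb_mem d r hr1 hrd l hl'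
      exact Ideal.subset_span ⟨l, by omega, rfl⟩
    obtain ⟨N, hN⟩ := Ideal.exists_pow_le_of_le_radical_of_fg hrad
      (IsNoetherian.noetherian _)
    have hJN : J ^ N ≤ P ⊔ varIdeal (GaloisField p n) d 1 :=
      (Ideal.pow_right_mono hJ N).trans hN
    obtain ⟨S, hS, hS2⟩ := exists_fg (B := MvPowerSeries (Fin r) (GaloisField p n))
      (A := MvPowerSeries (Fin d) (GaloisField p n) ⧸ P) (Ideal.Quotient.mk P) β (fun _ => rfl) T
      (fun l => (MvPowerSeries.X l : MvPowerSeries (Fin d) (GaloisField p n))) J
      (fun l hl => Ideal.subset_span ⟨l, hl, rfl⟩) (by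
        intro f
        have h1 : f - β (κ f) ∈ J := by
          apply mem_span_X
          intro E hE
          have h2 : E ∈ Set.range (Finsupp.embDomain (M := ℕ) e) := by
            rw [Finsupp.mem_range_embDomain_iff]
            intro l hl
            by_contra hcon
            have := hE l (Finset.mem_filter.2 ⟨Finset.mem_univ _, hcon⟩)
            exact (Finsupp.mem_support_iff.1 hl) this
          obtain ⟨x, rfl⟩ := h2
          rw [map_sub, hβc]
          have h3 : MvPowerSeries.coeff x (κ f) =
            MvPowerSeries.coeff (Finsupp.embDomain e x) f := MvPowerSeries.coeff_killCompl _ _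
          rw [h3, sub_self]
        have h4 := (Submodule.mem_span_image_finset_iff_exists_fun _).1 h1
        obtain ⟨c, hc⟩ := h4
        refine ⟨κ f, fun l => if h : l ∈ T then c ⟨l, h⟩ else 0, ?_⟩
        have h6 : f - β (κ f) = ∑ l ∈ T, (MvPowerSeries.X l : MvPowerSeries (Fin d)
            (GaloisField p n)) * (if h : l ∈ T then c ⟨l, h⟩ else 0) := by
          rw [← Finset.sum_coe_sort T (fun l => (MvPowerSeries.X l : MvPowerSeries (Fin d)
            (GaloisField p n)) * (if h : l ∈ T then c ⟨l, h⟩ else 0)), ← hc]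
          refine Finset.sum_congr rfl (fun l _ => ?_)
          rw [dif_pos l.2, smul_eq_mul, mul_comm]
        rw [← h6]
        ring) N
    refine ⟨?_⟩
    have hx : algebraMap (MvPowerSeries (Fin r) (GaloisField p n))
        (MvPowerSeries (Fin d) (GaloisField p n) ⧸ P) (MvPowerSeries.X y0) =
        Ideal.Quotient.mk P (MvPowerSeries.X z) := by
      rw [hval]
      simp only [φ, RingHom.comp_apply, hβX, hey0]
    have hSt : S = ⊤ := by
      apply nakayama y0 _ S hS
      · intro a
        obtain ⟨f, rfl⟩ := Ideal.Quotient.mk_surjective a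
        obtain ⟨s, hs, t, ht, hst⟩ := hS2 f
        have ht2 := hJN ht
        rw [hv1] at ht2
        obtain ⟨q, hq, w, hw, hqw⟩ := Submodule.mem_sup.1 ht2
        obtain ⟨g, rfl⟩ := Ideal.mem_span_singleton.1 hw
        refine ⟨s, hs, Ideal.Quotient.mk P g, ?_⟩
        rw [hst, hx, ← hqw, map_add, Ideal.Quotient.eq_zero_iff_mem.2 hq, zero_add, map_mul]
      · rw [hx]
        intro htop
        have h1 : (1 : MvPowerSeries (Fin d) (GaloisField p n) ⧸ P) ∈
            Ideal.span {Ideal.Quotient.mk P (MvPowerSeries.X z)} := by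
          rw [htop]; trivial
        obtain ⟨w, hw⟩ := Ideal.mem_span_singleton.1 h1
        obtain ⟨g, rfl⟩ := Ideal.Quotient.mk_surjective w
        rw [← map_mul, ← map_one (Ideal.Quotient.mk P), Ideal.Quotient.eq] at hw
        have h2 := hPc _ hw
        rw [map_sub, map_one, map_mul, MvPowerSeries.constantCoeff_X, zero_mul, sub_zero] at h2
        exact one_ne_zero h2
    rw [← hSt]
    exact hS
  · -- r = d
    intro hrd2
    rw [eq_bot_iff]
    intro f hf
    have hle1 : P ≤ varIdeal (GaloisField p n) d 1 := by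
      have : d - r + 1 = 1 := by omega
      rwa [this] at hle
    have key : ∀ K : ℕ, ∀ f ∈ P,
        (MvPowerSeries.X z : MvPowerSeries (Fin d) (GaloisField p n)) ^ K ∣ f := by
      intro K
      induction K with
      | zero => intro f _; simp
      | succ K ih =>
        intro f hf
        have h1 := hle1 hf
        rw [hv1] at h1
        obtain ⟨g, rfl⟩ := Ideal.mem_span_singleton.1 h1
        have hg : g ∈ P := (hP.mem_or_mem hf).resolve_left hXz
        rw [pow_succ']
        exact mul_dvd_mul_left _ (ih g hg)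
    exact (Submodule.mem_bot _).2 (eq_zero_of_dvd z f (fun K => key K f hf))

end Crest.Agent.LT3FININJ
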