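import Crest.Agent.LT3Spec4

set_option autoImplicit false
open Crest.LubinTate
open Crest Crest.GeometryTopology

namespace Crest.Agent.LT3FININJ0

open Crest.Agent.LT3 Crest.Agent.LT3.Spec4

/-- series whose coefficients off the variables of `M` vanish lie in the ideal of `M`. -/
lemma mem_span_X {k : Type} [CommRing k] {d : ℕ} (M : Finset (Fin d)) :
    ∀ f : MvPowerSeries (Fin d) k,
    (∀ e : Fin d →₀ ℕ, (∀ l ∈ M, e l = 0) → MvPowerSeries.coeff e f = 0) →
    f ∈ Ideal.span ((fun l : Fin d => (MvPowerSeries.X l : MvPowerSeries (Fin d) k)) '' (M : Set (Fin d))) := by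
  classical
  induction M using Finset.induction_on with
  | empty =>
    intro f hf
    have : f = 0 := by
      ext e
      simpa using hf e (by simp)
    rw [this]
    exact Ideal.zero_mem _
  | insert a M ha ih =>
    intro f hf
    let f1 : MvPowerSeries (Fin d) k := fun e => if e a = 0 then MvPowerSeries.coeff e f else 0
    have hf1 : ∀ e, MvPowerSeries.coeff e f1 = if e a = 0 then MvPowerSeries.coeff e f else 0 :=
      fun e => rfl
    have h1 : f1 ∈ Ideal.span ((fun l : Fin d => (MvPowerSeries.X l : MvPowerSeries (Fin d) k)) ''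
        (M : Set (Fin d))) := by
      apply ih
      intro e he
      rw [hf1]
      split_ifs with h
      · apply hf
        intro l hl
        rcases Finset.mem_insert.1 hl with rfl | hl
        · exact h
        · exact he l hl
      · rfl
    have h2 : (MvPowerSeries.X a : MvPowerSeries (Fin d) k) ∣ f - f1 := by
      rw [MvPowerSeries.X_dvd_iff]
      intro e he
      rw [map_sub, hf1, if_pos he, sub_self]
    have h3 : f = f1 + (f - f1) := by ring
    rw [h3]
    refine Ideal.add_mem _ ?_ ?_
    · exact Ideal.span_mono (Set.image_mono (by simp)) h1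
    · obtain ⟨g, hg⟩ := h2
      rw [hg]
      exact Ideal.mul_mem_right _ _ (Ideal.subset_span ⟨a, by simp, rfl⟩)

/-- the filtration argument: modulo `J^N` everything is in a finitely generated submodule. -/
lemma exists_fg {B R A : Type} [CommRing B] [CommRing R] [CommRing A] [Algebra B A]
    (q : R →+* A) (β : B →+* R) (hq : ∀ b, q (β b) = algebraMap B A b)
    {ι : Type} (T : Finset ι) (X : ι → R) (J : Ideal R) (hX : ∀ l ∈ T, X l ∈ J)
    (hdec : ∀ f : R, ∃ b : B, ∃ g : ι → R, f = β b + ∑ l ∈ T, X l * g l) :
    ∀ N : ℕ, ∃ S : Submodule B A, S.FG ∧ ∀ f : R, ∃ s ∈ S, ∃ t ∈ J ^ N, q f = s + q t := by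
  intro N
  induction N with
  | zero =>
    refine ⟨⊥, Submodule.fg_bot, fun f => ⟨0, Submodule.zero_mem _, f, by simp, by simp⟩⟩
  | succ N ih =>
    obtain ⟨S, hS, hS2⟩ := ih
    refine ⟨Submodule.span B {1} ⊔ T.sup (fun l => S.map (LinearMap.mulLeft B (q (X l)))), ?_, ?_⟩
    · refine Submodule.FG.sup (Submodule.fg_span_singleton 1) ?_
      exact Submodule.fg_finset_sup _ _ (fun l _ => hS.map _)
    · intro f
      obtain ⟨b, g, hf⟩ := hdec f
      choose s hs t ht hst using fun l => hS2 (g l)
      refine ⟨algebraMap B A b + ∑ l ∈ T, q (X l) * s l, ?_, ∑ l ∈ T, X l * t l, ?_, ?_⟩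
      · refine Submodule.add_mem_sup ?_ ?_
        · rw [Algebra.algebraMap_eq_smul_one]
          exact Submodule.smul_mem _ _ (Submodule.mem_span_singleton_self 1)
        · refine Submodule.sum_mem _ (fun l hl => ?_)
          have hle : S.map (LinearMap.mulLeft B (q (X l))) ≤
              T.sup (fun l => S.map (LinearMap.mulLeft B (q (X l)))) :=
            Finset.le_sup (f := fun l => S.map (LinearMap.mulLeft B (q (X l)))) hl
          exact hle ⟨s l, hs l, rfl⟩
      · refine Ideal.sum_mem _ (fun l hl => ?_)
        rw [pow_succ']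
        exact Ideal.mul_mem_mul (hX l hl) (ht l)
      · rw [hf, map_add, map_sum, hq, map_sum, add_assoc, ← Finset.sum_add_distrib]
        congr 1
        refine Finset.sum_congr rfl (fun l _ => ?_)
        rw [map_mul, map_mul, hst l]
        ring

/-- topological Nakayama in the direction of one element. -/
lemma nakayama {B A : Type} [CommRing B] [CommRing A] [IsDomain A] [IsNoetherianRing A]
    [Algebra B A] (y : B)
    (hsum : ∀ c : ℕ → B, ∃ s : B, ∀ K : ℕ, y ^ K ∣ s - ∑ j ∈ Finset.range K, y ^ j * c j)
    (hne : Ideal.span {algebraMap B A y} ≠ ⊤)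
    (S : Submodule B A) (hS : S.FG)
    (h : ∀ a : A, ∃ s ∈ S, ∃ a' : A, a = s + algebraMap B A y * a') : S = ⊤ := by
  classical
  obtain ⟨m, g, hg⟩ := Submodule.fg_iff_exists_fin_generating_family.1 hS
  set x0 := algebraMap B A y with hx0
  have hstep : ∀ a : A, ∃ (c : Fin m → B) (a' : A),
      a = ∑ i, c i • g i + x0 * a' := by
    intro a
    obtain ⟨s, hs, a', ha'⟩ := h a
    rw [← hg, Submodule.mem_span_range_iff_exists_fun] at hs
    obtain ⟨c, hc⟩ := hs
    exact ⟨c, a', by rw [hc]; exact ha'⟩
  choose c nx hcn using hstep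
  rw [eq_top_iff]
  intro a _
  let sq : ℕ → A := fun K => nx^[K] a
  have hsq0 : sq 0 = a := rfl
  have hsqs : ∀ K, sq (K + 1) = nx (sq K) := fun K => Function.iterate_succ_apply' nx K a
  have hexp : ∀ K, a = ∑ i, (∑ j ∈ Finset.range K, y ^ j * c (sq j) i) • g i + x0 ^ K * sq K := by
    intro K
    induction K with
    | zero => simp [hsq0]
    | succ K ih =>
      have h1 := hcn (sq K)
      rw [← hsqs K] at h1
      conv_lhs => rw [ih, h1]
      have h2 : ∀ i, (∑ j ∈ Finset.range (K + 1), y ^ j * c (sq j) i) • g i =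
          (∑ j ∈ Finset.range K, y ^ j * c (sq j) i) • g i + x0 ^ K * (c (sq K) i • g i) := by
        intro i
        rw [Finset.sum_range_succ, add_smul]
        congr 1
        rw [mul_smul, Algebra.smul_def, map_pow, ← hx0]
      rw [Finset.sum_congr rfl (fun i _ => h2 i), Finset.sum_add_distrib, mul_add,
        Finset.mul_sum, pow_succ]
      ring
  choose b hb using fun i => hsum (fun j => c (sq j) i)
  have hmem : a - ∑ i, b i • g i ∈ (⨅ K : ℕ, (Ideal.span {x0}) ^ K) := by
    rw [Ideal.mem_iInf]
    intro K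
    rw [Ideal.span_singleton_pow, Ideal.mem_span_singleton]
    have h1 : a - ∑ i, b i • g i = x0 ^ K * sq K -
        ∑ i, (b i - ∑ j ∈ Finset.range K, y ^ j * c (sq j) i) • g i := by
      conv_lhs => rw [hexp K]
      simp only [sub_smul, Finset.sum_sub_distrib]
      ring
    rw [h1]
    refine dvd_sub (Dvd.intro _ rfl) (Finset.dvd_sum (fun i _ => ?_))
    obtain ⟨t, ht⟩ := hb i K
    rw [ht, mul_smul, Algebra.smul_def, map_pow, ← hx0]
    exact Dvd.intro _ rfl
  rw [Ideal.iInf_pow_eq_bot_of_isDomain _ hne, Ideal.mem_bot, sub_eq_zero] at hmem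
  rw [hmem, ← hg]
  exact Submodule.sum_mem _ (fun i _ => Submodule.smul_mem _ _ (Submodule.subset_span ⟨i, rfl⟩))

section Witt

variable (p : ℕ) [Fact p.Prime] (n : ℕ)

lemma witt_sum (c : ℕ → WittVector p (GaloisField p n)) :
    ∃ s : WittVector p (GaloisField p n), ∀ K : ℕ,
      (p : WittVector p (GaloisField p n)) ^ K ∣
        s - ∑ j ∈ Finset.range K, (p : WittVector p (GaloisField p n)) ^ j * c j := by
  have hc : IsAdicComplete (Ideal.span {(p : WittVector p (GaloisField p n))})
    (WittVector p (GaloisField p n)) := inferInstance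
  have hcong : ∀ {m m' : ℕ}, m ≤ m' →
      (∑ j ∈ Finset.range m, (p : WittVector p (GaloisField p n)) ^ j * c j) ≡
      (∑ j ∈ Finset.range m', (p : WittVector p (GaloisField p n)) ^ j * c j)
      [SMOD (Ideal.span {(p : WittVector p (GaloisField p n))}) ^ m •
        (⊤ : Submodule (WittVector p (GaloisField p n)) (WittVector p (GaloisField p n)))] := by
    intro m m' hmm
    rw [SModEq.sub_mem, smul_eq_mul, Ideal.mul_top, Ideal.span_singleton_pow,
      Ideal.mem_span_singleton, ← Finset.sum_range_add_sum_Ico _ hmm, sub_add_cancel_left,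
      dvd_neg]
    refine Finset.dvd_sum (fun j hj => ?_)
    exact Dvd.dvd.mul_right (pow_dvd_pow _ (Finset.mem_Ico.1 hj).1) _
  obtain ⟨L, hL⟩ := IsPrecomplete.prec hc.toIsPrecomplete hcong
  refine ⟨L, fun K => ?_⟩
  have h := hL K
  rw [SModEq.sub_mem, smul_eq_mul, Ideal.mul_top, Ideal.span_singleton_pow,
      Ideal.mem_span_singleton] at h
  rw [← neg_sub, dvd_neg]
  exact h

variable {m : ℕ}

lemma dvd_of_coeff {K : ℕ} (f : MvPowerSeries (Fin m) (WittVector p (GaloisField p n)))
    (h : ∀ e, (p : WittVector p (GaloisField p n)) ^ K ∣ MvPowerSeries.coeff e f) :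
    (p : MvPowerSeries (Fin m) (WittVector p (GaloisField p n))) ^ K ∣ f := by
  choose g hg using h
  refine ⟨(fun e => g e : MvPowerSeries (Fin m) (WittVector p (GaloisField p n))), ?_⟩
  ext1 e
  have h1 : (p : MvPowerSeries (Fin m) (WittVector p (GaloisField p n))) ^ K =
      MvPowerSeries.C ((p : WittVector p (GaloisField p n)) ^ K) := by
    rw [map_pow, map_natCast]
  rw [h1, MvPowerSeries.coeff_C_mul, hg e]
  rfl

lemma coeff_of_dvd {K : ℕ} (f : MvPowerSeries (Fin m) (WittVector p (GaloisField p n)))
    (h : (p : MvPowerSeries (Fin m) (WittVector p (GaloisField p n))) ^ K ∣ f) (e : Fin m →₀ ℕ) :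
    (p : WittVector p (GaloisField p n)) ^ K ∣ MvPowerSeries.coeff e f := by
  obtain ⟨g, rfl⟩ := h
  have h1 : (p : MvPowerSeries (Fin m) (WittVector p (GaloisField p n))) ^ K =
      MvPowerSeries.C ((p : WittVector p (GaloisField p n)) ^ K) := by
    rw [map_pow, map_natCast]
  rw [h1, MvPowerSeries.coeff_C_mul]
  exact Dvd.intro _ rfl

lemma mv_sum (c : ℕ → MvPowerSeries (Fin m) (WittVector p (GaloisField p n))) :
    ∃ s : MvPowerSeries (Fin m) (WittVector p (GaloisField p n)), ∀ K : ℕ,
      (p : MvPowerSeries (Fin m) (WittVector p (GaloisField p n))) ^ K ∣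
        s - ∑ j ∈ Finset.range K,
          (p : MvPowerSeries (Fin m) (WittVector p (GaloisField p n))) ^ j * c j := by
  choose s hs using fun e => witt_sum p n (fun j => MvPowerSeries.coeff e (c j))
  refine ⟨(fun e => s e : MvPowerSeries (Fin m) (WittVector p (GaloisField p n))), fun K => ?_⟩
  apply dvd_of_coeff
  intro e
  rw [map_sub, map_sum]
  have h1 : ∀ j, MvPowerSeries.coeff e
      ((p : MvPowerSeries (Fin m) (WittVector p (GaloisField p n))) ^ j * c j) =
      (p : WittVector p (GaloisField p n)) ^ j * MvPowerSeries.coeff e (c j) := by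
    intro j
    have h1 : (p : MvPowerSeries (Fin m) (WittVector p (GaloisField p n))) ^ j =
      MvPowerSeries.C ((p : WittVector p (GaloisField p n)) ^ j) := by
      rw [map_pow, map_natCast]
    rw [h1, MvPowerSeries.coeff_C_mul]
  rw [Finset.sum_congr rfl (fun j _ => h1 j)]
  exact hs e K

lemma witt_zero (x : WittVector p (GaloisField p n))
    (h : ∀ K : ℕ, (p : WittVector p (GaloisField p n)) ^ K ∣ x) : x = 0 := by
  have hc : IsAdicComplete (Ideal.span {(p : WittVector p (GaloisField p n))})
    (WittVector p (GaloisField p n)) := inferInstance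
  apply IsHausdorff.haus hc.toIsHausdorff
  intro K
  rw [SModEq.zero, smul_eq_mul, Ideal.mul_top, Ideal.span_singleton_pow,
      Ideal.mem_span_singleton]
  exact h K

lemma mv_zero (f : MvPowerSeries (Fin m) (WittVector p (GaloisField p n)))
    (h : ∀ K : ℕ, (p : MvPowerSeries (Fin m) (WittVector p (GaloisField p n))) ^ K ∣ f) :
    f = 0 := by
  ext1 e
  rw [map_zero]
  exact witt_zero p n _ (fun K => coeff_of_dvd p n f (h K) e)

end Witt

/-- membership in `vI` forces divisibility of coefficients. -/
lemma coeff_vI (p : ℕ) [Fact p.Prime] (n h : ℕ) (f : LTRing p n) (hf : f ∈ vI p n h) :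
    ∀ (e : Fin (n - 1) →₀ ℕ) (_ : ∀ l : Fin (n - 1), l.1 + 1 < h → e l = 0),
      (p : WittVector p (GaloisField p n)) ∣ MvPowerSeries.coeff e f := by
  classical
  unfold vI at hf
  induction hf using Submodule.span_induction with
  | mem x hx =>
    intro e he
    rcases hx with hx | ⟨l, hl, rfl⟩
    · rw [Set.mem_singleton_iff.1 hx]
      have h1 : (p : LTRing p n) = MvPowerSeries.C (p : WittVector p (GaloisField p n)) := by
        rw [map_natCast]
      rw [h1, MvPowerSeries.coeff_C]
      split_ifs
      · exact dvd_rfl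
      · exact dvd_zero _
    · rw [MvPowerSeries.coeff_X, if_neg]
      · exact dvd_zero _
      intro h
      have := he l hl
      rw [h] at this
      simp at this
  | zero => intro e he; simp
  | add x y _ _ hx hy => intro e he; rw [map_add]; exact dvd_add (hx e he) (hy e he)
  | smul a x hx0 hx =>
    intro e he
    rw [smul_eq_mul, MvPowerSeries.coeff_mul]
    apply Finset.dvd_sum
    intro uv huv
    rw [Finset.HasAntidiagonal.mem_antidiagonal] at huv
    refine Dvd.dvd.mul_left (hx uv.2 ?_) _
    intro l hl
    have h1 := he l hl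
    rw [← huv] at h1
    simp only [Finsupp.coe_add, Pi.add_apply] at h1
    omega

/-- the index embedding. -/
def emb (n h : ℕ) (h1 : 1 ≤ h) (h2 : h ≤ n) : Fin (n - h) ↪ Fin (n - 1) where
  toFun i := ⟨h - 1 + i.1, by omega⟩
  inj' := by
    intro i j hij
    ext
    have := congrArg Fin.val hij
    simp only at this
    omega

lemma emb_mem (n h : ℕ) (h1 : 1 ≤ h) (h2 : h ≤ n) (l : Fin (n - 1))
    (hl : l ∉ Set.range (emb n h h1 h2)) : l.1 + 1 < h := by
  by_contra hcon
  push Not at hcon
  apply hl
  refine ⟨⟨l.1 - (h - 1), by omega⟩, ?_⟩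
  simp only [emb, Function.Embedding.coeFn_mk]
  ext
  simp only
  omega

theorem main : LT3.Spec4.FININJ0 := by
  classical
  intro p _ n h h1 h2 P hP hp hle hrad
  haveI := hP
  set e := emb n h h1 h2 with he
  let β : MvPowerSeries (Fin (n - h)) (WittVector p (GaloisField p n)) →+* LTRing p n :=
    (MvPowerSeries.rename e : MvPowerSeries (Fin (n - h)) (WittVector p (GaloisField p n)) →ₐ[
      WittVector p (GaloisField p n)] MvPowerSeries (Fin (n - 1)) (WittVector p (GaloisField p n))).toRingHom
  let κ : LTRing p n →+* MvPowerSeries (Fin (n - h)) (WittVector p (GaloisField p n)) :=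
    (MvPowerSeries.killCompl e : MvPowerSeries (Fin (n - 1)) (WittVector p (GaloisField p n)) →ₐ[
      WittVector p (GaloisField p n)] MvPowerSeries (Fin (n - h)) (WittVector p (GaloisField p n))).toRingHom
  have hβX : ∀ i, β (MvPowerSeries.X i) = MvPowerSeries.X (e i) := fun i =>
    MvPowerSeries.rename_X _ i
  have hβc : ∀ (b : MvPowerSeries (Fin (n - h)) (WittVector p (GaloisField p n)))
      (x : Fin (n - h) →₀ ℕ),
      MvPowerSeries.coeff (Finsupp.embDomain e x) (β b) = MvPowerSeries.coeff x b := fun b x =>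
    MvPowerSeries.coeff_embDomain_rename e b x
  have hres : ∀ f ∈ P, LTRing.residue p n f = 0 := by
    intro f hf
    have := coeff_vI p n h f (hle hf) 0 (fun _ _ => rfl)
    rw [MvPowerSeries.coeff_zero_eq_constantCoeff_apply] at this
    obtain ⟨g, hg⟩ := this
    simp only [LTRing.residue, RingHom.comp_apply]
    rw [hg, map_mul, map_natCast, CharP.cast_eq_zero, zero_mul]
  refine ⟨β, ?_, ?_, ?_, ?_⟩
  · intro c
    exact MvPowerSeries.rename_C _ c
  · intro i l hl
    rw [hβX]
    congr 1
    simp only [he, emb, Function.Embedding.coeFn_mk]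
    ext
    simp only
    omega
  · -- injectivity
    rw [injective_iff_map_eq_zero]
    intro f hf
    have hf' : β f ∈ P := by
      simpa [Ideal.Quotient.eq_zero_iff_mem] using hf
    have key : ∀ K : ℕ, ∀ f : MvPowerSeries (Fin (n - h)) (WittVector p (GaloisField p n)),
        β f ∈ P →
        (p : MvPowerSeries (Fin (n - h)) (WittVector p (GaloisField p n))) ^ K ∣ f := by
      intro K
      induction K with
      | zero => intro f _; simp
      | succ K ih =>
        intro f hf
        have h3 : (p : MvPowerSeries (Fin (n - h)) (WittVector p (GaloisField p n))) ^ 1 ∣ f := by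
          apply dvd_of_coeff
          intro x
          rw [← hβc, pow_one]
          apply coeff_vI _ _ _ _ (hle hf)
          intro l hl
          apply Finsupp.embDomain_of_notMem_range
          rintro ⟨i, hi⟩
          have := congrArg Fin.val hi
          simp only [he, emb, Function.Embedding.coeFn_mk] at this
          omega
        rw [pow_one] at h3
        obtain ⟨g, rfl⟩ := h3
        rw [map_mul, map_natCast] at hf
        have hg : β g ∈ P := (hP.mem_or_mem hf).resolve_left hp
        rw [pow_succ']
        exact mul_dvd_mul_left _ (ih g hg)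
    exact mv_zero p n f (fun K => key K f hf')
  · -- finiteness
    let φ := (Ideal.Quotient.mk P).comp β
    letI : Algebra (MvPowerSeries (Fin (n - h)) (WittVector p (GaloisField p n)))
      (LTRing p n ⧸ P) := φ.toAlgebra
    change Module.Finite (MvPowerSeries (Fin (n - h)) (WittVector p (GaloisField p n)))
      (LTRing p n ⧸ P)
    let T : Finset (Fin (n - 1)) := Finset.univ.filter (fun l => l ∉ Set.range e)
    let J : Ideal (LTRing p n) := Ideal.span
      ((fun l : Fin (n - 1) => (MvPowerSeries.X l : LTRing p n)) '' (T : Set (Fin (n - 1))))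
    have hJ : J ≤ vI p n h := by
      refine Ideal.span_le.2 ?_
      rintro f ⟨l, hl, rfl⟩
      have hl' : l ∉ Set.range e := (Finset.mem_filter.1 hl).2
      have := emb_mem n h h1 h2 l hl'
      exact Ideal.subset_span (Or.inr ⟨l, by omega, rfl⟩)
    obtain ⟨N, hN⟩ := Ideal.exists_pow_le_of_le_radical_of_fg hrad
      (IsNoetherian.noetherian _)
    have hJN : J ^ N ≤ P ⊔ Ideal.span {(p : LTRing p n)} :=
      (Ideal.pow_right_mono hJ N).trans hN
    obtain ⟨S, hS, hS2⟩ := exists_fg
      (B := MvPowerSeries (Fin (n - h)) (WittVector p (GaloisField p n)))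
      (A := LTRing p n ⧸ P) (Ideal.Quotient.mk P) β (fun _ => rfl) T
      (fun l => (MvPowerSeries.X l : LTRing p n)) J
      (fun l hl => Ideal.subset_span ⟨l, hl, rfl⟩) (by
        intro f
        have h1 : f - β (κ f) ∈ J := by
          apply mem_span_X
          intro E hE
          have h2 : E ∈ Set.range (Finsupp.embDomain (M := ℕ) e) := by
            rw [Finsupp.mem_range_embDomain_iff]
            intro l hl
            by_contra hcon
            have := hE l (Finset.mem_filter.2 ⟨Finset.mem_univ _, hcon⟩)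
            exact (Finsupp.mem_support_iff.1 hl) this
          obtain ⟨x, rfl⟩ := h2
          rw [map_sub, hβc]
          have h3 : MvPowerSeries.coeff x (κ f) =
            MvPowerSeries.coeff (Finsupp.embDomain e x) f := MvPowerSeries.coeff_killCompl _ _
          rw [h3, sub_self]
        have h4 := (Submodule.mem_span_image_finset_iff_exists_fun _).1 h1
        obtain ⟨c, hc⟩ := h4
        refine ⟨κ f, fun l => if h : l ∈ T then c ⟨l, h⟩ else 0, ?_⟩
        have h6 : f - β (κ f) = ∑ l ∈ T, (MvPowerSeries.X l : LTRing p n) *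
            (if h : l ∈ T then c ⟨l, h⟩ else 0) := by
          rw [← Finset.sum_coe_sort T (fun l => (MvPowerSeries.X l : LTRing p n) *
            (if h : l ∈ T then c ⟨l, h⟩ else 0)), ← hc]
          refine Finset.sum_congr rfl (fun l _ => ?_)
          rw [dif_pos l.2, smul_eq_mul, mul_comm]
        rw [← h6]
        ring) N
    refine ⟨?_⟩
    have hx : algebraMap (MvPowerSeries (Fin (n - h)) (WittVector p (GaloisField p n)))
        (LTRing p n ⧸ P) (p : MvPowerSeries (Fin (n - h)) (WittVector p (GaloisField p n))) =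
        Ideal.Quotient.mk P (p : LTRing p n) := by
      rw [map_natCast, map_natCast]
    have hSt : S = ⊤ := by
      apply nakayama (p : MvPowerSeries (Fin (n - h)) (WittVector p (GaloisField p n)))
        (mv_sum p n) _ S hS
      · intro a
        obtain ⟨f, rfl⟩ := Ideal.Quotient.mk_surjective a
        obtain ⟨s, hs, t, ht, hst⟩ := hS2 f
        have ht2 := hJN ht
        obtain ⟨q, hq, w, hw, hqw⟩ := Submodule.mem_sup.1 ht2
        obtain ⟨g, rfl⟩ := Ideal.mem_span_singleton.1 hw
        refine ⟨s, hs, Ideal.Quotient.mk P g, ?_⟩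
        rw [hst, hx, ← hqw, map_add, Ideal.Quotient.eq_zero_iff_mem.2 hq, zero_add, map_mul]
      · rw [hx]
        intro htop
        have h1 : (1 : LTRing p n ⧸ P) ∈ Ideal.span {Ideal.Quotient.mk P (p : LTRing p n)} := by
          rw [htop]; trivial
        obtain ⟨w, hw⟩ := Ideal.mem_span_singleton.1 h1
        obtain ⟨g, rfl⟩ := Ideal.Quotient.mk_surjective w
        rw [← map_mul, ← map_one (Ideal.Quotient.mk P), Ideal.Quotient.eq] at hw
        have h2 := hres _ hw
        rw [map_sub, map_one, map_mul, map_natCast, CharP.cast_eq_zero, zero_mul, sub_zero] at h2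
        exact one_ne_zero h2
    rw [← hSt]
    exact hS

end Crest.Agent.LT3FININJ0
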