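/- rid 227 (S0351), module GBA: series of finite Gauss norm (helper22). -/
import Crest.Agent.LT3Spec4

set_option autoImplicit false
open Crest.LubinTate
open Crest Crest.GeometryTopology

namespace Crest.Agent.LT3GBA

open Crest.Agent.LT3

variable {C : Type} [NontriviallyNormedField C] [CompleteSpace C] [IsUltrametricDist C]
variable {m : ℕ}

omit [CompleteSpace C] [IsUltrametricDist C] in
theorem mon_le {w : Fin m → C} {s : ℝ} (hw : ∀ i, ‖w i‖ ≤ s) (e : Fin m →₀ ℕ) :
    ‖∏ i, w i ^ e i‖ ≤ s ^ (∑ i, e i) := by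
  rw [norm_prod, ← Finset.prod_pow_eq_pow_sum]
  refine Finset.prod_le_prod (fun _ _ => norm_nonneg _) fun i _ => ?_
  rw [norm_pow]
  exact pow_le_pow_left₀ (norm_nonneg _) (hw i) _

omit [CompleteSpace C] [IsUltrametricDist C] in
/-- normalise `r₀` to be nonnegative. -/
theorem norm0 {r r₀ : ℝ} {w : Fin m → C} (hr : 0 < r) (h : r₀ < r) (hw : ∀ i, ‖w i‖ ≤ r₀) :
    ∃ s : ℝ, 0 ≤ s ∧ s < r ∧ ∀ i, ‖w i‖ ≤ s :=
  ⟨max r₀ 0, le_max_right _ _, max_lt h hr, fun i => (hw i).trans (le_max_left _ _)⟩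

omit [CompleteSpace C] [IsUltrametricDist C] in
theorem term_le {f : MvPowerSeries (Fin m) C} {r B s : ℝ} {w : Fin m → C} (hr : 0 < r)
    (hs : 0 ≤ s) (hw : ∀ i, ‖w i‖ ≤ s) (hf : GB r B f) (e : Fin m →₀ ℕ) :
    ‖MvPowerSeries.coeff e f * ∏ i, w i ^ e i‖ ≤ B * (s / r) ^ (∑ i, e i) := by
  rw [norm_mul]
  have h1 := mon_le hw e
  have h2 := hf e
  have h3 : 0 < r ^ (∑ i, e i) := pow_pos hr _
  calc ‖MvPowerSeries.coeff e f‖ * ‖∏ i, w i ^ e i‖
      ≤ ‖MvPowerSeries.coeff e f‖ * s ^ (∑ i, e i) :=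
        mul_le_mul_of_nonneg_left h1 (norm_nonneg _)
    _ = (‖MvPowerSeries.coeff e f‖ * r ^ (∑ i, e i)) * (s / r) ^ (∑ i, e i) := by
        rw [div_pow]; field_simp
    _ ≤ B * (s / r) ^ (∑ i, e i) :=
        mul_le_mul_of_nonneg_right h2 (pow_nonneg (div_nonneg hs hr.le) _)

omit [CompleteSpace C] [IsUltrametricDist C] in
theorem B_nonneg {f : MvPowerSeries (Fin m) C} {r B : ℝ} (hr : 0 < r) (hf : GB r B f) : 0 ≤ B :=
  le_trans (mul_nonneg (norm_nonneg _) (pow_nonneg hr.le _)) (hf 0)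

theorem summable {f : MvPowerSeries (Fin m) C} {r r₀ B : ℝ} {w : Fin m → C} (hr : 0 < r)
    (h : r₀ < r) (hw : ∀ i, ‖w i‖ ≤ r₀) (hf : GB r B f) :
    Summable (fun e : Fin m →₀ ℕ => MvPowerSeries.coeff e f * ∏ i, w i ^ e i) := by
  obtain ⟨s, hs0, hsr, hws⟩ := norm0 hr h hw
  apply NonarchimedeanAddGroup.summable_of_tendsto_cofinite_zero
  rw [tendsto_zero_iff_norm_tendsto_zero, Metric.tendsto_nhds]
  intro ε hε
  have hq0 : 0 ≤ s / r := div_nonneg hs0 hr.le
  have hq1 : s / r < 1 := (div_lt_one hr).2 hsr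
  have hB := B_nonneg hr hf
  obtain ⟨N, hN⟩ := exists_pow_lt_of_lt_one (show 0 < ε / (B + 1) by positivity) hq1
  rw [Filter.eventually_cofinite]
  refine Set.Finite.subset (Finsupp.finite_of_degree_lt (σ := Fin m) N) ?_
  intro e he
  simp only [Set.mem_ofPred_eq, dist_zero_right, norm_norm, not_lt] at he ⊢
  by_contra hc
  rw [not_lt, Finsupp.degree_eq_sum] at hc
  have h1 := term_le hr hs0 hws hf e
  have h2 : (s / r) ^ (∑ i, e i) ≤ (s / r) ^ N := pow_le_pow_of_le_one hq0 hq1.le hc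
  have h3 : B * (s / r) ^ (∑ i, e i) ≤ B * (s / r) ^ N := mul_le_mul_of_nonneg_left h2 hB
  have h4 : (s / r) ^ N * (B + 1) < ε := (lt_div_iff₀ (by positivity)).1 hN
  have h5 : 0 ≤ (s / r) ^ N := pow_nonneg hq0 _
  nlinarith

theorem hasSum {f : MvPowerSeries (Fin m) C} {r r₀ B : ℝ} {w : Fin m → C} (hr : 0 < r)
    (h : r₀ < r) (hw : ∀ i, ‖w i‖ ≤ r₀) (hf : GB r B f) :
    HasSum (fun e : Fin m →₀ ℕ => MvPowerSeries.coeff e f * ∏ i, w i ^ e i) (evm f w) :=
  (summable hr h hw hf).hasSum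

omit [CompleteSpace C] in
theorem bound {f : MvPowerSeries (Fin m) C} {r r₀ B : ℝ} {w : Fin m → C} (hr : 0 < r)
    (h : r₀ < r) (hw : ∀ i, ‖w i‖ ≤ r₀) (hB : 0 ≤ B) (hf : GB r B f) : ‖evm f w‖ ≤ B := by
  obtain ⟨s, hs0, hsr, hws⟩ := norm0 hr h hw
  apply IsUltrametricDist.norm_tsum_le_of_forall_le_of_nonneg hB
  intro e
  have hq0 : 0 ≤ s / r := div_nonneg hs0 hr.le
  have hq1 : s / r ≤ 1 := ((div_lt_one hr).2 hsr).le
  have h1 := term_le hr hs0 hws hf e
  have h2 := mul_le_mul_of_nonneg_left (pow_le_one₀ hq0 hq1 (n := ∑ i, e i)) hB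
  linarith

/-- the linear part at a monomial. -/
noncomputable def DD (w δ : Fin m → C) (e : Fin m →₀ ℕ) : C :=
  ∑ i, (e i : C) * (∏ k, w k ^ ((e - Finsupp.single i 1 : Fin m →₀ ℕ) k)) * δ i

omit [CompleteSpace C] [IsUltrametricDist C] in
theorem prod_add_single (w : Fin m → C) (e : Fin m →₀ ℕ) (j : Fin m) :
    ∏ k, w k ^ ((e + Finsupp.single j 1 : Fin m →₀ ℕ) k) = (∏ k, w k ^ e k) * w j := by
  classical
  have h1 : ∀ k, w k ^ ((e + Finsupp.single j 1 : Fin m →₀ ℕ) k) =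
      w k ^ e k * w k ^ (Finsupp.single j 1 k) := by
    intro k
    rw [Finsupp.add_apply, pow_add]
  rw [Finset.prod_congr rfl fun k _ => h1 k, Finset.prod_mul_distrib]
  congr 1
  rw [Finset.prod_eq_single j]
  · simp
  · intro k _ hk
    rw [Finsupp.single_apply, if_neg (Ne.symm hk), pow_zero]
  · intro h; exact absurd (Finset.mem_univ j) h

omit [CompleteSpace C] [IsUltrametricDist C] in
theorem DD_add_single (w δ : Fin m → C) (e : Fin m →₀ ℕ) (j : Fin m) :
    DD w δ (e + Finsupp.single j 1) = DD w δ e * w j + (∏ k, w k ^ e k) * δ j := by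
  classical
  unfold DD
  have key : ∀ i, (((e + Finsupp.single j 1 : Fin m →₀ ℕ) i : ℕ) : C) *
      (∏ k, w k ^ ((e + Finsupp.single j 1 - Finsupp.single i 1 : Fin m →₀ ℕ) k)) * δ i =
      (e i : C) * (∏ k, w k ^ ((e - Finsupp.single i 1 : Fin m →₀ ℕ) k)) * δ i * w j +
        (if i = j then (∏ k, w k ^ e k) * δ j else 0) := by
    intro i
    by_cases hi : e i = 0
    · by_cases hij : i = j
      · subst hij
        rw [add_tsub_cancel_right]
        simp [hi]
      · rw [if_neg hij]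
        simp [hi, Finsupp.single_apply, Ne.symm hij]
    · have h1 : e + Finsupp.single j 1 - Finsupp.single i 1 =
          (e - Finsupp.single i 1) + Finsupp.single j 1 := by
        symm
        apply tsub_add_eq_add_tsub
        rw [Finsupp.single_le_iff]
        omega
      have h2 : e = (e - Finsupp.single i 1) + Finsupp.single i 1 := by
        rw [tsub_add_cancel_of_le]
        rw [Finsupp.single_le_iff]
        omega
      rw [h1, prod_add_single]
      by_cases hij : i = j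
      · subst hij
        rw [if_pos rfl]
        have h3 : ∏ k, w k ^ e k =
            (∏ k, w k ^ ((e - Finsupp.single i 1 : Fin m →₀ ℕ) k)) * w i := by
          conv_lhs => rw [h2]
          rw [prod_add_single]
        rw [h3]
        simp only [Finsupp.add_apply, Finsupp.single_eq_same]
        push_cast
        ring
      · rw [if_neg hij]
        simp only [Finsupp.add_apply, Finsupp.single_apply, Ne.symm hij, if_false, add_zero]
        ring
  rw [Finset.sum_congr rfl fun i _ => key i, Finset.sum_add_distrib, Finset.sum_mul]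
  simp

omit [CompleteSpace C] in
theorem mono_est {w w' : Fin m → C} {r s ε : ℝ} (hr : 0 < r) (hs0 : 0 ≤ s) (hsr : s < r)
    (hw : ∀ i, ‖w i‖ ≤ s) (hw' : ∀ i, ‖w' i‖ ≤ s) (hε : 0 ≤ ε) (hd : ∀ i, ‖w' i - w i‖ ≤ ε) :
    ∀ (N : ℕ) (e : Fin m →₀ ℕ), ∑ i, e i = N →
      ‖DD w (fun i => w' i - w i) e‖ * r ≤ r ^ N * ε ∧
      ‖∏ k, w' k ^ e k - ∏ k, w k ^ e k - DD w (fun i => w' i - w i) e‖ * r ^ 2 ≤
        r ^ N * ε ^ 2 := by
  classical
  intro N
  induction N with
  | zero =>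
    intro e he
    have h0 : e = 0 := by
      ext i
      exact Finset.sum_eq_zero_iff.1 he i (Finset.mem_univ i)
    subst h0
    have : DD w (fun i => w' i - w i) 0 = 0 := by
      unfold DD
      simp
    rw [this]
    simp
    constructor <;> positivity
  | succ N ih =>
    intro e he
    have hex : ∃ j, e j ≠ 0 := by
      by_contra hc
      push Not at hc
      simp [hc] at he
    obtain ⟨j, hj⟩ := hex
    obtain ⟨e', rfl⟩ : ∃ e' : Fin m →₀ ℕ, e = e' + Finsupp.single j 1 := by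
      refine ⟨e - Finsupp.single j 1, ?_⟩
      rw [tsub_add_cancel_of_le]
      rw [Finsupp.single_le_iff]
      omega
    have he' : ∑ i, e' i = N := by
      have h1 : ∑ i, (e' + Finsupp.single j 1 : Fin m →₀ ℕ) i = ∑ i, e' i + 1 := by
        simp only [Finsupp.add_apply, Finset.sum_add_distrib, Finsupp.single_apply]
        simp
      omega
    obtain ⟨ih1, ih2⟩ := ih e' he'
    have hmon : ‖∏ k, w k ^ e' k‖ ≤ r ^ N := by
      refine (mon_le hw e').trans ?_
      rw [he']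
      exact pow_le_pow_left₀ hs0 hsr.le _
    have hwj : ‖w j‖ ≤ r := (hw j).trans hsr.le
    have hwj' : ‖w' j‖ ≤ r := (hw' j).trans hsr.le
    have hdj : ‖w' j - w j‖ ≤ ε := hd j
    have hdr : ‖w' j - w j‖ ≤ r := by
      rw [sub_eq_add_neg]
      refine (IsUltrametricDist.norm_add_le_max _ _).trans (max_le hwj' ?_)
      rwa [norm_neg]
    rw [DD_add_single, prod_add_single, prod_add_single]
    set D := DD w (fun i => w' i - w i) e' with hD
    set Wm := ∏ k, w k ^ e' k with hWm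
    set Wm' := ∏ k, w' k ^ e' k with hWm'
    have hrN : 0 ≤ r ^ N := pow_nonneg hr.le _
    constructor
    · have h1 : ‖D * w j + Wm * (w' j - w j)‖ ≤ max (‖D‖ * ‖w j‖) (‖Wm‖ * ‖w' j - w j‖) := by
        rw [← norm_mul, ← norm_mul]
        exact IsUltrametricDist.norm_add_le_max _ _
      have h2 : ‖D‖ * ‖w j‖ * r ≤ r ^ (N + 1) * ε := by
        calc ‖D‖ * ‖w j‖ * r = (‖D‖ * r) * ‖w j‖ := by ring
          _ ≤ (r ^ N * ε) * r := mul_le_mul ih1 hwj (norm_nonneg _) (by positivity)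
          _ = _ := by ring
      have h3 : ‖Wm‖ * ‖w' j - w j‖ * r ≤ r ^ (N + 1) * ε := by
        calc ‖Wm‖ * ‖w' j - w j‖ * r ≤ (r ^ N * ε) * r :=
              mul_le_mul_of_nonneg_right (mul_le_mul hmon hdj (norm_nonneg _) hrN) hr.le
          _ = _ := by ring
      calc ‖D * w j + Wm * (w' j - w j)‖ * r
          ≤ max (‖D‖ * ‖w j‖) (‖Wm‖ * ‖w' j - w j‖) * r := mul_le_mul_of_nonneg_right h1 hr.le
        _ ≤ _ := by
          rw [max_mul_of_nonneg _ _ hr.le]
          exact max_le h2 h3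
    · have h0 : Wm' * w' j - Wm * w j - (D * w j + Wm * (w' j - w j)) =
          (Wm' - Wm - D) * w' j + D * (w' j - w j) := by ring
      rw [h0]
      have h1 : ‖(Wm' - Wm - D) * w' j + D * (w' j - w j)‖ ≤
          max (‖Wm' - Wm - D‖ * ‖w' j‖) (‖D‖ * ‖w' j - w j‖) := by
        rw [← norm_mul, ← norm_mul]
        exact IsUltrametricDist.norm_add_le_max _ _
      have h2 : ‖Wm' - Wm - D‖ * ‖w' j‖ * r ^ 2 ≤ r ^ (N + 1) * ε ^ 2 := by
        calc ‖Wm' - Wm - D‖ * ‖w' j‖ * r ^ 2 = (‖Wm' - Wm - D‖ * r ^ 2) * ‖w' j‖ := by ring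
          _ ≤ (r ^ N * ε ^ 2) * r := mul_le_mul ih2 hwj' (norm_nonneg _) (by positivity)
          _ = _ := by ring
      have h3 : ‖D‖ * ‖w' j - w j‖ * r ^ 2 ≤ r ^ (N + 1) * ε ^ 2 := by
        calc ‖D‖ * ‖w' j - w j‖ * r ^ 2 = (‖D‖ * r) * (‖w' j - w j‖ * r) := by ring
          _ ≤ (r ^ N * ε) * (ε * r) :=
              mul_le_mul ih1 (mul_le_mul_of_nonneg_right hdj hr.le) (by positivity)
                (by positivity)
          _ = _ := by ring
      calc ‖(Wm' - Wm - D) * w' j + D * (w' j - w j)‖ * r ^ 2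
          ≤ max (‖Wm' - Wm - D‖ * ‖w' j‖) (‖D‖ * ‖w' j - w j‖) * r ^ 2 :=
            mul_le_mul_of_nonneg_right h1 (by positivity)
        _ ≤ _ := by
          rw [max_mul_of_nonneg _ _ (by positivity : (0 : ℝ) ≤ r ^ 2)]
          exact max_le h2 h3

theorem hasSum_pderiv {f : MvPowerSeries (Fin m) C} {r r₀ B : ℝ} {w : Fin m → C} (hr : 0 < r)
    (h : r₀ < r) (hw : ∀ i, ‖w i‖ ≤ r₀) (hf : GB r B f) (i : Fin m) :
    HasSum (fun e : Fin m →₀ ℕ => MvPowerSeries.coeff e f *
      ((e i : C) * ∏ k, w k ^ ((e - Finsupp.single i 1 : Fin m →₀ ℕ) k)))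
      (evm (MvPowerSeries.pderiv C i f) w) := by
  classical
  have hg : GB r (B / r) (MvPowerSeries.pderiv C i f) := by
    intro e
    rw [MvPowerSeries.coeff_pderiv, norm_mul]
    have h1 := hf (e + Finsupp.single i 1)
    have h2 : ∑ k, (e + Finsupp.single i 1 : Fin m →₀ ℕ) k = ∑ k, e k + 1 := by
      simp only [Finsupp.add_apply, Finset.sum_add_distrib, Finsupp.single_apply]
      simp
    rw [h2, pow_succ] at h1
    have h3 : ‖((e i : C) + 1)‖ ≤ 1 := by
      have := IsUltrametricDist.norm_natCast_le_one C (e i + 1)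
      push_cast at this
      exact this
    rw [le_div_iff₀ hr]
    calc ‖MvPowerSeries.coeff (e + Finsupp.single i 1) f‖ * ‖((e i : C) + 1)‖ *
          r ^ (∑ k, e k) * r
        ≤ ‖MvPowerSeries.coeff (e + Finsupp.single i 1) f‖ * 1 * r ^ (∑ k, e k) * r := by
          apply mul_le_mul_of_nonneg_right _ hr.le
          apply mul_le_mul_of_nonneg_right _ (pow_nonneg hr.le _)
          exact mul_le_mul_of_nonneg_left h3 (norm_nonneg _)
      _ ≤ B := by
          rw [mul_one, mul_assoc]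
          exact h1
  have h1 := hasSum hr h hw hg
  have hinj : Function.Injective (fun e : Fin m →₀ ℕ => e + Finsupp.single i 1) :=
    add_left_injective _
  rw [← hinj.hasSum_iff]
  · convert h1 using 1
    funext e
    simp only [Function.comp]
    rw [MvPowerSeries.coeff_pderiv, add_tsub_cancel_right, Finsupp.add_apply,
      Finsupp.single_eq_same]
    push_cast
    ring
  · intro e he
    have h0 : e i = 0 := by
      by_contra hc
      apply he
      refine ⟨e - Finsupp.single i 1, ?_⟩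
      simp only
      rw [tsub_add_cancel_of_le]
      rw [Finsupp.single_le_iff]
      omega
    rw [h0]
    simp

theorem taylor {f : MvPowerSeries (Fin m) C} {r r₀ B ε : ℝ} {w w' : Fin m → C} (hr : 0 < r)
    (h : r₀ < r) (hw : ∀ i, ‖w i‖ ≤ r₀) (hw' : ∀ i, ‖w' i‖ ≤ r₀) (hB : 0 ≤ B) (hf : GB r B f)
    (hε : 0 ≤ ε) (hd : ∀ i, ‖w' i - w i‖ ≤ ε) :
    ‖evm f w' - evm f w - ∑ i, evm (MvPowerSeries.pderiv C i f) w * (w' i - w i)‖ ≤
      B / r ^ 2 * ε ^ 2 := by
  have hs0 : 0 ≤ max r₀ 0 := le_max_right _ _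
  have hsr : max r₀ 0 < r := max_lt h hr
  have hws : ∀ i, ‖w i‖ ≤ max r₀ 0 := fun i => (hw i).trans (le_max_left _ _)
  have hws' : ∀ i, ‖w' i‖ ≤ max r₀ 0 := fun i => (hw' i).trans (le_max_left _ _)
  have h1 := (hasSum hr h hw' hf).sub (hasSum hr h hw hf)
  have h2 : HasSum (fun e : Fin m →₀ ℕ => ∑ i, MvPowerSeries.coeff e f *
      ((e i : C) * ∏ k, w k ^ ((e - Finsupp.single i 1 : Fin m →₀ ℕ) k)) * (w' i - w i))
      (∑ i, evm (MvPowerSeries.pderiv C i f) w * (w' i - w i)) :=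
    hasSum_sum fun i _ => (hasSum_pderiv hr h hw hf i).mul_right _
  have h3 := h1.sub h2
  rw [← h3.tsum_eq]
  have hr2 : 0 < r ^ 2 := by positivity
  apply IsUltrametricDist.norm_tsum_le_of_forall_le_of_nonneg (by positivity)
  intro e
  have h4 : MvPowerSeries.coeff e f * ∏ k, w' k ^ e k - MvPowerSeries.coeff e f * ∏ k, w k ^ e k -
      ∑ i, MvPowerSeries.coeff e f * ((e i : C) *
        ∏ k, w k ^ ((e - Finsupp.single i 1 : Fin m →₀ ℕ) k)) * (w' i - w i) =
      MvPowerSeries.coeff e f * (∏ k, w' k ^ e k - ∏ k, w k ^ e k -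
        DD w (fun i => w' i - w i) e) := by
    unfold DD
    rw [mul_sub, mul_sub, Finset.mul_sum]
    congr 1
    apply Finset.sum_congr rfl
    intro i _
    ring
  rw [h4, norm_mul]
  have h5 := (mono_est hr hs0 hsr hws hws' hε hd (∑ i, e i) e rfl).2
  have h6 := hf e
  rw [div_mul_eq_mul_div, le_div_iff₀ hr2]
  calc ‖MvPowerSeries.coeff e f‖ * ‖∏ k, w' k ^ e k - ∏ k, w k ^ e k -
        DD w (fun i => w' i - w i) e‖ * r ^ 2
      = ‖MvPowerSeries.coeff e f‖ * (‖∏ k, w' k ^ e k - ∏ k, w k ^ e k -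
        DD w (fun i => w' i - w i) e‖ * r ^ 2) := by ring
    _ ≤ ‖MvPowerSeries.coeff e f‖ * (r ^ (∑ i, e i) * ε ^ 2) :=
        mul_le_mul_of_nonneg_left h5 (norm_nonneg _)
    _ = (‖MvPowerSeries.coeff e f‖ * r ^ (∑ i, e i)) * ε ^ 2 := by ring
    _ ≤ B * ε ^ 2 := mul_le_mul_of_nonneg_right h6 (by positivity)

theorem limit (g : ℕ → MvPowerSeries (Fin m) C) {r B q : ℝ} (hr : 0 < r) (hB : 0 ≤ B)
    (hq : 0 ≤ q) (hq1 : q < 1) (hg : ∀ N, GB r (B * q ^ N) (g (N + 1) - g N)) :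
    ∃ g' : MvPowerSeries (Fin m) C, ∀ N, GB r (B * q ^ N) (g' - g N) := by
  have hstep : ∀ (e : Fin m →₀ ℕ) (N : ℕ),
      ‖MvPowerSeries.coeff e (g (N + 1)) - MvPowerSeries.coeff e (g N)‖ ≤
        B / r ^ (∑ i, e i) * q ^ N := by
    intro e N
    have h1 := hg N e
    rw [map_sub] at h1
    have h2 : 0 < r ^ (∑ i, e i) := pow_pos hr _
    rw [div_mul_eq_mul_div, le_div_iff₀ h2]
    exact h1
  have hlim : ∀ e : Fin m →₀ ℕ, ∃ a : C,
      Filter.Tendsto (fun N => MvPowerSeries.coeff e (g N)) Filter.atTop (nhds a) := by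
    intro e
    apply cauchySeq_tendsto_of_complete
    apply cauchySeq_of_le_geometric q (B / r ^ (∑ i, e i)) hq1
    intro N
    rw [dist_comm, dist_eq_norm]
    exact hstep e N
  choose a ha using hlim
  obtain ⟨G, hG⟩ : ∃ G : MvPowerSeries (Fin m) C, ∀ e, MvPowerSeries.coeff e G = a e :=
    ⟨fun e => a e, fun _ => rfl⟩
  refine ⟨G, fun N e => ?_⟩
  have h2 : 0 < r ^ (∑ i, e i) := pow_pos hr _
  rw [map_sub, ← le_div_iff₀ h2, hG]
  have hM : ∀ M, ‖MvPowerSeries.coeff e (g (N + M)) - MvPowerSeries.coeff e (g N)‖ ≤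
      B * q ^ N / r ^ (∑ i, e i) := by
    intro M
    induction M with
    | zero =>
      rw [add_zero, sub_self, norm_zero]
      positivity
    | succ M ih =>
      have h3 : MvPowerSeries.coeff e (g (N + (M + 1))) - MvPowerSeries.coeff e (g N) =
          (MvPowerSeries.coeff e (g (N + M + 1)) - MvPowerSeries.coeff e (g (N + M))) +
          (MvPowerSeries.coeff e (g (N + M)) - MvPowerSeries.coeff e (g N)) := by
        rw [← add_assoc]; ring
      rw [h3]
      refine (IsUltrametricDist.norm_add_le_max _ _).trans (max_le ?_ ih)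
      refine (hstep e (N + M)).trans ?_
      rw [mul_div_right_comm]
      apply mul_le_mul_of_nonneg_left _ (by positivity)
      exact pow_le_pow_of_le_one hq hq1.le (Nat.le_add_right _ _)
  have hT : Filter.Tendsto (fun M => ‖MvPowerSeries.coeff e (g (N + M)) -
      MvPowerSeries.coeff e (g N)‖) Filter.atTop
      (nhds ‖a e - MvPowerSeries.coeff e (g N)‖) := by
    apply Filter.Tendsto.norm
    apply Filter.Tendsto.sub_const
    have := ha e
    refine this.comp ?_
    exact Filter.tendsto_atTop_mono (fun M => Nat.le_add_left M N) Filter.tendsto_id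
  exact le_of_tendsto' hT hM

theorem sub {f f' : MvPowerSeries (Fin m) C} {r r₀ B B' : ℝ} {w : Fin m → C} (hr : 0 < r)
    (h : r₀ < r) (hw : ∀ i, ‖w i‖ ≤ r₀) (hf : GB r B f) (hf' : GB r B' f') :
    evm (f - f') w = evm f w - evm f' w := by
  have h1 := (hasSum hr h hw hf).sub (hasSum hr h hw hf')
  rw [← h1.tsum_eq]
  unfold evm
  apply tsum_congr
  intro e
  rw [map_sub, sub_mul]

theorem main : ApiGB where
  hasSum := fun hr h hw hf => hasSum hr h hw hf
  bound := fun hr h hw hB hf => bound hr h hw hB hf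
  taylor := fun hr h hw hw' hB hf hε hd => taylor hr h hw hw' hB hf hε hd
  limit := by
    intro C _ _ _ m g r B q hr hB hq hq1 hg
    exact limit g hr hB hq hq1 hg
  sub := fun hr h hw hf hf' => sub hr h hw hf hf'

end Crest.Agent.LT3GBA
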