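import Crest.Agent.LT3Spec2
import Crest.Agent.LT3APIA

set_option autoImplicit false
set_option linter.unusedSectionVars false
open Crest.LubinTate
open Crest Crest.GeometryTopology

namespace Crest.Agent.LT3GRP

open LT3

section lift

variable {C : Type} [NontriviallyNormedField C] [CompleteSpace C] [IsUltrametricDist C]

/-- the closed unit ball as a subring. -/
def O (C : Type) [NontriviallyNormedField C] [IsUltrametricDist C] : Subring C where
  carrier := {c | ‖c‖ ≤ 1}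
  mul_mem' := by
    intro a b ha hb
    simp only [Set.mem_ofPred_eq] at *
    rw [norm_mul]
    exact mul_le_one₀ ha (norm_nonneg _) hb
  one_mem' := by simp
  add_mem' := by
    intro a b ha hb
    simp only [Set.mem_ofPred_eq] at *
    exact (IsUltrametricDist.norm_add_le_max a b).trans (max_le ha hb)
  zero_mem' := by simp
  neg_mem' := by
    intro a ha
    simpa using ha

/-- lift of an integral series. -/
def lift {σ : Type} (f : MvPowerSeries σ C) (hf : Int1 f) : MvPowerSeries σ (O C) :=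
  fun e => ⟨MvPowerSeries.coeff e f, hf e⟩

lemma map_lift {σ : Type} (f : MvPowerSeries σ C) (hf : Int1 f) :
    MvPowerSeries.map (O C).subtype (lift f hf) = f := by
  ext e
  rw [MvPowerSeries.coeff_map]
  rfl

lemma int_map {σ : Type} (f : MvPowerSeries σ (O C)) :
    Int1 (MvPowerSeries.map (O C).subtype f) := by
  intro e
  rw [MvPowerSeries.coeff_map]
  exact (MvPowerSeries.coeff e f).2

lemma map_inj {σ : Type} {f g : MvPowerSeries σ (O C)}
    (h : MvPowerSeries.map (O C).subtype f = MvPowerSeries.map (O C).subtype g) : f = g := by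
  ext e
  have := congrArg (MvPowerSeries.coeff e) h
  rw [MvPowerSeries.coeff_map, MvPowerSeries.coeff_map] at this
  exact this

lemma cons_map {σ : Type} (f g : MvPowerSeries σ (O C)) :
    (fun i => MvPowerSeries.map (O C).subtype (![f, g] i)) =
    ![MvPowerSeries.map (O C).subtype f, MvPowerSeries.map (O C).subtype g] := by
  funext i
  fin_cases i <;> rfl

lemma map_sub2 {σ : Type} (F : MvPowerSeries (Fin 2) (O C)) {f g : MvPowerSeries σ (O C)}
    (hf : ZC f) (hg : ZC g) :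
    MvPowerSeries.map (O C).subtype (MvPowerSeries.subst ![f, g] F) =
    MvPowerSeries.subst ![MvPowerSeries.map (O C).subtype f, MvPowerSeries.map (O C).subtype g]
      (MvPowerSeries.map (O C).subtype F) := by
  rw [MvPowerSeries.map_subst (LT3APIA.hs2 hf hg), cons_map]

/-- an integral law comes from the unit ball. -/
lemma exists_lift {G : FormalGroup C} (hG : IG G) :
    ∃ G₀ : FormalGroup (O C), G₀.map (O C).subtype = G ∧ G₀.IsComm := by
  have hz : ZC (lift G.toPowerSeries hG.int) := by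
    show MvPowerSeries.coeff 0 (lift G.toPowerSeries hG.int) = 0
    apply Subtype.ext
    exact G.zero_constantCoeff
  have hzs : ∀ {σ : Type} {f g : MvPowerSeries σ (O C)}, ZC f → ZC g →
      ZC (MvPowerSeries.subst ![f, g] (lift G.toPowerSeries hG.int)) := by
    intro σ f g hf hg
    refine MvPowerSeries.constantCoeff_subst_eq_zero (LT3APIA.hs2 hf hg) ?_ hz
    intro i
    fin_cases i
    · exact hf
    · exact hg
  let G₀ : FormalGroup (O C) :=
    { toPowerSeries := lift G.toPowerSeries hG.int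
      zero_constantCoeff := hz
      lin_coeff_X := Subtype.ext G.lin_coeff_X
      lin_coeff_Y := Subtype.ext G.lin_coeff_Y
      assoc := by
        apply map_inj
        rw [map_sub2 _ (hzs (LT3APIA.zc_X _) (LT3APIA.zc_X _)) (LT3APIA.zc_X _),
          map_sub2 _ (LT3APIA.zc_X _) (hzs (LT3APIA.zc_X _) (LT3APIA.zc_X _)),
          map_sub2 _ (LT3APIA.zc_X _) (LT3APIA.zc_X _),
          map_sub2 _ (LT3APIA.zc_X _) (LT3APIA.zc_X _), map_lift]
        simp only [MvPowerSeries.map_X]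
        exact G.assoc }
  refine ⟨G₀, ?_, ?_⟩
  · apply FormalGroup.ext
    exact map_lift _ _
  · constructor
    apply map_inj
    rw [map_sub2 _ (LT3APIA.zc_X _) (LT3APIA.zc_X _)]
    show MvPowerSeries.map (O C).subtype (lift G.toPowerSeries hG.int) =
      MvPowerSeries.subst _ (MvPowerSeries.map (O C).subtype (lift G.toPowerSeries hG.int))
    rw [map_lift]
    simp only [MvPowerSeries.map_X]
    exact hG.comm.comm


lemma int_zero {σ : Type} : Int1 (0 : MvPowerSeries σ C) := by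
  intro e
  simp

lemma int_mulS (Cc : ApiC) {G : FormalGroup C} (hG : IG G) (m : ℕ) : Int1 (mulSeries G m) := by
  obtain ⟨G₀, rfl, -⟩ := exists_lift hG
  rw [← Cc.mul_map]
  exact int_map _

lemma int_negS (A : ApiA) {G : FormalGroup C} (hG : IG G) :
    Int1 (fneg G (PowerSeries.X : PowerSeries C)) := by
  obtain ⟨G₀, rfl, -⟩ := exists_lift hG
  have h := A.map_fneg (O C).subtype G₀ (f := (PowerSeries.X : PowerSeries (O C))) LT3APIA.zc_PX
  have hX : MvPowerSeries.map (O C).subtype (PowerSeries.X : PowerSeries (O C)) =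
      (PowerSeries.X : PowerSeries C) := PowerSeries.map_X _
  rw [hX] at h
  rw [← h]
  exact int_map _

/-- `F = X + Y + X Y G` with `G` integral. -/
lemma exists_fac {G : FormalGroup C} (hG : IG G) : ∃ H : MvPowerSeries (Fin 2) C, Int1 H ∧
    G.toPowerSeries = MvPowerSeries.X 0 + MvPowerSeries.X 1 +
      MvPowerSeries.X 0 * (MvPowerSeries.X 1 * H) := by
  obtain ⟨G₀, rfl, -⟩ := exists_lift hG
  obtain ⟨H, hH⟩ := LT3APIA.exists_factor G₀
  refine ⟨MvPowerSeries.map (O C).subtype H, int_map _, ?_⟩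
  show MvPowerSeries.map (O C).subtype G₀.toPowerSeries = _
  rw [hH]
  simp

variable (E : ApiE)

lemma fin2 {z z' : C} (hz : ‖z‖ < 1) (hz' : ‖z'‖ < 1) : ∀ i, ‖(![z, z'] : Fin 2 → C) i‖ < 1 := by
  intro i
  fin_cases i
  · exact hz
  · exact hz'

include E in
lemma gadd_eq {G : FormalGroup C} {H : MvPowerSeries (Fin 2) C} (hH : Int1 H)
    (hG : G.toPowerSeries = MvPowerSeries.X 0 + MvPowerSeries.X 1 +
      MvPowerSeries.X 0 * (MvPowerSeries.X 1 * H)) {z z' : C} (hz : ‖z‖ < 1) (hz' : ‖z'‖ < 1) :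
    gadd G z z' = z + z' + z * (z' * evm H ![z, z']) := by
  have h := fin2 hz hz'
  have i0 := E.int_X (C := C) (0 : Fin 2)
  have i1 := E.int_X (C := C) (1 : Fin 2)
  unfold gadd
  rw [hG, E.evm_add (E.int_add i0 i1) (E.int_mul i0 (E.int_mul i1 hH)) h, E.evm_add i0 i1 h,
    E.evm_mul i0 (E.int_mul i1 hH) h, E.evm_mul i1 hH h, E.evm_X, E.evm_X]
  rfl

include E in
lemma add_approx {G : FormalGroup C} (hG : IG G) {z z' : C} (hz : ‖z‖ < 1) (hz' : ‖z'‖ < 1) :
    ‖gadd G z z' - (z + z')‖ ≤ ‖z‖ * ‖z'‖ := by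
  obtain ⟨H, hH, h⟩ := exists_fac hG
  rw [gadd_eq E hH h hz hz', add_sub_cancel_left, norm_mul, norm_mul]
  have := E.evm_le_one hH (fin2 hz hz')
  have h1 := norm_nonneg z
  have h2 := norm_nonneg z'
  have h3 : ‖z'‖ * ‖evm H ![z, z']‖ ≤ ‖z'‖ := mul_le_of_le_one_right h2 this
  exact mul_le_mul_of_nonneg_left h3 h1

include E in
lemma add_le {G : FormalGroup C} (hG : IG G) {z z' : C} (hz : ‖z‖ < 1) (hz' : ‖z'‖ < 1) :
    ‖gadd G z z'‖ ≤ max ‖z‖ ‖z'‖ := by
  refine E.evm_le_of_zc (max ‖z‖ ‖z'‖) (le_max_of_le_left (norm_nonneg _)) (max_lt hz hz')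
    hG.int G.zero_constantCoeff ?_
  intro i
  fin_cases i
  · exact le_max_left _ _
  · exact le_max_right _ _

include E in
lemma add_ball {G : FormalGroup C} (hG : IG G) {z z' : C} (hz : ‖z‖ < 1) (hz' : ‖z'‖ < 1) :
    ‖gadd G z z'‖ < 1 := (add_le E hG hz hz').trans_lt (max_lt hz hz')

include E in
/-- evaluation of a formal sum. -/
lemma evm_fadd {G : FormalGroup C} (hG : IG G) {σ : Type} [Fintype σ] {f g : MvPowerSeries σ C}
    {z : σ → C} (hf : Int1 f) (hg : Int1 g) (zf : ZC f) (zg : ZC g) (hz : ∀ i, ‖z i‖ < 1) :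
    evm (fadd G f g) z = gadd G (evm f z) (evm g z) := by
  unfold fadd gadd
  rw [E.evm_subst hG.int ?_ ?_ hz]
  · congr 1
    funext i
    fin_cases i <;> rfl
  · intro i
    fin_cases i
    · exact hf
    · exact hg
  · intro i
    fin_cases i
    · exact zf
    · exact zg

include E in
lemma int_fadd {G : FormalGroup C} (hG : IG G) {σ : Type} {f g : MvPowerSeries σ C}
    (hf : Int1 f) (hg : Int1 g) (zf : ZC f) (zg : ZC g) : Int1 (fadd G f g) := by
  unfold fadd
  refine E.int_subst hG.int ?_ ?_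
  · intro i
    fin_cases i
    · exact hf
    · exact hg
  · intro i
    fin_cases i
    · exact zf
    · exact zg

include E in
lemma ev_fadd {G : FormalGroup C} (hG : IG G) {f g : PowerSeries C}
    {z : C} (hf : Int1 f) (hg : Int1 g) (zf : ZC f) (zg : ZC g) (hz : ‖z‖ < 1) :
    ev (fadd G f g : PowerSeries C) z = gadd G (ev f z) (ev g z) := by
  rw [← E.ev_eq, ← E.ev_eq, ← E.ev_eq]
  exact evm_fadd E hG hf hg zf zg (fun _ => hz)

include E in
lemma evm_zero {σ : Type} [Fintype σ] (z : σ → C) : evm (0 : MvPowerSeries σ C) z = 0 := by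
  have := E.evm_C (σ := σ) (0 : C) z
  rwa [map_zero] at this

include E in
lemma ev_zero (z : C) : ev (0 : PowerSeries C) z = 0 := by
  rw [← E.ev_eq]
  exact evm_zero E _

include E in
lemma int_PX : Int1 (PowerSeries.X : PowerSeries C) := E.int_X (C := C) ()

include E in
lemma zero_add {G : FormalGroup C} (hG : IG G) {z : C} (hz : ‖z‖ < 1) : gadd G 0 z = z := by
  have h := ev_fadd E hG (z := z) (f := 0) (g := PowerSeries.X) int_zero (int_PX E)
    LT3APIA.zc_zero LT3APIA.zc_PX hz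
  rw [LT3APIA.zero_fadd G LT3APIA.zc_PX, ev_zero E, E.ev_X] at h
  exact h.symm

include E in
lemma add_comm' {G : FormalGroup C} (hG : IG G) {z z' : C} (hz : ‖z‖ < 1) (hz' : ‖z'‖ < 1) :
    gadd G z z' = gadd G z' z := by
  have h := fin2 hz hz'
  have i0 := E.int_X (C := C) (0 : Fin 2)
  have i1 := E.int_X (C := C) (1 : Fin 2)
  have e1 := evm_fadd E hG i0 i1 (LT3APIA.zc_X _) (LT3APIA.zc_X _) h
  have e2 := evm_fadd E hG i1 i0 (LT3APIA.zc_X _) (LT3APIA.zc_X _) h
  rw [LT3APIA.fadd_comm G hG.comm (LT3APIA.zc_X _) (LT3APIA.zc_X _), e2] at e1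
  rw [E.evm_X, E.evm_X] at e1
  exact e1.symm

include E in
lemma add_assoc' {G : FormalGroup C} (hG : IG G) {z z' z'' : C} (hz : ‖z‖ < 1) (hz' : ‖z'‖ < 1)
    (hz'' : ‖z''‖ < 1) : gadd G (gadd G z z') z'' = gadd G z (gadd G z' z'') := by
  have h : ∀ i, ‖(![z, z', z''] : Fin 3 → C) i‖ < 1 := by
    intro i
    fin_cases i
    · exact hz
    · exact hz'
    · exact hz''
  have i0 := E.int_X (C := C) (0 : Fin 3)
  have i1 := E.int_X (C := C) (1 : Fin 3)
  have i2 := E.int_X (C := C) (2 : Fin 3)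
  have z0 := LT3APIA.zc_X (R := C) (0 : Fin 3)
  have z1 := LT3APIA.zc_X (R := C) (1 : Fin 3)
  have z2 := LT3APIA.zc_X (R := C) (2 : Fin 3)
  have e1 := evm_fadd E hG (int_fadd E hG i0 i1 z0 z1) i2 (LT3APIA.zc_fadd G z0 z1) z2 h
  have e2 := evm_fadd E hG i0 (int_fadd E hG i1 i2 z1 z2) z0 (LT3APIA.zc_fadd G z1 z2) h
  rw [LT3APIA.fadd_assoc G z0 z1 z2, e2, evm_fadd E hG i0 i1 z0 z1 h,
    evm_fadd E hG i1 i2 z1 z2 h, E.evm_X, E.evm_X, E.evm_X] at e1
  exact e1.symm

include E in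
lemma neg_ball (A : ApiA) {G : FormalGroup C} (hG : IG G) {z : C} (hz : ‖z‖ < 1) :
    ‖gneg G z‖ ≤ ‖z‖ :=
  E.ev_le_of_zc (int_negS A hG) (A.zc_fneg G LT3APIA.zc_PX) hz

include E in
lemma add_neg (A : ApiA) {G : FormalGroup C} (hG : IG G) {z : C} (hz : ‖z‖ < 1) :
    gadd G z (gneg G z) = 0 := by
  have h := ev_fadd E hG (z := z) (f := PowerSeries.X) (g := fneg G PowerSeries.X)
    (int_PX E) (int_negS A hG) LT3APIA.zc_PX (A.zc_fneg G LT3APIA.zc_PX) hz
  rw [A.fadd_fneg G LT3APIA.zc_PX, ev_zero E, E.ev_X] at h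
  exact h.symm

include E in
lemma neg_approx' (A : ApiA) {G : FormalGroup C} (hG : IG G) {z : C} (hz : ‖z‖ < 1) :
    ‖gneg G z + z‖ ≤ ‖z‖ * ‖gneg G z‖ := by
  have h := add_approx E hG hz ((neg_ball E A hG hz).trans_lt hz)
  rw [add_neg E A hG hz, zero_sub, norm_neg, add_comm z] at h
  exact h

include E in
lemma neg_norm (A : ApiA) {G : FormalGroup C} (hG : IG G) {z : C} (hz : ‖z‖ < 1) :
    ‖gneg G z‖ = ‖z‖ := by
  refine le_antisymm (neg_ball E A hG hz) ?_
  by_contra hlt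
  push Not at hlt
  have h1 := neg_approx' E A hG hz
  have h2 : ‖gneg G z + z‖ = ‖z‖ := by
    have := IsUltrametricDist.norm_add_eq_max_of_norm_ne_norm hlt.ne
    rw [this, max_eq_right hlt.le]
  have h3 : 0 < ‖z‖ := (norm_nonneg _).trans_lt hlt
  rw [h2] at h1
  nlinarith [norm_nonneg (gneg G z)]

include E in
lemma sub_cancel (A : ApiA) {G : FormalGroup C} (hG : IG G) {z z' : C} (hz : ‖z‖ < 1)
    (hz' : ‖z'‖ < 1) : gadd G (gsub G z z') z' = z := by
  have hn : ‖gneg G z'‖ < 1 := (neg_ball E A hG hz').trans_lt hz'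
  unfold gsub
  rw [add_assoc' E hG hz hn hz', add_comm' E hG hn hz', add_neg E A hG hz',
    add_comm' E hG hz (by simp), zero_add E hG hz]

include E in
lemma add_sub_cancel' (A : ApiA) {G : FormalGroup C} (hG : IG G) {z z' : C} (hz : ‖z‖ < 1)
    (hz' : ‖z'‖ < 1) : gsub G (gadd G z z') z' = z := by
  have hn : ‖gneg G z'‖ < 1 := (neg_ball E A hG hz').trans_lt hz'
  unfold gsub
  rw [add_assoc' E hG hz hz' hn, add_neg E A hG hz', add_comm' E hG hz (by simp),
    zero_add E hG hz]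

include E in
lemma sub_ball (A : ApiA) {G : FormalGroup C} (hG : IG G) {z z' : C} (hz : ‖z‖ < 1)
    (hz' : ‖z'‖ < 1) : ‖gsub G z z'‖ < 1 :=
  add_ball E hG hz ((neg_ball E A hG hz').trans_lt hz')

include E in
lemma sub_approx' (A : ApiA) {G : FormalGroup C} (hG : IG G) {z z' : C} (hz : ‖z‖ < 1)
    (hz' : ‖z'‖ < 1) : ‖(z - z') - gsub G z z'‖ ≤ ‖gsub G z z'‖ * ‖z'‖ := by
  have h := add_approx E hG (sub_ball E A hG hz hz') hz'
  rw [sub_cancel E A hG hz hz'] at h
  rwa [show z - (gsub G z z' + z') = (z - z') - gsub G z z' by ring] at h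

include E in
lemma sub_norm (A : ApiA) {G : FormalGroup C} (hG : IG G) {z z' : C} (hz : ‖z‖ < 1)
    (hz' : ‖z'‖ < 1) : ‖gsub G z z'‖ = ‖z - z'‖ := by
  have h := sub_approx' E A hG hz hz'
  by_contra hne
  have h2 : ‖(z - z') - gsub G z z'‖ = max ‖z - z'‖ ‖gsub G z z'‖ := by
    rw [sub_eq_add_neg, IsUltrametricDist.norm_add_eq_max_of_norm_ne_norm, norm_neg]
    rw [norm_neg]
    exact fun h => hne h.symm
  rw [h2] at h
  have h3 := (le_max_right ‖z - z'‖ ‖gsub G z z'‖).trans h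
  have h4 := (le_max_left ‖z - z'‖ ‖gsub G z z'‖).trans h
  have h5 := norm_nonneg (gsub G z z')
  have h6 := norm_nonneg z'
  have h7 : ‖gsub G z z'‖ = 0 := by nlinarith
  rw [h7, zero_mul] at h4
  exact hne (by rw [h7]; exact (le_antisymm h4 (norm_nonneg _)).symm)

include E in
lemma sub_approx (A : ApiA) {G : FormalGroup C} (hG : IG G) {z z' : C} (hz : ‖z‖ < 1)
    (hz' : ‖z'‖ < 1) : ‖gsub G z z' - (z - z')‖ ≤ ‖z - z'‖ * max ‖z‖ ‖z'‖ := by
  have h := sub_approx' E A hG hz hz'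
  rw [sub_norm E A hG hz hz', norm_sub_rev] at h
  exact h.trans (mul_le_mul_of_nonneg_left (le_max_right _ _) (norm_nonneg _))

include E in
/-- homs are additive on points. -/
lemma hom_add (B : ApiB) {G G' : FormalGroup C} (hG : IG G) (hG' : IG G') {φ : PowerSeries C}
    (hφ : Int1 φ) (h : IsFGHom G G' φ) {z z' : C} (hz : ‖z‖ < 1) (hz' : ‖z'‖ < 1) :
    ev φ (gadd G z z') = gadd G' (ev φ z) (ev φ z') := by
  have hh := fin2 hz hz'
  have i0 := E.int_X (C := C) (0 : Fin 2)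
  have i1 := E.int_X (C := C) (1 : Fin 2)
  have z0 := LT3APIA.zc_X (R := C) (0 : Fin 2)
  have z1 := LT3APIA.zc_X (R := C) (1 : Fin 2)
  have zφ : ZC φ := h.1
  have e := B.hom_fadd h z0 z1
  have e' := congrArg (fun f => evm f ![z, z']) e
  beta_reduce at e'
  rw [E.evm_cmp hφ (int_fadd E hG i0 i1 z0 z1) (LT3APIA.zc_fadd G z0 z1) hh,
    evm_fadd E hG i0 i1 z0 z1 hh,
    evm_fadd E hG' (E.int_cmp hφ i0 z0) (E.int_cmp hφ i1 z1) (LT3APIA.zc_cmp zφ z0)
      (LT3APIA.zc_cmp zφ z1) hh, E.evm_cmp hφ i0 z0 hh, E.evm_cmp hφ i1 z1 hh,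
    E.evm_X, E.evm_X] at e'
  exact e'

end lift

theorem main (A : ApiA) (B : ApiB) (Cc : ApiC) (E : ApiE) : ApiG where
  int_mul := fun hG m => int_mulS Cc hG m
  int_neg := fun hG => int_negS A hG
  add_ball := fun hG _ _ hz hz' => add_ball E hG hz hz'
  add_le := fun hG _ _ hz hz' => add_le E hG hz hz'
  add_approx := fun hG _ _ hz hz' => add_approx E hG hz hz'
  neg_norm := fun hG _ hz => neg_norm E A hG hz
  neg_approx := fun hG z hz => by
    have h := neg_approx' E A hG hz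
    rwa [neg_norm E A hG hz, ← sq] at h
  zero_add := fun hG _ hz => zero_add E hG hz
  add_comm := fun hG _ _ hz hz' => add_comm' E hG hz hz'
  add_assoc := fun hG _ _ _ hz hz' hz'' => add_assoc' E hG hz hz' hz''
  add_neg := fun hG _ hz => add_neg E A hG hz
  sub_norm := fun hG _ _ hz hz' => sub_norm E A hG hz hz'
  sub_approx := fun hG _ _ hz hz' => sub_approx E A hG hz hz'
  mul_zero := fun {C} _ _ _ {G} hG m => by
    have h := E.ev_le_of_zc (z := (0 : C)) (int_mulS Cc hG m) (Cc.zc_mul G m) (by simp)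
    rw [norm_zero] at h
    exact norm_le_zero_iff.1 h
  zero_mul := fun {C} _ _ _ {G} hG {z} hz => ev_zero E z
  one_mul := fun {C} _ _ _ {G} hG {z} hz => by
    unfold gmul
    rw [Cc.mul_one, E.ev_X]
  mul_norm_le := fun {C} _ _ _ {G} hG m {z} hz =>
    E.ev_le_of_zc (int_mulS Cc hG m) (Cc.zc_mul G m) hz
  add_mul := fun {C} _ _ _ {G} hG a b {z} hz => by
    unfold gmul
    rw [Cc.mul_add]
    exact ev_fadd E hG (int_mulS Cc hG a) (int_mulS Cc hG b) (Cc.zc_mul G a) (Cc.zc_mul G b) hz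
  mul_mul := fun {C} _ _ _ {G} hG a b {z} hz => by
    unfold gmul
    rw [Cc.mul_mul]
    exact E.ev_cmp (int_mulS Cc hG a) (int_mulS Cc hG b) (Cc.zc_mul G b) hz
  mul_add := fun {C} _ _ _ {G} hG m {z z'} hz hz' =>
    hom_add E B hG hG (int_mulS Cc hG m) (Cc.mul_hom hG.comm m) hz hz'
  mul_sub := fun {C} _ _ _ {G} hG m {z z'} hz hz' => by
    have h1 := hom_add E B hG hG (int_mulS Cc hG m) (Cc.mul_hom hG.comm m)
      (sub_ball E A hG hz hz') hz'
    rw [sub_cancel E A hG hz hz'] at h1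
    have hb : ∀ {w : C}, ‖w‖ < 1 → ‖ev (mulSeries G m) w‖ < 1 := fun {w} hw =>
      (E.ev_le_of_zc (int_mulS Cc hG m) (Cc.zc_mul G m) hw).trans_lt hw
    unfold gmul
    rw [h1, add_sub_cancel' E A hG (hb (sub_ball E A hG hz hz')) (hb hz')]
  hom_add := fun hG hG' _ hφ h _ _ hz hz' => hom_add E B hG hG' hφ h hz hz'

end Crest.Agent.LT3GRP
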