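/- rid 227 (S0351), module ITER: iterating a move (helper2). -/
import Crest.Agent.LT3Spec4

set_option autoImplicit false
open Crest.LubinTate
open Crest Crest.GeometryTopology

namespace Crest.Agent.LT3ITER

open Crest.Agent.LT3

theorem map_map_fg {R S T : Type} [CommRing R] [CommRing S] [CommRing T] (F : FormalGroup R)
    (f : R →+* S) (g : S →+* T) : (F.map f).map g = F.map (g.comp f) := by
  apply FormalGroup.ext
  ext e
  simp [FormalGroup.map]

theorem map_id_fg {R : Type} [CommRing R] (F : FormalGroup R) :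
    F.map (RingHom.id R) = F := by
  apply FormalGroup.ext
  ext e
  simp [FormalGroup.map]

section ring

variable {k : Type} [CommRing k] (Γ : FormalGroup k)

/-- endomorphisms of `Γ` -/
def EndG : Type := {φ : PowerSeries k // IsFGHom Γ Γ φ}

theorem idem_zero (A : ApiA) {x : PowerSeries k} (hx : ZC x)
    (h : fadd Γ x x = x) : x = 0 := by
  refine A.fadd_cancel_right Γ (g := x) hx ?_ hx ?_
  · show MvPowerSeries.constantCoeff 0 = 0
    simp
  · rw [A.zero_fadd Γ hx]; exact h

theorem zc0 : ZC (0 : PowerSeries k) := by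
  show MvPowerSeries.constantCoeff 0 = 0
  simp

/-- the ring structure on the endomorphisms of a commutative formal group law. -/
@[reducible] noncomputable def ringEnd (A : ApiA) (B : ApiB) (hc : Γ.IsComm) : Ring (EndG Γ) :=
  letI : Add (EndG Γ) := ⟨fun a b => ⟨fadd Γ a.1 b.1, B.hom_add hc a.2 b.2⟩⟩
  letI : Mul (EndG Γ) := ⟨fun a b => ⟨cmp a.1 b.1, B.hom_comp b.2 a.2⟩⟩
  letI : Neg (EndG Γ) := ⟨fun a => ⟨fneg Γ a.1, B.hom_neg hc a.2⟩⟩
  letI : Zero (EndG Γ) := ⟨⟨0, B.hom_zero Γ Γ⟩⟩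
  letI : One (EndG Γ) := ⟨⟨PowerSeries.X, B.hom_X Γ⟩⟩
  Ring.ofMinimalAxioms
    (fun a b c => Subtype.ext (A.fadd_assoc Γ a.2.1 b.2.1 c.2.1))
    (fun a => Subtype.ext (A.zero_fadd Γ a.2.1))
    (fun a => Subtype.ext (A.fneg_fadd Γ a.2.1))
    (fun a b c => Subtype.ext (B.cmp_assoc b.2.1 c.2.1).symm)
    (fun a => Subtype.ext (B.X_cmp a.2.1))
    (fun a => Subtype.ext (B.cmp_X a.1))
    (fun a b c => Subtype.ext (B.hom_fadd a.2 b.2.1 c.2.1))
    (fun a b c => Subtype.ext (A.cmp_fadd Γ a.2.1 b.2.1 c.2.1))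

end ring

/-- binomial estimate in a ring -/
theorem binom {R : Type} [Ring R] (x : R) (m : ℕ) : ∃ y : R, Commute x y ∧
    (1 + x) ^ m = 1 + m * x + x * x * y := by
  obtain ⟨q, hq⟩ := Polynomial.powAddExpansion (1 : Polynomial ℤ) Polynomial.X m
  refine ⟨Polynomial.aeval x q, ?_, ?_⟩
  · have h1 : x = Polynomial.aeval x (Polynomial.X : Polynomial ℤ) := by simp
    have h2 : Commute (Polynomial.aeval x (Polynomial.X : Polynomial ℤ))
        (Polynomial.aeval x q) := by
      show _ * _ = _ * _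
      rw [← map_mul, ← map_mul, mul_comm]
    rwa [← h1] at h2
  · have := congrArg (Polynomial.aeval x) hq
    simp only [map_pow, map_add, map_one, Polynomial.aeval_X, one_pow, map_mul, map_natCast,
      mul_one] at this
    rw [this]
    have h2 : Commute (Polynomial.aeval x q) (x ^ 2) := by
      have h3 : x ^ 2 = Polynomial.aeval x ((Polynomial.X : Polynomial ℤ) ^ 2) := by simp
      rw [h3]
      show _ * _ = _ * _
      rw [← map_mul, ← map_mul, mul_comm]
    rw [h2.eq, pow_two]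

theorem iter_ring {R : Type} [Ring R] (p K : ℕ) (hK : 2 ≤ K) (a : R) : ∀ j : ℕ, ∃ b : R,
    (1 + (p : R) ^ K * a) ^ (p ^ j) = 1 + (p : R) ^ (K + j) * (a + (p : R) * b) := by
  intro j
  induction j with
  | zero => exact ⟨0, by simp⟩
  | succ j ih =>
    obtain ⟨b, hb⟩ := ih
    obtain ⟨y, -, hy⟩ := binom ((p : R) ^ (K + j) * (a + (p : R) * b)) p
    refine ⟨b + (p : R) ^ (K + j - 2) * ((a + (p : R) * b) * (a + (p : R) * b) * y), ?_⟩
    rw [pow_succ, pow_mul, hb, hy]
    obtain ⟨L, hL⟩ : ∃ L, K + j = L + 2 := ⟨K + j - 2, by omega⟩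
    have hL2 : K + (j + 1) = L + 2 + 1 := by omega
    rw [hL2, hL, Nat.add_sub_cancel]
    have hc : ∀ (m : ℕ) (z : R), z * (p : R) ^ m = (p : R) ^ m * z := fun m z =>
      ((Nat.cast_commute p z).pow_left m).eq.symm
    set u := a + (p : R) * b with hu
    have e1 : (p : R) ^ (L + 2) * u * ((p : R) ^ (L + 2) * u) =
        (p : R) ^ (L + 2 + 1) * ((p : R) * ((p : R) ^ L * (u * u))) := by
      have l1 : (p : R) ^ (L + 2) * u * ((p : R) ^ (L + 2) * u) =
          (p : R) ^ (L + 2 + (L + 2)) * (u * u) := by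
        calc (p : R) ^ (L + 2) * u * ((p : R) ^ (L + 2) * u)
            = (p : R) ^ (L + 2) * ((u * (p : R) ^ (L + 2)) * u) := by simp only [mul_assoc]
          _ = (p : R) ^ (L + 2) * (((p : R) ^ (L + 2) * u) * u) := by rw [hc]
          _ = _ := by rw [pow_add _ (L + 2) (L + 2)]; simp only [mul_assoc]
      have l2 : (p : R) ^ (L + 2 + 1) * ((p : R) * ((p : R) ^ L * (u * u))) =
          (p : R) ^ (L + 2 + 1 + (L + 1)) * (u * u) := by
        rw [← mul_assoc (p : R), ← pow_succ', ← mul_assoc, ← pow_add]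
      rw [l1, l2]
      congr 2
      omega
    rw [e1]
    have e2 : (p : R) * ((p : R) ^ (L + 2) * u) = (p : R) ^ (L + 2 + 1) * u := by
      rw [← mul_assoc, ← pow_succ']
    rw [e2, add_assoc]
    congr 1
    rw [mul_assoc ((p : R) ^ (L + 2 + 1)), ← mul_add]
    congr 1
    rw [mul_add (p : R) b, ← add_assoc a, ← hu]
    congr 1
    simp only [mul_assoc]

section nat

variable {k : Type} [CommRing k] (Γ : FormalGroup k) (A : ApiA) (B : ApiB)
  (hc : Γ.IsComm)

theorem natCast_val (m : ℕ) : letI := ringEnd Γ A B hc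
    ((m : EndG Γ)).1 = mulSeries Γ m := by
  letI := ringEnd Γ A B hc
  induction m with
  | zero => rw [Nat.cast_zero]; rfl
  | succ m ih =>
    rw [Nat.cast_succ]
    show fadd Γ (m : EndG Γ).1 PowerSeries.X = mulSeries Γ (m + 1)
    rw [ih]
    rfl

end nat

theorem cmp_X_pow {k : Type} [CommRing k] (N : ℕ) {a : PowerSeries k} (ha : ZC a) :
    (cmp (PowerSeries.X ^ N : PowerSeries k) a : PowerSeries k) = a ^ N := by
  have h : PowerSeries.HasSubst a := PowerSeries.HasSubst.of_constantCoeff_zero ha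
  show PowerSeries.subst a (PowerSeries.X ^ N : PowerSeries k) = a ^ N
  rw [PowerSeries.subst_pow h, PowerSeries.subst_X h]

theorem main (A : ApiA) (B : ApiB) (C : ApiC) : Spec4.ITER := by
  intro p _ n Γ H hn hH hΓc hΓ hred K hK a ha φ θ hφ hθ hθr j
  letI := ringEnd Γ A B hΓc
  -- residue is preserved
  have hres : ∀ f, LTRing.residue p n (φ f) = LTRing.residue p n f := by
    intro f
    have h1 := hφ f
    have h2 : φ f - f ∈ mE p n := Ideal.pow_le_self (by omega) h1
    have h3 : LTRing.residue p n (φ f - f) = 0 := h2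
    rwa [map_sub, sub_eq_zero] at h3
  have hres2 : ∀ m : ℕ, (LTRing.residue p n).comp (φ ^ m).toRingHom = LTRing.residue p n := by
    intro m
    induction m with
    | zero => rfl
    | succ m ih =>
      ext f
      have h1 : (φ ^ (m + 1)) f = (φ ^ m) (φ f) := by rw [pow_succ]; rfl
      show LTRing.residue p n ((φ ^ (m + 1)) f) = _
      rw [h1]
      have h2 := DFunLike.congr_fun ih (φ f)
      exact h2.trans (hres f)
  -- the residual endomorphism
  let a₁ : EndG Γ := ⟨a, ha⟩
  let g : EndG Γ := 1 + (p : EndG Γ) ^ K * a₁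
  have hpow : ∀ m : ℕ, ((p : EndG Γ) ^ m) = ((p ^ m : ℕ) : EndG Γ) := fun m => by
    rw [Nat.cast_pow]
  have hfrob : ∀ m : ℕ, mulSeries Γ (p ^ m) = PowerSeries.X ^ (p ^ (n * m)) := by
    intro m
    induction m with
    | zero => simp [C.mul_one]
    | succ m ih =>
      have hz : ZC (PowerSeries.X ^ (p ^ n) : PowerSeries (GaloisField p n)) := by
        rw [← hΓ]; exact C.zc_mul Γ p
      rw [pow_succ, C.mul_mul, ih, hΓ, cmp_X_pow _ hz, ← pow_mul, ← pow_add]
      congr 2
      ring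
  have hg1 : g.1 = fadd Γ PowerSeries.X (a ^ (p ^ (n * K))) := by
    show fadd Γ PowerSeries.X (cmp ((p : EndG Γ) ^ K).1 a) = _
    rw [hpow, natCast_val Γ A B hΓc, hfrob, cmp_X_pow _ ha.1]
  have key : ∀ m : ℕ, ∃ θm : PowerSeries (LTRing p n),
      IsFGHom (H.map (φ ^ m).toRingHom) H θm ∧
      PowerSeries.map (LTRing.residue p n) θm = (g ^ m).1 := by
    intro m
    induction m with
    | zero =>
      refine ⟨PowerSeries.X, ?_, ?_⟩
      · have h1 : H.map (φ ^ 0).toRingHom = H := map_id_fg H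
        rw [h1]
        exact B.hom_X H
      · rw [PowerSeries.map_X, pow_zero]; rfl
    | succ m ih =>
      obtain ⟨θm, h1, h2⟩ := ih
      have h3 := B.hom_map (φ ^ m).toRingHom hθ
      rw [map_map_fg] at h3
      have h4 : (φ ^ m).toRingHom.comp φ.toRingHom = (φ ^ (m + 1)).toRingHom := by
        rw [pow_succ]; rfl
      rw [h4] at h3
      refine ⟨cmp θm (PowerSeries.map (φ ^ m).toRingHom θ), B.hom_comp h3 h1, ?_⟩
      have h5 := B.cmp_map (LTRing.residue p n) (φ := θm)
        (a := (PowerSeries.map (φ ^ m).toRingHom θ : PowerSeries (LTRing p n))) h3.1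
      refine Eq.trans h5 ?_
      rw [h2]
      have h6 : MvPowerSeries.map (LTRing.residue p n)
          (PowerSeries.map (φ ^ m).toRingHom θ : PowerSeries (LTRing p n)) = g.1 := by
        rw [hg1, ← hθr]
        have h7 := hres2 m
        show PowerSeries.map (LTRing.residue p n) (PowerSeries.map (φ ^ m).toRingHom θ) = _
        ext i
        rw [PowerSeries.coeff_map, PowerSeries.coeff_map, PowerSeries.coeff_map]
        exact DFunLike.congr_fun h7 (PowerSeries.coeff i θ)
      rw [h6, pow_succ]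
      rfl
  obtain ⟨θj, h1, h2⟩ := key (p ^ j)
  obtain ⟨b, hb⟩ := iter_ring p K hK a₁ j
  refine ⟨θj, b.1, b.2, h1, ?_⟩
  rw [h2]
  show (g ^ (p ^ j)).1 = _
  have h3 : g ^ (p ^ j) = 1 + (p : EndG Γ) ^ (K + j) * (a₁ + (p : EndG Γ) * b) := hb
  rw [h3]
  show fadd Γ PowerSeries.X (cmp ((p : EndG Γ) ^ (K + j)).1
    (fadd Γ a (cmp (p : EndG Γ).1 b.1))) = _
  rw [hpow, natCast_val Γ A B hΓc, natCast_val Γ A B hΓc]

end Crest.Agent.LT3ITER
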