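/- rid 227 (S0351): assembly of KEY0 from the modules of `LT3Spec4`. -/
import Crest.Agent.LT3Spec4
import Crest.Agent.LT3COORD

set_option autoImplicit false
open Crest.LubinTate
open Crest Crest.GeometryTopology
open Crest.Agent.LT3

namespace Crest.Agent.LT3KEY0

theorem hI_eq_vI (hC : ApiC) {p : ℕ} [Fact p.Prime] {n : ℕ} {Γ : FormalGroup (GaloisField p n)}
    {H : FormalGroup (LTRing p n)} {c : Fin (n - 1) → WittVector p (GaloisField p n)}
    (hS : Strat0 p n Γ H c) (h : ℕ) (h1 : 1 ≤ h) (hn : h ≤ n) :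
    heightIdeal p n H h = Spec4.vI p n h := by
  have hpC : ∀ v : WittVector p (GaloisField p n),
      (MvPowerSeries.C ((p : WittVector p (GaloisField p n)) * v) : LTRing p n) =
        (p : LTRing p n) * MvPowerSeries.C v := by
    intro v
    rw [map_mul, map_natCast]
  rw [LT3COORD.heightIdeal_eq]
  unfold Spec4.vI
  apply le_antisymm
  · rw [Ideal.span_le]
    rintro f ⟨i, hi, rfl⟩
    rcases Nat.eq_zero_or_pos i with rfl | hpos
    · rw [LT3COORD.uu_zero hC]
      exact Ideal.subset_span (Or.inl rfl)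
    · obtain ⟨j, rfl⟩ : ∃ j, i = j + 1 := ⟨i - 1, by omega⟩
      have e := hS.c2 ⟨j, by omega⟩
      obtain ⟨v, hv⟩ := LT3COORD.exists_p_mul p n _ (hS.hc ⟨j, by omega⟩)
      simp only at e
      rw [SetLike.mem_coe, e, hv, hpC]
      refine add_mem (Ideal.subset_span (Or.inr ⟨⟨j, by omega⟩, hi, rfl⟩)) ?_
      exact Ideal.mul_mem_right _ _ (Ideal.subset_span (Or.inl rfl))
  · rw [Ideal.span_le]
    have hp : (p : LTRing p n) ∈ Ideal.span {f | ∃ i, i < h ∧ f = uu H i} :=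
      Ideal.subset_span ⟨0, by omega, (LT3COORD.uu_zero hC H).symm⟩
    rintro f (rfl | ⟨l, hl, rfl⟩)
    · exact hp
    · have e := hS.c2 l
      obtain ⟨v, hv⟩ := LT3COORD.exists_p_mul p n _ (hS.hc l)
      have e2 : (MvPowerSeries.X l : LTRing p n) = uu H (l.1 + 1) -
          (p : LTRing p n) * MvPowerSeries.C v := by
        rw [e, hv, hpC]; ring
      rw [SetLike.mem_coe, e2]
      exact sub_mem (Ideal.subset_span ⟨l.1 + 1, hl, rfl⟩) (Ideal.mul_mem_right _ _ hp)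

theorem vI_one (p : ℕ) [Fact p.Prime] (n : ℕ) :
    Spec4.vI p n 1 = Ideal.span {(p : LTRing p n)} := by
  unfold Spec4.vI
  congr 1
  ext f
  simp

theorem main (hC : ApiC) (hFI : Spec4.FININJ0) (hE : Spec4.EMB0) (hF : Spec4.FINAL0)
    (hA : Spec4.ALG0) : Spec.KEY0 := by
  intro p _ n Γ H c hS P hP hM hp h h1 hn hle hrad
  rw [hI_eq_vI hC hS h h1 hn] at hle hrad
  rw [hI_eq_vI hC hS 1 le_rfl hS.hn, vI_one] at hrad
  obtain ⟨β, hβC, hβX, hβi, hβf⟩ := hFI p n h h1 hn P hP hp hle hrad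
  obtain ⟨C, _, _, _, _, _, ι, w, x, hx, hk⟩ := hE p n h h1 hn P hP β hβC hβX hβi hβf
  have := hF p n Γ H hS.hn hS.commH hS.commΓ hS.hΓ hS.red P hM C ι w x hx hk
  exact hA p n hS.hn P hP hp this

end Crest.Agent.LT3KEY0
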