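/- rid 227 (S0351): assembly of KEYp from the modules of `LT3Spec3`. -/
import Crest.Agent.LT3Spec3

set_option autoImplicit false
open Crest.LubinTate
open Crest Crest.GeometryTopology
open Crest.Agent.LT3

namespace Crest.Agent.LT3KEYP

/-- `e_t` as a linear functional -/
noncomputable def eeL {k : Type} [Field k] {C : Type} [NormedField C] {d : ℕ} (p : ℕ)
    (F : FormalGroup (MvPowerSeries (Fin d) k)) (x : MvPowerSeries (Fin d) k →+* C) (t : C) :
    (Fin d → C) →ₗ[C] C where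
  toFun δ := ee p F x t δ
  map_add' a b := by
    unfold ee
    simp only [Pi.add_apply, mul_add, Finset.sum_add_distrib]
  map_smul' c a := by
    unfold ee
    simp only [Pi.smul_apply, smul_eq_mul, RingHom.id_apply]
    rw [Finset.mul_sum]
    refine Finset.sum_congr rfl fun i _ => ?_
    ring

theorem main (hFI : Spec3.FININJ) (hE : Spec3.EMB) (hD : Spec3.DIM) (hT : Spec3.TOR)
    (hSc : Spec3.SCALE) (hMA : Spec3.MOVEAT) (hB : Spec3.BASIS) (hCod : Spec3.COD)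
    (hCl : Spec3.CLAIMA) (hDu : Spec3.DUAL) (hTJ : Spec3.TJ) (hL : Spec3.LIN)
    (hF2 : Spec3.FIN2) (hF3 : Spec3.FIN3) (hR : Spec3.REAL1) : Spec.KEYp := by
  intro p _ n h d Γ F st P hP hM hX0 r hr hrd hle hrad
  obtain ⟨β, hβC, hβX, hβi, hβf, hβd⟩ := hFI p n d P hP hX0 r hr hrd hle hrad
  by_cases hrd' : r = d
  · exact hβd hrd'
  exfalso
  have hlt : r < d := lt_of_le_of_ne hrd hrd'
  have hn1 : 1 ≤ n := by have := st.hh; have := st.hn; omega
  obtain ⟨C, _, _, _, _, _, ι, w, x, hx, hk, hdisc, hw⟩ := hE p n d hn1 P hP r hr hrd β hβC hβX hβi hβf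
  have hd := st.hd
  set i0 : Fin d := ⟨0, hd⟩ with hi0
  obtain ⟨hw0, hcod⟩ := hw i0 rfl
  -- ρ
  obtain ⟨ρ, hρ0, hρ1, hρ⟩ : ∃ ρ : ℝ, 0 < ρ ∧ ρ < 1 ∧ ∀ i, ‖w i‖ ≤ ρ := by
    haveI : Nonempty (Fin d) := ⟨i0⟩
    obtain ⟨i, hi⟩ := Finite.exists_max (fun i => ‖w i‖)
    exact ⟨‖w i‖, lt_of_lt_of_le (norm_pos_iff.mpr hw0) (hi i0), hx.hw i, hi⟩
  obtain ⟨⟨T, ts⟩, -, -⟩ := hT p n h d Γ F st C ι w x hx i0 rfl hw0
  obtain ⟨σ, S, c, V₀, sc⟩ := hSc p n h d C (F.map x) (w i0) T st.hn ts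
  obtain ⟨K₀, hK₀⟩ := hMA p n h d Γ F st P hM C ι w x hx hk ρ hρ0 hρ1 hρ
  have hdim := hD p n d hn1 P hP r hr hrd β hβC hβi hβf C x hk
  have sys : Sys p n h d r Γ F ι w x i0 ρ T σ S c V₀ :=
    { st := st, hr := hr, hrd := hrd, isEv := hx, hi0 := rfl, hw0 := hw0, hρ := hρ, hρ1 := hρ1,
      cod := hcod, disc := hdisc, dim := hdim, ts := ts, sc := sc, mv := ⟨K₀, hK₀⟩ }
  obtain ⟨r', τ, h1, h2, ⟨Z, hZ, hZc⟩, hseq, hgen, hdom, hind, hnd⟩ :=
    hB p n h d C (F.map x) (w i0) T σ S c V₀ st.hn ts sc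
  have bas : Bas p n (F.map x) T σ r' τ := ⟨h1, h2, hseq, hgen, hdom, hind h2, hnd⟩
  have hZle := hCod p n h d r C Γ F ι w x i0 ρ T σ S c V₀ sys Z (fun t ht => (hZ t).mp ht)
  have hp1 : 1 < p := (Fact.out : p.Prime).one_lt
  have hrr' : r ≤ r' := by
    have h3 : p ^ d ≤ p ^ (r' + (d - r)) := by
      rw [← hZc, pow_add]
      exact Nat.mul_le_mul_left _ hZle
    have := (Nat.pow_le_pow_iff_right hp1).mp h3
    omega
  obtain ⟨hdu1, hdu2, -, -⟩ := hDu p n h d r C Γ F ι w x i0 ρ T σ S c V₀ sys r' τ bas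
  -- the subspace W1
  let L : (Fin d → C) →ₗ[C] (Fin (d - r') → C) :=
    LinearMap.pi fun i => eeL p F x (τ ⟨r' + i.1, by omega⟩ 1)
  have hLmem : ∀ δ, δ ∈ LinearMap.ker L ↔ ∀ j : Fin d, r' ≤ j.1 → ee p F x (τ j 1) δ = 0 := by
    intro δ
    rw [LinearMap.mem_ker]
    constructor
    · intro h0 j hj
      have := congrFun h0 ⟨j.1 - r', by omega⟩
      have e : (⟨r' + (j.1 - r'), by omega⟩ : Fin d) = j := Fin.ext (by simp; omega)
      simp only [L, LinearMap.pi_apply, Pi.zero_apply] at this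
      rw [e] at this
      exact this
    · intro h0
      funext i
      exact h0 _ (by simp)
  have hker_le : LinearMap.ker L ≤ TT x := by
    intro δ hδ
    rw [hLmem] at hδ
    intro f hf
    obtain ⟨D', hD'⟩ := hdu1 (fun i => x (MvPowerSeries.pderiv _ i f))
    have hz := hCl p n h d r C Γ F ι w x i0 ρ T σ S c V₀ sys r' τ bas f hf D' hD'
    have := hD' δ
    rw [this]
    refine Finset.sum_eq_zero fun j _ => ?_
    by_cases hj : j.1 < r'
    · rw [hz j hj, zero_mul]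
    · rw [hδ j (by omega), mul_zero]
  have hrank : r' ≤ Module.finrank C (LinearMap.ker L) := by
    have h4 := LinearMap.finrank_range_add_finrank_ker L
    have h5 : Module.finrank C (LinearMap.range L) ≤ d - r' := by
      calc _ ≤ Module.finrank C (Fin (d - r') → C) := Submodule.finrank_le _
        _ = d - r' := by simp
    have h6 : Module.finrank C (Fin d → C) = d := by simp
    omega
  have hmono := Submodule.finrank_mono hker_le
  have hr'r : r' = r := by omega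
  have hTT : LinearMap.ker L = TT x :=
    Submodule.eq_of_le_of_finrank_le hker_le (by omega)
  have hTT' : ∀ δ ∈ TT x, ∀ j : Fin d, r' ≤ j.1 → ee p F x (τ j 1) δ = 0 := by
    intro δ hδ
    rw [← hTT] at hδ
    exact (hLmem δ).mp hδ
  have hσV : 0 < (p : ℝ) ^ n * σ :=
    mul_pos (pow_pos (by exact_mod_cast (by omega : 0 < p)) n) sc.σpos
  -- the sequence of index r'
  have hr'd : r' < d := by omega
  obtain ⟨hj1, V', hV', hHV'⟩ := bas.nondom ⟨r', hr'd⟩ le_rfl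
  obtain ⟨s, rfl⟩ : ∃ s, r' = s + 1 := ⟨r' - 1, by omega⟩
  obtain ⟨τ', v, hτs, hτ1, hτV, hv, halt⟩ := hTJ p n h d C (F.map x) (w i0) T σ S c V₀ st.hn ts sc s
    (fun i : Fin (s + 1) => τ (Fin.castLE h2 i)) (fun i => hseq _)
    (fun i => hdom _ (by simpa using Nat.lt_succ_iff.mp i.2)) bas.indep (τ ⟨s + 1, hr'd⟩) V' (hseq _) hj1 hHV' hV'
  have hτ1' : τ' 1 ≠ 0 := by rw [hτ1]; exact hj1
  have hv0 : 0 < v := lt_trans hσV hv
  obtain ⟨i, cM, D', hcM, hD'0, hD'1, hη⟩ := hL p n h d r C Γ F ι w x i0 ρ T σ S c V₀ sys (s + 1) τ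
    bas hTT' τ' v hτs hτ1' hv0 hτV
  obtain ⟨A, K₁, hA, hK₁⟩ := hF2 p n h d r C Γ F ι w x i0 ρ T σ S c V₀ sys (s + 1) τ bas τ' v hτs
    hτ1' hv0 hτV i cM D' hcM hD'0 hD'1 hη
  obtain ⟨l, hl, hi⟩ := hR p n h d C (F.map x) (w i0) T σ S c V₀ st.hn st.hh st.hd sc
    ((p : ℝ) ^ n * σ) v i A K₁ hσV hv hA hK₁
  rcases halt with hne | ⟨l', hl', hvl', hind'⟩
  · exact hne l hl
  · have hll : l = l' := by
      have e1 : (p : ℝ) ^ (n * l) = (p : ℝ) ^ (n * l') := by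
        have := hl.symm.trans hvl'
        exact mul_right_cancel₀ hσV.ne' this
      have e2 : n * l = n * l' := by
        have hinj := pow_right_injective₀ (a := (p : ℝ)) (by exact_mod_cast (by omega : 0 < p))
          (by exact_mod_cast (by omega : p ≠ 1))
        exact hinj e1
      exact Nat.eq_of_mul_eq_mul_left (by omega) e2
    subst hll
    subst hi
    rw [hl] at hη hτV
    exact hF3 p n h d r C Γ F ι w x i0 ρ T σ S c V₀ sys (s + 1) τ bas τ' l hl' hτs hτ1' hτV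
      (fun _ => hind') cM D' hcM hD'0 hD'1 hη

end Crest.Agent.LT3KEYP
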