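import Crest.Agent.LT3Spec3

set_option autoImplicit false
set_option linter.unusedSectionVars false
open Crest.LubinTate
open Crest Crest.GeometryTopology

namespace Crest.Agent.LT3LAUR

open LT3
open scoped LaurentSeries NNReal WithZero

noncomputable section

variable (κ : Type) [Field κ]

abbrev vv : Valuation (LaurentSeries κ) ℤᵐ⁰ := Valued.v

def homR : ℤᵐ⁰ →*₀ ℝ≥0 := WithZeroMulInt.toNNReal (e := 2) (by norm_num)

lemma homR_exp (a : ℤ) : homR (WithZero.exp a) = (2 : ℝ≥0) ^ a := by
  unfold homR
  rw [WithZeroMulInt.toNNReal_neg_apply _ WithZero.exp_ne_zero]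
  rfl

@[instance_reducible]
def rk : Valuation.RankOne (vv κ) where
  hom' := homR.comp MonoidWithZeroHom.ValueGroup₀.embedding
  strictMono' := (WithZeroMulInt.toNNReal_strictMono (by norm_num : (1 : ℝ≥0) < 2)).comp
    MonoidWithZeroHom.ValueGroup₀.embedding_strictMono
  exists_val_nontrivial := by
    refine ⟨HahnSeries.single 1 1, ?_, ?_⟩
    · rw [LaurentSeries.valuation_single_zpow]
      exact WithZero.exp_ne_zero
    · rw [LaurentSeries.valuation_single_zpow]
      intro h
      rw [WithZero.exp_eq_one] at h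
      omega

theorem main : Spec3.LAUR := by
  intro κ _
  let R := rk κ
  let N : NontriviallyNormedField (LaurentSeries κ) :=
    Valued.toNontriviallyNormedField (LaurentSeries κ) ℤᵐ⁰
  have hnorm : ∀ (y : LaurentSeries κ) (a : ℤ), (vv κ) y = WithZero.exp a →
      N.norm y = (1 / 2 : ℝ) ^ (-a) := by
    intro y a h
    have h1 : N.norm y = ((homR ((vv κ) y) : ℝ≥0) : ℝ) := by
      show ((homR (MonoidWithZeroHom.ValueGroup₀.embedding ((vv κ).restrict y)) : ℝ≥0) : ℝ) = _
      rw [Valuation.embedding_restrict]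
    rw [h1, h, homR_exp]
    push_cast
    rw [one_div, inv_zpow', neg_neg]
  refine ⟨LaurentSeries κ, N, ?_, ?_, HahnSeries.ofPowerSeries ℤ κ, ?_, ?_⟩
  · exact LaurentSeries.instLaurentSeriesComplete
  · exact Valued.instIsUltrametricDist _ _
  · intro f hf
    have h0 : (vv κ) (HahnSeries.ofPowerSeries ℤ κ f) ≠ 0 := by
      rw [Valuation.ne_zero_iff]
      intro h
      apply hf
      apply HahnSeries.ofPowerSeries_injective (Γ := ℤ)
      rw [h, map_zero]
    have h1 : (vv κ) (HahnSeries.ofPowerSeries ℤ κ f) = WithZero.exp (-(f.order.toNat : ℤ)) := by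
      have h2 := LaurentSeries.intValuation_le_iff_coeff_lt_eq_zero κ (d := f.order.toNat) f
      have h3 := LaurentSeries.intValuation_le_iff_coeff_lt_eq_zero κ (d := f.order.toNat + 1) f
      obtain ⟨a, ha⟩ : ∃ a : ℤ, (vv κ) (HahnSeries.ofPowerSeries ℤ κ f) = WithZero.exp a :=
        ⟨_, (WithZero.exp_log h0).symm⟩
      have ha' : Valued.v (f : LaurentSeries κ) = WithZero.exp a := ha
      rw [ha'] at h2 h3
      have h4 : (f.order.toNat : ℕ∞) = f.order := by
        apply ENat.natCast_toNat
        intro h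
        exact hf (PowerSeries.order_eq_top.1 h)
      have h5 : a ≤ -(f.order.toNat : ℤ) := by
        rw [← WithZero.exp_le_exp]
        refine h2.2 fun n hn => PowerSeries.coeff_of_lt_order n ?_
        rw [← h4]
        exact_mod_cast hn
      have h6 : ¬ a ≤ -((f.order.toNat + 1 : ℕ) : ℤ) := by
        intro h
        rw [← WithZero.exp_le_exp] at h
        exact PowerSeries.coeff_order hf (h3.1 h _ (Nat.lt_succ_self _))
      rw [ha]
      congr 1
      push_cast at h6
      omega
    have h7 := hnorm _ _ h1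
    show N.norm _ = _
    rw [h7, neg_neg, zpow_natCast]
  · intro y hy
    have h0 : (vv κ) y ≠ 0 := by
      rw [Valuation.ne_zero_iff]
      exact hy
    exact ⟨_, hnorm y _ (WithZero.exp_log h0).symm⟩

end

end Crest.Agent.LT3LAUR
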