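/- rid 227 (S0351): module LEMM (non-cancellation for suitable `m`). -/
import Crest.Agent.LT3Spec3

set_option autoImplicit false
set_option linter.unusedSectionVars false

namespace Crest.Agent.LT3LEMM
open Crest Crest.LubinTate Crest.Agent.LT3

section basic

variable {C : Type} [NontriviallyNormedField C] [IsUltrametricDist C]

theorem norm_add_le_max' (a b : C) : ‖a + b‖ ≤ max ‖a‖ ‖b‖ := IsUltrametricDist.norm_add_le_max a b

theorem norm_sub_le_max' (a b : C) : ‖a - b‖ ≤ max ‖a‖ ‖b‖ := by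
  rw [sub_eq_add_neg]
  exact (norm_add_le_max' a (-b)).trans (by rw [norm_neg])

theorem norm_eq_of_sub_lt {a b : C} (h : ‖a - b‖ < ‖b‖) : ‖a‖ = ‖b‖ := by
  have h1 : a = (a - b) + b := by ring
  rw [h1, IsUltrametricDist.norm_add_eq_max_of_norm_ne_norm (ne_of_lt h)]
  exact max_eq_right h.le

theorem norm_eq_one {a : C} (h : ‖a - 1‖ < 1) : ‖a‖ = 1 := by
  have := norm_eq_of_sub_lt (a := a) (b := 1) (by simpa using h)
  simpa using this

theorem mul_close {a b : C} (ha : ‖a - 1‖ < 1) (hb : ‖b - 1‖ < 1) : ‖a * b - 1‖ < 1 := by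
  have h1 : a * b - 1 = (a - 1) * b + (b - 1) := by ring
  rw [h1]
  refine lt_of_le_of_lt (norm_add_le_max' _ _) (max_lt ?_ hb)
  rw [norm_mul, norm_eq_one hb, mul_one]
  exact ha

theorem pow_close {a : C} (ha : ‖a - 1‖ < 1) (k : ℕ) : ‖a ^ k - 1‖ < 1 := by
  induction k with
  | zero => simp
  | succ k ih => rw [pow_succ]; exact mul_close ih ha

theorem inv_close {a : C} (ha : ‖a - 1‖ < 1) : ‖a⁻¹ - 1‖ < 1 := by
  have h0 : a ≠ 0 := by
    intro h
    rw [h] at ha
    simp at ha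
  have h1 : a⁻¹ - 1 = -(a - 1) * a⁻¹ := by field_simp; ring
  rw [h1, norm_mul, norm_inv, norm_eq_one ha, inv_one, mul_one, norm_neg]
  exact ha

theorem pow_sub_lt {a b : C} (ha : ‖a‖ ≤ 1) (hb : ‖b‖ ≤ 1) (h : ‖a - b‖ < 1) (k : ℕ) :
    ‖a ^ k - b ^ k‖ < 1 := by
  induction k with
  | zero => simp
  | succ k ih =>
    have h1 : a ^ (k + 1) - b ^ (k + 1) = (a ^ k - b ^ k) * a + b ^ k * (a - b) := by ring
    rw [h1]
    refine lt_of_le_of_lt (norm_add_le_max' _ _) (max_lt ?_ ?_)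
    · rw [norm_mul]
      calc ‖a ^ k - b ^ k‖ * ‖a‖ ≤ ‖a ^ k - b ^ k‖ * 1 :=
            mul_le_mul_of_nonneg_left ha (norm_nonneg _)
        _ < 1 := by rw [mul_one]; exact ih
    · rw [norm_mul, norm_pow]
      calc ‖b‖ ^ k * ‖a - b‖ ≤ 1 * ‖a - b‖ :=
            mul_le_mul_of_nonneg_right (pow_le_one₀ (norm_nonneg _) hb) (norm_nonneg _)
        _ < 1 := by rw [one_mul]; exact h

theorem sum_norm_lt {s : ℕ} (f : Fin s → C) {r : ℝ} (hr : 0 < r) (h : ∀ i, ‖f i‖ < r) :
    ‖∑ i, f i‖ < r := by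
  classical
  have : ∀ S : Finset (Fin s), ‖∑ i ∈ S, f i‖ < r := by
    intro S
    induction S using Finset.induction_on with
    | empty => simpa using hr
    | insert a S ha ih =>
      rw [Finset.sum_insert ha]
      exact lt_of_le_of_lt (norm_add_le_max' _ _) (max_lt (h a) ih)
  exact this _

theorem prod_close {ι : Type} (S : Finset ι) (t : ι → C) (y : C) (hy : y ≠ 0) (k : ℕ)
    (h : ∀ i ∈ S, ‖t i‖ < ‖y‖) :
    ∃ v : C, ‖v - 1‖ < 1 ∧ ∏ i ∈ S, (y - t i) ^ k = v * y ^ (k * S.card) := by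
  classical
  induction S using Finset.induction_on with
  | empty => exact ⟨1, by simp, by simp⟩
  | insert a S ha ih =>
    obtain ⟨v, hv, hv'⟩ := ih (fun i hi => h i (Finset.mem_insert_of_mem hi))
    have h1 : ‖(1 - t a / y) - 1‖ < 1 := by
      have : (1 - t a / y) - 1 = -(t a / y) := by ring
      rw [this, norm_neg, norm_div, div_lt_one (norm_pos_iff.mpr hy)]
      exact h a (Finset.mem_insert_self _ _)
    refine ⟨(1 - t a / y) ^ k * v, mul_close (pow_close h1 k) hv, ?_⟩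
    rw [Finset.prod_insert ha, hv', Finset.card_insert_of_notMem ha]
    have h2 : y - t a = (1 - t a / y) * y := by field_simp
    rw [h2, mul_pow, mul_add, pow_add, mul_one]
    ring

theorem norm_eq_exp_lam {z : C} (hz : z ≠ 0) : ‖z‖ = Real.exp (-lam z) := by
  unfold lam
  rw [neg_neg, Real.exp_log (norm_pos_iff.mpr hz)]

theorem norm_lt_of_lam {z y : C} (hz : z ≠ 0) (hy : y ≠ 0) (h : lam y < lam z) : ‖z‖ < ‖y‖ := by
  rw [norm_eq_exp_lam hz, norm_eq_exp_lam hy]
  exact Real.exp_lt_exp.mpr (by linarith)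

end basic

section comb

variable {C : Type} [NontriviallyNormedField C] [CompleteSpace C] [IsUltrametricDist C]

theorem gmul_approx (A : ApiG) {G : FormalGroup C} (hG : IG G) {z : C} (hz : ‖z‖ < 1) (m : ℕ) :
    ‖gmul G m z - m * z‖ ≤ ‖z‖ ^ 2 := by
  induction m with
  | zero => simp [A.zero_mul hG hz]
  | succ m ih =>
    have h1 : gmul G (m + 1) z = gadd G (gmul G m z) z := by
      rw [A.add_mul hG m 1 hz, A.one_mul hG hz]
    have h2 : ‖gmul G m z‖ ≤ ‖z‖ := A.mul_norm_le hG m hz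
    have h3 := A.add_approx hG (z := gmul G m z) (z' := z) (lt_of_le_of_lt h2 hz) hz
    have h4 : gmul G (m + 1) z - ((m + 1 : ℕ) : C) * z =
        (gadd G (gmul G m z) z - (gmul G m z + z)) + (gmul G m z - m * z) := by
      rw [h1]; push_cast; ring
    rw [h4]
    refine (norm_add_le_max' _ _).trans (max_le (h3.trans ?_) ih)
    rw [pow_two]
    exact mul_le_mul_of_nonneg_right h2 (norm_nonneg _)

/-- formal combination -/
noncomputable def comb (G : FormalGroup C) : (s : ℕ) → (Fin s → C) → (Fin s → ℕ) → C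
  | 0, _, _ => 0
  | (s + 1), t, b => gadd G (comb G s (fun i => t i.castSucc) (fun i => b i.castSucc))
      (gmul G (b (Fin.last s)) (t (Fin.last s)))

theorem comb_norm (A : ApiG) {G : FormalGroup C} (hG : IG G) {r : ℝ} (hr0 : 0 ≤ r) (hr : r < 1)
    (s : ℕ) : ∀ (t : Fin s → C) (b : Fin s → ℕ), (∀ i, ‖t i‖ ≤ r) → ‖comb G s t b‖ ≤ r := by
  induction s with
  | zero => intro t b _; simpa [comb] using hr0
  | succ s ih =>
    intro t b ht
    have h1 := ih (fun i => t i.castSucc) (fun i => b i.castSucc) (fun i => ht _)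
    have h2 : ‖gmul G (b (Fin.last s)) (t (Fin.last s))‖ ≤ r :=
      (A.mul_norm_le hG _ (lt_of_le_of_lt (ht _) hr)).trans (ht _)
    exact (A.add_le hG (lt_of_le_of_lt h1 hr) (lt_of_le_of_lt h2 hr)).trans (max_le h1 h2)

theorem comb_approx (A : ApiG) {G : FormalGroup C} (hG : IG G) {r : ℝ} (hr0 : 0 ≤ r) (hr : r < 1)
    (s : ℕ) : ∀ (t : Fin s → C) (b : Fin s → ℕ), (∀ i, ‖t i‖ ≤ r) →
      ‖comb G s t b - ∑ i, (b i : C) * t i‖ ≤ r ^ 2 := by
  induction s with
  | zero => intro t b _; simp [comb]; positivity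
  | succ s ih =>
    intro t b ht
    have h1 := ih (fun i => t i.castSucc) (fun i => b i.castSucc) (fun i => ht _)
    have h1' := comb_norm A hG hr0 hr s (fun i => t i.castSucc) (fun i => b i.castSucc)
      (fun i => ht _)
    have h2 : ‖gmul G (b (Fin.last s)) (t (Fin.last s))‖ ≤ r :=
      (A.mul_norm_le hG _ (lt_of_le_of_lt (ht _) hr)).trans (ht _)
    have h3 := A.add_approx hG (lt_of_le_of_lt h1' hr) (lt_of_le_of_lt h2 hr)
    have h4 := gmul_approx A hG (lt_of_le_of_lt (ht (Fin.last s)) hr) (b (Fin.last s))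
    rw [Fin.sum_univ_castSucc]
    have h5 : comb G (s + 1) t b - (∑ i : Fin s, (b i.castSucc : C) * t i.castSucc +
        (b (Fin.last s) : C) * t (Fin.last s)) =
        (gadd G (comb G s (fun i => t i.castSucc) (fun i => b i.castSucc))
          (gmul G (b (Fin.last s)) (t (Fin.last s))) -
          (comb G s (fun i => t i.castSucc) (fun i => b i.castSucc) +
            gmul G (b (Fin.last s)) (t (Fin.last s)))) +
        ((comb G s (fun i => t i.castSucc) (fun i => b i.castSucc) -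
          ∑ i : Fin s, (b i.castSucc : C) * t i.castSucc) +
        (gmul G (b (Fin.last s)) (t (Fin.last s)) -
          (b (Fin.last s) : C) * t (Fin.last s))) := by
      rw [comb]; ring
    rw [h5]
    refine (norm_add_le_max' _ _).trans (max_le (h3.trans ?_)
      ((norm_add_le_max' _ _).trans (max_le h1 (h4.trans ?_))))
    · rw [pow_two]
      exact mul_le_mul h1' h2 (norm_nonneg _) hr0
    · exact pow_le_pow_left₀ (norm_nonneg _) (ht _) 2

theorem comb_mul (A : ApiG) {G : FormalGroup C} (hG : IG G) (k : ℕ) (s : ℕ) :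
    ∀ (t : Fin s → C) (b : Fin s → ℕ), (∀ i, ‖t i‖ < 1) → (∀ i, gmul G k (t i) = 0) →
      gmul G k (comb G s t b) = 0 := by
  induction s with
  | zero => intro t b _ _; simpa [comb] using A.mul_zero hG k
  | succ s ih =>
    intro t b ht ht0
    obtain ⟨r, hr0, hr, hr'⟩ : ∃ r : ℝ, 0 ≤ r ∧ r < 1 ∧ ∀ i, ‖t i‖ ≤ r := by
      refine ⟨Finset.univ.sup' Finset.univ_nonempty (fun i => ‖t i‖), ?_, ?_, ?_⟩
      · exact (norm_nonneg (t 0)).trans
          (Finset.le_sup' (fun i => ‖t i‖) (Finset.mem_univ (0 : Fin (s + 1))))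
      · rw [Finset.sup'_lt_iff]; intro i _; exact ht i
      · intro i; exact Finset.le_sup' (fun i => ‖t i‖) (Finset.mem_univ i)
    have h1' := comb_norm A hG hr0 hr s (fun i => t i.castSucc) (fun i => b i.castSucc)
      (fun i => hr' _)
    have h2 : ‖gmul G (b (Fin.last s)) (t (Fin.last s))‖ ≤ r :=
      (A.mul_norm_le hG _ (ht _)).trans (hr' _)
    rw [comb, A.mul_add hG k (lt_of_le_of_lt h1' hr) (lt_of_le_of_lt h2 hr),
      ih _ _ (fun i => ht _) (fun i => ht0 _)]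
    rw [← A.mul_mul hG k _ (ht _), mul_comm k, A.mul_mul hG _ k (ht _), ht0, A.mul_zero hG]
    exact A.zero_add hG (by simp)

theorem gadd_cancel (A : ApiG) {G : FormalGroup C} (hG : IG G) {t t' c : C} (ht : ‖t‖ < 1)
    (ht' : ‖t'‖ < 1) (hc : ‖c‖ < 1) (h : gadd G t c = gadd G t' c) : t = t' := by
  have hn : ‖gneg G c‖ < 1 := by rw [A.neg_norm hG hc]; exact hc
  have key : ∀ {u : C}, ‖u‖ < 1 → gadd G (gadd G u c) (gneg G c) = u := by
    intro u hu
    rw [A.add_assoc hG hu hc hn, A.add_neg hG hc, A.add_comm hG hu (by simp), A.zero_add hG hu]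
  rw [← key ht, ← key ht', h]

end comb

section main

variable {p n h d : ℕ} [Fact p.Prime] {C : Type} [NontriviallyNormedField C] [CompleteSpace C]
    [IsUltrametricDist C] [CharP C p] {G : FormalGroup C} {w0 : C} {T : ℕ → Finset C}
    {σ : ℝ} {S : ℝ → ℝ} {c : ℝ → ℕ} {V₀ : ℝ}

/-- `[p] y = (1 + small) y^Q` -/
theorem mul_p (hn : h + d = n) (ts : TSys p h d G w0 T) (hσ : ∀ t ∈ T 1, t ≠ 0 → σ ≤ lam t)
    {y : C} (hy0 : y ≠ 0) (hy : ‖y‖ < 1) (hlam : lam y < σ) :
    ∃ v : C, ‖v - 1‖ < 1 ∧ gmul G p y = v * y ^ (p ^ n) := by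
  obtain ⟨u, hu, hu'⟩ := ts.prod 1 y hy
  obtain ⟨v, hv, hv'⟩ := prod_close (T 1) (fun t => t) y hy0 (p ^ (h * 1)) (by
    intro t ht
    by_cases h0 : t = 0
    · simpa [h0] using hy0
    · exact norm_lt_of_lam h0 hy0 (lt_of_lt_of_le hlam (hσ t ht h0)))
  refine ⟨u * v, mul_close hu hv, ?_⟩
  rw [pow_one] at hu'
  rw [hu', hv', ts.card 1, mul_assoc, mul_one, mul_one, ← pow_add, hn]

/-- the jump of the counting function -/
theorem jump (A : ApiG) (ts : TSys p h d G w0 T) {s : ℕ} {t : Fin s → C} {N : ℕ}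
    {η η' : ℝ} (hη : 0 < η) (hηη : η < η')
    (htT : ∀ i, t i ∈ T N) (ht0 : ∀ i, t i ≠ 0) (ht : ∀ i, lam (t i) = η)
    (hind : ∀ b : Fin s → ℕ, (∀ i, b i < p) → (∃ i, b i ≠ 0) →
      ‖∑ i, (b i : C) * t i‖ = Real.exp (-η)) :
    p ^ s * cntf T N η' ≤ cntf T N η := by
  classical
  have hG := ts.ig
  set r : ℝ := Real.exp (-η) with hr
  have hr0 : 0 < r := Real.exp_pos _
  have hr1 : r < 1 := by rw [hr, ← Real.exp_zero]; exact Real.exp_lt_exp.mpr (by linarith)
  have htr : ∀ i, ‖t i‖ = r := fun i => by rw [norm_eq_exp_lam (ht0 i), ht i]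
  have hrr : r ^ 2 < r := by nlinarith
  let cb : (Fin s → Fin p) → C := fun b => comb G s t (fun i => (b i : ℕ))
  have hcb : ∀ b, ‖cb b‖ ≤ r := fun b =>
    comb_norm A hG hr0.le hr1 s t _ (fun i => (htr i).le)
  have hdiff : ∀ b b' : Fin s → Fin p, b ≠ b' → ‖cb b - cb b'‖ = r := by
    intro b b' hbb
    have h1 := comb_approx A hG hr0.le hr1 s t (fun i => (b i : ℕ)) (fun i => (htr i).le)
    have h2 := comb_approx A hG hr0.le hr1 s t (fun i => (b' i : ℕ)) (fun i => (htr i).le)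
    let β : Fin s → ℕ := fun i => (((b i : ℕ) : ZMod p) - ((b' i : ℕ) : ZMod p)).val
    have hβ : ∀ i, β i < p := fun i => ZMod.val_lt _
    have hβ0 : ∃ i, β i ≠ 0 := by
      by_contra hcon
      push Not at hcon
      apply hbb
      funext i
      have h3 := hcon i
      simp only [β] at h3
      rw [ZMod.val_eq_zero, sub_eq_zero, ZMod.natCast_eq_natCast_iff'] at h3
      rw [Nat.mod_eq_of_lt (b i).2, Nat.mod_eq_of_lt (b' i).2] at h3
      exact Fin.ext h3
    have hβc : ∀ i, ((β i : ℕ) : C) = ((b i : ℕ) : C) - ((b' i : ℕ) : C) := by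
      intro i
      have h4 : ((β i : ℕ) : ZMod p) = ((b i : ℕ) : ZMod p) - ((b' i : ℕ) : ZMod p) := by
        simp only [β, ZMod.natCast_val, ZMod.cast_id', id]
      have h5 := congrArg (ZMod.castHom (dvd_refl p) C) h4
      simpa using h5
    have h3 := hind β hβ hβ0
    have h4 : ∑ i, (β i : C) * t i = ∑ i, ((b i : ℕ) : C) * t i - ∑ i, ((b' i : ℕ) : C) * t i := by
      rw [← Finset.sum_sub_distrib]
      exact Finset.sum_congr rfl (fun i _ => by rw [hβc i, sub_mul])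
    rw [h4] at h3
    have h5 : ‖(cb b - cb b') - (∑ i, ((b i : ℕ) : C) * t i - ∑ i, ((b' i : ℕ) : C) * t i)‖ <
        ‖∑ i, ((b i : ℕ) : C) * t i - ∑ i, ((b' i : ℕ) : C) * t i‖ := by
      rw [h3]
      have h6 : (cb b - cb b') - (∑ i, ((b i : ℕ) : C) * t i - ∑ i, ((b' i : ℕ) : C) * t i) =
          (cb b - ∑ i, ((b i : ℕ) : C) * t i) - (cb b' - ∑ i, ((b' i : ℕ) : C) * t i) := by ring
      rw [h6]
      exact lt_of_le_of_lt ((norm_sub_le_max' _ _).trans (max_le h1 h2)) hrr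
    rw [norm_eq_of_sub_lt h5, h3]
  let B := (T N).filter (fun t => t = 0 ∨ η' ≤ lam t)
  let A' := (T N).filter (fun t => t = 0 ∨ η ≤ lam t)
  have hBn : ∀ u ∈ B, ‖u‖ < r := by
    intro u hu
    rw [Finset.mem_filter] at hu
    rcases hu.2 with h0 | h0
    · rw [h0, norm_zero]; exact hr0
    · by_cases h00 : u = 0
      · rw [h00, norm_zero]; exact hr0
      · rw [norm_eq_exp_lam h00, hr]
        exact Real.exp_lt_exp.mpr (by linarith)
  have hBT : ∀ u ∈ B, u ∈ T N := fun u hu => (Finset.mem_filter.mp hu).1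
  have hball : ∀ u ∈ T N, ‖u‖ < 1 := fun u hu => ((ts.mem N u).mp hu).1
  have hcbT : ∀ b, gmul G (p ^ N) (cb b) = 0 := fun b =>
    comb_mul A hG (p ^ N) s t _ (fun i => hball _ (htT i)) (fun i => ((ts.mem N _).mp (htT i)).2)
  have hcard : (Finset.univ ×ˢ B : Finset ((Fin s → Fin p) × C)).card ≤ A'.card := by
    refine Finset.card_le_card_of_injOn (fun x => gadd G x.2 (cb x.1)) ?_ ?_
    · rintro ⟨b, u⟩ hx
      have hu : u ∈ B := (Finset.mem_product.mp hx).2
      have hu1 := hball u (hBT u hu)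
      have hcb1 := lt_of_le_of_lt (hcb b) hr1
      have h2 : ‖gadd G u (cb b)‖ ≤ r := (A.add_le hG hu1 hcb1).trans
        (max_le (hBn u hu).le (hcb b))
      simp only [A', Finset.coe_filter, Set.mem_ofPred_eq]
      refine ⟨(ts.mem N _).mpr ⟨lt_of_le_of_lt h2 hr1, ?_⟩, ?_⟩
      · rw [A.mul_add hG _ hu1 hcb1, ((ts.mem N u).mp (hBT u hu)).2, hcbT b]
        exact A.zero_add hG (by simp)
      · by_cases h0 : gadd G u (cb b) = 0
        · exact Or.inl h0
        · right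
          rw [norm_eq_exp_lam h0, hr] at h2
          have := Real.exp_le_exp.mp h2
          linarith
    · rintro ⟨b, u⟩ hx ⟨b', u'⟩ hx' heq
      have hu : u ∈ B := (Finset.mem_product.mp hx).2
      have hu' : u' ∈ B := (Finset.mem_product.mp hx').2
      have hu1 := hball u (hBT u hu)
      have hu1' := hball u' (hBT u' hu')
      simp only at heq
      have hbb : b = b' := by
        by_contra hne
        have h1 := hdiff b b' hne
        have e1 := A.add_approx hG hu1 (lt_of_le_of_lt (hcb b) hr1)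
        have e2 := A.add_approx hG hu1' (lt_of_le_of_lt (hcb b') hr1)
        have h3 : cb b - cb b' = ((gadd G u' (cb b') - (u' + cb b')) -
            (gadd G u (cb b) - (u + cb b))) + (u' - u) := by rw [heq]; ring
        have h4 : ‖cb b - cb b'‖ < r := by
          rw [h3]
          refine lt_of_le_of_lt (norm_add_le_max' _ _) (max_lt
            (lt_of_le_of_lt (norm_sub_le_max' _ _) (max_lt ?_ ?_))
            (lt_of_le_of_lt (norm_sub_le_max' _ _) (max_lt (hBn u' hu') (hBn u hu))))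
          · refine lt_of_le_of_lt e2 (lt_of_le_of_lt ?_ hrr)
            rw [pow_two]
            exact mul_le_mul (hBn u' hu').le (hcb b') (norm_nonneg _) hr0.le
          · refine lt_of_le_of_lt e1 (lt_of_le_of_lt ?_ hrr)
            rw [pow_two]
            exact mul_le_mul (hBn u hu).le (hcb b) (norm_nonneg _) hr0.le
        rw [h1] at h4
        exact lt_irrefl _ h4
      subst hbb
      have := gadd_cancel A hG hu1 hu1' (lt_of_le_of_lt (hcb b) hr1) heq
      rw [this]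
  rw [Finset.card_product, Finset.card_univ, Fintype.card_fun, Fintype.card_fin,
    Fintype.card_fin] at hcard
  exact hcard

theorem mem_mono (A : ApiG) (ts : TSys p h d G w0 T) {t : C} {a b : ℕ} (hab : a ≤ b)
    (ht : t ∈ T a) : t ∈ T b := by
  obtain ⟨h1, h2⟩ := (ts.mem a t).mp ht
  refine (ts.mem b t).mpr ⟨h1, ?_⟩
  obtain ⟨k, rfl⟩ := Nat.exists_eq_add_of_le hab
  rw [pow_add, mul_comm, A.mul_mul ts.ig _ _ h1, h2, A.mul_zero ts.ig]

/-- the ratios `τ_i(N) / τ_0(N)` modulo the open unit ball -/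
theorem ratio_step (hn : h + d = n) (ts : TSys p h d G w0 T)
    (hσ : ∀ t ∈ T 1, t ≠ 0 → σ ≤ lam t) {y y' z z' : C} (hy : y ≠ 0) (hy1 : ‖y‖ < 1)
    (hy' : y' ≠ 0) (hy1' : ‖y'‖ < 1) (hl : lam y < σ) (hll : lam y' = lam y)
    (hz : gmul G p y = z) (hz' : gmul G p y' = z') :
    ‖z / z' - (y / y') ^ (p ^ n)‖ < 1 := by
  obtain ⟨v, hv, hvy⟩ := mul_p hn ts hσ hy hy1 hl
  obtain ⟨v', hv', hvy'⟩ := mul_p hn ts hσ hy' hy1' (hll ▸ hl)
  have h1 : z / z' = (v * v'⁻¹) * (y / y') ^ (p ^ n) := by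
    rw [← hz, ← hz', hvy, hvy', div_pow]
    have hv0 : v' ≠ 0 := by
      intro h0; rw [h0] at hv'; simp at hv'
    have := pow_ne_zero (p ^ n) hy'
    field_simp
  have h2 : ‖y / y'‖ = 1 := by
    rw [norm_div, norm_eq_exp_lam hy, norm_eq_exp_lam hy', hll]
    exact div_self (Real.exp_pos _).ne'
  have h3 : z / z' - (y / y') ^ (p ^ n) = ((v * v'⁻¹) - 1) * (y / y') ^ (p ^ n) := by
    rw [h1]; ring
  rw [h3, norm_mul, norm_pow, h2, one_pow, mul_one]
  exact mul_close hv (inv_close hv')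

/-- constancy of the cut-off counting function forbids torsion points -/
theorem nbv_of (A : ApiG) (hn : h + d = n) (ts : TSys p h d G w0 T)
    (sc : Scale p n h d G w0 T σ S c V₀) {V : ℝ} (hV : 0 < V) (hc : c (p * V) = c V) :
    NBV p n T σ V := by
  classical
  have hp2 : 2 ≤ p := (Fact.out : p.Prime).two_le
  have hp0 : (0 : ℝ) < p := by exact_mod_cast (by omega : 0 < p)
  have hn1 : 1 ≤ n := by have := ts.hh; omega
  -- the case where `p η < σ`
  have key : ∀ N : ℕ, p * (V / (p : ℝ) ^ (n * N)) < σ → ∀ t ∈ T N, t ≠ 0 →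
      lam t ≠ V / (p : ℝ) ^ (n * N) := by
    intro N hN t ht ht0 hlt
    set η := V / (p : ℝ) ^ (n * N) with hη
    have hη0 : 0 < η := by positivity
    have hηp : η < p * η := by
      have : (2 : ℝ) ≤ p := by exact_mod_cast hp2
      nlinarith
    have hVη : (p : ℝ) ^ (n * N) * η = V := by rw [hη]; field_simp
    have h1 := sc.hc N η hη0 (hηp.trans hN)
    have h2 := sc.hc N (p * η) (by positivity) hN
    have h3 : (p : ℝ) ^ (n * N) * (p * η) = p * V := by rw [← hVη]; ring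
    rw [h3, hc, ← h1, hVη] at h2
    have h4 : cntf T N (p * η) = cntf T N η :=
      Nat.eq_of_mul_eq_mul_left (pow_pos (by omega) _) h2
    have h5 : cntf T N (p * η) < cntf T N η := by
      unfold cntf
      apply Finset.card_lt_card
      rw [Finset.ssubset_iff_of_subset]
      · refine ⟨t, ?_, ?_⟩
        · simp only [Finset.mem_filter]
          exact ⟨ht, Or.inr hlt.ge⟩
        · simp only [Finset.mem_filter, not_and, not_or, not_le]
          exact fun _ => ⟨ht0, by rw [hlt]; exact hηp⟩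
      · intro u hu
        simp only [Finset.mem_filter] at hu ⊢
        exact ⟨hu.1, hu.2.imp id (fun h => hηp.le.trans h)⟩
    omega
  intro N hN t ht ht0 hlt
  obtain ⟨t', ht', htt⟩ := ts.surj N t ht
  have ht'1 : ‖t'‖ < 1 := ((ts.mem _ _).mp ht').1
  have hQp : (p : ℝ) ≤ (p : ℝ) ^ n := le_self_pow₀ (by exact_mod_cast (by omega : 1 ≤ p)) (by omega)
  have hQ1 : (1 : ℝ) ≤ (p : ℝ) ^ n := one_le_pow₀ (by exact_mod_cast (by omega : 1 ≤ p))
  have ht'0 : t' ≠ 0 := by
    intro h0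
    rw [h0, A.mul_zero ts.ig] at htt
    exact ht0 htt.symm
  have hl' : lam t' < σ := by
    by_contra hcon
    push Not at hcon
    rcases sc.mul_ge t' ht'0 ht'1 hcon with h0 | h0
    · rw [htt] at h0; exact ht0 h0
    · rw [htt, hlt] at h0
      have := sc.σpos
      nlinarith
  have h1 := (sc.mul_lt t' ht'0 ht'1 hl').2
  rw [htt, hlt] at h1
  have h2 : V / (p : ℝ) ^ (n * (N + 1)) = V / (p : ℝ) ^ (n * N) / (p : ℝ) ^ n := by
    rw [mul_add, mul_one, pow_add, div_div]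
  have h3 : lam t' = V / (p : ℝ) ^ (n * (N + 1)) := by
    rw [h2, h1]; field_simp
  refine key (N + 1) ?_ t' ht' ht'0 h3
  rw [h2, h1]
  rw [h1] at hN
  have h4 : (p : ℝ) ^ n * lam t' / (p : ℝ) ^ n = lam t' := by field_simp
  rw [h4]
  have h5 : 0 < lam t' := by rw [h3]; positivity
  nlinarith

end main

theorem main (A : ApiG) (hMoore : Spec2.MOORE) (hMono : Spec2.MONO) : Spec3.LEMM := by
  classical
  intro p _ n h d C _ _ _ _ _ G w0 T σ S c V₀ hn ts sc s τ V hV hseq hHV hind D M hM hDM hD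
  obtain ⟨iD, hiD⟩ := hD
  have hp2 : 2 ≤ p := (Fact.out : p.Prime).two_le
  have hp0 : (0 : ℝ) < p := by exact_mod_cast (by omega : 0 < p)
  have hn1 : 1 ≤ n := by have := ts.hh; omega
  have hdn : d < n := by have := ts.hh; omega
  have hQ1 : (1 : ℝ) < (p : ℝ) ^ n := one_lt_pow₀ (by exact_mod_cast (by omega : 1 < p)) (by omega)
  -- growth
  have hgrow : ∀ B : ℝ, ∃ K₀ : ℕ, ∀ K, K₀ ≤ K → B ≤ (p : ℝ) ^ (n * K) * V := by
    intro B
    obtain ⟨K₀, hK₀⟩ := pow_unbounded_of_one_lt (B / V) hQ1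
    refine ⟨K₀, fun K hK => ?_⟩
    have h1 : ((p : ℝ) ^ n) ^ K₀ ≤ ((p : ℝ) ^ n) ^ K := pow_le_pow_right₀ hQ1.le hK
    rw [pow_mul]
    have h2 := (hK₀.le.trans h1)
    rwa [div_le_iff₀ hV] at h2
  have hsmall : ∀ B : ℝ, 0 < B → ∃ N₀ : ℕ, ∀ N, N₀ ≤ N → B / (p : ℝ) ^ (n * N) < σ := by
    intro B hB
    obtain ⟨N₀, hN₀⟩ := pow_unbounded_of_one_lt (B / σ) hQ1
    refine ⟨N₀, fun N hN => ?_⟩
    have h1 : ((p : ℝ) ^ n) ^ N₀ ≤ ((p : ℝ) ^ n) ^ N := pow_le_pow_right₀ hQ1.le hN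
    rw [pow_mul]
    have h2 := lt_of_lt_of_le hN₀ h1
    rw [div_lt_iff₀ sc.σpos] at h2
    rw [div_lt_iff₀ (by positivity)]
    linarith
  obtain ⟨K₀, hK₀⟩ := hgrow V₀
  refine ⟨K₀, fun K hK => ?_⟩
  let c' : ℕ → ℕ := fun m => c ((p : ℝ) ^ m * V)
  have hmono : Monotone c' := by
    intro a b hab
    apply sc.cmono
    · exact Set.mem_Ioi.mpr (by positivity)
    · exact Set.mem_Ioi.mpr (by positivity)
    · exact mul_le_mul_of_nonneg_right
        (pow_le_pow_right₀ (by exact_mod_cast (by omega : 1 ≤ p)) hab) hV.le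
  have hstep : c' (n * K + n) = c' (n * K) + d := by
    have h1 := sc.cstep _ (hK₀ K hK)
    simp only [c']
    rw [← h1]
    congr 1
    rw [pow_add]; ring
  -- thresholds
  choose NV hNV using hHV
  obtain ⟨Ni, hNi⟩ := hind
  obtain ⟨Ns, hNs⟩ := hsmall ((p : ℝ) ^ (n * K + n) * V) (by positivity)
  let NVm : ℕ := Finset.univ.sup NV
  have hNVm : ∀ i, NV i ≤ NVm := fun i => Finset.le_sup (Finset.mem_univ i)
  let N₁ : ℕ := NVm + Ni + Ns + (c' (n * K) + s)
  -- data at levels `≥ N₁`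
  have hτ0 : ∀ N, N₁ ≤ N → ∀ i, τ i N ≠ 0 := fun N hN i =>
    (hNV i N ((hNVm i).trans (by omega))).1
  have hτl : ∀ N, N₁ ≤ N → ∀ i, lam (τ i N) = V / (p : ℝ) ^ (n * N) := fun N hN i =>
    (hNV i N ((hNVm i).trans (by omega))).2
  have hτ1 : ∀ N i, ‖τ i N‖ < 1 := fun N i => ((ts.mem N _).mp ((hseq i).mem N)).1
  have hsig : ∀ N, N₁ ≤ N → (p : ℝ) ^ (n * K + n) * V / (p : ℝ) ^ (n * N) < σ :=
    fun N hN => hNs N (by omega)
  have hsig' : ∀ N, N₁ ≤ N → ∀ m, m ≤ n * K + n → (p : ℝ) ^ m * V / (p : ℝ) ^ (n * N) < σ := by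
    intro N hN m hm
    refine lt_of_le_of_lt ?_ (hsig N hN)
    apply div_le_div_of_nonneg_right _ (by positivity)
    exact mul_le_mul_of_nonneg_right
      (pow_le_pow_right₀ (by exact_mod_cast (by omega : 1 ≤ p)) hm) hV.le
  -- the jump
  have hjump : c' (n * K) + (s + 1) ≤ c' (n * K + 1) := by
    have hη0 : 0 < V / (p : ℝ) ^ (n * N₁) := by positivity
    have hpη : V / (p : ℝ) ^ (n * N₁) < p * (V / (p : ℝ) ^ (n * N₁)) := by
      have : (2 : ℝ) ≤ p := by exact_mod_cast hp2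
      nlinarith
    have hpσ : p * (V / (p : ℝ) ^ (n * N₁)) < σ := by
      have := hsig' N₁ le_rfl 1 (by nlinarith)
      rwa [pow_one, mul_div_assoc] at this
    have hmem : ∀ i, τ i N₁ ∈ T (N₁ + K) := fun i =>
      mem_mono A ts (by omega) ((hseq i).mem N₁)
    have h1 := jump (p := p) A ts hη0 hpη hmem (hτ0 N₁ le_rfl) (hτl N₁ le_rfl) (by
      intro b hb hb0
      rw [hNi N₁ (by omega) b hb hb0 0, norm_eq_exp_lam (hτ0 N₁ le_rfl 0), hτl N₁ le_rfl 0])
    have h2 := sc.hc (N₁ + K) (V / (p : ℝ) ^ (n * N₁)) hη0 (hpη.trans hpσ)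
    have h3 := sc.hc (N₁ + K) (p * (V / (p : ℝ) ^ (n * N₁))) (by positivity) hpσ
    have e2 : (p : ℝ) ^ (n * (N₁ + K)) * (V / (p : ℝ) ^ (n * N₁)) = (p : ℝ) ^ (n * K) * V := by
      rw [mul_add, pow_add]; field_simp
    have e3 : (p : ℝ) ^ (n * (N₁ + K)) * (p * (V / (p : ℝ) ^ (n * N₁))) =
        (p : ℝ) ^ (n * K + 1) * V := by
      rw [mul_add, pow_add, pow_succ]; field_simp
    rw [e2] at h2
    rw [e3] at h3
    have hpos : 0 < cntf T (N₁ + K) (p * (V / (p : ℝ) ^ (n * N₁))) := by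
      rcases Nat.eq_zero_or_pos (cntf T (N₁ + K) (p * (V / (p : ℝ) ^ (n * N₁)))) with h0 | h0
      · rw [h0, mul_zero] at h3
        exact absurd h3 (pow_pos (by omega) _).ne
      · exact h0
    have h4 : p ^ (c' (n * K) + (s + 1)) * cntf T (N₁ + K) (p * (V / (p : ℝ) ^ (n * N₁))) ≤
        p ^ (c' (n * K + 1)) * cntf T (N₁ + K) (p * (V / (p : ℝ) ^ (n * N₁))) := by
      calc _ = p ^ c' (n * K) *
            (p ^ (s + 1) * cntf T (N₁ + K) (p * (V / (p : ℝ) ^ (n * N₁)))) := by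
            rw [pow_add, mul_assoc]
        _ ≤ p ^ c' (n * K) * cntf T (N₁ + K) (V / (p : ℝ) ^ (n * N₁)) :=
            Nat.mul_le_mul_left _ h1
        _ = _ := by rw [h2, h3]
    have h5 := Nat.le_of_mul_le_mul_right h4 hpos
    exact (Nat.pow_le_pow_iff_right (by omega)).mp h5
  -- Moore
  let Ds : C := D iD
  have hDs : ‖Ds‖ = M := hiD
  have hDs0 : Ds ≠ 0 := by
    intro h0; rw [h0, norm_zero] at hDs; exact hM.ne hDs
  have hρ1 : ∀ N, N₁ ≤ N → ∀ i, ‖τ i N / τ 0 N‖ = 1 := by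
    intro N hN i
    rw [norm_div, norm_eq_exp_lam (hτ0 N hN i), norm_eq_exp_lam (hτ0 N hN 0), hτl N hN i,
      hτl N hN 0]
    exact div_self (Real.exp_pos _).ne'
  have hE0 : ∃ E₀ : ℕ, (E₀ : ℤ) = n * N₁ + (n * K - c' (n * K)) - s := by
    refine ⟨(n * N₁ + (n * K - c' (n * K)) - s : ℤ).toNat, Int.toNat_of_nonneg ?_⟩
    have h1 : (N₁ : ℤ) ≤ n * N₁ := by nlinarith
    have h2 : (c' (n * K) + s : ℤ) ≤ N₁ := by
      have : c' (n * K) + s ≤ N₁ := by omega
      exact_mod_cast this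
    have h3 : (0 : ℤ) ≤ n * K := by positivity
    omega
  obtain ⟨E₀, hE₀⟩ := hE0
  obtain ⟨e', he1, he2, he3⟩ := hMoore p C (s + 1) (fun i => τ i N₁ / τ 0 N₁)
    (fun i => (hρ1 N₁ le_rfl i).le) (by
      intro b hb hb0
      have h1 : ∑ i, (b i : C) * (τ i N₁ / τ 0 N₁) = (∑ i, (b i : C) * τ i N₁) / τ 0 N₁ := by
        rw [Finset.sum_div]
        exact Finset.sum_congr rfl (fun i _ => by ring)
      rw [h1, norm_div, hNi N₁ (by omega) b hb hb0 0]
      exact div_self (norm_pos_iff.mpr (hτ0 N₁ le_rfl 0)).ne') (fun i => D i / Ds)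
    (fun i => by rw [norm_div, hDs, div_le_one hM]; exact hDM i)
    ⟨iD, by rw [norm_div, hDs]; exact div_self hM.ne'⟩ E₀
  obtain ⟨m, hm1, hm2, hm3, hm4⟩ := hMono n d (s + 1) c' hdn (by omega) hmono K hstep hjump
    ((e' : ℤ) - n * N₁) (by push_cast; omega) (by omega)
  refine ⟨m, hm1, hm2, ?_, N₁, fun N hN => ⟨?_, ?_⟩⟩
  · apply nbv_of A hn ts sc (by positivity)
    have : (p : ℝ) * ((p : ℝ) ^ (m + n * K) * V) = (p : ℝ) ^ (m + n * K + 1) * V := by
      rw [pow_succ]; ring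
    rw [this]
    exact hm3
  · exact hsig' N hN (m + n * K) (by omega)
  · -- the exponent
    have hexp : p ^ (m + n * K) * (p ^ (h * N) *
        cntf T N ((p : ℝ) ^ (m + n * K) * V / (p : ℝ) ^ (n * N))) =
        p ^ (e' + n * (N - N₁)) := by
      have h1 := sc.hc N ((p : ℝ) ^ (m + n * K) * V / (p : ℝ) ^ (n * N)) (by positivity)
        (hsig' N hN (m + n * K) (by omega))
      have e1 : (p : ℝ) ^ (n * N) * ((p : ℝ) ^ (m + n * K) * V / (p : ℝ) ^ (n * N)) =
          (p : ℝ) ^ (m + n * K) * V := by field_simp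
      rw [e1] at h1
      have h1' : p ^ c' (m + n * K) * cntf T N ((p : ℝ) ^ (m + n * K) * V / (p : ℝ) ^ (n * N)) =
        p ^ (d * N) := h1
      apply Nat.eq_of_mul_eq_mul_left (pow_pos (by omega : 0 < p) (c' (m + n * K)))
      calc p ^ c' (m + n * K) * (p ^ (m + n * K) * (p ^ (h * N) *
            cntf T N ((p : ℝ) ^ (m + n * K) * V / (p : ℝ) ^ (n * N))))
          = p ^ (m + n * K) * (p ^ (h * N) * (p ^ c' (m + n * K) *
            cntf T N ((p : ℝ) ^ (m + n * K) * V / (p : ℝ) ^ (n * N)))) := by ring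
        _ = p ^ (m + n * K + (h * N + d * N)) := by rw [h1']; ring
        _ = p ^ (c' (m + n * K) + (e' + n * (N - N₁))) := by
            congr 1
            rw [← add_mul, hn]
            obtain ⟨k, rfl⟩ := Nat.exists_eq_add_of_le hN
            have e3 : N₁ + k - N₁ = k := by omega
            rw [e3]
            have hm4' : ((m + n * K : ℕ) : ℤ) - c' (m + n * K) = (e' : ℤ) - n * N₁ := hm4
            zify
            push_cast at hm4'
            linear_combination hm4'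
        _ = _ := by rw [pow_add]
    rw [hexp]
    -- induction
    have key : ∀ k : ℕ, ‖∑ i, (D i / Ds) *
        (τ i (N₁ + k) / τ 0 (N₁ + k)) ^ (p ^ (e' + n * k))‖ = 1 := by
      intro k
      induction k with
      | zero => simpa using he3
      | succ k ih =>
        rw [← ih]
        apply norm_eq_of_sub_lt
        rw [ih, ← Finset.sum_sub_distrib]
        apply sum_norm_lt _ one_pos
        intro i
        rw [← mul_sub, norm_mul]
        have hlev : N₁ ≤ N₁ + (k + 1) := by omega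
        have hls : lam (τ i (N₁ + (k + 1))) < σ := by
          rw [hτl _ hlev i]
          have := hsig' (N₁ + (k + 1)) hlev 0 (by omega)
          simpa using this
        have h1 := ratio_step (p := p) hn ts sc.σmin (hτ0 _ hlev i) (hτ1 _ i) (hτ0 _ hlev 0)
          (hτ1 _ 0) hls (by rw [hτl _ hlev, hτl _ hlev])
          ((hseq i).step (N₁ + k)) ((hseq 0).step (N₁ + k))
        have h2 : ‖(τ i (N₁ + k) / τ 0 (N₁ + k)) ^ (p ^ (e' + n * k)) -
            ((τ i (N₁ + (k + 1)) / τ 0 (N₁ + (k + 1))) ^ (p ^ n)) ^ (p ^ (e' + n * k))‖ < 1 := by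
          apply pow_sub_lt _ _ h1
          · rw [hρ1 _ (by omega) i]
          · rw [norm_pow, hρ1 _ hlev i, one_pow]
        have h3 : ((τ i (N₁ + (k + 1)) / τ 0 (N₁ + (k + 1))) ^ (p ^ n)) ^ (p ^ (e' + n * k)) =
            (τ i (N₁ + (k + 1)) / τ 0 (N₁ + (k + 1))) ^ (p ^ (e' + n * (k + 1))) := by
          rw [← pow_mul, ← pow_add]
          congr 2
          ring
        rw [h3, norm_sub_rev] at h2
        calc ‖D i / Ds‖ * _ ≤ 1 * _ := mul_le_mul_of_nonneg_right
              (by rw [norm_div, hDs, div_le_one hM]; exact hDM i) (norm_nonneg _)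
          _ < 1 := by rw [one_mul]; exact h2
    obtain ⟨k, rfl⟩ := Nat.exists_eq_add_of_le hN
    have e3 : N₁ + k - N₁ = k := by omega
    rw [e3]
    have h1 : ∑ i, D i * (τ i (N₁ + k) / τ 0 (N₁ + k)) ^ (p ^ (e' + n * k)) =
        Ds * ∑ i, (D i / Ds) * (τ i (N₁ + k) / τ 0 (N₁ + k)) ^ (p ^ (e' + n * k)) := by
      rw [Finset.mul_sum]
      exact Finset.sum_congr rfl (fun i _ => by field_simp)
    rw [h1, norm_mul, key k, mul_one, hDs]

end Crest.Agent.LT3LEMM
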