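/- rid 227 (S0351): module LGB (bounded logarithms). -/
import Crest.Agent.LT3Spec4

set_option autoImplicit false

namespace Crest.Agent.LT3LGB

open Crest Crest.GeometryTopology Crest.LubinTate Crest.Agent.LT3

section basic

variable {C : Type} [NormedField C] [IsUltrametricDist C]

theorem sum_le {ι : Type*} (s : Finset ι) (f : ι → C) {B : ℝ} (hB : 0 ≤ B)
    (h : ∀ i ∈ s, ‖f i‖ ≤ B) : ‖∑ i ∈ s, f i‖ ≤ B :=
  IsUltrametricDist.norm_sum_le_of_forall_le_of_nonneg hB h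

theorem finsum_le {ι : Type*} (f : ι → C) {B : ℝ} (hB : 0 ≤ B)
    (h : ∀ i, ‖f i‖ ≤ B) : ‖∑ᶠ i, f i‖ ≤ B := by
  by_cases hf : (Function.support f).Finite
  · rw [finsum_eq_sum f hf]
    exact sum_le _ _ hB (fun i _ => h i)
  · rw [finsum_of_infinite_support hf]
    simpa using hB

/-- integrality of `om`. -/
theorem om_int (G : FormalGroup C) (hG : IG G) : ∀ i, ‖PowerSeries.coeff i (om G)‖ ≤ 1 := by
  intro i
  induction i using Nat.strong_induction_on with
  | _ i ih =>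
    unfold om at ih ⊢
    rw [PowerSeries.coeff_invOfUnit]
    split_ifs with h
    · simp
    · rw [norm_mul]
      simp only [inv_one, Units.val_one, norm_neg, norm_one, one_mul]
      refine sum_le _ _ zero_le_one fun x hx => ?_
      split_ifs with h2
      · rw [norm_mul, PowerSeries.coeff_mk]
        exact mul_le_one₀ (hG.int _) (norm_nonneg _) (ih x.2 h2)
      · simp

theorem lg_bound (G : FormalGroup C) (hG : IG G) (i : ℕ) :
    ‖PowerSeries.coeff i (lg G)‖ ≤ ‖(i : C)‖⁻¹ := by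
  unfold lg
  rw [PowerSeries.coeff_mk, norm_div, div_eq_mul_inv]
  exact mul_le_of_le_one_left (by positivity) (om_int G hG _)

theorem pow_coeff {σ : Type} {r : ℝ} (hr0 : 0 ≤ r) {μ : MvPowerSeries σ C}
    (hμ : ∀ e, ‖MvPowerSeries.coeff e μ‖ ≤ r) (i : ℕ) :
    ∀ e, ‖MvPowerSeries.coeff e (μ ^ i)‖ ≤ r ^ i := by
  classical
  induction i with
  | zero =>
    intro e
    rw [pow_zero, pow_zero, MvPowerSeries.coeff_one]
    split_ifs <;> simp
  | succ i ih =>
    intro e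
    rw [pow_succ, MvPowerSeries.coeff_mul]
    refine sum_le _ _ (by positivity) fun x hx => ?_
    rw [norm_mul, pow_succ]
    exact mul_le_mul (ih _) (hμ _) (norm_nonneg _) (by positivity)

end basic

/-- `‖i‖` for natural numbers -/
theorem natCast_norm_le {C : Type} [NormedField C] [IsUltrametricDist C] (i : ℕ) :
    ‖(i : C)‖ ≤ 1 := IsUltrametricDist.norm_natCast_le_one C i

theorem norm_coprime {C : Type} [NormedField C] [IsUltrametricDist C] {p : ℕ}
    (hp : ‖(p : C)‖ < 1) {u : ℕ} (hu : Nat.Coprime u p) : ‖(u : C)‖ = 1 := by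
  apply le_antisymm (natCast_norm_le u)
  by_contra hcon
  push Not at hcon
  have h1 := Nat.gcd_eq_gcd_ab u p
  rw [Nat.coprime_iff_gcd_eq_one.1 hu] at h1
  have h2 : (1 : C) = (u : C) * (Nat.gcdA u p : C) + (p : C) * (Nat.gcdB u p : C) := by
    have := congrArg (Int.cast : ℤ → C) h1
    push_cast at this
    exact this
  have h3 : ‖(1 : C)‖ < 1 := by
    rw [h2]
    refine lt_of_le_of_lt (IsUltrametricDist.norm_add_le_max _ _) (max_lt ?_ ?_)
    · rw [norm_mul]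
      exact lt_of_le_of_lt (mul_le_of_le_one_right (norm_nonneg _)
        (IsUltrametricDist.norm_intCast_le_one C _)) hcon
    · rw [norm_mul]
      exact lt_of_le_of_lt (mul_le_of_le_one_right (norm_nonneg _)
        (IsUltrametricDist.norm_intCast_le_one C _)) hp
  simp at h3

/-- `‖i‖⁻¹ ≤ i^k` -/
theorem exists_pow_bound (p : ℕ) [hpp : Fact p.Prime] (C : Type) [NormedField C]
    [IsUltrametricDist C] [CharZero C] (hp : ‖(p : C)‖ < 1) :
    ∃ k : ℕ, ∀ i : ℕ, 1 ≤ i → ‖(i : C)‖⁻¹ ≤ (i : ℝ) ^ k := by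
  have hp1 : (1 : ℝ) < p := by exact_mod_cast hpp.out.one_lt
  have hp0 : 0 < ‖(p : C)‖ := norm_pos_iff.2 (by exact_mod_cast hpp.out.ne_zero)
  obtain ⟨k, hk⟩ := pow_unbounded_of_one_lt (‖(p : C)‖⁻¹) hp1
  refine ⟨k, fun i hi => ?_⟩
  obtain ⟨v, u, hu, hiu⟩ := Nat.exists_eq_pow_mul_and_not_dvd (n := i) (by omega) p
    hpp.out.ne_one
  have hcop : Nat.Coprime u p := ((Nat.Prime.coprime_iff_not_dvd hpp.out).2 hu).symm
  have hu1 : 1 ≤ u := by
    rcases Nat.eq_zero_or_pos u with h | h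
    · subst h; simp at hu
    · exact h
  have h1 : ‖(i : C)‖⁻¹ = (‖(p : C)‖⁻¹) ^ v := by
    rw [hiu]
    push_cast
    rw [norm_mul, norm_pow, norm_coprime hp hcop, mul_one, inv_pow]
  rw [h1]
  have h2 : (p : ℝ) ^ v ≤ i := by
    have : p ^ v ≤ i := by rw [hiu]; exact Nat.le_mul_of_pos_right _ hu1
    exact_mod_cast this
  calc (‖(p : C)‖⁻¹) ^ v ≤ ((p : ℝ) ^ k) ^ v := pow_le_pow_left₀ (by positivity) hk.le v
    _ = ((p : ℝ) ^ v) ^ k := by rw [← pow_mul, ← pow_mul, mul_comm]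
    _ ≤ (i : ℝ) ^ k := pow_le_pow_left₀ (by positivity) h2 k

/-- uniform bound for `r ^ i / ‖i‖`. -/
theorem exists_B (p : ℕ) [hpp : Fact p.Prime] (C : Type) [NormedField C]
    [IsUltrametricDist C] [CharZero C] (hp : ‖(p : C)‖ < 1) {r : ℝ} (hr0 : 0 ≤ r) (hr : r < 1) :
    ∃ B : ℝ, 0 < B ∧ ∀ i : ℕ, ‖(i : C)‖⁻¹ * r ^ i ≤ B := by
  obtain ⟨k, hk⟩ := exists_pow_bound p C hp
  have ht := tendsto_pow_const_mul_const_pow_of_abs_lt_one k
    (r := r) (by rw [abs_of_nonneg hr0]; exact hr)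
  obtain ⟨B, hB⟩ := ht.bddAbove_range
  refine ⟨max B 1, by positivity, fun i => ?_⟩
  rcases Nat.eq_zero_or_pos i with h | h
  · subst h; simp
  · refine le_trans ?_ (le_max_left _ _)
    refine le_trans (mul_le_mul_of_nonneg_right (hk i h) (by positivity)) ?_
    exact hB ⟨i, rfl⟩

/-- general bound (any number of variables). -/
theorem lgb_mv (p : ℕ) [hpp : Fact p.Prime] (C : Type) [NormedField C]
    [IsUltrametricDist C] [CharZero C] (hp : ‖(p : C)‖ < 1) {r : ℝ} (hr0 : 0 ≤ r) (hr : r < 1) :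
    ∃ B : ℝ, 0 < B ∧ ∀ (σ : Type) (G : FormalGroup C), IG G → ∀ μ : MvPowerSeries σ C, ZC μ →
      (∀ e, ‖MvPowerSeries.coeff e μ‖ ≤ r) →
      ∀ e, ‖MvPowerSeries.coeff e (LT3.cmp (lg G) μ)‖ ≤ B := by
  obtain ⟨B, hB0, hB⟩ := exists_B p C hp hr0 hr
  refine ⟨B, hB0, fun σ G hG μ hμ0 hμ e => ?_⟩
  unfold LT3.cmp
  rw [PowerSeries.coeff_subst (PowerSeries.HasSubst.of_constantCoeff_zero hμ0)]
  refine finsum_le _ hB0.le fun i => ?_
  rw [smul_eq_mul, norm_mul]
  exact le_trans (mul_le_mul (lg_bound G hG i) (pow_coeff hr0 hμ i e) (norm_nonneg _)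
    (by positivity)) (hB i)

theorem main : LT3.Spec4.LGB := by
  intro p hpp C _ _ _ _ hp r hr0 hr
  obtain ⟨B, hB0, hB⟩ := lgb_mv p C hp hr0 hr
  exact ⟨B, hB0, fun G hG μ hμ0 hμ j => hB Unit G hG μ hμ0
    (fun e => by
      have he : Finsupp.single () (e ()) = e := by ext; simp
      have := hμ (e ())
      rw [PowerSeries.coeff, he] at this
      exact this) _⟩

end Crest.Agent.LT3LGB
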