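/- rid 227 (S0351): module LIN (approximate relation between `Y(τ')` and the dominant `Y(τ_l)`). -/
import Mathlib
import Crest.Agent.LT3Spec3

set_option autoImplicit false
open Crest.LubinTate
open Crest Crest.GeometryTopology
open Filter Topology

namespace Crest.Agent.LT3LIN

open Crest.Agent.LT3

/-- from "`g` is eventually `≥ B`" to "`exp (-g)` is eventually `≤ θ`". -/
theorem small_of_large {n : ℕ} {g : ℕ → ℕ → ℝ}
    (h : ∀ B : ℝ, ∃ K₁ : ℕ, ∀ K, K₁ ≤ K → ∀ m : ℕ, m < n → B ≤ g K m) {θ : ℝ} (hθ : 0 < θ) :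
    ∀ᶠ K in atTop, ∀ m : ℕ, m < n → Real.exp (-g K m) ≤ θ := by
  obtain ⟨K₁, hK₁⟩ := h (-Real.log θ)
  filter_upwards [eventually_ge_atTop K₁] with K hK m hm
  have h1 := hK₁ K hK m hm
  calc Real.exp (-g K m) ≤ Real.exp (Real.log θ) := Real.exp_le_exp.mpr (by linarith)
    _ = θ := Real.exp_log hθ

theorem norm_sub_le_max_u {C : Type} [NormedField C] [IsUltrametricDist C] (a b : C) :
    ‖a - b‖ ≤ max ‖a‖ ‖b‖ := by
  have := IsUltrametricDist.norm_add_le_max a (-b)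
  rwa [norm_neg, ← sub_eq_add_neg] at this

/-- `ψ` commutes with `[a]`. -/
theorem psi_gmul (hG : ApiG) (hX : ApiX) {p : ℕ} [Fact p.Prime] {n h d : ℕ} {C : Type}
    [NontriviallyNormedField C] [CompleteSpace C] [IsUltrametricDist C]
    {F : FormalGroup (MvPowerSeries (Fin d) (GaloisField p n))} {ι : GaloisField p n →+* C}
    {w : Fin d → C} {x : MvPowerSeries (Fin d) (GaloisField p n) →+* C} {ρ : ℝ} {K m : ℕ}
    {ω : GaloisField p n} {w' : Fin d → C} {x' : MvPowerSeries (Fin d) (GaloisField p n) →+* C}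
    {ψ : C → C} (mv : Move p n h F ι w x ρ K m ω w' x' ψ) (hev : IsEv ι w x) (hF : F.IsComm)
    (a : ℕ) {z : C} (hz : ‖z‖ < 1) :
    ψ (gmul (F.map x) a z) = gmul (F.map x') a (ψ z) := by
  have hg : IG (F.map x) := hX.ig hev F hF
  have hg' : IG (F.map x') := hX.ig mv.isEv F hF
  have hψz : ‖ψ z‖ < 1 := by rw [mv.norm z hz]; exact hz
  induction a with
  | zero =>
    rw [hG.zero_mul hg hz, hG.zero_mul hg' hψz]
    have := mv.norm 0 (by simp)
    rw [norm_zero] at this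
    exact norm_eq_zero.mp this
  | succ a ih =>
    have h1 : ‖gmul (F.map x) a z‖ < 1 := lt_of_le_of_lt (hG.mul_norm_le hg a hz) hz
    rw [hG.add_mul hg a 1 hz, hG.add_mul hg' a 1 hψz, hG.one_mul hg hz, hG.one_mul hg' hψz,
      mv.hom _ _ h1 hz, ih]

theorem psi_zero {p : ℕ} [Fact p.Prime] {n h d : ℕ} {C : Type}
    [NontriviallyNormedField C]
    {F : FormalGroup (MvPowerSeries (Fin d) (GaloisField p n))} {ι : GaloisField p n →+* C}
    {w : Fin d → C} {x : MvPowerSeries (Fin d) (GaloisField p n) →+* C} {ρ : ℝ} {K m : ℕ}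
    {ω : GaloisField p n} {w' : Fin d → C} {x' : MvPowerSeries (Fin d) (GaloisField p n) →+* C}
    {ψ : C → C} (mv : Move p n h F ι w x ρ K m ω w' x' ψ) : ψ 0 = 0 := by
  have := mv.norm 0 (by simp)
  rw [norm_zero] at this
  exact norm_eq_zero.mp this

/-- terms of a compatible sequence with `τ 1 ≠ 0` are nonzero. -/
theorem seq_ne (hG : ApiG) {p : ℕ} {C : Type} [NontriviallyNormedField C] [CompleteSpace C]
    [IsUltrametricDist C] {G : FormalGroup C} (hg : IG G) {T : ℕ → Finset C} {τ : ℕ → C}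
    (hτ : IsSeq p G T τ) (h1 : τ 1 ≠ 0) : ∀ N, τ (N + 1) ≠ 0 := by
  intro N
  induction N with
  | zero => exact h1
  | succ N ih =>
    intro h0
    apply ih
    rw [← hτ.step (N + 1), h0, hG.mul_zero hg]

set_option maxHeartbeats 4000000 in
theorem main (hX : ApiX) (hG : ApiG) (hXI : LT3.Spec3.XI) (hWEI : LT3.Spec3.WEI)
    (hTOR : LT3.Spec3.TOR) (hDUAL : LT3.Spec3.DUAL) (hDELTA : LT3.Spec3.DELTA)
    (hYY1 : LT3.Spec3.YY1) (hYY2 : LT3.Spec3.YY2) (hYR : LT3.Spec3.YR)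
    (hASYM : LT3.Spec3.ASYM) : LT3.Spec3.LIN := by
  intro p _ n h d r C _ _ _ _ _ Γ F ι w x i0 ρ T σ S c V₀ hS r' τ hB hTT τ' v hτ' hτ1 hv hV'
  have hst := hS.st
  have hn1 : 1 ≤ n := by have := hst.hn; have := hst.hh; omega
  have hg : IG (F.map x) := hX.ig hS.isEv F hst.commF
  have hσ := hS.sc.σpos
  have hp2 : p.Prime := Fact.out
  have hp1 : (1 : ℝ) < p := by exact_mod_cast hp2.one_lt
  have hp0 : (0 : ℝ) < p := by linarith
  set V1 : ℝ := (p : ℝ) ^ n * σ with hV1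
  have hV1pos : 0 < V1 := by positivity
  -- choose M
  obtain ⟨M, hM1, hMv⟩ : ∃ M : ℕ, 1 ≤ M ∧ v < (p : ℝ) ^ (n * M) * V1 := by
    obtain ⟨M, hM⟩ := pow_unbounded_of_one_lt (v / V1) hp1
    refine ⟨M + 1, by omega, ?_⟩
    rw [div_lt_iff₀ hV1pos] at hM
    refine lt_of_lt_of_le hM (mul_le_mul_of_nonneg_right ?_ hV1pos.le)
    exact pow_le_pow_right₀ hp1.le (by nlinarith)
  -- Weierstrass data
  obtain ⟨f, U, hf⟩ := hWEI p n h d Γ F hst M
  obtain ⟨-, hsep, hroot⟩ := hTOR p n h d Γ F hst C ι w x hS.isEv i0 hS.hi0 hS.hw0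
  have htM := (hS.ts.mem M (τ' M)).mp (hτ'.mem M)
  have hqM : p ^ (h * M) ≠ 0 := pow_ne_zero _ hp2.ne_zero
  have hqM0 : τ' M ≠ 0 := by
    obtain ⟨M', rfl⟩ : ∃ M', M = M' + 1 := ⟨M - 1, by omega⟩
    exact seq_ne hG hg hτ' hτ1 M'
  set ζ : C := τ' M ^ (p ^ (h * M)) with hζ
  have hζ0 : ζ ≠ 0 := pow_ne_zero _ hqM0
  have hζ1 : ‖ζ‖ < 1 := by
    rw [hζ, norm_pow]
    exact pow_lt_one₀ (norm_nonneg _) htM.1 hqM
  have hfζ : f.eval₂ x ζ = 0 := by
    rw [← Polynomial.eval_map]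
    exact hroot M f U hf (τ' M) htM.1 htM.2
  have hfζ' : (Polynomial.derivative f).eval₂ x ζ ≠ 0 := by
    have h1 := (hsep M f U hf).eval₂_derivative_ne_zero (RingHom.id C) (x := ζ)
      (by rw [Polynomial.eval₂_map, RingHomCompTriple.comp_eq]; exact hfζ)
    rw [Polynomial.derivative_map, Polynomial.eval₂_map, RingHomCompTriple.comp_eq] at h1
    exact h1
  obtain ⟨i, D, C₃, κ, hC₃, hκ, ⟨δ₀, hδ₀, hDδ₀⟩, hxi⟩ :=
    hXI p n d hn1 C ι w x hS.isEv hS.disc f ζ hf.monic hfζ hfζ' hζ0 hζ1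
  obtain ⟨hdual1, -, -, -⟩ := hDUAL p n h d r C Γ F ι w x i0 ρ T σ S c V₀ hS r' τ hB
  obtain ⟨D2, hD2⟩ := hdual1 D
  obtain ⟨cM, hcM, hlin⟩ := hS.ts.lin M (τ' M) (hτ'.mem M)
  refine ⟨i, cM, fun l => if l.1 < r' then -D2 l else 0, hcM, ?_, ?_, ?_⟩
  · intro l hl
    have : ¬ (l.1 < r') := by omega
    simp [this]
  · -- some `D' l ≠ 0`
    by_contra hcon
    push Not at hcon
    apply hDδ₀
    rw [hD2 δ₀]
    apply Finset.sum_eq_zero
    intro j _
    by_cases hj : j.1 < r'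
    · have h1 := hcon j
      rw [if_pos hj, neg_eq_zero] at h1
      rw [h1, zero_mul]
    · rw [hTT δ₀ hδ₀ j (by omega), mul_zero]
  -- main estimate
  intro η hη
  -- constants
  obtain ⟨C₄, K4, hC₄, hdelta⟩ := hDELTA p n h d r C Γ F ι w x i0 ρ T σ S c V₀ hS
  obtain ⟨as1, as2, as3, -⟩ := hASYM p n h d C (F.map x) (w i0) T σ S c V₀ hst.hn hst.hh hst.hd
    hS.sc
  choose C5 K5 hC5 hyy2 using fun j : Fin d =>
    hYY2 p n h d r C Γ F ι w x i0 ρ T σ S c V₀ hS (τ j) (hB.seq j)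
  -- valuations of the nondominant sequences
  have hVj : ∀ j : Fin d, ∃ V : ℝ, r' ≤ j.1 → V1 < V ∧ HasV p n (τ j) V := by
    intro j
    by_cases hj : r' ≤ j.1
    · obtain ⟨-, V, hV⟩ := hB.nondom j hj
      exact ⟨V, fun _ => hV⟩
    · exact ⟨0, fun h => absurd h hj⟩
  choose Vj hVj using hVj
  -- a bound for all coefficients
  obtain ⟨BD, hBD1, hBD⟩ : ∃ BD : ℝ, 1 ≤ BD ∧ ∀ j, ‖D2 j‖ ≤ BD ∧ C5 j ≤ BD ∧ ‖D j‖ ≤ BD := by
    refine ⟨1 + ∑ j, (‖D2 j‖ + C5 j + ‖D j‖), ?_, ?_⟩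
    · have : 0 ≤ ∑ j, (‖D2 j‖ + C5 j + ‖D j‖) :=
        Finset.sum_nonneg fun j _ => by have := (hC5 j).le; positivity
      linarith
    · intro j
      have h1 : ‖D2 j‖ + C5 j + ‖D j‖ ≤ ∑ j, (‖D2 j‖ + C5 j + ‖D j‖) :=
        Finset.single_le_sum (f := fun j => ‖D2 j‖ + C5 j + ‖D j‖)
          (fun j _ => by have := (hC5 j).le; positivity) (Finset.mem_univ j)
      have h2 := norm_nonneg (D2 j)
      have h3 := (hC5 j).le
      have h4 := norm_nonneg (D j)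
      refine ⟨by linarith, by linarith, by linarith⟩
  set P : ℕ := p ^ i with hP
  have hPpos : 0 < P := pow_pos hp2.pos _
  -- the auxiliary constant `η'`
  have hcMpos : 0 < ‖cM‖ := norm_pos_iff.mpr hcM
  set η' : ℝ := min 1 (η / ‖cM‖) with hη'
  have hη'pos : 0 < η' := lt_min one_pos (by positivity)
  -- the eventual facts
  have hS1 : ∀ θ : ℝ, 0 < θ → ∀ᶠ K in atTop, ∀ m : ℕ, m < n →
      Real.exp (-S ((p : ℝ) ^ (m + n * K) * V1)) ≤ θ := fun θ hθ =>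
    small_of_large (g := fun K m => S ((p : ℝ) ^ (m + n * K) * V1)) (as1 V1 hV1pos) hθ
  have hSj : ∀ θ : ℝ, 0 < θ → ∀ᶠ K in atTop, ∀ j : Fin d, r' ≤ j.1 → ∀ m : ℕ, m < n →
      Real.exp (-S ((p : ℝ) ^ (m + n * K) * Vj j)) ≤
        θ * Real.exp (-S ((p : ℝ) ^ (m + n * K) * V1)) := by
    intro θ hθ
    rw [eventually_all]
    intro j
    by_cases hj : r' ≤ j.1
    · have h1 := small_of_large
        (g := fun K m => S ((p : ℝ) ^ (m + n * K) * Vj j) - S ((p : ℝ) ^ (m + n * K) * V1))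
        (as2 V1 (Vj j) hV1pos (hVj j hj).1) hθ
      filter_upwards [h1] with K hK _ m hm
      have h2 := hK m hm
      calc Real.exp (-S ((p : ℝ) ^ (m + n * K) * Vj j))
          = Real.exp (-(S ((p : ℝ) ^ (m + n * K) * Vj j) - S ((p : ℝ) ^ (m + n * K) * V1))) *
            Real.exp (-S ((p : ℝ) ^ (m + n * K) * V1)) := by
              rw [← Real.exp_add]; congr 1; ring
        _ ≤ _ := mul_le_mul_of_nonneg_right h2 (Real.exp_pos _).le
    · exact Eventually.of_forall fun K h => absurd h hj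
  have hSv : ∀ θ : ℝ, 0 < θ → ∀ᶠ K in atTop, ∀ m : ℕ, m < n →
      Real.exp (-S ((p : ℝ) ^ (m + n * K) * V1)) ^ (p ^ (h * M)) ≤
        θ * Real.exp (-S ((p : ℝ) ^ (m + n * K) * v)) := by
    intro θ hθ
    have h1 := small_of_large
      (g := fun K m => (p : ℝ) ^ (h * M) * S ((p : ℝ) ^ (m + n * K) * V1) -
        S ((p : ℝ) ^ (m + n * K) * v))
      (as3 V1 v M hV1pos hv hMv) hθ
    filter_upwards [h1] with K hK m hm
    have h2 := hK m hm
    calc Real.exp (-S ((p : ℝ) ^ (m + n * K) * V1)) ^ (p ^ (h * M))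
        = Real.exp (-((p : ℝ) ^ (h * M) * S ((p : ℝ) ^ (m + n * K) * V1) -
            S ((p : ℝ) ^ (m + n * K) * v))) * Real.exp (-S ((p : ℝ) ^ (m + n * K) * v)) := by
            rw [← Real.exp_nat_mul, ← Real.exp_add]; congr 1; push_cast; ring
      _ ≤ _ := mul_le_mul_of_nonneg_right h2 (Real.exp_pos _).le
  -- closeness
  have hclose : ∀ᶠ K in atTop, max (ρ ^ (K + 1)) (‖τ' M‖ ^ (p ^ (h * K))) < min κ 1 := by
    have hκ1 : 0 < min κ 1 := lt_min hκ one_pos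
    have hρ0 : 0 ≤ ρ := le_trans (norm_nonneg _) (hS.hρ i0)
    have t1 : Tendsto (fun K : ℕ => ρ ^ (K + 1)) atTop (𝓝 0) :=
      (tendsto_pow_atTop_nhds_zero_of_lt_one hρ0 hS.hρ1).comp (tendsto_add_atTop_nat 1)
    have t2 : Tendsto (fun K : ℕ => ‖τ' M‖ ^ K) atTop (𝓝 0) :=
      tendsto_pow_atTop_nhds_zero_of_lt_one (norm_nonneg _) htM.1
    filter_upwards [t1.eventually_lt_const hκ1, t2.eventually_lt_const hκ1] with K h1 h2
    refine max_lt h1 (lt_of_le_of_lt ?_ h2)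
    refine pow_le_pow_of_le_one (norm_nonneg _) htM.1.le ?_
    have h3 : K < p ^ K := Nat.lt_pow_self hp2.one_lt
    have h4 : p ^ K ≤ p ^ (h * K) := Nat.pow_le_pow_right hp2.pos (by nlinarith [hst.hh])
    omega
  -- put everything together
  set θ₁ : ℝ := min (min (κ / (2 * C₄)) (η' / (BD * C₄ ^ 2 * BD + C₃ * C₄ ^ 2)))
    (min 1 (min η 1 / ((BD * C₄ + C₃ * C₄ ^ 2) ^ 2))) with hθ₁
  have hBDpos : 0 < BD := by linarith
  have hθ₁pos : 0 < θ₁ := by
    refine lt_min (lt_min (by positivity) (by positivity)) (lt_min one_pos ?_)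
    have : 0 < min η 1 := lt_min hη one_pos
    positivity
  have hev := ((hS1 θ₁ hθ₁pos).and ((hSj (η' / BD) (by positivity)).and
    ((hSv (η / C₄ ^ (p ^ (h * M))) (by positivity)).and (hclose.and
      ((eventually_ge_atTop K4).and
        (eventually_all.mpr fun j : Fin d => eventually_ge_atTop (K5 j)))))))
  obtain ⟨K₁, hK₁⟩ := eventually_atTop.mp hev
  refine ⟨K₁, fun K m hK hm ω w' x' ψ hω mv => ?_⟩
  obtain ⟨f1, f2, f3, f4, f5, f6⟩ := hK₁ K hK
  replace f1 := f1 m hm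
  replace f3 := f3 m hm
  -- abbreviations
  set e1 : ℝ := Real.exp (-S ((p : ℝ) ^ (m + n * K) * V1)) with he1
  set evv : ℝ := Real.exp (-S ((p : ℝ) ^ (m + n * K) * v)) with hevv
  have he1pos : 0 < e1 := Real.exp_pos _
  have hevpos : 0 < evv := Real.exp_pos _
  have hPe : Real.exp (-((p : ℝ) ^ i * S ((p : ℝ) ^ (m + n * K) * V1))) = e1 ^ P := by
    rw [he1, ← Real.exp_nat_mul]; congr 1; rw [hP]; push_cast; ring
  set ε : ℝ := C₄ * e1 with hε
  have hε0 : 0 ≤ ε := by positivity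
  have hδ : ∀ l, ‖w' l - w l‖ ≤ ε := hdelta K m f5 ω w' x' ψ hω mv
  have hθa : e1 ≤ κ / (2 * C₄) := f1.trans ((min_le_left _ _).trans (min_le_left _ _))
  have hθb : e1 ≤ η' / (BD * C₄ ^ 2 * BD + C₃ * C₄ ^ 2) :=
    f1.trans ((min_le_left _ _).trans (min_le_right _ _))
  have hθc : e1 ≤ 1 := f1.trans ((min_le_right _ _).trans (min_le_left _ _))
  have hθd : e1 ≤ min η 1 / ((BD * C₄ + C₃ * C₄ ^ 2) ^ 2) :=
    f1.trans ((min_le_right _ _).trans (min_le_right _ _))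
  have hεκ : ε < κ := by
    rw [le_div_iff₀ (by positivity)] at hθa
    rw [hε]
    nlinarith
  -- the root `ζ'`
  have hz' : ‖ψ (τ' M)‖ < 1 := by rw [mv.norm _ htM.1]; exact htM.1
  have hw0' : w' i0 ≠ 0 := by
    intro h0
    apply hS.hw0
    rw [← hX.x_X hS.isEv i0]
    rw [← mv.ker, hX.x_X mv.isEv i0, h0]
  have hψroot : gmul (F.map x') (p ^ M) (ψ (τ' M)) = 0 := by
    rw [← psi_gmul hG hX mv hS.isEv hst.commF _ htM.1, htM.2, psi_zero mv]
  obtain ⟨-, -, hroot'⟩ := hTOR p n h d Γ F hst C ι w' x' mv.isEv i0 hS.hi0 hw0'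
  set ζ' : C := ψ (τ' M) ^ (p ^ (h * M)) with hζ'
  have hfζ'' : f.eval₂ x' ζ' = 0 := by
    rw [← Polynomial.eval_map]
    exact hroot' M f U hf _ hz' hψroot
  have hζζ : ζ' - ζ = (ψ (τ' M) - τ' M) ^ (p ^ (h * M)) := by
    rw [hζ', hζ, sub_pow_char_pow]
  have hψd : ‖ψ (τ' M) - τ' M‖ < min κ 1 := lt_of_le_of_lt (mv.close _ htM.1) f4
  have hζζκ : ‖ζ' - ζ‖ < κ := by
    rw [hζζ, norm_pow]
    refine lt_of_le_of_lt (pow_le_of_le_one (norm_nonneg _) ?_ hqM) ?_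
    · exact (hψd.trans_le (min_le_right _ _)).le
    · exact hψd.trans_le (min_le_left _ _)
  obtain ⟨s, hs, hsD⟩ := hxi w' x' mv.isEv mv.ker ε hε0 hεκ hδ ζ' hfζ'' hζζκ
  -- size of `s`
  have hsum_le : ∀ (g : Fin d → C) (B : ℝ), 0 ≤ B → (∀ l, ‖g l‖ ≤ B) → ‖∑ l, g l‖ ≤ B :=
    fun g B hB hg => IsUltrametricDist.norm_sum_le_of_forall_le_of_nonneg hB fun l _ => hg l
  have hDδ : ‖∑ l, D l * (w' l - w l)‖ ≤ BD * ε := by
    apply hsum_le _ _ (by positivity)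
    intro l
    rw [norm_mul]
    exact mul_le_mul (hBD l).2.2 (hδ l) (norm_nonneg _) hBDpos.le
  have hs_le : ‖s‖ ≤ (BD * C₄ + C₃ * C₄ ^ 2) * e1 := by
    have h1 : ‖s‖ ≤ ‖s - ∑ l, D l * (w' l - w l)‖ + ‖∑ l, D l * (w' l - w l)‖ := by
      have := norm_add_le (s - ∑ l, D l * (w' l - w l)) (∑ l, D l * (w' l - w l))
      rwa [sub_add_cancel] at this
    have h2 : C₃ * ε ^ 2 ≤ C₃ * C₄ ^ 2 * e1 := by
      rw [hε]
      have : e1 ^ 2 ≤ e1 := by nlinarith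
      calc C₃ * (C₄ * e1) ^ 2 = C₃ * C₄ ^ 2 * e1 ^ 2 := by ring
        _ ≤ _ := mul_le_mul_of_nonneg_left this (by positivity)
    calc ‖s‖ ≤ C₃ * ε ^ 2 + BD * ε := h1.trans (add_le_add hsD hDδ)
      _ ≤ C₃ * C₄ ^ 2 * e1 + BD * ε := by linarith
      _ = _ := by rw [hε]; ring
  -- YR for the nondominant sequences
  have hyr : ∀ j : Fin d, ∃ N₀ : ℕ, ∀ N, N₀ ≤ N → r' ≤ j.1 →
      ‖gmul (F.map x) (p ^ N) (ψ (τ j N))‖ ≤
        Real.exp (-S ((p : ℝ) ^ (m + n * K) * Vj j)) := by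
    intro j
    by_cases hj : r' ≤ j.1
    · have h1 := hVj j hj
      obtain ⟨N₀, hN₀⟩ := hYR p n h d r C Γ F ι w x i0 ρ T σ S c V₀ hS K m ω ω hω hω w' x' ψ mv
        w' x' ψ mv (τ j) (τ j) (Vj j) (hV1pos.trans h1.1) (hB.seq j) (hB.seq j) h1.2 h1.2
      exact ⟨N₀, fun N hN _ => (hN₀ N hN).1⟩
    · exact ⟨0, fun N _ h => absurd h hj⟩
  choose N0 hN0 using hyr
  refine ⟨max (M + 1) (∑ j, N0 j), fun N hN => ?_⟩
  have hNM : M ≤ N := by have := le_max_left (M + 1) (∑ j, N0 j); omega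
  have hN1 : 1 ≤ N := by omega
  have hNj : ∀ j, N0 j ≤ N := fun j =>
    (Finset.single_le_sum (f := N0) (fun _ _ => Nat.zero_le _) (Finset.mem_univ j)).trans
      ((le_max_right _ _).trans hN)
  set A : C := ∑ l : Fin d, (if l.1 < r' then -D2 l else 0) * gmul (F.map x) (p ^ N) (ψ (τ l N))
    with hA
  -- `s` is close to `A`
  have hsA : ‖s - A‖ ≤ η' * e1 := by
    have h1 : ∑ l, D l * (w' l - w l) - A = ∑ j : Fin d,
        (D2 j * (ee p F x (τ j 1) (fun i => w' i - w i) + gmul (F.map x) (p ^ N) (ψ (τ j N))) -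
          (if j.1 < r' then 0 else D2 j * gmul (F.map x) (p ^ N) (ψ (τ j N)))) := by
      rw [hD2, hA, ← Finset.sum_sub_distrib]
      apply Finset.sum_congr rfl
      intro j _
      split_ifs <;> ring
    have hb2 : BD * (BD * ε ^ 2) ≤ η' * e1 := by
      rw [le_div_iff₀ (by positivity)] at hθb
      have h2 : e1 * (BD * C₄ ^ 2 * BD) ≤ η' := by
        have : 0 ≤ e1 * (C₃ * C₄ ^ 2) := by positivity
        linarith
      calc BD * (BD * ε ^ 2) = e1 * (BD * C₄ ^ 2 * BD) * e1 := by rw [hε]; ring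
        _ ≤ _ := mul_le_mul_of_nonneg_right h2 he1pos.le
    have hb3 : C₃ * ε ^ 2 ≤ η' * e1 := by
      rw [le_div_iff₀ (by positivity)] at hθb
      have h2 : e1 * (C₃ * C₄ ^ 2) ≤ η' := by
        have : 0 ≤ e1 * (BD * C₄ ^ 2 * BD) := by positivity
        linarith
      calc C₃ * ε ^ 2 = e1 * (C₃ * C₄ ^ 2) * e1 := by rw [hε]; ring
        _ ≤ _ := mul_le_mul_of_nonneg_right h2 he1pos.le
    have h2 : ‖∑ l, D l * (w' l - w l) - A‖ ≤ η' * e1 := by
      rw [h1]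
      apply hsum_le _ _ (by positivity)
      intro j
      refine (norm_sub_le_max_u _ _).trans (max_le ?_ ?_)
      · rw [norm_mul]
        have h3 := hyy2 j K m (f6 j) ω w' x' ψ mv N hN1 ε hε0 hδ
        rw [add_comm] at h3
        refine le_trans (mul_le_mul (hBD j).1 (h3.trans
          (mul_le_mul_of_nonneg_right (hBD j).2.1 (by positivity))) (norm_nonneg _)
          hBDpos.le) hb2
      · split_ifs with hj
        · rw [norm_zero]; positivity
        · rw [norm_mul]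
          have h3 := (hN0 j N (hNj j) (by omega)).trans (f2 j (by omega) m hm)
          calc ‖D2 j‖ * ‖gmul (F.map x) (p ^ N) (ψ (τ j N))‖
              ≤ BD * (η' / BD * e1) := mul_le_mul (hBD j).1 h3 (norm_nonneg _) hBDpos.le
            _ = η' * e1 := by field_simp
    have h4 : s - A = (s - ∑ l, D l * (w' l - w l)) + (∑ l, D l * (w' l - w l) - A) := by ring
    rw [h4]
    exact (IsUltrametricDist.norm_add_le_max _ _).trans (max_le (hsD.trans hb3) h2)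
  -- the three terms
  have hdec : gmul (F.map x) (p ^ N) (ψ (τ' N)) - cM * A ^ P =
      (gmul (F.map x) (p ^ N) (ψ (τ' N)) - gmul (F.map x) (p ^ M) (ψ (τ' M))) +
      ((gmul (F.map x) (p ^ M) (ψ (τ' M)) - cM * (ζ' - ζ)) + cM * (s - A) ^ P) := by
    rw [hs, hP, sub_pow_char_pow]; ring
  rw [hPe]
  have t1 : ‖gmul (F.map x) (p ^ N) (ψ (τ' N)) - gmul (F.map x) (p ^ M) (ψ (τ' M))‖ ≤
      η * (evv + e1 ^ P) := by
    have h1 := hYY1 p n h d r C Γ F ι w x i0 ρ T σ S c V₀ hS K m ω w' x' ψ mv τ' hτ' M N hNM ε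
      hε0 hδ
    refine h1.trans ?_
    rw [hε, mul_pow]
    calc C₄ ^ p ^ (h * M) * e1 ^ p ^ (h * M)
        ≤ C₄ ^ p ^ (h * M) * (η / C₄ ^ p ^ (h * M) * evv) :=
          mul_le_mul_of_nonneg_left f3 (by positivity)
      _ = η * evv := by field_simp
      _ ≤ η * (evv + e1 ^ P) := by
          apply mul_le_mul_of_nonneg_left _ hη.le
          have : 0 ≤ e1 ^ P := by positivity
          linarith
  have t2 : ‖gmul (F.map x) (p ^ M) (ψ (τ' M)) - cM * (ζ' - ζ)‖ ≤ η * (evv + e1 ^ P) := by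
    refine (hlin _ hz').trans ?_
    change ‖ζ' - ζ‖ ^ 2 ≤ _
    rw [hs, norm_pow]
    set R : ℝ := BD * C₄ + C₃ * C₄ ^ 2 with hR
    have hRpos : 0 < R := by positivity
    have h1 : R ^ 2 * e1 ≤ min η 1 := by
      rw [le_div_iff₀ (by positivity)] at hθd
      linarith
    have h2 : (R ^ 2 * e1) ^ P ≤ η := by
      refine (pow_le_of_le_one (by positivity) (h1.trans (min_le_right _ _)) hPpos.ne').trans ?_
      exact h1.trans (min_le_left _ _)
    calc (‖s‖ ^ p ^ i) ^ 2 ≤ ((R * e1) ^ P) ^ 2 := by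
          apply pow_le_pow_left₀ (by positivity)
          exact pow_le_pow_left₀ (norm_nonneg _) hs_le _
      _ = (R ^ 2 * e1) ^ P * e1 ^ P := by
          rw [← pow_mul, ← mul_pow, mul_comm P 2, pow_mul]; ring
      _ ≤ η * e1 ^ P := mul_le_mul_of_nonneg_right h2 (by positivity)
      _ ≤ η * (evv + e1 ^ P) := by
          apply mul_le_mul_of_nonneg_left _ hη.le
          linarith
  have t3 : ‖cM * (s - A) ^ P‖ ≤ η * (evv + e1 ^ P) := by
    rw [norm_mul, norm_pow]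
    have h1 : ‖s - A‖ ^ P ≤ (η' * e1) ^ P := pow_le_pow_left₀ (norm_nonneg _) hsA _
    have h2 : η' ^ P ≤ η / ‖cM‖ :=
      (pow_le_of_le_one hη'pos.le (min_le_left _ _) hPpos.ne').trans (min_le_right _ _)
    calc ‖cM‖ * ‖s - A‖ ^ P ≤ ‖cM‖ * (η' * e1) ^ P :=
          mul_le_mul_of_nonneg_left h1 hcMpos.le
      _ = ‖cM‖ * (η' ^ P * e1 ^ P) := by rw [mul_pow]
      _ ≤ ‖cM‖ * (η / ‖cM‖ * e1 ^ P) := by
          apply mul_le_mul_of_nonneg_left _ hcMpos.le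
          exact mul_le_mul_of_nonneg_right h2 (by positivity)
      _ = η * e1 ^ P := by field_simp
      _ ≤ η * (evv + e1 ^ P) := by
          apply mul_le_mul_of_nonneg_left _ hη.le
          linarith
  change ‖gmul (F.map x) (p ^ N) (ψ (τ' N)) - cM * A ^ P‖ ≤ η * (evv + e1 ^ P)
  rw [hdec]
  exact (IsUltrametricDist.norm_add_le_max _ _).trans (max_le t1
    ((IsUltrametricDist.norm_add_le_max _ _).trans (max_le t2 t3)))

end Crest.Agent.LT3LIN
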