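/- rid 227 (S0351): not all periods vanish. -/
import Crest.Agent.LT3Spec4

set_option autoImplicit false
open Crest.LubinTate
open Crest Crest.GeometryTopology

namespace Crest.Agent.LT3LNZ
open Crest.Agent.LT3

section Choose

theorem choose_pow (p : ℕ) [hp : Fact p.Prime] (s n : ℕ) :
    n.choose (p ^ s) ≡ n / p ^ s [MOD p] := by
  induction s generalizing n with
  | zero => simp [Nat.ModEq.refl]
  | succ s ih =>
    have h := Choose.choose_modEq_choose_mod_mul_choose_div_nat (n := n) (k := p ^ (s + 1)) (p := p)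
    have h1 : p ^ (s + 1) % p = 0 := by rw [pow_succ]; simp
    have h2 : p ^ (s + 1) / p = p ^ s := by
      rw [pow_succ]; exact Nat.mul_div_cancel _ hp.out.pos
    rw [h1, h2, Nat.choose_zero_right, one_mul] at h
    refine h.trans ?_
    have h3 := ih (n / p)
    rw [Nat.div_div_eq_div_mul, ← pow_succ'] at h3
    exact h3

theorem exists_choose (p : ℕ) [hp : Fact p.Prime] (m : ℕ) (hm : 1 ≤ m) (h : ∀ i, m ≠ p ^ i) :
    ∃ j, 0 < j ∧ j < m ∧ ¬ p ∣ m.choose j := by
  obtain ⟨v, m', hm', rfl⟩ := Nat.exists_eq_pow_mul_and_not_dvd (n := m) (by omega) p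
    hp.out.ne_one
  have hpv : 0 < p ^ v := pow_pos hp.out.pos _
  refine ⟨p ^ v, hpv, ?_, ?_⟩
  · have h1 : m' ≠ 1 := by
      rintro rfl
      exact h v (by simp)
    have h2 : m' ≠ 0 := by
      rintro rfl
      simp at hm
    have h3 : 2 ≤ m' := by omega
    nlinarith
  · have h3 := choose_pow p v (p ^ v * m')
    rw [Nat.mul_div_cancel_left _ hpv] at h3
    intro h4
    have h5 := (Nat.modEq_zero_iff_dvd.2 h4).symm.trans h3
    exact hm' (Nat.modEq_zero_iff_dvd.1 h5.symm)

end Choose

/-- low coefficients of powers vanish -/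
theorem coeff_pow_eq_zero {σ R : Type} [CommRing R] {a : MvPowerSeries σ R}
    (ha : ZC a) {e : σ →₀ ℕ} {m : ℕ} (h : e.degree < m) :
    MvPowerSeries.coeff e (a ^ m) = 0 := by
  refine MvPowerSeries.coeff_eq_zero_of_constantCoeff_nilpotent (m := 1) ?_ (by omega)
  have : MvPowerSeries.constantCoeff a = 0 := ha
  rw [this, pow_one]

theorem hasSubst_of_zc {σ R : Type} [CommRing R] {a : MvPowerSeries σ R} (ha : ZC a) :
    PowerSeries.HasSubst a := PowerSeries.HasSubst.of_constantCoeff_zero ha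

/-- coefficients of `φ(a)` as finite sums -/
theorem coeff_cmp {σ R : Type} [CommRing R] (φ : PowerSeries R) {a : MvPowerSeries σ R}
    (ha : ZC a) (e : σ →₀ ℕ) {D : ℕ} (hD : e.degree ≤ D) :
    MvPowerSeries.coeff e (cmp φ a) =
      ∑ i ∈ Finset.range (D + 1), PowerSeries.coeff i φ * MvPowerSeries.coeff e (a ^ i) := by
  rw [LT3.cmp, PowerSeries.coeff_subst (hasSubst_of_zc ha)]
  rw [finsum_eq_sum_of_support_subset]
  · rfl
  · intro i hi
    rw [Finset.coe_range, Set.mem_Iio]
    by_contra hc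
    apply hi
    show _ • _ = _
    rw [coeff_pow_eq_zero ha (by omega), smul_zero]

/-- degree `i` part of `F^i` -/
theorem coeff_low {R : Type} [CommRing R] (F : FormalGroup R) (i : ℕ) :
    ∀ e : Fin 2 →₀ ℕ, e.degree ≤ i →
      MvPowerSeries.coeff e (F.toPowerSeries ^ i) =
      MvPowerSeries.coeff e ((MvPowerSeries.X 0 + MvPowerSeries.X 1) ^ i) := by
  classical
  have hF : ZC F.toPowerSeries := F.zero_constantCoeff
  have hL : ZC (MvPowerSeries.X 0 + MvPowerSeries.X 1 : MvPowerSeries (Fin 2) R) := by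
    simp [ZC]
  have h1 : ∀ e : Fin 2 →₀ ℕ, e.degree ≤ 1 → MvPowerSeries.coeff e F.toPowerSeries =
      MvPowerSeries.coeff e (MvPowerSeries.X 0 + MvPowerSeries.X 1) := by
    intro e he
    have hd : e.degree = e 0 + e 1 := by
      rw [Finsupp.degree_eq_sum]
      simp
    have : e = 0 ∨ e = Finsupp.single 0 1 ∨ e = Finsupp.single 1 1 := by
      rw [hd] at he
      have h2 : (e 0 = 0 ∧ e 1 = 0) ∨ (e 0 = 1 ∧ e 1 = 0) ∨ (e 0 = 0 ∧ e 1 = 1) := by omega
      rcases h2 with ⟨h2, h3⟩ | ⟨h2, h3⟩ | ⟨h2, h3⟩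
      · left; ext l; fin_cases l <;> simp [h2, h3]
      · right; left; ext l; fin_cases l <;> simp [h2, h3]
      · right; right; ext l; fin_cases l <;> simp [h2, h3]
    rcases this with rfl | rfl | rfl
    · rw [MvPowerSeries.coeff_zero_eq_constantCoeff_apply,
        MvPowerSeries.coeff_zero_eq_constantCoeff_apply]
      exact hF.trans hL.symm
    · rw [F.lin_coeff_X, map_add, MvPowerSeries.coeff_X, MvPowerSeries.coeff_X, if_pos rfl,
        if_neg, add_zero]
      intro h
      have := congrArg (fun f => f 0) h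
      simp at this
    · rw [F.lin_coeff_Y, map_add, MvPowerSeries.coeff_X, MvPowerSeries.coeff_X, if_neg,
        if_pos rfl, zero_add]
      intro h
      have := congrArg (fun f => f 0) h
      simp at this
  induction i with
  | zero => intro e _; simp
  | succ i ih =>
    intro e he
    rw [pow_succ', pow_succ', MvPowerSeries.coeff_mul, MvPowerSeries.coeff_mul]
    refine Finset.sum_congr rfl fun ab hab => ?_
    rw [Finset.HasAntidiagonal.mem_antidiagonal] at hab
    have hdeg : ab.1.degree + ab.2.degree = e.degree := by rw [← hab, map_add]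
    rcases lt_trichotomy ab.2.degree i with h2 | h2 | h2
    · rw [coeff_pow_eq_zero hF h2, coeff_pow_eq_zero hL h2, mul_zero, mul_zero]
    · rw [ih _ h2.le, h1 _ (by omega)]
    · have h3 : ab.1 = 0 := by
        have : ab.1.degree = 0 := by omega
        exact (Finsupp.degree_eq_zero_iff _).1 this
      rw [h3, MvPowerSeries.coeff_zero_eq_constantCoeff_apply,
        MvPowerSeries.coeff_zero_eq_constantCoeff_apply]
      have h4 : MvPowerSeries.constantCoeff F.toPowerSeries = 0 := hF
      have h5 : MvPowerSeries.constantCoeff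
        (MvPowerSeries.X 0 + MvPowerSeries.X 1 : MvPowerSeries (Fin 2) R) = 0 := hL
      rw [h4, h5, zero_mul, zero_mul]

/-- the exponent `(j, m-j)` -/
noncomputable def ex (j k : ℕ) : Fin 2 →₀ ℕ := Finsupp.single 0 j + Finsupp.single 1 k

theorem ex_degree (j k : ℕ) : (ex j k).degree = j + k := by
  rw [ex, map_add, Finsupp.degree_single, Finsupp.degree_single]

theorem ex_inj {j k j' k' : ℕ} (h : ex j k = ex j' k') : j = j' ∧ k = k' := by
  have h0 := congrArg (fun f => f 0) h
  have h1 := congrArg (fun f => f 1) h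
  simp [ex] at h0 h1
  exact ⟨h0, h1⟩

theorem coeff_XX {R : Type} [CommRing R] (a b j k : ℕ) :
    MvPowerSeries.coeff (ex j k) ((MvPowerSeries.X 0 : MvPowerSeries (Fin 2) R) ^ a *
      MvPowerSeries.X 1 ^ b) = if j = a ∧ k = b then 1 else 0 := by
  classical
  rw [MvPowerSeries.X_pow_eq, MvPowerSeries.X_pow_eq, MvPowerSeries.monomial_mul_monomial,
    MvPowerSeries.coeff_monomial, one_mul]
  by_cases h : j = a ∧ k = b
  · rw [if_pos h, if_pos]
    rw [h.1, h.2]; rfl
  · rw [if_neg h, if_neg]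
    intro h'
    exact h (ex_inj h')

theorem coeff_binom {R : Type} [CommRing R] (j k : ℕ) :
    MvPowerSeries.coeff (ex j k)
      ((MvPowerSeries.X 0 + MvPowerSeries.X 1 : MvPowerSeries (Fin 2) R) ^ (j + k)) =
      ((j + k).choose j : R) := by
  classical
  rw [add_pow, map_sum, Finset.sum_eq_single j]
  · rw [mul_comm, ← nsmul_eq_mul, map_nsmul, Nat.add_sub_cancel_left, coeff_XX,
      if_pos ⟨rfl, rfl⟩, nsmul_eq_mul, mul_one]
  · intro b _ hb
    rw [mul_comm, ← nsmul_eq_mul, map_nsmul, coeff_XX, if_neg (fun h => hb h.1.symm),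
      smul_zero]
  · intro h
    exact absurd (Finset.mem_range.2 (by omega)) h

theorem coeff_X0 {R : Type} [CommRing R] (i j k : ℕ) (hk : 0 < k) :
    MvPowerSeries.coeff (ex j k) ((MvPowerSeries.X 0 : MvPowerSeries (Fin 2) R) ^ i) = 0 := by
  have := coeff_XX (R := R) i 0 j k
  rw [pow_zero, mul_one] at this
  rw [this, if_neg (by omega)]

theorem coeff_X1 {R : Type} [CommRing R] (i j k : ℕ) (hj : 0 < j) :
    MvPowerSeries.coeff (ex j k) ((MvPowerSeries.X 1 : MvPowerSeries (Fin 2) R) ^ i) = 0 := by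
  have := coeff_XX (R := R) 0 i j k
  rw [pow_zero, one_mul] at this
  rw [this, if_neg (by omega)]

theorem fadd_XX {R : Type} [CommRing R] (F : FormalGroup R) :
    fadd F (MvPowerSeries.X 0 : MvPowerSeries (Fin 2) R) (MvPowerSeries.X 1) =
      F.toPowerSeries := by
  rw [fadd]
  have : (![MvPowerSeries.X 0, MvPowerSeries.X 1] : Fin 2 → MvPowerSeries (Fin 2) R) =
      MvPowerSeries.X := by
    funext i; fin_cases i <;> rfl
  rw [this, MvPowerSeries.subst_self]
  rfl

section Norm

variable {C : Type} [NontriviallyNormedField C] [IsUltrametricDist C]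

theorem sum_le {ι : Type} (s : Finset ι) (f : ι → C) {B : ℝ} (hB : 0 ≤ B)
    (h : ∀ i ∈ s, ‖f i‖ ≤ B) : ‖∑ j ∈ s, f j‖ ≤ B :=
  IsUltrametricDist.norm_sum_le_of_forall_le_of_nonneg hB h

/-- a product of an integral and a small series is small -/
theorem small_mul {σ : Type} {f g : MvPowerSeries σ C} {r : ℝ} (hr : 0 ≤ r) (hf : Int1 f)
    (hg : ∀ e, ‖MvPowerSeries.coeff e g‖ ≤ r) : ∀ e, ‖MvPowerSeries.coeff e (f * g)‖ ≤ r := by
  classical
  intro e
  rw [MvPowerSeries.coeff_mul]
  refine sum_le _ _ hr fun ab _ => ?_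
  rw [norm_mul]
  calc _ ≤ 1 * r := mul_le_mul (hf _) (hg _) (norm_nonneg _) zero_le_one
    _ = r := one_mul r

theorem small_uni {f : PowerSeries C} {r : ℝ} (h : ∀ j, ‖PowerSeries.coeff j f‖ ≤ r) :
    ∀ e : Unit →₀ ℕ, ‖MvPowerSeries.coeff e f‖ ≤ r := by
  intro e
  have : e = Finsupp.single () (e ()) := by ext; simp
  rw [this]
  exact h _

theorem int_pow {σ : Type} {f : MvPowerSeries σ C} (hf : Int1 f) (i : ℕ) : Int1 (f ^ i) := by
  classical
  induction i with
  | zero =>
    intro e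
    rw [pow_zero, MvPowerSeries.coeff_one]
    split_ifs <;> simp
  | succ i ih =>
    intro e
    rw [pow_succ]
    exact small_mul zero_le_one ih hf e

/-- all the coefficients of the logarithm are bounded by the coefficients at powers of `p` -/
theorem bound_all (p : ℕ) [Fact p.Prime] [CharZero C] (hp : ‖(p : C)‖ < 1) {G : FormalGroup C}
    (hG : IG G) (l : PowerSeries C) (hl0 : ZC l)
    (hadd : cmp l (fadd G (MvPowerSeries.X 0 : MvPowerSeries (Fin 2) C) (MvPowerSeries.X 1)) =
      cmp l (MvPowerSeries.X 0 : MvPowerSeries (Fin 2) C) + cmp l (MvPowerSeries.X 1))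
    {B : ℝ} (hB : 0 ≤ B) (h : ∀ i, ‖PowerSeries.coeff (p ^ i) l‖ ≤ B) (m : ℕ) :
    ‖PowerSeries.coeff m l‖ ≤ B := by
  induction m using Nat.strong_induction_on with
  | _ m ih =>
    by_cases hm0 : m = 0
    · subst hm0
      have : PowerSeries.coeff 0 l = 0 := by
        rw [PowerSeries.coeff_zero_eq_constantCoeff_apply]; exact hl0
      rw [this, norm_zero]; exact hB
    by_cases hpow : ∃ i, m = p ^ i
    · obtain ⟨i, rfl⟩ := hpow
      exact h i
    push Not at hpow
    obtain ⟨j, hj0, hjm, hj⟩ := exists_choose p m (by omega) hpow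
    obtain ⟨k, rfl⟩ : ∃ k, m = j + k := ⟨m - j, by omega⟩
    have hk : 0 < k := by omega
    rw [fadd_XX] at hadd
    have h1 := congrArg (MvPowerSeries.coeff (ex j k)) hadd
    have hdeg : (ex j k).degree ≤ j + k := (ex_degree j k).le
    rw [map_add, coeff_cmp l G.zero_constantCoeff _ hdeg,
      coeff_cmp l (MvPowerSeries.constantCoeff_X _) _ hdeg,
      coeff_cmp l (MvPowerSeries.constantCoeff_X _) _ hdeg] at h1
    rw [Finset.sum_eq_zero (s := Finset.range (j + k + 1)) (f := fun i =>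
        PowerSeries.coeff i l * MvPowerSeries.coeff (ex j k) (MvPowerSeries.X 0 ^ i))
        (fun i _ => by rw [coeff_X0 i j k hk, mul_zero]),
      Finset.sum_eq_zero (s := Finset.range (j + k + 1)) (f := fun i =>
        PowerSeries.coeff i l * MvPowerSeries.coeff (ex j k) (MvPowerSeries.X 1 ^ i))
        (fun i _ => by rw [coeff_X1 i j k hj0, mul_zero]), add_zero,
      Finset.sum_range_succ, coeff_low G (j + k) _ hdeg, coeff_binom] at h1
    have h2 : PowerSeries.coeff (j + k) l * ((j + k).choose j : C) =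
        - ∑ i ∈ Finset.range (j + k), PowerSeries.coeff i l *
          MvPowerSeries.coeff (ex j k) (G.toPowerSeries ^ i) := by
      linear_combination h1
    have h3 : ‖((j + k).choose j : C)‖ = 1 := by
      -- an integer prime to `p`
      have hcop : Nat.Coprime ((j + k).choose j) p :=
        ((Nat.Prime.coprime_iff_not_dvd (Fact.out : p.Prime)).2 hj).symm
      have hle : ‖((j + k).choose j : C)‖ ≤ 1 := IsUltrametricDist.norm_natCast_le_one C _
      refine le_antisymm hle ?_
      by_contra hlt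
      push Not at hlt
      have hb := (Nat.isCoprime_iff_coprime.2 hcop)
      obtain ⟨u, v, huv⟩ := hb
      have h4 : (u : C) * ((j + k).choose j : C) + (v : C) * (p : C) = 1 := by
        exact_mod_cast congrArg (fun z : ℤ => (z : C)) huv
      have h5 : ‖(1 : C)‖ < 1 := by
        rw [← h4]
        refine lt_of_le_of_lt (IsUltrametricDist.norm_add_le_max _ _) (max_lt ?_ ?_)
        · rw [norm_mul]
          have := IsUltrametricDist.norm_intCast_le_one C u
          calc _ ≤ 1 * ‖((j + k).choose j : C)‖ := mul_le_mul_of_nonneg_right this (norm_nonneg _)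
            _ < 1 := by rw [one_mul]; exact hlt
        · rw [norm_mul]
          have := IsUltrametricDist.norm_intCast_le_one C v
          calc _ ≤ 1 * ‖(p : C)‖ := mul_le_mul_of_nonneg_right this (norm_nonneg _)
            _ < 1 := by rw [one_mul]; exact hp
      rw [norm_one] at h5
      exact lt_irrefl _ h5
    have h6 : ‖PowerSeries.coeff (j + k) l‖ = ‖PowerSeries.coeff (j + k) l *
        ((j + k).choose j : C)‖ := by rw [norm_mul, h3, mul_one]
    rw [h6, h2, norm_neg]
    refine sum_le _ _ hB fun i hi => ?_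
    rw [norm_mul]
    calc _ ≤ B * 1 := mul_le_mul (ih i (Finset.mem_range.1 hi)) (int_pow hG.int i _)
          (norm_nonneg _) hB
      _ = B := mul_one B

end Norm

theorem main (hLOG : Spec4.LOG) (_hA : ApiA) (_hB : ApiB) (hC : ApiC) (_hE : ApiE) (hG : ApiG)
    (hW : ApiW) : Spec4.LNZ := by
  intro p _ n Γ H hn hcomm hΓ hred C _ _ _ _ _ ι w x hx z hz
  classical
  by_contra hcon
  push Not at hcon
  have hpp : (p : ℕ).Prime := Fact.out
  set G := H.map x with hGdef
  have hIG : IG G := hW.ig p n hx H hcomm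
  set l := lg G with hl
  obtain ⟨-, hlog⟩ := hLOG
  obtain ⟨hlz, hl1, hladd, hlhom⟩ := hlog C G
  have hp1 : ‖(p : C)‖ < 1 := hx.hp
  have hp0 : 0 < ‖(p : C)‖ := norm_pos_iff.2 (Nat.cast_ne_zero.2 hpp.ne_zero)
  -- bounds at powers of `p`
  choose Bs hBs0 hBs using hz
  set B : ℝ := ∑ s, Bs s with hBdef
  have hBs' : ∀ s, Bs s ≤ B := fun s =>
    Finset.single_le_sum (f := Bs) (fun s _ => (hBs0 s).le) (Finset.mem_univ s)
  have hB0 : 0 ≤ B := Finset.sum_nonneg fun s _ => (hBs0 s).le
  have hpow : ∀ i, ‖PowerSeries.coeff (p ^ i) l‖ ≤ B := by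
    intro i
    have h1 := hBs ⟨i % n, Nat.mod_lt _ (by omega)⟩ (i / n)
    rw [hcon] at h1
    have h2 : i % n + n * (i / n) = i := Nat.mod_add_div i n
    simp only [sub_zero, h2, norm_mul, norm_pow] at h1
    rw [mul_comm] at h1
    exact (le_of_mul_le_mul_right h1 (pow_pos hp0 _)).trans (hBs' _)
  have hall := bound_all p hp1 hIG l hlz
    (hladd _ _ _ (MvPowerSeries.constantCoeff_X _) (MvPowerSeries.constantCoeff_X _)) hB0 hpow
  -- the supremum
  set B0 : ℝ := ⨆ i, ‖PowerSeries.coeff i l‖ with hB0def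
  have hbdd : BddAbove (Set.range fun i => ‖PowerSeries.coeff i l‖) :=
    ⟨B, by rintro _ ⟨i, rfl⟩; exact hall i⟩
  have hle : ∀ i, ‖PowerSeries.coeff i l‖ ≤ B0 := fun i => le_ciSup hbdd i
  have hB01 : 1 ≤ B0 := by
    have := hle 1
    rw [hl1, norm_one] at this
    exact this
  -- `[p]_G`
  set φ : PowerSeries C := mulSeries G p with hφ
  have hφint : Int1 φ := hG.int_mul hIG p
  have hφz : ZC φ := hC.zc_mul G p
  have hφhom := hlhom G φ (hC.mul_hom hIG.comm p)
  rw [hC.coeff_one_mul G p] at hφhom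
  obtain ⟨r, hr0, hr1, hr⟩ : ∃ r : ℝ, 0 ≤ r ∧ r < 1 ∧ (‖(p : C)‖ ≤ r ∧ ∀ i, ‖w i‖ ≤ r) := by
    obtain ⟨r', hr1', hr'⟩ : ∃ r' : ℝ, r' < 1 ∧ ∀ i, ‖w i‖ ≤ r' := by
      rcases isEmpty_or_nonempty (Fin (n - 1)) with he | he
      · exact ⟨0, zero_lt_one, fun i => (he.false i).elim⟩
      · obtain ⟨i, hi⟩ := Finite.exists_max (fun i => ‖w i‖)
        exact ⟨‖w i‖, hx.hw i, hi⟩
    refine ⟨max ‖(p : C)‖ r', le_max_of_le_left (norm_nonneg _), max_lt hp1 hr1',
      le_max_left _ _, fun i => (hr' i).trans (le_max_right _ _)⟩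
  have hΔ : ∀ j, ‖PowerSeries.coeff j (φ - PowerSeries.X ^ (p ^ n))‖ ≤ r := by
    intro j
    have h1 : φ - PowerSeries.X ^ (p ^ n) =
        PowerSeries.map x (mulSeries H p - PowerSeries.X ^ (p ^ n)) := by
      rw [map_sub, hC.mul_map, map_pow, PowerSeries.map_X]
    rw [h1, PowerSeries.coeff_map]
    have h2 : PowerSeries.coeff j (mulSeries H p - PowerSeries.X ^ (p ^ n)) ∈ (mE p n) ^ 1 := by
      rw [pow_one, mE, RingHom.mem_ker, ← PowerSeries.coeff_map, map_sub, hC.mul_map, hred, hΓ,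
        map_pow, PowerSeries.map_X, sub_self, map_zero]
    have := hW.mem_pow p n hx r hr0 hr.1 hr.2 1 _ h2
    rwa [pow_one] at this
  set Q := p ^ n with hQ
  have hQ0 : 0 < Q := pow_pos hpp.pos _
  -- powers of `[p]`
  have hpowφ : ∀ i j, ‖PowerSeries.coeff j (φ ^ i - PowerSeries.X ^ (Q * i))‖ ≤ r := by
    intro i
    induction i with
    | zero => intro j; simp [hr0]
    | succ i ih =>
      intro j
      have h1 : φ ^ (i + 1) - PowerSeries.X ^ (Q * (i + 1)) =
          φ ^ i * (φ - PowerSeries.X ^ Q) +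
            (PowerSeries.X ^ Q) * (φ ^ i - PowerSeries.X ^ (Q * i)) := by ring
      rw [h1, map_add]
      refine (IsUltrametricDist.norm_add_le_max _ _).trans (max_le ?_ ?_)
      · exact small_mul hr0 (int_pow hφint i) (small_uni hΔ) _
      · refine small_mul hr0 (int_pow ?_ Q) (small_uni ih) _
        intro e
        rw [show (PowerSeries.X : PowerSeries C) = MvPowerSeries.X () from rfl,
          MvPowerSeries.coeff_X]
        split_ifs <;> simp
  -- the index
  obtain ⟨i0, hi0⟩ : ∃ i0, max r ‖(p : C)‖ * B0 < ‖PowerSeries.coeff i0 l‖ := by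
    apply exists_lt_of_lt_ciSup
    have : max r ‖(p : C)‖ < 1 := max_lt hr1 hp1
    nlinarith
  -- coefficient of `X^(Q i0)`
  have h1 := congrArg (PowerSeries.coeff (Q * i0)) hφhom
  rw [PowerSeries.coeff_C_mul] at h1
  have h2 : PowerSeries.coeff (Q * i0) (cmp l φ : PowerSeries C) =
      ∑ i ∈ Finset.range (Q * i0 + 1), PowerSeries.coeff i l *
        PowerSeries.coeff (Q * i0) (φ ^ i) :=
    coeff_cmp l hφz _ (by rw [Finsupp.degree_single])
  rw [h2] at h1
  have h3 : ∑ i ∈ Finset.range (Q * i0 + 1), PowerSeries.coeff i l *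
        PowerSeries.coeff (Q * i0) (φ ^ i) =
      PowerSeries.coeff i0 l + ∑ i ∈ Finset.range (Q * i0 + 1), PowerSeries.coeff i l *
        PowerSeries.coeff (Q * i0) (φ ^ i - PowerSeries.X ^ (Q * i)) := by
    have h4 : ∑ i ∈ Finset.range (Q * i0 + 1), PowerSeries.coeff i l *
        PowerSeries.coeff (Q * i0) ((PowerSeries.X : PowerSeries C) ^ (Q * i)) =
        PowerSeries.coeff i0 l := by
      rw [Finset.sum_eq_single i0]
      · rw [PowerSeries.coeff_X_pow, if_pos rfl, mul_one]
      · intro b _ hb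
        rw [PowerSeries.coeff_X_pow, if_neg, mul_zero]
        intro h
        exact hb (Nat.eq_of_mul_eq_mul_left hQ0 h).symm
      · intro h
        exfalso
        apply h
        rw [Finset.mem_range]
        nlinarith
    rw [← h4, ← Finset.sum_add_distrib]
    refine Finset.sum_congr rfl fun i _ => ?_
    rw [map_sub]
    ring
  rw [h3] at h1
  have h5 : ‖∑ i ∈ Finset.range (Q * i0 + 1), PowerSeries.coeff i l *
        PowerSeries.coeff (Q * i0) (φ ^ i - PowerSeries.X ^ (Q * i))‖ ≤ r * B0 := by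
    refine sum_le _ _ (mul_nonneg hr0 (by linarith)) fun i _ => ?_
    rw [norm_mul, mul_comm]
    exact mul_le_mul (hpowφ i _) (hle i) (norm_nonneg _) hr0
  have h6 : ‖(p : C) * PowerSeries.coeff (Q * i0) l‖ ≤ ‖(p : C)‖ * B0 := by
    rw [norm_mul]
    exact mul_le_mul_of_nonneg_left (hle _) (norm_nonneg _)
  have h7 : PowerSeries.coeff i0 l = (p : C) * PowerSeries.coeff (Q * i0) l -
      ∑ i ∈ Finset.range (Q * i0 + 1), PowerSeries.coeff i l *
        PowerSeries.coeff (Q * i0) (φ ^ i - PowerSeries.X ^ (Q * i)) := by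
    rw [← h1]; ring
  have h8 : ‖PowerSeries.coeff i0 l‖ ≤ max r ‖(p : C)‖ * B0 := by
    conv_lhs => rw [h7]
    rw [sub_eq_add_neg]
    refine (IsUltrametricDist.norm_add_le_max _ _).trans (max_le ?_ ?_)
    · exact h6.trans (mul_le_mul_of_nonneg_right (le_max_right _ _) (by linarith))
    · rw [norm_neg]
      exact h5.trans (mul_le_mul_of_nonneg_right (le_max_left _ _) (by linarith))
  exact absurd hi0 (not_lt.2 h8)

end Crest.Agent.LT3LNZ
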