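/- rid 227 (S0351): module LOG (the logarithm of a formal group law in characteristic zero). -/
import Crest.Agent.LT3Spec4

set_option autoImplicit false
open Crest.LubinTate

namespace Crest.Agent.LT3LOG

section chain

open MvPowerSeries
open scoped MvPowerSeries.WithPiTopology

variable {R : Type} [CommRing R] {σ τ : Type} [Fintype σ]

omit [Fintype σ] in
theorem continuous_pderiv [TopologicalSpace R] [DiscreteTopology R] (t : τ) :
    Continuous (pderiv R t : MvPowerSeries τ R → MvPowerSeries τ R) := by
  refine continuous_pi fun e => ?_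
  have h1 : (fun f : MvPowerSeries τ R => (pderiv R t f) e) =
      fun f => coeff (e + Finsupp.single t 1) f * ((e t : R) + 1) := by
    funext f
    exact coeff_pderiv f e
  rw [h1]
  have h2 : Continuous (fun c : R => c * ((e t : R) + 1)) := continuous_of_discreteTopology
  exact h2.comp (MvPowerSeries.WithPiTopology.continuous_coeff R _)

theorem chain_poly (a : σ → MvPowerSeries τ R) (t : τ) (q : MvPolynomial σ R) :
    pderiv R t (MvPolynomial.aeval a q) =
      ∑ s, MvPolynomial.aeval a (MvPolynomial.pderiv s q) * pderiv R t (a s) := by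
  classical
  induction q using MvPolynomial.induction_on with
  | C r =>
    rw [MvPolynomial.aeval_C, MvPowerSeries.algebraMap_apply]
    simp
  | add p q hp hq =>
    simp only [map_add, hp, hq, add_mul, Finset.sum_add_distrib]
  | mul_X p i hp =>
    rw [map_mul, MvPolynomial.aeval_X, Derivation.leibniz, hp]
    have h1 : ∀ s, MvPolynomial.aeval a (MvPolynomial.pderiv s (p * MvPolynomial.X i)) *
        pderiv R t (a s) = (if s = i then MvPolynomial.aeval a p * pderiv R t (a s) else 0) +
          a i * (MvPolynomial.aeval a (MvPolynomial.pderiv s p) * pderiv R t (a s)) := by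
      intro s
      rw [MvPolynomial.pderiv_mul, MvPolynomial.pderiv_X]
      by_cases h : s = i
      · subst h
        simp
        ring
      · simp [h, Ne.symm h]
        ring
    simp_rw [h1]
    rw [Finset.sum_add_distrib, Finset.sum_ite_eq' Finset.univ i, if_pos (Finset.mem_univ _),
      ← Finset.mul_sum]
    simp [smul_eq_mul]

/-- the chain rule. -/
theorem chain {a : σ → MvPowerSeries τ R} (ha : HasSubst a) (t : τ) (f : MvPowerSeries σ R) :
    pderiv R t (subst a f) = ∑ s, subst a (pderiv R s f) * pderiv R t (a s) := by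
  let _ : UniformSpace R := ⊥
  have _ : DiscreteUniformity R := ⟨rfl⟩
  have hd := MvPowerSeries.WithPiTopology.denseRange_toMvPowerSeries (σ := σ) (R := R)
  have hc1 : Continuous (fun f : MvPowerSeries σ R => pderiv R t (subst a f)) :=
    (continuous_pderiv t).comp (continuous_subst ha)
  have hc2 : Continuous (fun f : MvPowerSeries σ R =>
      ∑ s, subst a (pderiv R s f) * pderiv R t (a s)) := by
    refine continuous_finsetSum _ fun s _ => ?_
    exact ((continuous_subst ha).comp (continuous_pderiv s)).mul continuous_const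
  have := DenseRange.equalizer hd hc1 hc2 (by
    funext q
    simp only [Function.comp_apply]
    have h1 : (MvPolynomial.toMvPowerSeries q : MvPowerSeries σ R) = (q : MvPowerSeries σ R) := rfl
    rw [h1, subst_coe, chain_poly]
    refine Finset.sum_congr rfl fun s _ => ?_
    rw [pderiv_coe, subst_coe])
  exact congrFun this f

omit [Fintype σ] in
/-- the chain rule for a series in one variable. -/
theorem chain1 {a : MvPowerSeries τ R} (ha : PowerSeries.HasSubst a) (t : τ) (f : PowerSeries R) :
    pderiv R t (LT3.cmp f a) = LT3.cmp (PowerSeries.derivative R f) a * pderiv R t a := by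
  have := chain ha.const t f
  simp only [Finset.univ_unique, Finset.sum_singleton] at this
  exact this

end chain


section omega

open MvPowerSeries

variable {R : Type} [CommRing R]

/-- `(∂₂G)(T, 0)`. -/
noncomputable def wser (G : FormalGroup R) : PowerSeries R :=
  PowerSeries.mk fun i =>
    MvPowerSeries.coeff (Finsupp.single (0 : Fin 2) i + Finsupp.single 1 1) G.toPowerSeries

theorem constantCoeff_wser (G : FormalGroup R) : PowerSeries.constantCoeff (wser G) = 1 := by
  rw [← PowerSeries.coeff_zero_eq_constantCoeff_apply, wser, PowerSeries.coeff_mk,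
    Finsupp.single_zero, zero_add]
  exact G.lin_coeff_Y

theorem wser_mul_om (G : FormalGroup R) : wser G * LT3.om G = 1 :=
  PowerSeries.mul_invOfUnit _ 1 (by rw [constantCoeff_wser]; rfl)

theorem map_wser {S : Type} [CommRing S] (r : R →+* S) (G : FormalGroup R) :
    PowerSeries.map r (wser G) = wser (G.map r) := by
  ext i
  rw [PowerSeries.coeff_map, wser, wser, PowerSeries.coeff_mk, PowerSeries.coeff_mk,
    FormalGroup.map_toPowerSeries, MvPowerSeries.coeff_map]

theorem map_om {S : Type} [CommRing S] (r : R →+* S) (G : FormalGroup R) :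
    PowerSeries.map r (LT3.om G) = LT3.om (G.map r) := by
  have h1 := congrArg (PowerSeries.map r) (wser_mul_om G)
  rw [map_mul, map_wser, map_one] at h1
  have h2 := wser_mul_om (G.map r)
  calc PowerSeries.map r (LT3.om G)
      = PowerSeries.map r (LT3.om G) * (wser (G.map r) * LT3.om (G.map r)) := by
        rw [h2, mul_one]
    _ = (wser (G.map r) * PowerSeries.map r (LT3.om G)) * LT3.om (G.map r) := by ring
    _ = LT3.om (G.map r) := by rw [h1, one_mul]

theorem coeff_zero_om (G : FormalGroup R) : PowerSeries.coeff 0 (LT3.om G) = 1 := by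
  have h := congrArg PowerSeries.constantCoeff (wser_mul_om G)
  rw [map_mul, constantCoeff_wser, one_mul, map_one] at h
  simpa using h

theorem coeff_X0 (H : MvPowerSeries (Fin 2) R) (i : ℕ) :
    PowerSeries.coeff i (MvPowerSeries.subst ![(PowerSeries.X : PowerSeries R), 0] H) =
      MvPowerSeries.coeff (Finsupp.single 0 i) H := by
  classical
  rw [PowerSeries.coeff, coeff_subst, finsum_eq_single _ (Finsupp.single 0 i)]
  · simp [PowerSeries.X, MvPowerSeries.coeff_X_pow]
  · intro d hd
    by_cases hd₁ : d 1 = 0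
    · have h2 : d 0 ≠ i := by
        intro h
        apply hd
        ext s
        fin_cases s
        · simp [h]
        · simp [hd₁]
      rw [Finsupp.prod_fintype _ _ (by intro i; simp), Fin.prod_univ_two]
      simp only [Matrix.cons_val_zero, Matrix.cons_val_one, hd₁, pow_zero, mul_one]
      rw [PowerSeries.X, MvPowerSeries.coeff_X_pow, if_neg, smul_zero]
      intro h
      apply h2
      have := DFunLike.congr_fun h ()
      simpa using this.symm
    · rw [Finsupp.prod_fintype _ _ (by intro i; simp), Fin.prod_univ_two]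
      simp [hd₁]
  · exact HasSubst.X_zero

theorem subst_X0 (G : FormalGroup R) :
    MvPowerSeries.subst ![(PowerSeries.X : PowerSeries R), 0] (pderiv R 1 G.toPowerSeries) =
      wser G := by
  ext i
  rw [coeff_X0, coeff_pderiv, wser, PowerSeries.coeff_mk]
  simp

theorem cmp_wser {τ : Type} (G : FormalGroup R) (a : MvPowerSeries τ R)
    (ha : MvPowerSeries.constantCoeff a = 0) :
    LT3.cmp (wser G) a = MvPowerSeries.subst ![a, 0] (pderiv R 1 G.toPowerSeries) := by
  have hsa : PowerSeries.HasSubst a := PowerSeries.HasSubst.of_constantCoeff_zero ha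
  have hsx : MvPowerSeries.HasSubst ![(PowerSeries.X : PowerSeries R), 0] := HasSubst.X_zero
  rw [← subst_X0, LT3.cmp, PowerSeries.subst, subst_comp_subst_apply hsx hsa.const]
  congr! 2 with s
  fin_cases s
  · simp [← PowerSeries.subst_def, PowerSeries.subst_X hsa]
  · simp [← PowerSeries.subst_def, ← PowerSeries.coe_substAlgHom hsa]

theorem hasSubst2 {τ : Type} {a b : MvPowerSeries τ R} (ha : MvPowerSeries.constantCoeff a = 0)
    (hb : MvPowerSeries.constantCoeff b = 0) : MvPowerSeries.HasSubst ![a, b] := by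
  apply hasSubst_of_constantCoeff_zero
  intro s
  fin_cases s
  · exact ha
  · exact hb

theorem zc_subst2 {τ : Type} (G : FormalGroup R) {a b : MvPowerSeries τ R}
    (ha : MvPowerSeries.constantCoeff a = 0) (hb : MvPowerSeries.constantCoeff b = 0) :
    MvPowerSeries.constantCoeff (MvPowerSeries.subst ![a, b] G.toPowerSeries) = 0 := by
  refine constantCoeff_subst_eq_zero (hasSubst2 ha hb) ?_ G.zero_constantCoeff
  intro s
  fin_cases s
  · exact ha
  · exact hb

/-- `(∂₂G)(X₀, X₁) · w(X₁) = w(G(X₀, X₁))`. -/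
theorem claimA (G : FormalGroup R) :
    pderiv R 1 G.toPowerSeries * LT3.cmp (wser G) (X 1 : MvPowerSeries (Fin 2) R) =
      LT3.cmp (wser G) G.toPowerSeries := by
  have hA := congrArg (pderiv R (2 : Fin 3)) G.assoc
  have z0 : MvPowerSeries.constantCoeff (X 0 : MvPowerSeries (Fin 3) R) = 0 := by simp
  have z1 : MvPowerSeries.constantCoeff (X 1 : MvPowerSeries (Fin 3) R) = 0 := by simp
  have z2 : MvPowerSeries.constantCoeff (X 2 : MvPowerSeries (Fin 3) R) = 0 := by simp
  have z01 := zc_subst2 G z0 z1
  have z12 := zc_subst2 G z1 z2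
  have s01 : MvPowerSeries.HasSubst ![(X 0 : MvPowerSeries (Fin 3) R), X 1] := hasSubst2 z0 z1
  have s12 : MvPowerSeries.HasSubst ![(X 1 : MvPowerSeries (Fin 3) R), X 2] := hasSubst2 z1 z2
  rw [chain (hasSubst2 z01 z2), chain (hasSubst2 z0 z12)] at hA
  simp only [Fin.sum_univ_two, Matrix.cons_val_zero, Matrix.cons_val_one] at hA
  rw [chain s01, chain s12] at hA
  simp only [Fin.sum_univ_two, Matrix.cons_val_zero, Matrix.cons_val_one] at hA
  rw [pderiv_X_self, pderiv_X_of_ne (by decide : (0 : Fin 3) ≠ 2),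
    pderiv_X_of_ne (by decide : (1 : Fin 3) ≠ 2)] at hA
  simp only [mul_zero, add_zero, zero_add, mul_one] at hA
  -- substitute `(X₀, X₁, 0)`
  have hs3 : MvPowerSeries.HasSubst ![(X 0 : MvPowerSeries (Fin 2) R), X 1, 0] := by
    apply hasSubst_of_constantCoeff_zero
    intro s
    fin_cases s <;> simp
  have hB := congrArg (MvPowerSeries.subst ![(X 0 : MvPowerSeries (Fin 2) R), X 1, 0]) hA
  rw [subst_mul hs3, subst_comp_subst_apply (hasSubst2 z01 z2) hs3,
    subst_comp_subst_apply (hasSubst2 z0 z12) hs3, subst_comp_subst_apply s12 hs3] at hB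
  have y0 : MvPowerSeries.constantCoeff (X 0 : MvPowerSeries (Fin 2) R) = 0 := by simp
  have y1 : MvPowerSeries.constantCoeff (X 1 : MvPowerSeries (Fin 2) R) = 0 := by simp
  have e1 : (fun s => MvPowerSeries.subst ![(X 0 : MvPowerSeries (Fin 2) R), X 1, 0]
      (![MvPowerSeries.subst ![(X 0 : MvPowerSeries (Fin 3) R), X 1] G.toPowerSeries, X 2] s)) =
      ![G.toPowerSeries, 0] := by
    funext s
    fin_cases s
    · change MvPowerSeries.subst ![(X 0 : MvPowerSeries (Fin 2) R), X 1, 0]
        (MvPowerSeries.subst ![(X 0 : MvPowerSeries (Fin 3) R), X 1] G.toPowerSeries) =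
        G.toPowerSeries
      rw [subst_comp_subst_apply s01 hs3]
      have : (fun s => MvPowerSeries.subst ![(X 0 : MvPowerSeries (Fin 2) R), X 1, 0]
          (![(X 0 : MvPowerSeries (Fin 3) R), X 1] s)) = X := by
        funext s
        fin_cases s
        · simp [subst_X hs3]
        · simp [subst_X hs3]
      rw [this, subst_self]
      rfl
    · simp [subst_X hs3]
  have e2 : (fun s => MvPowerSeries.subst ![(X 0 : MvPowerSeries (Fin 2) R), X 1, 0]
      (![(X 0 : MvPowerSeries (Fin 3) R),
        MvPowerSeries.subst ![(X 1 : MvPowerSeries (Fin 3) R), X 2] G.toPowerSeries] s)) =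
      X := by
    funext s
    fin_cases s
    · simp [subst_X hs3]
    · change MvPowerSeries.subst ![(X 0 : MvPowerSeries (Fin 2) R), X 1, 0]
        (MvPowerSeries.subst ![(X 1 : MvPowerSeries (Fin 3) R), X 2] G.toPowerSeries) =
        X 1
      rw [subst_comp_subst_apply s12 hs3]
      have : (fun s => MvPowerSeries.subst ![(X 0 : MvPowerSeries (Fin 2) R), X 1, 0]
          (![(X 1 : MvPowerSeries (Fin 3) R), X 2] s)) = ![X 1, 0] := by
        funext s
        fin_cases s
        · simp [subst_X hs3]
        · simp [subst_X hs3]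
      rw [this]
      exact G.add_zero (PowerSeries.HasSubst.of_constantCoeff_zero y1)
  have e3 : (fun s => MvPowerSeries.subst ![(X 0 : MvPowerSeries (Fin 2) R), X 1, 0]
      (![(X 1 : MvPowerSeries (Fin 3) R), X 2] s)) = ![X 1, 0] := by
    funext s
    fin_cases s
    · simp [subst_X hs3]
    · simp [subst_X hs3]
  rw [e1, e2, e3, subst_self] at hB
  rw [cmp_wser G _ y1, cmp_wser G _ G.zero_constantCoeff, hB]
  rfl

theorem cmp_mul {τ : Type} (f g : PowerSeries R) (a : MvPowerSeries τ R)
    (ha : MvPowerSeries.constantCoeff a = 0) :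
    LT3.cmp (f * g) a = LT3.cmp f a * LT3.cmp g a :=
  PowerSeries.subst_mul (PowerSeries.HasSubst.of_constantCoeff_zero ha) f g

theorem cmp_one {τ : Type} (a : MvPowerSeries τ R)
    (ha : MvPowerSeries.constantCoeff a = 0) :
    LT3.cmp (1 : PowerSeries R) a = 1 := by
  rw [LT3.cmp, ← PowerSeries.coe_substAlgHom (PowerSeries.HasSubst.of_constantCoeff_zero ha),
    map_one]

/-- `om(G(X₀, X₁)) (∂₂G)(X₀, X₁) = om(X₁)`. -/
theorem claimB (G : FormalGroup R) :
    LT3.cmp (LT3.om G) G.toPowerSeries * pderiv R 1 G.toPowerSeries =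
      LT3.cmp (LT3.om G) (X 1 : MvPowerSeries (Fin 2) R) := by
  have y1 : MvPowerSeries.constantCoeff (X 1 : MvPowerSeries (Fin 2) R) = 0 := by simp
  have h1 := claimA G
  have h2 : LT3.cmp (wser G) (X 1 : MvPowerSeries (Fin 2) R) *
      LT3.cmp (LT3.om G) (X 1 : MvPowerSeries (Fin 2) R) = 1 := by
    rw [← cmp_mul _ _ _ y1, wser_mul_om, cmp_one _ y1]
  have h3 : LT3.cmp (wser G) G.toPowerSeries * LT3.cmp (LT3.om G) G.toPowerSeries = 1 := by
    rw [← cmp_mul _ _ _ G.zero_constantCoeff, wser_mul_om, cmp_one _ G.zero_constantCoeff]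
  calc LT3.cmp (LT3.om G) G.toPowerSeries * pderiv R 1 G.toPowerSeries
      = LT3.cmp (LT3.om G) G.toPowerSeries * (pderiv R 1 G.toPowerSeries *
          (LT3.cmp (wser G) (X 1 : MvPowerSeries (Fin 2) R) *
            LT3.cmp (LT3.om G) (X 1 : MvPowerSeries (Fin 2) R))) := by rw [h2, mul_one]
    _ = (LT3.cmp (LT3.om G) G.toPowerSeries * (pderiv R 1 G.toPowerSeries *
          LT3.cmp (wser G) (X 1 : MvPowerSeries (Fin 2) R))) *
            LT3.cmp (LT3.om G) (X 1 : MvPowerSeries (Fin 2) R) := by ring
    _ = (LT3.cmp (wser G) G.toPowerSeries * LT3.cmp (LT3.om G) G.toPowerSeries) *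
            LT3.cmp (LT3.om G) (X 1 : MvPowerSeries (Fin 2) R) := by rw [h1]; ring
    _ = _ := by rw [h3, one_mul]

end omega

section char0

open MvPowerSeries

variable {C : Type} [Field C] [CharZero C]

theorem derivative_lg (G : FormalGroup C) : PowerSeries.derivative C (LT3.lg G) = LT3.om G := by
  ext i
  rw [PowerSeries.coeff_derivative, LT3.lg, PowerSeries.coeff_mk]
  have : ((i : C) + 1) ≠ 0 := by exact_mod_cast Nat.succ_ne_zero i
  push_cast
  field_simp

theorem zc_lg (G : FormalGroup C) : LT3.ZC (LT3.lg G) := by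
  change PowerSeries.constantCoeff (LT3.lg G) = 0
  rw [← PowerSeries.coeff_zero_eq_constantCoeff_apply, LT3.lg, PowerSeries.coeff_mk]
  simp

omit [CharZero C] in
theorem coeff_one_lg (G : FormalGroup C) : PowerSeries.coeff 1 (LT3.lg G) = 1 := by
  rw [LT3.lg, PowerSeries.coeff_mk]
  simp only [Nat.cast_one, div_one, Nat.sub_self]
  exact coeff_zero_om G

omit [CharZero C] in
theorem cmp_X0 {φ : PowerSeries C} {s : Fin 2} (e : Fin 2 →₀ ℕ) (h : e ≠ Finsupp.single s (e s)) :
    MvPowerSeries.coeff e (LT3.cmp φ (X s : MvPowerSeries (Fin 2) C)) = 0 := by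
  rw [LT3.cmp, PowerSeries.coeff_subst_single, if_neg h]

/-- additivity in two variables. -/
theorem add2 (G : FormalGroup C) :
    LT3.cmp (LT3.lg G) G.toPowerSeries =
      LT3.cmp (LT3.lg G) (X 0 : MvPowerSeries (Fin 2) C) +
        LT3.cmp (LT3.lg G) (X 1 : MvPowerSeries (Fin 2) C) := by
  have y0 : MvPowerSeries.constantCoeff (X 0 : MvPowerSeries (Fin 2) C) = 0 := by simp
  have y1 : MvPowerSeries.constantCoeff (X 1 : MvPowerSeries (Fin 2) C) = 0 := by simp
  have h0 := PowerSeries.HasSubst.of_constantCoeff_zero y0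
  have h1 := PowerSeries.HasSubst.of_constantCoeff_zero y1
  have hG := PowerSeries.HasSubst.of_constantCoeff_zero G.zero_constantCoeff
  have hder : pderiv C 1 (LT3.cmp (LT3.lg G) G.toPowerSeries) =
      pderiv C 1 (LT3.cmp (LT3.lg G) (X 0 : MvPowerSeries (Fin 2) C) +
        LT3.cmp (LT3.lg G) (X 1 : MvPowerSeries (Fin 2) C)) := by
    rw [chain1 hG, map_add, chain1 h0, chain1 h1, derivative_lg, claimB, pderiv_X_self,
      pderiv_X_of_ne (by decide : (0 : Fin 2) ≠ 1)]
    simp
  ext e
  by_cases he : e 1 = 0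
  · -- restrict to `X₁ = 0`
    have hs2 : MvPowerSeries.HasSubst ![(PowerSeries.X : PowerSeries C), 0] := HasSubst.X_zero
    have he' : e = Finsupp.single 0 (e 0) := by
      ext s
      fin_cases s
      · simp
      · simp [he]
    rw [he', ← coeff_X0, ← coeff_X0]
    congr 1
    have hcomp : ∀ a : MvPowerSeries (Fin 2) C, MvPowerSeries.constantCoeff a = 0 →
        MvPowerSeries.subst ![(PowerSeries.X : PowerSeries C), 0] (LT3.cmp (LT3.lg G) a) =
          LT3.cmp (LT3.lg G) (MvPowerSeries.subst ![(PowerSeries.X : PowerSeries C), 0] a) := by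
      intro a ha
      rw [LT3.cmp, LT3.cmp, PowerSeries.subst,
        subst_comp_subst_apply (PowerSeries.HasSubst.of_constantCoeff_zero ha).const hs2]
      rfl
    rw [subst_add hs2, hcomp _ G.zero_constantCoeff, hcomp _ y0, hcomp _ y1, subst_X hs2,
      subst_X hs2]
    have hG0 : MvPowerSeries.subst ![(PowerSeries.X : PowerSeries C), 0] G.toPowerSeries =
        PowerSeries.X := G.Xzero_eq_X
    rw [hG0]
    simp only [Matrix.cons_val_zero, Matrix.cons_val_one]
    have hz : LT3.cmp (LT3.lg G) (0 : PowerSeries C) = 0 := by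
      rw [LT3.cmp]
      exact PowerSeries.subst_zero_of_constantCoeff_zero (zc_lg G)
    rw [hz, add_zero]
  · -- use the derivative
    have hcoef := congrArg (MvPowerSeries.coeff (e - Finsupp.single 1 1)) hder
    rw [coeff_pderiv, coeff_pderiv] at hcoef
    have hle : Finsupp.single (1 : Fin 2) 1 ≤ e := by
      rw [Finsupp.single_le_iff]; omega
    rw [tsub_add_cancel_of_le hle] at hcoef
    have hne : (((e - Finsupp.single 1 1 : Fin 2 →₀ ℕ) 1 : ℕ) : C) + 1 ≠ 0 := by
      exact Nat.cast_add_one_ne_zero _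
    exact mul_right_cancel₀ hne hcoef

omit [CharZero C] in
theorem cmp_subst2 {σ : Type} (φ : PowerSeries C) (H : MvPowerSeries (Fin 2) C)
    (hH : MvPowerSeries.constantCoeff H = 0) {f g : MvPowerSeries σ C}
    (hf : MvPowerSeries.constantCoeff f = 0) (hg : MvPowerSeries.constantCoeff g = 0) :
    MvPowerSeries.subst ![f, g] (LT3.cmp φ H) = LT3.cmp φ (MvPowerSeries.subst ![f, g] H) := by
  rw [LT3.cmp, LT3.cmp, PowerSeries.subst,
    subst_comp_subst_apply (PowerSeries.HasSubst.of_constantCoeff_zero hH).const (hasSubst2 hf hg)]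
  rfl

theorem add_gen (G : FormalGroup C) {σ : Type} {f g : MvPowerSeries σ C} (hf : LT3.ZC f)
    (hg : LT3.ZC g) :
    LT3.cmp (LT3.lg G) (LT3.fadd G f g) = LT3.cmp (LT3.lg G) f + LT3.cmp (LT3.lg G) g := by
  have hs := hasSubst2 hf hg
  have y0 : MvPowerSeries.constantCoeff (X 0 : MvPowerSeries (Fin 2) C) = 0 := by simp
  have y1 : MvPowerSeries.constantCoeff (X 1 : MvPowerSeries (Fin 2) C) = 0 := by simp
  have h := congrArg (MvPowerSeries.subst ![f, g]) (add2 G)
  rw [subst_add hs, cmp_subst2 _ _ G.zero_constantCoeff hf hg, cmp_subst2 _ _ y0 hf hg,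
    cmp_subst2 _ _ y1 hf hg, subst_X hs, subst_X hs] at h
  exact h

theorem hom_gen (G G' : FormalGroup C) (φ : PowerSeries C) (hφ : IsFGHom G G' φ) :
    (LT3.cmp (LT3.lg G') φ : PowerSeries C) =
      PowerSeries.C (PowerSeries.coeff 1 φ) * LT3.lg G := by
  have y0 : MvPowerSeries.constantCoeff (X 0 : MvPowerSeries (Fin 2) C) = 0 := by simp
  have y1 : MvPowerSeries.constantCoeff (X 1 : MvPowerSeries (Fin 2) C) = 0 := by simp
  have h0 := PowerSeries.HasSubst.of_constantCoeff_zero y0
  have h1 := PowerSeries.HasSubst.of_constantCoeff_zero y1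
  have hG := PowerSeries.HasSubst.of_constantCoeff_zero G.zero_constantCoeff
  have hφ0 : MvPowerSeries.constantCoeff (φ : MvPowerSeries Unit C) = 0 := hφ.1
  have hsφ : PowerSeries.HasSubst φ := PowerSeries.HasSubst.of_constantCoeff_zero' hφ.1
  set F : PowerSeries C := LT3.cmp (LT3.lg G') φ with hF
  -- composition
  have hcc : ∀ a : MvPowerSeries (Fin 2) C, MvPowerSeries.constantCoeff a = 0 →
      LT3.cmp F a = LT3.cmp (LT3.lg G') (LT3.cmp φ a) := by
    intro a ha
    rw [hF]
    exact PowerSeries.subst_comp_subst_apply hsφ (PowerSeries.HasSubst.of_constantCoeff_zero ha) _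
  have hFadd : LT3.cmp F G.toPowerSeries = LT3.cmp F (X 0 : MvPowerSeries (Fin 2) C) +
      LT3.cmp F (X 1 : MvPowerSeries (Fin 2) C) := by
    rw [hcc _ G.zero_constantCoeff, hcc _ y0, hcc _ y1]
    have h2 : LT3.cmp φ G.toPowerSeries = LT3.fadd G' (LT3.cmp φ (X 0 : MvPowerSeries (Fin 2) C))
        (LT3.cmp φ (X 1 : MvPowerSeries (Fin 2) C)) := hφ.2
    rw [h2]
    refine add_gen G' ?_ ?_
    · exact PowerSeries.constantCoeff_subst_eq_zero y0 φ hφ.1
    · exact PowerSeries.constantCoeff_subst_eq_zero y1 φ hφ.1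
  -- differentiate
  have hd := congrArg (pderiv C (1 : Fin 2)) hFadd
  rw [chain1 hG, map_add, chain1 h0, chain1 h1, pderiv_X_self,
    pderiv_X_of_ne (by decide : (0 : Fin 2) ≠ 1), mul_zero, zero_add, mul_one] at hd
  -- restrict to `X₁ = 0`
  have hs2 : MvPowerSeries.HasSubst ![(PowerSeries.X : PowerSeries C), 0] := HasSubst.X_zero
  have hX : MvPowerSeries.constantCoeff (PowerSeries.X : PowerSeries C) = 0 :=
    PowerSeries.constantCoeff_X
  have hZ : MvPowerSeries.constantCoeff (0 : PowerSeries C) = 0 := map_zero _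
  have hd2 := congrArg (MvPowerSeries.subst ![(PowerSeries.X : PowerSeries C), 0]) hd
  rw [subst_mul hs2, cmp_subst2 _ _ G.zero_constantCoeff hX hZ, cmp_subst2 _ _ y1 hX hZ,
    subst_X hs2, subst_X0] at hd2
  have hG0 : MvPowerSeries.subst ![(PowerSeries.X : PowerSeries C), 0] G.toPowerSeries =
      PowerSeries.X := G.Xzero_eq_X
  rw [hG0] at hd2
  simp only [Matrix.cons_val_one, Matrix.cons_val_zero] at hd2
  have hcX : LT3.cmp (PowerSeries.derivative C F) (PowerSeries.X : PowerSeries C) =
      PowerSeries.derivative C F := PowerSeries.X_subst _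
  have hc0 : LT3.cmp (PowerSeries.derivative C F) (0 : PowerSeries C) =
      PowerSeries.C (PowerSeries.constantCoeff (PowerSeries.derivative C F)) :=
    PowerSeries.subst_zero_eq_C_constantCoeff
  rw [hcX, hc0] at hd2
  -- so `F' = F'(0) om`
  have hF' : PowerSeries.derivative C F =
      PowerSeries.C (PowerSeries.constantCoeff (PowerSeries.derivative C F)) * LT3.om G := by
    calc PowerSeries.derivative C F = PowerSeries.derivative C F * (wser G * LT3.om G) := by
          rw [wser_mul_om, mul_one]
      _ = (PowerSeries.derivative C F * wser G) * LT3.om G := by ring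
      _ = _ := by rw [hd2]
  -- the value of `F'(0)`
  have hval : PowerSeries.constantCoeff (PowerSeries.derivative C F) =
      PowerSeries.coeff 1 φ := by
    have h2 : PowerSeries.derivative C F =
        LT3.cmp (LT3.om G') φ * PowerSeries.derivative C φ := by
      rw [hF, ← derivative_lg]
      exact PowerSeries.derivative_subst hsφ
    rw [h2, map_mul]
    have h3 : PowerSeries.constantCoeff (LT3.cmp (LT3.om G') φ : PowerSeries C) = 1 := by
      have h4 : LT3.om G' = (LT3.om G' - 1) + 1 := by ring
      have h5 : PowerSeries.constantCoeff (LT3.om G' - 1) = 0 := by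
        have := coeff_zero_om G'
        rw [PowerSeries.coeff_zero_eq_constantCoeff_apply] at this
        rw [map_sub, this, map_one, sub_self]
      rw [h4, LT3.cmp, PowerSeries.subst_add hsφ, map_add]
      have h6 : PowerSeries.constantCoeff (PowerSeries.subst φ (LT3.om G' - 1) : PowerSeries C) =
          0 := PowerSeries.constantCoeff_subst_eq_zero hφ.1 _ h5
      have h7 : (PowerSeries.subst φ (1 : PowerSeries C) : PowerSeries C) = 1 := by
        rw [← PowerSeries.coe_substAlgHom hsφ, map_one]
      rw [h6, h7, map_one, zero_add]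
    rw [h3, one_mul, ← PowerSeries.coeff_zero_eq_constantCoeff_apply,
      PowerSeries.coeff_derivative]
    simp
  -- conclude
  refine PowerSeries.derivative.ext ?_ ?_
  · rw [hF', hval, Derivation.leibniz, derivative_lg]
    simp
  · rw [map_mul]
    have h8 : PowerSeries.constantCoeff (LT3.lg G) = 0 := zc_lg G
    rw [h8, mul_zero]
    exact PowerSeries.constantCoeff_subst_eq_zero hφ.1 _ (zc_lg G')

end char0

theorem main : LT3.Spec4.LOG := by
  refine ⟨?_, ?_⟩
  · intro R S _ _ r G
    exact map_om r G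
  · intro C _ _ G
    exact ⟨zc_lg G, coeff_one_lg G, fun σ f g hf hg => add_gen G hf hg,
      fun G' φ hφ => hom_gen G G' φ hφ⟩

end Crest.Agent.LT3LOG
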