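/- rid 227 (S0351): norm form of the Moore determinant. -/
import Crest.Agent.LT3Spec2

set_option autoImplicit false

namespace Crest.Agent.LT3MOORE
open Crest.Agent.LT3

/-- algebraic form -/
theorem moore_alg (p : ℕ) [Fact p.Prime] {K : Type} [Field K] [CharP K p] {s : ℕ}
    (x : Fin s → K)
    (hx : ∀ b : Fin s → ℕ, (∀ i, b i < p) → (∃ i, b i ≠ 0) → ∑ i, (b i : K) * x i ≠ 0)
    (D : Fin s → K) (hD : ∃ i, D i ≠ 0) (e₀ : ℕ) :
    ∃ e, e₀ ≤ e ∧ e < e₀ + s ∧ ∑ i, D i * x i ^ (p ^ e) ≠ 0 := by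
  classical
  by_contra hcon
  push Not at hcon
  let _ : Algebra (ZMod p) K := ZMod.algebra K p
  have : ExpChar K p := ExpChar.prime Fact.out
  -- linear independence
  have hind : ∀ b : Fin s → ZMod p, ∑ i, b i • x i = 0 → b = 0 := by
    intro b hb
    by_contra hne
    have : ∃ i, b i ≠ 0 := by
      by_contra h
      push Not at h
      exact hne (funext h)
    obtain ⟨i, hi⟩ := this
    refine hx (fun i => (b i).val) (fun i => ZMod.val_lt _) ⟨i, by simpa using hi⟩ ?_
    rw [← hb]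
    refine Finset.sum_congr rfl fun j _ => ?_
    rw [Algebra.smul_def]
    congr 1
    conv_rhs => rw [← ZMod.natCast_zmod_val (b j)]
    rw [map_natCast]
  -- matrix
  let M : Matrix (Fin s) (Fin s) K := fun j i => x i ^ (p ^ (e₀ + j.1))
  have h1 : ∃ v : Fin s → K, v ≠ 0 ∧ M.mulVec v = 0 := by
    refine ⟨D, ?_, ?_⟩
    · intro h
      obtain ⟨i, hi⟩ := hD
      exact hi (congr_fun h i)
    · funext j
      have := hcon (e₀ + j.1) (by omega) (by omega)
      have h2 : M.mulVec D j = ∑ i, x i ^ (p ^ (e₀ + j.1)) * D i := rfl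
      rw [h2, Pi.zero_apply, ← this]
      exact Finset.sum_congr rfl fun i _ => mul_comm _ _
  rw [Matrix.exists_mulVec_eq_zero_iff, ← Matrix.exists_vecMul_eq_zero_iff] at h1
  obtain ⟨c, hc, hcM⟩ := h1
  have hc' : ∀ i, ∑ j : Fin s, c j * (x i ^ (p ^ e₀)) ^ (p ^ j.1) = 0 := by
    intro i
    have := congr_fun hcM i
    refine Eq.trans ?_ this
    refine Finset.sum_congr rfl fun j _ => ?_
    simp only [M]
    rw [← pow_mul, ← pow_add]
  let P : Polynomial K := ∑ j : Fin s, Polynomial.monomial (p ^ j.1) (c j)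
  have hp1 : 1 < p := (Fact.out : p.Prime).one_lt
  have hPeval : ∀ z, P.eval z = ∑ j : Fin s, c j * z ^ (p ^ j.1) := by
    intro z
    simp [P, Polynomial.eval_finsetSum, Polynomial.eval_monomial]
  -- evaluation is additive
  have hPadd : ∀ b : Fin s → ZMod p, P.eval (∑ i, b i • x i ^ (p ^ e₀)) = 0 := by
    intro b
    rw [hPeval]
    have h2 : ∀ j : Fin s, (∑ i, b i • x i ^ (p ^ e₀)) ^ (p ^ j.1) =
        ∑ i, b i • (x i ^ (p ^ e₀)) ^ (p ^ j.1) := by
      intro j
      rw [sum_pow_char_pow]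
      refine Finset.sum_congr rfl fun i _ => ?_
      rw [smul_pow, ZMod.pow_card_pow]
    simp_rw [h2, Finset.mul_sum]
    rw [Finset.sum_comm]
    refine Finset.sum_eq_zero fun i _ => ?_
    have h3 : ∀ j : Fin s, c j * b i • (x i ^ (p ^ e₀)) ^ (p ^ j.1) =
        b i • (c j * (x i ^ (p ^ e₀)) ^ (p ^ j.1)) := by
      intro j
      rw [mul_smul_comm]
    simp_rw [h3]
    rw [← Finset.smul_sum, hc' i, smul_zero]
  have hinj : Function.Injective (fun b : Fin s → ZMod p => ∑ i, b i • x i ^ (p ^ e₀)) := by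
    intro b b' hbb
    simp only at hbb
    have h4 : ∑ i, (b i - b' i) • x i = 0 := by
      have h5 : (∑ i, (b i - b' i) • x i) ^ (p ^ e₀) = 0 := by
        rw [sum_pow_char_pow]
        have : ∀ i, ((b i - b' i) • x i) ^ (p ^ e₀) = b i • x i ^ (p ^ e₀) - b' i • x i ^ (p ^ e₀) := by
          intro i
          rw [smul_pow, ZMod.pow_card_pow, sub_smul]
        simp_rw [this]
        rw [Finset.sum_sub_distrib, hbb, sub_self]
      exact pow_eq_zero_iff (pow_ne_zero _ (by omega)) |>.mp h5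
    have := hind (fun i => b i - b' i) h4
    funext i
    exact sub_eq_zero.mp (congr_fun this i)
  have hs : 0 < s := by
    obtain ⟨i, _⟩ := hD
    exact i.pos
  have hP0 : P = 0 := by
    refine Polynomial.eq_zero_of_natDegree_lt_card_of_eval_eq_zero P hinj hPadd ?_
    rw [Fintype.card_fun, ZMod.card, Fintype.card_fin]
    refine lt_of_le_of_lt ?_ (Nat.pow_lt_pow_right hp1 (Nat.sub_lt hs one_pos))
    refine Polynomial.natDegree_sum_le_of_forall_le _ _ ?_
    intro j _
    refine (Polynomial.natDegree_monomial_le _).trans ?_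
    exact Nat.pow_le_pow_right (by omega) (by omega)
  apply hc
  funext j
  have h6 : P.coeff (p ^ j.1) = c j := by
    simp only [P, Polynomial.finsetSum_coeff, Polynomial.coeff_monomial]
    rw [Finset.sum_eq_single j]
    · simp
    · intro i _ hi
      rw [if_neg]
      intro h
      exact hi (Fin.ext (Nat.pow_right_injective hp1 h))
    · intro h; exact absurd (Finset.mem_univ j) h
  rw [← h6, hP0]
  simp

section Residue

variable (C : Type) [NontriviallyNormedField C] [IsUltrametricDist C]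

/-- the closed unit ball -/
noncomputable abbrev OO : ValuationSubring C := (NormedField.valuation (K := C)).valuationSubring

variable {C}

theorem mem_OO (x : C) : x ∈ OO C ↔ ‖x‖ ≤ 1 := by
  rw [Valuation.mem_valuationSubring_iff, NormedField.valuation_apply]
  rfl

/-- residue map, extended by zero -/
noncomputable def res : OO C →+* IsLocalRing.ResidueField (OO C) := IsLocalRing.residue (OO C)

theorem res_eq_zero (x : OO C) : res x = 0 ↔ ‖(x : C)‖ < 1 := by
  unfold res
  rw [IsLocalRing.residue_eq_zero_iff, IsLocalRing.mem_maximalIdeal, mem_nonunits_iff]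
  have hx : ‖(x : C)‖ ≤ 1 := (mem_OO _).mp x.2
  constructor
  · intro h
    refine lt_of_le_of_ne hx fun h1 => h ?_
    have hx0 : (x : C) ≠ 0 := by
      intro h0; rw [h0, norm_zero] at h1; exact zero_ne_one h1
    have hinv : (x : C)⁻¹ ∈ OO C := by
      rw [mem_OO, norm_inv, h1, inv_one]
    refine IsUnit.of_mul_eq_one ⟨(x : C)⁻¹, hinv⟩ ?_
    ext
    simp [mul_inv_cancel₀ hx0]
  · intro h hu
    obtain ⟨y, hy⟩ := hu.exists_right_inv
    have h2 : (x : C) * (y : C) = 1 := by
      have := congr_arg (fun z : OO C => (z : C)) hy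
      simpa using this
    have hy1 : ‖(y : C)‖ ≤ 1 := (mem_OO _).mp y.2
    have h3 : ‖(x : C)‖ * ‖(y : C)‖ = 1 := by rw [← norm_mul, h2, norm_one]
    nlinarith [norm_nonneg (x : C), norm_nonneg (y : C)]

end Residue

theorem main : Spec2.MOORE := by
  intro p _ C _ _ _ _ s ρ hρ hind D hD1 hD e₀
  let k := IsLocalRing.ResidueField (OO C)
  have : CharP (OO C) p := by
    have : Function.Injective (algebraMap (OO C) C) := Subtype.val_injective
    exact (RingHom.charP_iff _ this p).mpr inferInstance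
  have : CharP k p := by
    have hp0 : ((p : ℕ) : k) = 0 := by
      have : ((p : ℕ) : k) = res ((p : ℕ) : OO C) := by rw [map_natCast]
      rw [this, CharP.cast_eq_zero, map_zero]
    exact (CharP.charP_iff_prime_eq_zero (Fact.out : p.Prime)).mpr hp0
  let x : Fin s → k := fun i => res ⟨ρ i, (mem_OO _).mpr (hρ i)⟩
  let D' : Fin s → k := fun i => res ⟨D i, (mem_OO _).mpr (hD1 i)⟩
  have hx : ∀ b : Fin s → ℕ, (∀ i, b i < p) → (∃ i, b i ≠ 0) → ∑ i, (b i : k) * x i ≠ 0 := by
    intro b hb hb' h0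
    have h1 : ∑ i, (b i : k) * x i = res (∑ i, ((b i : ℕ) : OO C) * ⟨ρ i, (mem_OO _).mpr (hρ i)⟩) := by
      rw [map_sum]
      refine Finset.sum_congr rfl fun i _ => ?_
      rw [map_mul, map_natCast]
    rw [h1, res_eq_zero] at h0
    have h2 := hind b hb hb'
    push_cast at h0
    rw [h2] at h0
    exact lt_irrefl _ h0
  have hD' : ∃ i, D' i ≠ 0 := by
    obtain ⟨i, hi⟩ := hD
    refine ⟨i, fun h => ?_⟩
    rw [res_eq_zero] at h
    simp only at h
    rw [hi] at h
    exact lt_irrefl _ h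
  obtain ⟨e, he, he', hne⟩ := moore_alg p x hx D' hD' e₀
  refine ⟨e, he, he', ?_⟩
  have h1 : ∑ i, D' i * x i ^ (p ^ e) = res (∑ i, (⟨D i, (mem_OO _).mpr (hD1 i)⟩ : OO C) *
      (⟨ρ i, (mem_OO _).mpr (hρ i)⟩ : OO C) ^ (p ^ e)) := by
    rw [map_sum]
    refine Finset.sum_congr rfl fun i _ => ?_
    rw [map_mul, map_pow]
  rw [h1, ne_eq, res_eq_zero] at hne
  push_cast at hne
  refine le_antisymm ?_ (not_lt.mp hne)
  have hmem : ∑ i, D i * ρ i ^ (p ^ e) ∈ OO C := by
    refine Subring.sum_mem (OO C).toSubring fun i _ => ?_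
    exact (OO C).mul_mem _ _ ((mem_OO _).mpr (hD1 i)) (pow_mem ((mem_OO _).mpr (hρ i)) _)
  exact (mem_OO _).mp hmem

end Crest.Agent.LT3MOORE
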