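import Crest.Agent.LT3Spec4
import Crest.Agent.LT3MOORE

/-!
rid 227 (S0351), module LOWER: uniform size of `Λ · L(lg(c'))`.
-/

set_option autoImplicit false
open Crest.LubinTate
open Crest Crest.GeometryTopology
open Crest.Agent.LT3

namespace Crest.Agent.LT3LOWER

section arith

/-- `(s - u) mod n`. -/
def sp (n u s : ℕ) : ℕ := (s + (n - 1) * u) % n

/-- `(u + sp - s) / n`. -/
def lp (n u s : ℕ) : ℕ := (u + sp n u s) / n

variable {n : ℕ} (hn : 0 < n)

include hn

theorem sp_lt (u s : ℕ) : sp n u s < n := Nat.mod_lt _ hn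

theorem add_sp_mod (u : ℕ) {s : ℕ} (hs : s < n) : (u + sp n u s) % n = s := by
  have h1 : u + (s + (n - 1) * u) = s + n * u := by
    obtain ⟨k, rfl⟩ : ∃ k, n = k + 1 := ⟨n - 1, by omega⟩
    rw [Nat.add_sub_cancel]
    ring
  rw [sp, Nat.add_mod_mod, h1, Nat.add_mul_mod_self_left, Nat.mod_eq_of_lt hs]

theorem decomp (u : ℕ) {s : ℕ} (hs : s < n) : u + sp n u s = s + n * lp n u s := by
  have h1 := Nat.div_add_mod (u + sp n u s) n
  rw [add_sp_mod hn u hs] at h1
  rw [lp]
  omega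

theorem sp_unique (u : ℕ) {s s' : ℕ} (hs : s < n) (hs' : s' < n) (h : (u + s') % n = s) :
    sp n u s = s' := by
  have h1 := add_sp_mod hn u hs
  have h2 : (u + sp n u s) ≡ (u + s') [MOD n] := h1.trans h.symm
  have h3 := Nat.ModEq.add_left_cancel' u h2
  have h4 : sp n u s % n = s' % n := h3
  rwa [Nat.mod_eq_of_lt (sp_lt hn u s), Nat.mod_eq_of_lt hs'] at h4

theorem sp_inj (u : ℕ) {s s' : ℕ} (hs : s < n) (hs' : s' < n) (h : sp n u s = sp n u s') :
    s = s' := by
  rw [← add_sp_mod hn u hs, ← add_sp_mod hn u hs', h]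

theorem sp_add (u s : ℕ) : sp n (u + n) s = sp n u s := by
  rw [sp, sp, mul_add, ← add_assoc, mul_comm (n - 1) n, Nat.add_mul_mod_self_left]

theorem lp_add (u s : ℕ) : lp n (u + n) s = lp n u s + 1 := by
  rw [lp, lp, sp_add hn, add_right_comm, Nat.add_div_right _ hn]

theorem lp_le {u s N : ℕ} (hs : s < n) (h : u ≤ s + n * N) : lp n u s ≤ N := by
  have h1 := decomp hn u hs
  have h2 := sp_lt hn u s
  have h3 : n * lp n u s < n * (N + 1) := by rw [mul_add]; omega
  exact Nat.lt_succ_iff.1 (Nat.lt_of_mul_lt_mul_left h3)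

theorem sub_eq {u s N : ℕ} (hs : s < n) (h : u ≤ s + n * N) :
    s + n * N - u = sp n u s + n * (N - lp n u s) := by
  have h1 := decomp hn u hs
  have h3 := lp_le hn hs h
  rw [Nat.mul_sub]
  have h4 : n * lp n u s ≤ n * N := Nat.mul_le_mul_left n h3
  omega

theorem lt_lp {u s N : ℕ} (hs : s < n) (h : s + n * N < u) : N < lp n u s := by
  have h1 := decomp hn u hs
  have h3 : n * N < n * lp n u s := by omega
  exact Nat.lt_of_mul_lt_mul_left h3

end arith

section res

variable (p : ℕ) [Fact p.Prime] (n : ℕ) {C : Type} [NontriviallyNormedField C]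
  [IsUltrametricDist C] (ι : WittVector p (GaloisField p n) →+* C)

omit [IsUltrametricDist C] in
theorem norm_unit (hι : ∀ c, ‖ι c‖ ≤ 1) {u : WittVector p (GaloisField p n)} (hu : IsUnit u) :
    ‖ι u‖ = 1 := by
  obtain ⟨v, hv⟩ := hu.exists_right_inv
  have h1 : ‖ι u‖ * ‖ι v‖ = 1 := by rw [← norm_mul, ← map_mul, hv, map_one, norm_one]
  have h2 := hι u
  have h3 := hι v
  nlinarith [norm_nonneg (ι u), norm_nonneg (ι v)]

theorem frob_eq (hn : 1 ≤ n) (β : GaloisField p n) : β ^ (p ^ n) = β := by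
  let _ := Fintype.ofFinite (GaloisField p n)
  have hc : Fintype.card (GaloisField p n) = p ^ n := by
    rw [← Nat.card_eq_fintype_card, GaloisField.card p n (by omega)]
  have h1 := FiniteField.pow_card (K := GaloisField p n) β
  rwa [hc] at h1

theorem exists_omega (hn : 1 ≤ n) (hι : ∀ c, ‖ι c‖ ≤ 1) (a : Fin n → C) (e : Fin n → ℕ)
    (he : Function.Injective e) (he' : ∀ s, e s < n) (M : ℝ) (hM : 0 < M)
    (ha : ∀ s, ‖a s‖ ≤ M) (s0 : Fin n) (hs0 : ‖a s0‖ = M) :
    ∃ ω : GaloisField p n, ω ≠ 0 ∧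
      ‖∑ s, a s * ι (WittVector.teichmuller p ω) ^ (p ^ e s)‖ = M := by
  classical
  have ha0 : a s0 ≠ 0 := by
    intro h
    rw [h, norm_zero] at hs0
    exact hM.ne hs0
  have hp1 : 1 < p := (Fact.out : p.Prime).one_lt
  let K := IsLocalRing.ResidueField (LT3MOORE.OO C)
  have ha' : ∀ s, ‖a s / a s0‖ ≤ 1 := by
    intro s
    rw [norm_div, hs0, div_le_one hM]
    exact ha s
  let A : Fin n → LT3MOORE.OO C := fun s => ⟨a s / a s0, (LT3MOORE.mem_OO _).2 (ha' s)⟩
  let b : GaloisField p n → LT3MOORE.OO C :=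
    fun ω => ⟨ι (WittVector.teichmuller p ω), (LT3MOORE.mem_OO _).2 (hι _)⟩
  let P : Polynomial K := ∑ s : Fin n, Polynomial.monomial (p ^ e s) (LT3MOORE.res (A s))
  have key : ∃ ω : GaloisField p n, 1 ≤ ‖∑ s, a s / a s0 *
      ι (WittVector.teichmuller p ω) ^ (p ^ e s)‖ := by
    by_contra hcon
    push Not at hcon
    let _ := Fintype.ofFinite (GaloisField p n)
    have hc : Fintype.card (GaloisField p n) = p ^ n := by
      rw [← Nat.card_eq_fintype_card, GaloisField.card p n (by omega)]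
    have hinj : Function.Injective (fun ω : GaloisField p n => LT3MOORE.res (b ω)) := by
      intro ω ω' h
      simp only at h
      by_contra hne
      rw [← sub_eq_zero, ← map_sub, LT3MOORE.res_eq_zero] at h
      have h1 : (((b ω - b ω' : LT3MOORE.OO C)) : C) =
          ι (WittVector.teichmuller p ω - WittVector.teichmuller p ω') := by
        rw [map_sub]; rfl
      rw [h1, norm_unit p n ι hι] at h
      · exact lt_irrefl _ h
      · apply WittVector.isUnit_of_coeff_zero_ne_zero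
        have h2 : (WittVector.teichmuller p ω - WittVector.teichmuller p ω').coeff 0 =
            WittVector.constantCoeff (WittVector.teichmuller p ω - WittVector.teichmuller p ω') :=
          rfl
        rw [h2, map_sub]
        have h3 : WittVector.constantCoeff (WittVector.teichmuller p ω) = ω :=
          WittVector.teichmuller_coeff_zero p ω
        have h4 : WittVector.constantCoeff (WittVector.teichmuller p ω') = ω' :=
          WittVector.teichmuller_coeff_zero p ω'
        rw [h3, h4]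
        exact sub_ne_zero.2 hne
    have heval : ∀ ω : GaloisField p n, P.eval (LT3MOORE.res (b ω)) = 0 := by
      intro ω
      have h1 : P.eval (LT3MOORE.res (b ω)) =
          LT3MOORE.res (∑ s, A s * b ω ^ (p ^ e s)) := by
        simp only [P, Polynomial.eval_finsetSum, Polynomial.eval_monomial, map_sum, map_mul,
          map_pow]
      rw [h1, LT3MOORE.res_eq_zero]
      have h2 : ((∑ s, A s * b ω ^ (p ^ e s) : LT3MOORE.OO C) : C) =
          ∑ s, a s / a s0 * ι (WittVector.teichmuller p ω) ^ (p ^ e s) := by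
        push_cast
        rfl
      rw [h2]
      exact hcon ω
    have hP0 : P = 0 := by
      refine Polynomial.eq_zero_of_natDegree_lt_card_of_eval_eq_zero P hinj heval ?_
      rw [hc]
      refine lt_of_le_of_lt ?_ (Nat.pow_lt_pow_right hp1 (Nat.sub_lt hn one_pos))
      refine Polynomial.natDegree_sum_le_of_forall_le _ _ ?_
      intro s _
      refine (Polynomial.natDegree_monomial_le _).trans ?_
      have := he' s
      exact Nat.pow_le_pow_right (by omega) (by omega)
    have h6 : P.coeff (p ^ e s0) = LT3MOORE.res (A s0) := by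
      simp only [P, Polynomial.finsetSum_coeff, Polynomial.coeff_monomial]
      rw [Finset.sum_eq_single s0]
      · simp
      · intro i _ hi
        rw [if_neg]
        intro h
        exact hi (he (Nat.pow_right_injective hp1 h))
      · intro h; exact absurd (Finset.mem_univ s0) h
    rw [hP0, Polynomial.coeff_zero] at h6
    have h7 := (LT3MOORE.res_eq_zero (A s0)).1 h6.symm
    have h8 : ((A s0 : LT3MOORE.OO C) : C) = 1 := div_self ha0
    rw [h8, norm_one] at h7
    exact lt_irrefl _ h7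
  obtain ⟨ω, hω⟩ := key
  have hsum : ∑ s, a s * ι (WittVector.teichmuller p ω) ^ (p ^ e s) =
      a s0 * ∑ s, a s / a s0 * ι (WittVector.teichmuller p ω) ^ (p ^ e s) := by
    rw [Finset.mul_sum]
    refine Finset.sum_congr rfl fun s _ => ?_
    field_simp
  have hle : ‖∑ s, a s / a s0 * ι (WittVector.teichmuller p ω) ^ (p ^ e s)‖ ≤ 1 := by
    refine IsUltrametricDist.norm_sum_le_of_forall_le_of_nonneg zero_le_one fun s _ => ?_
    rw [norm_mul, norm_pow]
    exact mul_le_one₀ (ha' s) (by positivity) (pow_le_one₀ (norm_nonneg _) (hι _))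
  have hfin : ‖∑ s, a s * ι (WittVector.teichmuller p ω) ^ (p ^ e s)‖ = M := by
    rw [hsum, norm_mul, hs0, le_antisymm hle hω, mul_one]
  refine ⟨ω, ?_, hfin⟩
  intro h0
  rw [h0, WittVector.teichmuller_zero, map_zero] at hfin
  have : ∑ s, a s * (0 : C) ^ (p ^ e s) = 0 :=
    Finset.sum_eq_zero fun s _ => by rw [zero_pow (by positivity), mul_zero]
  rw [this, norm_zero] at hfin
  exact hM.ne hfin

end res

section choice

theorem exists_bound {α : Type} (T : Finset α) (f : α → ℝ) (U V : ℝ) (hV : V < U)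
    (h : ∀ i ∈ T, f i < U) : ∃ U', V ≤ U' ∧ U' < U ∧ ∀ i ∈ T, f i ≤ U' := by
  classical
  induction T using Finset.induction_on with
  | empty => exact ⟨V, le_rfl, hV, fun i hi => absurd hi (Finset.notMem_empty i)⟩
  | insert a T _ ih =>
    obtain ⟨U', h1, h2, h3⟩ := ih (fun i hi => h i (Finset.mem_insert_of_mem hi))
    refine ⟨max U' (f a), h1.trans (le_max_left _ _),
      max_lt h2 (h a (Finset.mem_insert_self a T)), fun i hi => ?_⟩
    rcases Finset.mem_insert.1 hi with rfl | hi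
    · exact le_max_right _ _
    · exact (h3 i hi).trans (le_max_left _ _)

variable {n : ℕ} (hn : 0 < n) {C : Type} [NontriviallyNormedField C] (π : C) (Λ z : Fin n → C)

/-- the coefficients `A_{u, s}`. -/
def aa (u : ℕ) (s : Fin n) : C := Λ s * π ^ (lp n u s) * z ⟨sp n u s, sp_lt hn u s⟩

theorem aa_add (u : ℕ) (s : Fin n) : aa hn π Λ z (u + n) s = π * aa hn π Λ z u s := by
  have h1 : (⟨sp n (u + n) s, sp_lt hn (u + n) s⟩ : Fin n) = ⟨sp n u s, sp_lt hn u s⟩ :=
    Fin.ext (sp_add hn u s)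
  rw [aa, aa, lp_add hn, h1, pow_succ]
  ring

theorem exists_t (hπ1 : ‖π‖ < 1) (hπ0 : π ≠ 0) (hΛ : ∃ s, Λ s ≠ 0) (hz : ∃ s, z s ≠ 0) :
    ∃ (t : ℕ) (U U' : ℝ), t < n ∧ 0 < U ∧ 0 ≤ U' ∧ U' < U ∧ (∀ s, ‖aa hn π Λ z t s‖ ≤ U) ∧
      (∃ s, ‖aa hn π Λ z t s‖ = U) ∧ ∀ u, t < u → ∀ s, ‖aa hn π Λ z u s‖ ≤ U' := by
  classical
  have : Nonempty (Fin n) := ⟨⟨0, hn⟩⟩
  obtain ⟨⟨u0, s0⟩, hmax⟩ := Finite.exists_max
    (fun q : Fin n × Fin n => ‖aa hn π Λ z q.1.1 q.2‖)
  simp only at hmax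
  set U := ‖aa hn π Λ z u0.1 s0‖ with hU
  have hmax' : ∀ u, u < n → ∀ s, ‖aa hn π Λ z u s‖ ≤ U := fun u hu s => hmax (⟨u, hu⟩, s)
  have hUpos : 0 < U := by
    obtain ⟨s1, hs1⟩ := hΛ
    obtain ⟨s2, hs2⟩ := hz
    have hu : (s1.1 + n - s2.1) % n < n := Nat.mod_lt _ hn
    refine lt_of_lt_of_le ?_ (hmax' ((s1.1 + n - s2.1) % n) hu s1)
    have h1 : sp n ((s1.1 + n - s2.1) % n) s1.1 = s2.1 := by
      refine sp_unique hn _ s1.2 s2.2 ?_
      rw [Nat.mod_add_mod, Nat.sub_add_cancel (by have := s2.2; omega), Nat.add_mod_right,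
        Nat.mod_eq_of_lt s1.2]
    have h2 : (⟨sp n ((s1.1 + n - s2.1) % n) s1.1, sp_lt hn _ _⟩ : Fin n) = s2 := Fin.ext h1
    rw [aa, h2, norm_pos_iff]
    exact mul_ne_zero (mul_ne_zero hs1 (pow_ne_zero _ hπ0)) hs2
  -- all `u`
  have hall : ∀ u s, ‖aa hn π Λ z u s‖ ≤ U := by
    intro u
    induction u using Nat.strong_induction_on with
    | _ u ih =>
      intro s
      by_cases hu : u < n
      · exact hmax' u hu s
      · have h1 : u = (u - n) + n := by omega
        rw [h1, aa_add, norm_mul]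
        have h2 := ih (u - n) (by omega) s
        calc ‖π‖ * ‖aa hn π Λ z (u - n) s‖ ≤ 1 * ‖aa hn π Λ z (u - n) s‖ :=
              mul_le_mul_of_nonneg_right hπ1.le (norm_nonneg _)
          _ = ‖aa hn π Λ z (u - n) s‖ := one_mul _
          _ ≤ U := h2
  have hbig : ∀ u, n ≤ u → ∀ s, ‖aa hn π Λ z u s‖ ≤ ‖π‖ * U := by
    intro u hu s
    have h1 : u = (u - n) + n := by omega
    rw [h1, aa_add, norm_mul]
    exact mul_le_mul_of_nonneg_left (hall _ _) (norm_nonneg _)
  -- the largest `t`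
  let S : Finset ℕ := (Finset.range n).filter (fun u => ∃ s, ‖aa hn π Λ z u s‖ = U)
  have hS : S.Nonempty := ⟨u0.1, Finset.mem_filter.2 ⟨Finset.mem_range.2 u0.2, s0, rfl⟩⟩
  have htS : S.max' hS ∈ S := Finset.max'_mem S hS
  set t := S.max' hS with ht
  have htn : t < n := Finset.mem_range.1 (Finset.mem_filter.1 htS).1
  have hlt : ∀ u, t < u → u < n → ∀ s, ‖aa hn π Λ z u s‖ < U := by
    intro u hu hun s
    refine lt_of_le_of_ne (hall u s) fun h => ?_
    have h1 : u ∈ S := Finset.mem_filter.2 ⟨Finset.mem_range.2 hun, s, h⟩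
    have h2 := Finset.le_max' S u h1
    omega
  have hV : ‖π‖ * U < U := by
    calc ‖π‖ * U < 1 * U := mul_lt_mul_of_pos_right hπ1 hUpos
      _ = U := one_mul _
  obtain ⟨U', h1, h2, h3⟩ := exists_bound
    (((Finset.range n).filter (fun u => t < u)) ×ˢ (Finset.univ : Finset (Fin n)))
    (fun q => ‖aa hn π Λ z q.1 q.2‖) U (‖π‖ * U) hV (by
      rintro ⟨u, s⟩ hq
      rw [Finset.mem_product, Finset.mem_filter, Finset.mem_range] at hq
      exact hlt u hq.1.2 hq.1.1 s)
  refine ⟨t, U, U', htn, hUpos, (by positivity : 0 ≤ ‖π‖ * U).trans h1, h2, hall t,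
    (Finset.mem_filter.1 htS).2, ?_⟩
  intro u hu s
  by_cases hun : u < n
  · exact h3 (u, s) (Finset.mem_product.2
      ⟨Finset.mem_filter.2 ⟨Finset.mem_range.2 hun, hu⟩, Finset.mem_univ _⟩)
  · exact (hbig u (by omega) s).trans h1

end choice

theorem main (hCURVE : Spec4.CURVE) : Spec4.LOWER := by
  intro p _ n Γ H hn hHc hΓ hres C _ _ _ _ _ ι w x hx z hz hz0 Λ hΛ
  classical
  have hp1 : 1 < p := (Fact.out : p.Prime).one_lt
  have hn0 : 0 < n := hn
  have hπ0 : (p : C) ≠ 0 := Nat.cast_ne_zero.2 (by omega)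
  have hπ1 : ‖(p : C)‖ < 1 := hx.hp
  have hπpos : 0 < ‖(p : C)‖ := norm_pos_iff.2 hπ0
  obtain ⟨t, U, U', htn, hU, hU'0, hU'U, haU, ⟨s0, hs0⟩, hbig⟩ :=
    exists_t hn0 (p : C) Λ z hπ1 hπ0 hΛ hz0
  obtain ⟨ω, hω0, hω⟩ := exists_omega p n ι hn hx.hι (fun s => aa hn0 (p : C) Λ z t s)
    (fun s => sp n t s) (fun s s' h => Fin.ext (sp_inj hn0 t s.2 s'.2 h))
    (fun s => sp_lt hn0 t s) U hU haU s0 hs0
  refine ⟨t, ω, U, htn, hω0, hU, ?_⟩
  intro c hc hcω c' hc'0 hc'
  obtain ⟨B, hB, hcurve⟩ := hCURVE p n Γ H hn hHc hres C ι w x hx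
  obtain ⟨β, hβ0, hβt, hβ⟩ := hcurve c (p ^ t) (Nat.one_le_pow _ _ (by omega)) hc
  have hβ' := hβ c' hc'0 hc'
  set G : PowerSeries C := LT3.cmp (lg (H.map x)) (PowerSeries.map x c') with hG
  set l : ℕ → C := fun i => PowerSeries.coeff i (lg (H.map x)) with hl
  -- the bounds for `z`
  choose Bz hBz hzb using hz
  set BB : ℝ := ∑ s, Bz s with hBB
  have hBBle : ∀ s, Bz s ≤ BB := fun s =>
    Finset.single_le_sum (f := Bz) (fun i _ => (hBz i).le) (Finset.mem_univ s)
  have hBB0 : 0 ≤ BB := Finset.sum_nonneg fun i _ => (hBz i).le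
  set Z : ℝ := ∑ s, ‖z s‖ with hZ
  have hZle : ∀ s, ‖z s‖ ≤ Z := fun s =>
    Finset.single_le_sum (f := fun s => ‖z s‖) (fun i _ => norm_nonneg _) (Finset.mem_univ s)
  have hZ0 : 0 ≤ Z := Finset.sum_nonneg fun i _ => norm_nonneg _
  -- Teichmüller values
  set b : ℕ → C := fun u => ι (WittVector.teichmuller p (β (p ^ u))) with hb
  have hb1 : ∀ u, ‖b u‖ ≤ 1 := fun u => hx.hι _
  have hbn : ∀ u, b u ^ (p ^ n) = b u := by
    intro u
    rw [hb]
    simp only
    rw [← map_pow, ← map_pow, frob_eq p n hn]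
  have hbna : ∀ u a, b u ^ (p ^ (n * a)) = b u := by
    intro u a
    induction a with
    | zero => rw [mul_zero, pow_zero, pow_one]
    | succ a ih => rw [mul_add, mul_one, pow_add, pow_mul, ih, hbn]
  have hbsp : ∀ u a e, b u ^ (p ^ (e + n * a)) = b u ^ (p ^ e) := by
    intro u a e
    rw [add_comm, pow_add, pow_mul, hbna]
  -- terms
  set T : Fin n → ℕ → C := fun s u =>
    (p : C) ^ (lp n u s) * b u ^ (p ^ (sp n u s)) * z ⟨sp n u s, sp_lt hn0 u s⟩ with hT
  have hTle : ∀ s u, ‖T s u‖ ≤ ‖(p : C)‖ ^ (lp n u s) * Z := by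
    intro s u
    rw [hT]
    simp only
    rw [norm_mul, norm_mul, norm_pow, norm_pow]
    have h1 : ‖b u‖ ^ (p ^ (sp n u s)) ≤ 1 := pow_le_one₀ (norm_nonneg _) (hb1 u)
    have h2 := hZle ⟨sp n u s, sp_lt hn0 u s⟩
    calc ‖(p : C)‖ ^ (lp n u s) * ‖b u‖ ^ (p ^ (sp n u s)) * ‖z ⟨sp n u s, sp_lt hn0 u s⟩‖
        ≤ ‖(p : C)‖ ^ (lp n u s) * 1 * Z := by gcongr
      _ = ‖(p : C)‖ ^ (lp n u s) * Z := by rw [mul_one]
  have hTsum : ∀ s, Summable (T s) := by
    intro s
    apply NonarchimedeanAddGroup.summable_of_tendsto_cofinite_zero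
    rw [Nat.cofinite_eq_atTop]
    refine squeeze_zero_norm (a := fun u => ‖(p : C)‖ ^ (u / n) * Z) ?_ ?_
    · intro u
      refine (hTle s u).trans ?_
      refine mul_le_mul_of_nonneg_right ?_ hZ0
      refine pow_le_pow_of_le_one (norm_nonneg _) hπ1.le ?_
      exact Nat.div_le_div_right (Nat.le_add_right _ _)
    · have h1 : Filter.Tendsto (fun u : ℕ => ‖(p : C)‖ ^ (u / n)) Filter.atTop (nhds 0) :=
        (tendsto_pow_atTop_nhds_zero_of_lt_one (norm_nonneg _) hπ1).comp
          (Nat.tendsto_div_const_atTop hn0.ne')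
      have h2 := h1.mul_const Z
      rwa [zero_mul] at h2
  set z' : Fin n → C := fun s => ∑' u, T s u with hz'
  refine ⟨z', ?_, ?_⟩
  · -- HasL
    intro s
    refine ⟨B + BB + Z, by positivity, fun N => ?_⟩
    set m := s.1 + n * N with hm
    have hdiv : ∑ i ∈ (p ^ m).divisors, PowerSeries.coeff (p ^ m / i) (lg (H.map x)) *
        ι (WittVector.teichmuller p (β i)) ^ (p ^ m / i) =
        ∑ u ∈ Finset.range (m + 1), l (p ^ (m - u)) * b u ^ (p ^ (m - u)) := by
      rw [Nat.divisors_prime_pow Fact.out, Finset.sum_map]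
      refine Finset.sum_congr rfl fun u hu => ?_
      have hu' : u ≤ m := Nat.lt_succ_iff.1 (Finset.mem_range.1 hu)
      have h1 : p ^ m / p ^ u = p ^ (m - u) := Nat.pow_div hu' (by omega)
      simp only [Function.Embedding.coeFn_mk, h1, hl, hb]
    have h0 := hβ' (p ^ m) (Nat.one_le_pow _ _ (by omega))
    rw [hdiv] at h0
    have hsplit := (hTsum s).sum_add_tsum_nat_add (m + 1)
    have heq : (p : C) ^ N * PowerSeries.coeff (p ^ m) G - z' s =
        (p : C) ^ N * (PowerSeries.coeff (p ^ m) G -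
          ∑ u ∈ Finset.range (m + 1), l (p ^ (m - u)) * b u ^ (p ^ (m - u))) +
        ((∑ u ∈ Finset.range (m + 1), ((p : C) ^ N * (l (p ^ (m - u)) * b u ^ (p ^ (m - u))) -
          T s u)) - ∑' u, T s (u + (m + 1))) := by
      rw [Finset.sum_sub_distrib, ← Finset.mul_sum, hz']
      simp only
      rw [← hsplit]
      ring
    rw [heq]
    have hpN : 0 ≤ ‖(p : C)‖ ^ N := by positivity
    refine (IsUltrametricDist.norm_add_le_max _ _).trans (max_le ?_ ?_)
    · rw [norm_mul, norm_pow]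
      calc ‖(p : C)‖ ^ N * _ ≤ ‖(p : C)‖ ^ N * B := mul_le_mul_of_nonneg_left h0 hpN
        _ ≤ (B + BB + Z) * ‖(p : C)‖ ^ N := by
          rw [mul_comm]
          exact mul_le_mul_of_nonneg_right (by linarith) hpN
    · rw [sub_eq_add_neg]
      refine (IsUltrametricDist.norm_add_le_max _ _).trans (max_le ?_ ?_)
      · refine IsUltrametricDist.norm_sum_le_of_forall_le_of_nonneg (by positivity) ?_
        intro u hu
        have hu' : u ≤ m := Nat.lt_succ_iff.1 (Finset.mem_range.1 hu)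
        have hsub := sub_eq hn0 s.2 hu'
        have hlp := lp_le hn0 s.2 hu'
        set e := sp n u s with he
        set a := lp n u s with ha
        have h1 : (p : C) ^ N * (l (p ^ (m - u)) * b u ^ (p ^ (m - u))) - T s u =
            (p : C) ^ a * b u ^ (p ^ e) *
              ((p : C) ^ (N - a) * l (p ^ (e + n * (N - a))) - z ⟨e, sp_lt hn0 u s⟩) := by
          change (p : C) ^ N * (l (p ^ (m - u)) * b u ^ (p ^ (m - u))) -
            (p : C) ^ a * b u ^ (p ^ e) * z ⟨e, sp_lt hn0 u s⟩ = _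
          rw [hsub, hbsp]
          have h2 : (p : C) ^ N = (p : C) ^ a * (p : C) ^ (N - a) := by
            rw [← pow_add]; congr 1; omega
          rw [h2]
          ring
        rw [h1, norm_mul, norm_mul, norm_pow, norm_pow]
        have h2 := hzb ⟨e, sp_lt hn0 u s⟩ (N - a)
        have h3 : ‖b u‖ ^ (p ^ e) ≤ 1 := pow_le_one₀ (norm_nonneg _) (hb1 u)
        have h4 : ‖(p : C) ^ (N - a) * l (p ^ (e + n * (N - a))) - z ⟨e, sp_lt hn0 u s⟩‖ ≤
            BB * ‖(p : C)‖ ^ (N - a) :=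
          h2.trans (mul_le_mul_of_nonneg_right (hBBle _) (by positivity))
        calc ‖(p : C)‖ ^ a * ‖b u‖ ^ (p ^ e) *
              ‖(p : C) ^ (N - a) * l (p ^ (e + n * (N - a))) - z ⟨e, sp_lt hn0 u s⟩‖
            ≤ ‖(p : C)‖ ^ a * 1 * (BB * ‖(p : C)‖ ^ (N - a)) := by gcongr
          _ = BB * (‖(p : C)‖ ^ a * ‖(p : C)‖ ^ (N - a)) := by ring
          _ = BB * ‖(p : C)‖ ^ N := by rw [← pow_add]; congr 2; omega
          _ ≤ (B + BB + Z) * ‖(p : C)‖ ^ N := mul_le_mul_of_nonneg_right (by linarith) hpN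
      · rw [norm_neg]
        refine IsUltrametricDist.norm_tsum_le_of_forall_le_of_nonneg (by positivity) ?_
        intro u
        refine (hTle s _).trans ?_
        have h1 : N < lp n (u + (m + 1)) s := lt_lp hn0 s.2 (by omega)
        calc ‖(p : C)‖ ^ (lp n (u + (m + 1)) s) * Z ≤ ‖(p : C)‖ ^ N * Z :=
              mul_le_mul_of_nonneg_right
                (pow_le_pow_of_le_one (norm_nonneg _) hπ1.le h1.le) hZ0
          _ ≤ (B + BB + Z) * ‖(p : C)‖ ^ N := by
            rw [mul_comm]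
            exact mul_le_mul_of_nonneg_right (by linarith) hpN
  · -- the value
    set F : ℕ → C := fun u => ∑ s, Λ s * T s u with hF
    have hFsum : HasSum F (∑ s, Λ s * z' s) :=
      hasSum_sum fun s _ => (hTsum s).hasSum.mul_left (Λ s)
    have hFaa : ∀ u, F u = ∑ s, aa hn0 (p : C) Λ z u s * b u ^ (p ^ (sp n u s)) := by
      intro u
      rw [hF]
      simp only
      refine Finset.sum_congr rfl fun s _ => ?_
      rw [hT, aa]
      ring
    have hFt : ‖F t‖ = U := by
      rw [hFaa, hb]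
      simp only
      rw [hβt, hcω]
      exact hω
    have hFlt : ∀ u, u < t → F u = 0 := by
      intro u hu
      rw [hFaa]
      refine Finset.sum_eq_zero fun s _ => ?_
      have h1 : β (p ^ u) = 0 := hβ0 _ (Nat.pow_lt_pow_right hp1 hu)
      rw [hb]
      simp only
      rw [h1, WittVector.teichmuller_zero, map_zero, zero_pow (by positivity), mul_zero]
    have hFgt : ∀ u, t < u → ‖F u‖ ≤ U' := by
      intro u hu
      rw [hFaa]
      refine IsUltrametricDist.norm_sum_le_of_forall_le_of_nonneg hU'0 fun s _ => ?_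
      rw [norm_mul, norm_pow]
      calc ‖aa hn0 (p : C) Λ z u s‖ * ‖b u‖ ^ (p ^ (sp n u s)) ≤ U' * 1 :=
            mul_le_mul (hbig u hu s) (pow_le_one₀ (norm_nonneg _) (hb1 u)) (by positivity) hU'0
        _ = U' := mul_one _
    rw [← hFsum.tsum_eq, hFsum.summable.tsum_eq_add_tsum_ite t]
    have hrest : ‖∑' u, (if u = t then 0 else F u)‖ ≤ U' := by
      refine IsUltrametricDist.norm_tsum_le_of_forall_le_of_nonneg hU'0 ?_
      intro u
      split_ifs with h
      · rw [norm_zero]; exact hU'0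
      · rcases lt_or_gt_of_ne h with h' | h'
        · rw [hFlt u h', norm_zero]; exact hU'0
        · exact hFgt u h'
    rw [IsUltrametricDist.norm_add_eq_max_of_norm_ne_norm, hFt, max_eq_left]
    · exact hrest.trans hU'U.le
    · rw [hFt]
      exact (hrest.trans_lt hU'U).ne'

end Crest.Agent.LT3LOWER
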