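/- rid 227 (S0351): module MONO (integer window combinatorics). -/
import Crest.Agent.LT3Spec2

set_option autoImplicit false

namespace Crest.Agent.LT3MONO

theorem main : LT3.Spec2.MONO := by
  intro n d s c hd hs hc K h1 h2 e he1 he2
  classical
  -- smallest `m ≥ 1` with `e < (nK+m) - c (nK+m)`
  have hex : ∃ m : ℕ, 1 ≤ m ∧ e < ((n * K + m : ℕ) : ℤ) - c (n * K + m) := by
    refine ⟨n, by omega, ?_⟩
    rw [h1]
    push_cast
    omega
  let m' := Nat.find hex
  have hm' := Nat.find_spec hex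
  have hmin : ∀ m < Nat.find hex, ¬ (1 ≤ m ∧ e < ((n * K + m : ℕ) : ℤ) - c (n * K + m)) :=
    fun m hm => Nat.find_min hex hm
  have hle : Nat.find hex ≤ n := by
    apply Nat.find_min' hex
    refine ⟨by omega, ?_⟩
    rw [h1]
    push_cast
    omega
  generalize Nat.find hex = M at *
  obtain ⟨hM1, hM2⟩ := hm'
  have hM : M ≠ 1 := by
    rintro rfl
    push_cast at hM2
    omega
  obtain ⟨m, rfl⟩ : ∃ m, M = m + 1 := ⟨M - 1, by omega⟩
  have hm1 : 1 ≤ m := by omega
  have hmn : m < n := by omega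
  have hlt := hmin m (by omega)
  have hle' : ((n * K + m : ℕ) : ℤ) - c (n * K + m) ≤ e := by
    by_contra hcon
    exact hlt ⟨hm1, by omega⟩
  have hmono : c (n * K + m) ≤ c (n * K + (m + 1)) := hc (by omega)
  refine ⟨m, hm1, hmn, ?_, ?_⟩
  · have e1 : m + n * K + 1 = n * K + (m + 1) := by ring
    have e2 : m + n * K = n * K + m := by ring
    rw [e1, e2]
    push_cast at hM2 hle'
    omega
  · have e2 : m + n * K = n * K + m := by ring
    rw [e2]
    push_cast at hM2 hle' ⊢
    omega

end Crest.Agent.LT3MONO
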