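import Crest.Agent.LT3Spec3

/-!
rid 227 (S0351), module MOVEAT: analytic moves from `HasMoves`.
-/

set_option autoImplicit false
open Crest.LubinTate
open Crest Crest.GeometryTopology
open Crest.Agent.LT3

namespace Crest.Agent.LT3MOVEAT

section basic

theorem zc_X {R : Type} [CommRing R] : ZC (PowerSeries.X : PowerSeries R) :=
  PowerSeries.constantCoeff_X

theorem zc_map {σ R S : Type} [CommRing R] [CommRing S] (r : R →+* S) {f : MvPowerSeries σ R}
    (h : ZC f) : ZC (MvPowerSeries.map r f) := by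
  rw [ZC, MvPowerSeries.constantCoeff_map, h, map_zero]

theorem map_map_fg {R S T : Type} [CommRing R] [CommRing S] [CommRing T] (F : FormalGroup R)
    (r : R →+* S) (s : S →+* T) : (F.map r).map s = F.map (s.comp r) := by
  apply FormalGroup.ext
  change MvPowerSeries.map s (MvPowerSeries.map r F.toPowerSeries) =
    MvPowerSeries.map (s.comp r) F.toPowerSeries
  ext e
  rw [MvPowerSeries.coeff_map, MvPowerSeries.coeff_map, MvPowerSeries.coeff_map]
  rfl

theorem zc_pow {R : Type} [CommRing R] {a : PowerSeries R} (h : ZC a) {N : ℕ} (hN : N ≠ 0) :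
    ZC (a ^ N : PowerSeries R) := by
  change PowerSeries.constantCoeff (a ^ N) = 0
  have h' : PowerSeries.constantCoeff a = 0 := h
  rw [map_pow, h', zero_pow hN]

end basic

section evl

variable {C : Type} [NontriviallyNormedField C] [CompleteSpace C] [IsUltrametricDist C]

theorem int1_iff (f : PowerSeries C) : Int1 f ↔ ∀ i, ‖PowerSeries.coeff i f‖ ≤ 1 := by
  constructor
  · intro h i
    exact h (Finsupp.single () i)
  · intro h e
    have := h (e ())
    rw [PowerSeries.coeff, ← Finsupp.unique_single e] at this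
    exact this

theorem int_X (E : ApiE1) : Int1 (PowerSeries.X : PowerSeries C) := E.int_X ()

theorem int_one : Int1 (1 : PowerSeries C) := by
  rw [int1_iff]
  intro i
  rw [PowerSeries.coeff_one]
  split_ifs
  · exact norm_one.le
  · rw [norm_zero]; exact zero_le_one

theorem int_pow (E : ApiE1) {f : PowerSeries C} (hf : Int1 f) (N : ℕ) :
    Int1 (f ^ N : PowerSeries C) := by
  induction N with
  | zero => rw [pow_zero]; exact int_one
  | succ N ih => rw [pow_succ]; exact E.int_mul ih hf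

theorem ev_pow (E : ApiE1) {f : PowerSeries C} (hf : Int1 f) {z : C} (hz : ‖z‖ < 1) (N : ℕ) :
    ev (f ^ N) z = ev f z ^ N := by
  induction N with
  | zero =>
    rw [pow_zero, pow_zero]
    have := E.ev_C (1 : C) z
    rwa [map_one] at this
  | succ N ih => rw [pow_succ, pow_succ, E.ev_mul (int_pow E hf N) hf hz, ih]

theorem ev_le_one (E : ApiE1) {f : PowerSeries C} (hf : Int1 f) {z : C} (hz : ‖z‖ < 1) :
    ‖ev f z‖ ≤ 1 := by
  rw [← E.ev_eq]
  exact E.evm_le_one hf (fun _ => hz)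

theorem ev_le_pow (E : ApiE1) {f : PowerSeries C} (hf : Int1 f) (N : ℕ)
    (h0 : ∀ i, i < N → PowerSeries.coeff i f = 0) {z : C} (hz : ‖z‖ < 1) :
    ‖ev f z‖ ≤ ‖z‖ ^ N := by
  obtain ⟨g, hg⟩ := PowerSeries.X_pow_dvd_iff.2 h0
  have ig : Int1 g := by
    rw [int1_iff]
    intro i
    have := (int1_iff f).1 hf (i + N)
    rwa [hg, PowerSeries.coeff_X_pow_mul] at this
  rw [hg, E.ev_mul (int_pow E (int_X E) N) ig hz, ev_pow E (int_X E) hz, E.ev_X, norm_mul,
    norm_pow]
  calc ‖z‖ ^ N * ‖ev g z‖ ≤ ‖z‖ ^ N * 1 :=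
        mul_le_mul_of_nonneg_left (ev_le_one E ig hz) (by positivity)
    _ = ‖z‖ ^ N := mul_one _

theorem ev_sub_le (E : ApiE1) {f g : PowerSeries C} (hf : Int1 f) (hg : Int1 g) (ρ : ℝ)
    (hρ : 0 ≤ ρ) (h : ∀ i, ‖PowerSeries.coeff i f - PowerSeries.coeff i g‖ ≤ ρ) {z : C}
    (hz : ‖z‖ < 1) : ‖ev f z - ev g z‖ ≤ ρ := by
  rw [← E.ev_eq f, ← E.ev_eq g, ← E.evm_sub hf hg (fun _ => hz)]
  refine E.evm_le ρ hρ ?_ (fun _ => hz)
  intro e
  have := h (e ())
  rw [PowerSeries.coeff, ← Finsupp.unique_single e] at this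
  rwa [map_sub]

theorem ev_sub (E : ApiE1) {f g : PowerSeries C} (hf : Int1 f) (hg : Int1 g) {z : C}
    (hz : ‖z‖ < 1) : ev (f - g) z = ev f z - ev g z := by
  rw [← E.ev_eq f, ← E.ev_eq g, ← E.evm_sub hf hg (fun _ => hz), E.ev_eq]

theorem evm_fadd (E : ApiE) {G : FormalGroup C} (hG : Int1 G.toPowerSeries) {f g : PowerSeries C}
    (hf : Int1 f) (hg : Int1 g) (zf : ZC f) (zg : ZC g) {z : C} (hz : ‖z‖ < 1) :
    ev (fadd G f g) z = gadd G (ev f z) (ev g z) := by
  rw [← E.ev_eq, fadd, E.evm_subst hG (a := ![f, g]) ?_ ?_ (fun _ => hz), gadd]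
  · congr 1
    funext i
    fin_cases i
    · exact E.ev_eq f z
    · exact E.ev_eq g z
  · intro i
    fin_cases i
    · exact hf
    · exact hg
  · intro i
    fin_cases i
    · exact zf
    · exact zg

end evl

section strat

variable {p : ℕ} [Fact p.Prime] {n h d : ℕ} {Γ : FormalGroup (GaloisField p n)}
  {F : FormalGroup (MvPowerSeries (Fin d) (GaloisField p n))}
  {C : Type} [NontriviallyNormedField C] [CompleteSpace C] [IsUltrametricDist C]
  {ι : GaloisField p n →+* C} {w : Fin d → C}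
  {x : MvPowerSeries (Fin d) (GaloisField p n) →+* C}

theorem varIdeal_zero (k : Type) [Field k] (d : ℕ) : varIdeal k d 0 = ⊥ := by
  rw [varIdeal, Ideal.span_eq_bot]
  rintro f ⟨l, hl, -⟩
  exact absurd hl (Nat.not_lt_zero _)

theorem int_mapx (X : ApiX) (hx : IsEv ι w x)
    (f : PowerSeries (MvPowerSeries (Fin d) (GaloisField p n))) :
    Int1 (PowerSeries.map x f) := by
  rw [int1_iff]
  intro i
  rw [PowerSeries.coeff_map]
  exact X.le_one hx _

theorem gmul_p_le (E : ApiE) (Cc : ApiC) (X : ApiX) (hs : Strat p n h d Γ F) (hx : IsEv ι w x)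
    {u : C} (hu : ‖u‖ < 1) : ‖gmul (F.map x) p u‖ ≤ ‖u‖ ^ (p ^ h) := by
  rw [gmul, ← Cc.mul_map x F p]
  refine ev_le_pow E.toApiE1 (int_mapx X hx _) (p ^ h) ?_ hu
  intro i hi
  rw [PowerSeries.coeff_map]
  have : PowerSeries.coeff i (mulSeries F p) = 0 := by
    rcases Nat.eq_zero_or_pos i with h0 | h0
    · subst h0
      rw [PowerSeries.coeff_zero_eq_constantCoeff_apply]
      exact Cc.zc_mul F p
    · have h1 := hs.c3 0 (Nat.zero_le _) i (fun hd => by
        have := Nat.le_of_dvd h0 hd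
        rw [add_zero] at this
        omega)
      rw [varIdeal_zero] at h1
      exact h1
  rw [this, map_zero]

theorem gmul_pK_le (E : ApiE) (Cc : ApiC) (X : ApiX) (GG : ApiG) (hs : Strat p n h d Γ F)
    (hx : IsEv ι w x) (K : ℕ) {u : C} (hu : ‖u‖ < 1) :
    ‖gmul (F.map x) (p ^ K) u‖ ≤ ‖u‖ ^ (p ^ (h * K)) := by
  have hI : IG (F.map x) := X.ig hx F hs.commF
  induction K with
  | zero => rw [pow_zero, mul_zero, pow_zero, pow_one, GG.one_mul hI hu]
  | succ K ih =>
    rw [pow_succ', GG.mul_mul hI p (p ^ K) hu]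
    have hv : ‖gmul (F.map x) (p ^ K) u‖ < 1 := (GG.mul_norm_le hI _ hu).trans_lt hu
    refine (gmul_p_le E Cc X hs hx hv).trans ?_
    refine (pow_le_pow_left₀ (norm_nonneg _) ih _).trans (le_of_eq ?_)
    rw [← pow_mul, ← pow_add, mul_add, mul_one]

end strat

theorem main (A : ApiA) (B : ApiB) (Cc : ApiC) (E : ApiE) (GG : ApiG) (X : ApiX)
    (hEND : Spec.END) : Spec3.MOVEAT := by
  intro p _ n h d Γ F hs P hM C _ _ _ _ _ ι w x hx hker ρ hρ hρ1 hwρ
  obtain ⟨K₀, hK₀⟩ := hM
  have hn : 1 ≤ n := by have := hs.hn; have := hs.hh; omega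
  refine ⟨max K₀ 1, fun K hK m ω => ?_⟩
  have hKK₀ : K₀ ≤ K := le_of_max_le_left hK
  have hK1 : 1 ≤ K := le_of_max_le_right hK
  obtain ⟨a, ha, ha0, haω⟩ := hEND p n hn Γ hs.commΓ hs.hΓ ω m
  obtain ⟨φ, θ, hφC, hφP, hφm, hθ, hθr, hθm⟩ := hK₀ K hKK₀ a ha
  have hp1 : 1 < p := (Fact.out : p.Prime).one_lt
  set q := p ^ (n * K) with hq
  have hq1 : 1 < q := Nat.one_lt_pow (by positivity) hp1
  have za : ZC a := ha.1
  have zaq : ZC (a ^ q : PowerSeries _) := zc_pow za (by omega)
  -- the new point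
  have hφm' : ∀ f, f ∈ mR (GaloisField p n) d → φ f ∈ mR (GaloisField p n) d := by
    intro f hf
    have h1 : φ f - f ∈ mR (GaloisField p n) d := Ideal.pow_le_self (by omega) (hφm f)
    have h2 := Ideal.add_mem _ h1 hf
    rwa [sub_add_cancel] at h2
  have hx' : IsEv ι (fun i => x (φ (MvPowerSeries.X i))) (x.comp φ) := X.comp hx φ hφC hφm'
  -- IG
  have hI : IG (F.map x) := X.ig hx F hs.commF
  have hI' : IG (F.map (x.comp φ)) := X.ig hx' F hs.commF
  -- the series
  have hθx : IsFGHom (F.map (x.comp φ)) (F.map x) (PowerSeries.map x θ) := by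
    rw [← map_map_fg]; exact B.hom_map x hθ
  have c1 : PowerSeries.coeff 1 (fadd Γ PowerSeries.X (a ^ q) : PowerSeries (GaloisField p n)) =
      1 := by
    rw [A.coeff_one_fadd Γ zc_X zaq, PowerSeries.coeff_one_X]
    have : PowerSeries.coeff 1 (a ^ q) = 0 := by
      obtain ⟨g, hg⟩ : (PowerSeries.X : PowerSeries (GaloisField p n)) ∣ a :=
        PowerSeries.X_dvd_iff.2 za
      rw [hg, mul_pow, PowerSeries.coeff_X_pow_mul', if_neg (by omega)]
    rw [this, add_zero]
  have hunit : IsUnit (PowerSeries.coeff 1 θ) := by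
    rw [MvPowerSeries.isUnit_iff_constantCoeff]
    have h1 : MvPowerSeries.constantCoeff (PowerSeries.coeff 1 θ) =
        PowerSeries.coeff 1 (PowerSeries.map MvPowerSeries.constantCoeff θ) :=
      (PowerSeries.coeff_map _ _ _).symm
    rw [h1, hθr, c1]
    exact isUnit_one
  obtain ⟨ψs, hψs, hψ1, hψ2⟩ := B.hom_inv hθ hunit
  have hψx : IsFGHom (F.map x) (F.map (x.comp φ)) (PowerSeries.map x ψs) := by
    rw [← map_map_fg]; exact B.hom_map x hψs
  have iθ : Int1 (PowerSeries.map x θ) := int_mapx X hx θ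
  have iψ : Int1 (PowerSeries.map x ψs) := int_mapx X hx ψs
  set ψ : C → C := fun z => ev (PowerSeries.map x ψs) z with hψ
  have zθ : ZC (PowerSeries.map x θ) := hθx.1
  have zψ : ZC (PowerSeries.map x ψs) := hψx.1
  have hψle : ∀ z : C, ‖z‖ < 1 → ‖ψ z‖ ≤ ‖z‖ := fun z hz => E.ev_le_of_zc iψ zψ hz
  have hθψ : ∀ z : C, ‖z‖ < 1 → ev (PowerSeries.map x θ) (ψ z) = z := by
    intro z hz
    rw [hψ, ← E.ev_cmp iθ iψ zψ hz]
    have h1 : LT3.cmp (PowerSeries.map x θ) (PowerSeries.map x ψs) =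
        (PowerSeries.X : PowerSeries C) := by
      have h2 := B.cmp_map x (φ := θ) (a := ψs) hψs.1
      rw [hψ1] at h2
      have h3 : MvPowerSeries.map x
          (PowerSeries.X : PowerSeries (MvPowerSeries (Fin d) (GaloisField p n))) =
          (PowerSeries.X : PowerSeries C) := PowerSeries.map_X x
      exact (h3.symm.trans h2).symm
    rw [h1, E.ev_X]
  have hnorm : ∀ z : C, ‖z‖ < 1 → ‖ψ z‖ = ‖z‖ := by
    intro z hz
    have hz' : ‖ψ z‖ < 1 := (hψle z hz).trans_lt hz
    refine le_antisymm (hψle z hz) ?_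
    have := E.ev_le_of_zc iθ zθ hz'
    rwa [hθψ z hz] at this
  -- difference `z - ψ z` in terms of θ
  have iι : ∀ f : PowerSeries (GaloisField p n), Int1 (PowerSeries.map ι f) := by
    intro f
    rw [int1_iff]
    intro i
    rw [PowerSeries.coeff_map]
    by_cases h0 : PowerSeries.coeff i f = 0
    · rw [h0, map_zero, norm_zero]; exact zero_le_one
    · exact (X.iota_norm ι _ h0).le
  have hxC : x.comp (MvPowerSeries.C : GaloisField p n →+* _) = ι :=
    RingHom.ext (fun c => X.x_C hx c)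
  have hxι : ∀ f : PowerSeries (GaloisField p n),
      PowerSeries.map x (PowerSeries.map MvPowerSeries.C f) = PowerSeries.map ι f := by
    intro f
    ext i
    rw [PowerSeries.coeff_map, PowerSeries.coeff_map, PowerSeries.coeff_map]
    exact X.x_C hx _
  refine ⟨fun i => x (φ (MvPowerSeries.X i)), x.comp φ, ψ,
    ⟨hx', ?_, ?_, hnorm, ?_, ?_, ?_, ?_⟩⟩
  · -- ker
    intro f
    change x (φ f) = 0 ↔ x f = 0
    rw [hker, hker, hφP]
  · -- near
    intro i
    have h1 : x (φ (MvPowerSeries.X i)) - w i =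
        x (φ (MvPowerSeries.X i) - MvPowerSeries.X i) := by
      rw [map_sub, X.x_X hx]
    rw [h1]
    exact X.mem_pow hx ρ hρ.le hwρ (K + 1) _ (hφm _)
  · -- isom
    intro z z' hz hz'
    refine le_antisymm (E.ev_lip iψ hz hz') ?_
    have h1 : ‖ψ z‖ < 1 := (hψle z hz).trans_lt hz
    have h2 : ‖ψ z'‖ < 1 := (hψle z' hz').trans_lt hz'
    have := E.ev_lip iθ h1 h2
    rwa [hθψ z hz, hθψ z' hz'] at this
  · -- hom
    intro z z' hz hz'
    exact GG.hom_add hI hI' iψ hψx hz hz'
  · -- close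
    intro z hz
    have hn' : ‖ψ z‖ = ‖z‖ := hnorm z hz
    have hz' : ‖ψ z‖ < 1 := by rw [hn']; exact hz
    obtain ⟨z', hz'def⟩ : ∃ z', z' = ψ z := ⟨_, rfl⟩
    have hzz : ev (PowerSeries.map x θ) z' = z := by rw [hz'def]; exact hθψ z hz
    rw [← hz'def] at hz' hn' ⊢
    set u0 : PowerSeries (MvPowerSeries (Fin d) (GaloisField p n)) :=
      LT3.cmp (mulSeries F (p ^ K)) (PowerSeries.map MvPowerSeries.C a) with hu0
    have zCa : ZC (PowerSeries.map (MvPowerSeries.C : GaloisField p n →+*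
      MvPowerSeries (Fin d) (GaloisField p n)) a) := zc_map _ za
    have zu0 : ZC u0 := B.zc_cmp (Cc.zc_mul F _) zCa
    have hux : PowerSeries.map x u0 =
        LT3.cmp (mulSeries (F.map x) (p ^ K)) (PowerSeries.map ι a) := by
      have h1 := B.cmp_map x (φ := mulSeries F (p ^ K))
        (a := PowerSeries.map (MvPowerSeries.C : GaloisField p n →+*
      MvPowerSeries (Fin d) (GaloisField p n)) a) zCa
      rw [Cc.mul_map] at h1
      have h2 := hxι a
      change MvPowerSeries.map x (PowerSeries.map MvPowerSeries.C a) = PowerSeries.map ι a at h2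
      rw [h2] at h1
      exact h1
    have hmap : PowerSeries.map x (fadd F PowerSeries.X u0) =
        fadd (F.map x) PowerSeries.X (PowerSeries.map x u0) := by
      have h1 := A.map_fadd x F (zc_X) zu0
      have h3 : MvPowerSeries.map x
          (PowerSeries.X : PowerSeries (MvPowerSeries (Fin d) (GaloisField p n))) =
          (PowerSeries.X : PowerSeries C) := PowerSeries.map_X x
      rw [h3] at h1
      exact h1
    have iu : Int1 (PowerSeries.map x u0) := int_mapx X hx u0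
    have zιa : ZC (PowerSeries.map ι a) := zc_map ι za
    set v : C := ev (PowerSeries.map x u0) z' with hv
    have hvle : ‖v‖ ≤ ‖z‖ ^ (p ^ (h * K)) := by
      rw [hv, hux, E.ev_cmp (GG.int_mul hI _) (iι a) zιa hz']
      have h1 : ‖ev (PowerSeries.map ι a) z'‖ ≤ ‖z'‖ := E.ev_le_of_zc (iι a) zιa hz'
      refine (gmul_pK_le E Cc X GG hs hx K (h1.trans_lt hz')).trans ?_
      rw [← hn']
      exact pow_le_pow_left₀ (norm_nonneg _) h1 _
    have hv1 : ‖v‖ < 1 := hvle.trans_lt (pow_lt_one₀ (norm_nonneg _) hz (by positivity))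
    have hG1 : ev (PowerSeries.map x (fadd F PowerSeries.X u0)) z' = gadd (F.map x) z' v := by
      rw [hmap, evm_fadd E hI.int (int_X E.toApiE1) iu zc_X (zc_map x zu0) hz', E.ev_X]
    have hd1 : ‖ev (PowerSeries.map x θ) z' -
        ev (PowerSeries.map x (fadd F PowerSeries.X u0)) z'‖ ≤ ρ ^ (K + 1) := by
      refine ev_sub_le E.toApiE1 iθ (int_mapx X hx _) _ (by positivity) ?_ hz'
      intro i
      rw [PowerSeries.coeff_map, PowerSeries.coeff_map, ← map_sub]
      exact X.mem_pow hx ρ hρ.le hwρ (K + 1) _ (hθm (Finsupp.single () i))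
    rw [hzz, hG1] at hd1
    have hd2 : ‖gadd (F.map x) z' v - z'‖ ≤ ‖v‖ := by
      have h1 := GG.add_approx hI hz' hv1
      have h2 : gadd (F.map x) z' v - z' = (gadd (F.map x) z' v - (z' + v)) + v := by ring
      rw [h2]
      refine (IsUltrametricDist.norm_add_le_max _ _).trans (max_le (h1.trans ?_) le_rfl)
      calc ‖z'‖ * ‖v‖ ≤ 1 * ‖v‖ := mul_le_mul_of_nonneg_right hz'.le (norm_nonneg _)
        _ = ‖v‖ := one_mul _
    have h3 : z' - z = -((z - gadd (F.map x) z' v) + (gadd (F.map x) z' v - z')) := by ring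
    rw [h3, norm_neg]
    exact (IsUltrametricDist.norm_add_le_max _ _).trans
      (max_le_max hd1 (hd2.trans hvle))
  · -- lead
    intro z hz hlt
    have hn' : ‖ψ z‖ = ‖z‖ := hnorm z hz
    have hz' : ‖ψ z‖ < 1 := by rw [hn']; exact hz
    obtain ⟨z', hz'def⟩ : ∃ z', z' = ψ z := ⟨_, rfl⟩
    have hzz : ev (PowerSeries.map x θ) z' = z := by rw [hz'def]; exact hθψ z hz
    rw [← hz'def] at hz' hn' ⊢
    set N := p ^ (m + n * K) with hN
    have hNpos : 0 < N := by positivity
    have hNq : N = p ^ m * q := by rw [hN, hq, pow_add]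
    have hzpos : 0 < ‖z‖ := by
      rcases (norm_nonneg z).eq_or_lt with h0 | h0
      · rw [← h0, zero_pow hNpos.ne'] at hlt
        exact absurd hlt (not_lt.2 hρ.le)
      · exact h0
    have hNN : 0 < ‖z‖ ^ N := by positivity
    -- the law over `k`
    have hIΓ : IG (Γ.map ι) := by
      refine ⟨B.comm_map ι Γ hs.commΓ, ?_⟩
      intro e
      have h1 : MvPowerSeries.coeff e (Γ.map ι).toPowerSeries =
          ι (MvPowerSeries.coeff e Γ.toPowerSeries) := MvPowerSeries.coeff_map _ _ _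
      rw [h1]
      by_cases h0 : MvPowerSeries.coeff e Γ.toPowerSeries = 0
      · rw [h0, map_zero, norm_zero]; exact zero_le_one
      · exact (X.iota_norm ι _ h0).le
    have zιa : ZC (PowerSeries.map ι a) := zc_map ι za
    set α : C := ev (PowerSeries.map ι a) z' with hα
    -- `z = gadd Γι z' (α ^ q) + O(ρ)`
    have hmap : PowerSeries.map ι (fadd Γ PowerSeries.X (a ^ q)) =
        (fadd (Γ.map ι) PowerSeries.X (PowerSeries.map ι a ^ q) : PowerSeries C) := by
      have h1 := A.map_fadd ι Γ (zc_X) zaq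
      have h3 : MvPowerSeries.map ι (PowerSeries.X : PowerSeries (GaloisField p n)) =
          (PowerSeries.X : PowerSeries C) := PowerSeries.map_X ι
      have h4 : MvPowerSeries.map ι (a ^ q : PowerSeries (GaloisField p n)) =
          PowerSeries.map ι a ^ q := map_pow (PowerSeries.map ι) a q
      rw [h3, h4] at h1
      exact h1
    have hev : ev (PowerSeries.map ι (fadd Γ PowerSeries.X (a ^ q))) z' =
        gadd (Γ.map ι) z' (α ^ q) := by
      rw [hmap, evm_fadd E hIΓ.int (int_X E.toApiE1) (int_pow E.toApiE1 (iι a) q) zc_X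
        (zc_pow zιa (by omega)) hz', E.ev_X, ev_pow E.toApiE1 (iι a) hz']
    have hd1 : ‖ev (PowerSeries.map x θ) z' -
        ev (PowerSeries.map ι (fadd Γ PowerSeries.X (a ^ q))) z'‖ ≤ ρ := by
      refine ev_sub_le E.toApiE1 iθ (iι _) _ hρ.le ?_ hz'
      intro i
      have h1 : PowerSeries.coeff i (PowerSeries.map ι (fadd Γ PowerSeries.X (a ^ q))) =
          x (MvPowerSeries.C (PowerSeries.coeff i
            (PowerSeries.map MvPowerSeries.constantCoeff θ))) := by
        rw [hθr, X.x_C hx]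
        exact PowerSeries.coeff_map _ _ _
      rw [h1, PowerSeries.coeff_map, PowerSeries.coeff_map, ← map_sub]
      have h2 := X.mem_pow hx ρ hρ.le hwρ 1 (PowerSeries.coeff i θ -
        MvPowerSeries.C (MvPowerSeries.constantCoeff (PowerSeries.coeff i θ))) ?_
      · rwa [pow_one] at h2
      · rw [pow_one, mR, RingHom.mem_ker, map_sub, MvPowerSeries.constantCoeff_C, sub_self]
    rw [hzz, hev] at hd1
    -- size of α
    have hα1 : ‖α - ι ω * z' ^ (p ^ m)‖ ≤ ‖z'‖ ^ (p ^ m + 1) := by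
      have h1 : ev (PowerSeries.map ι (a - PowerSeries.C ω * PowerSeries.X ^ (p ^ m))) z' =
          α - ι ω * z' ^ (p ^ m) := by
        rw [map_sub, ev_sub E.toApiE1 (iι _) (iι _) hz', map_mul,
          E.ev_mul (iι _) (iι _) hz', map_pow, PowerSeries.map_X, PowerSeries.map_C, E.ev_C,
          ev_pow E.toApiE1 (int_X E.toApiE1) hz', E.ev_X]
      rw [← h1]
      refine ev_le_pow E.toApiE1 (iι _) _ ?_ hz'
      intro i hi
      rw [PowerSeries.coeff_map, map_sub, PowerSeries.coeff_C_mul, PowerSeries.coeff_X_pow]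
      rcases lt_or_eq_of_le (Nat.lt_succ_iff.1 hi) with hi' | hi'
      · rw [ha0 i hi', if_neg hi'.ne, mul_zero, sub_zero, map_zero]
      · rw [hi', haω, if_pos rfl, mul_one, sub_self, map_zero]
    have hωq : ω ^ q = ω := by
      letI := Fintype.ofFinite (GaloisField p n)
      have hc : Fintype.card (GaloisField p n) = p ^ n := by
        rw [← Nat.card_eq_fintype_card, GaloisField.card p n (by omega)]
      have h1 := FiniteField.pow_card_pow (K := GaloisField p n) K ω
      rw [hc, ← pow_mul] at h1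
      exact h1
    have hαq : ‖α ^ q - ι ω * z' ^ N‖ ≤ ‖z'‖ ^ (N + q) := by
      have h1 : α ^ q - ι ω * z' ^ N = (α - ι ω * z' ^ (p ^ m)) ^ q := by
        rw [hq, sub_pow_char_pow, ← hq, mul_pow, ← map_pow, hωq, ← pow_mul, hNq]
      rw [h1, norm_pow]
      refine (pow_le_pow_left₀ (norm_nonneg _) hα1 q).trans (le_of_eq ?_)
      rw [← pow_mul, add_mul, one_mul, hNq]
    have hαq' : ‖α ^ q‖ ≤ ‖z‖ ^ N := by
      have h1 : α ^ q = (α ^ q - ι ω * z' ^ N) + ι ω * z' ^ N := by ring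
      rw [h1]
      refine (IsUltrametricDist.norm_add_le_max _ _).trans (max_le (hαq.trans ?_) ?_)
      · rw [hn']
        exact pow_le_pow_of_le_one (norm_nonneg _) hz.le (by omega)
      · rw [norm_mul, norm_pow, hn']
        have h2 : ‖ι ω‖ ≤ 1 := by
          by_cases h0 : ω = 0
          · rw [h0, map_zero, norm_zero]; exact zero_le_one
          · exact (X.iota_norm ι _ h0).le
        calc ‖ι ω‖ * ‖z‖ ^ N ≤ 1 * ‖z‖ ^ N := mul_le_mul_of_nonneg_right h2 hNN.le
          _ = ‖z‖ ^ N := one_mul _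
    have hαq1 : ‖α ^ q‖ < 1 := hαq'.trans_lt (pow_lt_one₀ (norm_nonneg _) hz hNpos.ne')
    have hadd := GG.add_approx hIΓ hz' hαq1
    -- error of `z - z' - ι ω z'^N`
    have herr : ‖z - z' - ι ω * z' ^ N‖ < ‖z‖ ^ N := by
      have h1 : z - z' - ι ω * z' ^ N = (z - gadd (Γ.map ι) z' (α ^ q)) +
          ((gadd (Γ.map ι) z' (α ^ q) - (z' + α ^ q)) + (α ^ q - ι ω * z' ^ N)) := by ring
      rw [h1]
      refine (IsUltrametricDist.norm_add_le_max _ _).trans_lt (max_lt (hd1.trans_lt hlt) ?_)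
      refine (IsUltrametricDist.norm_add_le_max _ _).trans_lt (max_lt ?_ ?_)
      · refine hadd.trans_lt ?_
        rw [hn']
        calc ‖z‖ * ‖α ^ q‖ ≤ ‖z‖ * ‖z‖ ^ N := mul_le_mul_of_nonneg_left hαq' (norm_nonneg _)
          _ < 1 * ‖z‖ ^ N := mul_lt_mul_of_pos_right hz hNN
          _ = ‖z‖ ^ N := one_mul _
      · refine hαq.trans_lt ?_
        rw [hn']
        exact pow_lt_pow_right_of_lt_one₀ hzpos hz (by omega)
    have hιω : ‖ι ω‖ ≤ 1 := by
      by_cases h0 : ω = 0
      · rw [h0, map_zero, norm_zero]; exact zero_le_one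
      · exact (X.iota_norm ι _ h0).le
    have hzz' : ‖z' - z‖ ≤ ‖z‖ ^ N := by
      have h1 : z' - z = -((z - z' - ι ω * z' ^ N) + ι ω * z' ^ N) := by ring
      rw [h1, norm_neg]
      refine (IsUltrametricDist.norm_add_le_max _ _).trans (max_le herr.le ?_)
      rw [norm_mul, norm_pow, hn']
      calc ‖ι ω‖ * ‖z‖ ^ N ≤ 1 * ‖z‖ ^ N := mul_le_mul_of_nonneg_right hιω hNN.le
        _ = ‖z‖ ^ N := one_mul _
    -- conclusion
    have hsub := GG.sub_approx hI hz' hz
    have h1 : gsub (F.map x) z' z + ι ω * z ^ N =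
        (gsub (F.map x) z' z - (z' - z)) + (-(z - z' - ι ω * z' ^ N) +
          ι ω * (z ^ N - z' ^ N)) := by ring
    rw [h1]
    refine (IsUltrametricDist.norm_add_le_max _ _).trans_lt (max_lt ?_ ?_)
    · refine hsub.trans_lt ?_
      rw [hn', max_self]
      calc ‖z' - z‖ * ‖z‖ ≤ ‖z‖ ^ N * ‖z‖ := mul_le_mul_of_nonneg_right hzz' (norm_nonneg _)
        _ < ‖z‖ ^ N * 1 := mul_lt_mul_of_pos_left hz hNN
        _ = ‖z‖ ^ N := mul_one _
    · refine (IsUltrametricDist.norm_add_le_max _ _).trans_lt (max_lt ?_ ?_)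
      · rw [norm_neg]; exact herr
      · rw [norm_mul, hN, ← sub_pow_char_pow, norm_pow, norm_sub_rev, ← hN]
        have h2 : ‖z' - z‖ ^ N < ‖z‖ ^ N := by
          refine pow_lt_pow_left₀ ?_ (norm_nonneg _) hNpos.ne'
          refine hzz'.trans_lt (pow_lt_self_of_lt_one₀ hzpos hz ?_)
          rw [hNq]
          have : 0 < p ^ m := by positivity
          nlinarith
        calc ‖ι ω‖ * ‖z' - z‖ ^ N ≤ 1 * ‖z' - z‖ ^ N :=
              mul_le_mul_of_nonneg_right hιω (by positivity)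
          _ = ‖z' - z‖ ^ N := one_mul _
          _ < ‖z‖ ^ N := h2

end Crest.Agent.LT3MOVEAT
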