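/- rid 227 (S0351), module OMEGA: families `y^ω ≈ ι(ω) y` (proof of `Spec3.OMEGA`). -/
import Crest.Agent.LT3Spec3

set_option autoImplicit false
set_option linter.unusedSectionVars false
set_option linter.deprecated false
open Crest.LubinTate
open Crest Crest.GeometryTopology
open Crest.Agent.LT3

namespace Crest.Agent.LT3OMEGA

/-! ### The residue field -/

/-- closed unit ball. -/
def OO (C : Type) [NormedField C] [IsUltrametricDist C] : Subring C where
  carrier := {x | ‖x‖ ≤ 1}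
  mul_mem' := by
    intro a b ha hb
    simp only [Set.mem_setOf_eq] at *
    rw [norm_mul]
    calc ‖a‖ * ‖b‖ ≤ 1 * 1 := mul_le_mul ha hb (norm_nonneg _) zero_le_one
      _ = 1 := one_mul 1
  one_mem' := by simp
  add_mem' := by
    intro a b ha hb
    simp only [Set.mem_setOf_eq] at *
    exact (IsUltrametricDist.norm_add_le_max a b).trans (max_le ha hb)
  zero_mem' := by simp
  neg_mem' := by
    intro a ha
    simpa using ha

theorem mem_OO {C : Type} [NormedField C] [IsUltrametricDist C] {x : C} :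
    x ∈ OO C ↔ ‖x‖ ≤ 1 := Iff.rfl

/-- open unit ball. -/
def mm (C : Type) [NormedField C] [IsUltrametricDist C] : Ideal (OO C) where
  carrier := {x | ‖(x : C)‖ < 1}
  add_mem' := by
    intro a b ha hb
    simp only [Set.mem_setOf_eq] at *
    exact (IsUltrametricDist.norm_add_le_max (a : C) b).trans_lt (max_lt ha hb)
  zero_mem' := by simp
  smul_mem' := by
    intro a b hb
    simp only [Set.mem_setOf_eq] at *
    have h1 : ‖(a : C)‖ ≤ 1 := a.2
    change ‖(a : C) * b‖ < 1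
    rw [norm_mul]
    calc ‖(a : C)‖ * ‖(b : C)‖ ≤ 1 * ‖(b : C)‖ := mul_le_mul_of_nonneg_right h1 (norm_nonneg _)
      _ < 1 := by rw [one_mul]; exact hb

theorem mem_mm {C : Type} [NormedField C] [IsUltrametricDist C] {x : OO C} :
    x ∈ mm C ↔ ‖(x : C)‖ < 1 := Iff.rfl

instance mm_max (C : Type) [NormedField C] [IsUltrametricDist C] : (mm C).IsMaximal := by
  rw [Ideal.isMaximal_iff]
  constructor
  · intro h
    rw [mem_mm] at h
    simp at h
  · intro J x hJ hx hxJ
    have h1 : ‖(x : C)‖ = 1 := le_antisymm x.2 (not_lt.mp hx)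
    have h0 : (x : C) ≠ 0 := by
      intro h
      rw [h] at h1
      simp at h1
    have h2 : ‖(x : C)⁻¹‖ ≤ 1 := by rw [norm_inv, h1]; simp
    have h3 : (⟨(x : C)⁻¹, h2⟩ : OO C) * x = 1 := by
      apply Subtype.ext
      exact inv_mul_cancel₀ h0
    rw [← h3]
    exact J.mul_mem_left _ hxJ

/-- residue field. -/
abbrev Kap (C : Type) [NormedField C] [IsUltrametricDist C] : Type := OO C ⧸ mm C

noncomputable instance (C : Type) [NormedField C] [IsUltrametricDist C] : Field (Kap C) :=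
  Ideal.Quotient.field _

open Classical in
/-- residue class (junk off the closed ball). -/
noncomputable def res {C : Type} [NormedField C] [IsUltrametricDist C] (a : C) : Kap C :=
  if h : ‖a‖ ≤ 1 then Ideal.Quotient.mk (mm C) ⟨a, h⟩ else 0

section
variable {C : Type} [NormedField C] [IsUltrametricDist C]

theorem res_of_le {a : C} (h : ‖a‖ ≤ 1) : res a = Ideal.Quotient.mk (mm C) ⟨a, h⟩ := by
  unfold res
  rw [dif_pos h]

theorem res_eq_zero {a : C} (h : ‖a‖ ≤ 1) : res a = 0 ↔ ‖a‖ < 1 := by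
  rw [res_of_le h, Ideal.Quotient.eq_zero_iff_mem, mem_mm]

theorem res_add {a b : C} (ha : ‖a‖ ≤ 1) (hb : ‖b‖ ≤ 1) : res (a + b) = res a + res b := by
  have hab : ‖a + b‖ ≤ 1 := (IsUltrametricDist.norm_add_le_max a b).trans (max_le ha hb)
  rw [res_of_le ha, res_of_le hb, res_of_le hab, ← map_add]
  rfl

theorem norm_sub_le_one {a b : C} (ha : ‖a‖ ≤ 1) (hb : ‖b‖ ≤ 1) : ‖a - b‖ ≤ 1 := by
  rw [sub_eq_add_neg]
  exact (IsUltrametricDist.norm_add_le_max a (-b)).trans (max_le ha (by rwa [norm_neg]))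

theorem norm_mul_le_one {a b : C} (ha : ‖a‖ ≤ 1) (hb : ‖b‖ ≤ 1) : ‖a * b‖ ≤ 1 := by
  rw [norm_mul]
  calc ‖a‖ * ‖b‖ ≤ 1 * 1 := mul_le_mul ha hb (norm_nonneg _) zero_le_one
      _ = 1 := one_mul 1

theorem norm_pow_le_one {a : C} (ha : ‖a‖ ≤ 1) (n : ℕ) : ‖a ^ n‖ ≤ 1 := by
  rw [norm_pow]
  exact pow_le_one₀ (norm_nonneg _) ha

theorem res_sub {a b : C} (ha : ‖a‖ ≤ 1) (hb : ‖b‖ ≤ 1) : res (a - b) = res a - res b := by
  rw [res_of_le ha, res_of_le hb, res_of_le (norm_sub_le_one ha hb), ← map_sub]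
  rfl

theorem res_mul {a b : C} (ha : ‖a‖ ≤ 1) (hb : ‖b‖ ≤ 1) : res (a * b) = res a * res b := by
  rw [res_of_le ha, res_of_le hb, res_of_le (norm_mul_le_one ha hb), ← map_mul]
  rfl

theorem res_one : res (1 : C) = 1 := by
  rw [res_of_le (by simp)]
  exact map_one _

theorem res_zero : res (0 : C) = 0 := by
  rw [res_of_le (by simp)]
  exact map_zero _

theorem res_pow {a : C} (ha : ‖a‖ ≤ 1) (n : ℕ) : res (a ^ n) = res a ^ n := by
  induction n with
  | zero => simp [res_one]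
  | succ n ih => rw [pow_succ, pow_succ, res_mul (norm_pow_le_one ha n) ha, ih]

theorem norm_prod_le_one {κ : Type} (s : Finset κ) (f : κ → C) (hf : ∀ i ∈ s, ‖f i‖ ≤ 1) :
    ‖∏ i ∈ s, f i‖ ≤ 1 := by
  rw [norm_prod]
  exact Finset.prod_le_one (fun i _ => norm_nonneg _) hf

theorem res_prod {κ : Type} (s : Finset κ) (f : κ → C) (hf : ∀ i ∈ s, ‖f i‖ ≤ 1) :
    res (∏ i ∈ s, f i) = ∏ i ∈ s, res (f i) := by
  classical
  induction s using Finset.induction_on with
  | empty => simp [res_one]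
  | insert a s ha ih =>
    rw [Finset.prod_insert ha, Finset.prod_insert ha,
      res_mul (hf a (Finset.mem_insert_self a s))
        (norm_prod_le_one s f (fun i hi => hf i (Finset.mem_insert_of_mem hi))),
      ih (fun i hi => hf i (Finset.mem_insert_of_mem hi))]

theorem res_eq {a b : C} (ha : ‖a‖ ≤ 1) (hb : ‖b‖ ≤ 1) : res a = res b ↔ ‖a - b‖ < 1 := by
  rw [← res_eq_zero (norm_sub_le_one ha hb), res_sub ha hb, sub_eq_zero]

/-- norm of the values of a ring hom from a finite field. -/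
theorem iota_norm {k : Type} [Field k] [Finite k] (ι : k →+* C) (c : k) (hc : c ≠ 0) :
    ‖ι c‖ = 1 := by
  have h1 : IsOfFinOrder (Units.mk0 c hc) := isOfFinOrder_of_finite _
  obtain ⟨m, hm, h2⟩ := (isOfFinOrder_iff_pow_eq_one).mp h1
  have h3 : c ^ m = 1 := by
    have := congrArg Units.val h2
    simpa using this
  have h4 : ‖ι c‖ ^ m = 1 := by
    rw [← norm_pow, ← map_pow, h3, map_one, norm_one]
  exact (pow_eq_one_iff_of_nonneg (norm_nonneg _) hm.ne').mp h4

theorem iota_le {k : Type} [Field k] [Finite k] (ι : k →+* C) (c : k) : ‖ι c‖ ≤ 1 := by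
  by_cases hc : c = 0
  · rw [hc, map_zero, norm_zero]; exact zero_le_one
  · exact (iota_norm ι c hc).le

/-- reduction of `ι`. -/
noncomputable def iotar {k : Type} [Field k] [Finite k] (ι : k →+* C) : k →+* Kap C where
  toFun := fun c => res (ι c)
  map_one' := by rw [map_one, res_one]
  map_zero' := by rw [map_zero, res_zero]
  map_mul' := by
    intro a b
    rw [map_mul, res_mul (iota_le ι a) (iota_le ι b)]
  map_add' := by
    intro a b
    rw [map_add, res_add (iota_le ι a) (iota_le ι b)]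

end

/-! ### The polynomial lemma -/

theorem alg (p : ℕ) [Fact p.Prime] (n : ℕ) (hn : n ≠ 0) (κ : Type) [Field κ] [DecidableEq κ]
    (ι : GaloisField p n →+* κ) (Λ : Finset κ) (h0 : (0 : κ) ∈ Λ) (hΛ : Λ.card < p ^ n) :
    (∃ ω, ω ≠ 0 ∧ ι ω ∉ Λ) ∧
    (∀ a B : ℕ, (∀ ω, ω ≠ 0 → ι ω ∉ Λ) →
      (∀ ω, ω ≠ 0 → (∏ l ∈ Λ, (ι ω - l)) ^ (p ^ a) =
        (∏ l ∈ Λ, (1 - l)) ^ (p ^ a) * ι ω ^ (p ^ B)) → Λ = {0} ∧ a ≡ B [MOD n]) := by
  classical
  haveI : Fintype (GaloisField p n) := Fintype.ofFinite _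
  have hcard : Fintype.card (GaloisField p n) = p ^ n := by
    rw [← Nat.card_eq_fintype_card]
    exact GaloisField.card p n hn
  have hinj : Function.Injective ι := ι.injective
  have hp : p.Prime := Fact.out
  constructor
  · by_contra hcon
    push Not at hcon
    have h1 : (Finset.univ.image ι) ⊆ Λ := by
      intro z hz
      obtain ⟨ω, -, rfl⟩ := Finset.mem_image.mp hz
      by_cases hω : ω = 0
      · rw [hω, map_zero]; exact h0
      · exact hcon ω hω
    have h2 := Finset.card_le_card h1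
    rw [Finset.card_image_of_injective _ hinj, Finset.card_univ, hcard] at h2
    omega
  · intro a B hnot heq
    haveI : CharP κ p := charP_of_injective_ringHom hinj p
    -- exponent bookkeeping
    obtain ⟨b, hbn, j, hj⟩ : ∃ b, b < n ∧ ∃ j i, B + n * j = a + b + n * i := by
      refine ⟨(B + n * a - a) % n, Nat.mod_lt _ (Nat.pos_of_ne_zero hn), a,
        (B + n * a - a) / n, ?_⟩
      have h1 := Nat.mod_add_div (B + n * a - a) n
      have h2 : a ≤ n * a := Nat.le_mul_of_pos_left a (Nat.pos_of_ne_zero hn)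
      omega
    obtain ⟨i, hij⟩ := hj
    have hfr : ∀ (ω : GaloisField p n) (m : ℕ), ω ^ (p ^ (n * m)) = ω := by
      intro ω m
      induction m with
      | zero => simp
      | succ m ih =>
        rw [Nat.mul_succ, pow_add, pow_mul, ih, ← hcard, FiniteField.pow_card]
    have hpt : ∀ ω : GaloisField p n, ∏ l ∈ Λ, (ι ω - l) = (∏ l ∈ Λ, (1 - l)) * ι ω ^ (p ^ b) := by
      intro ω
      by_cases hω : ω = 0
      · rw [hω, map_zero, zero_pow (pow_pos hp.pos _).ne', mul_zero]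
        exact Finset.prod_eq_zero h0 (by simp)
      · have h1 := heq ω hω
        have h2 : ι ω ^ (p ^ B) = (ι ω ^ (p ^ b)) ^ (p ^ a) := by
          rw [← map_pow, ← map_pow, ← map_pow]
          congr 1
          calc ω ^ p ^ B = (ω ^ p ^ (n * j)) ^ p ^ B := by rw [hfr]
            _ = ω ^ p ^ (a + b + n * i) := by rw [← pow_mul, ← pow_add, ← hij]; ring_nf
            _ = (ω ^ p ^ (n * i)) ^ p ^ (b + a) := by rw [← pow_mul, ← pow_add]; ring_nf
            _ = (ω ^ (p ^ b)) ^ (p ^ a) := by rw [hfr, pow_add, pow_mul]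
        rw [h2, ← mul_pow] at h1
        have h3 := iterateFrobenius_inj κ p a
        apply h3
        simp only [iterateFrobenius_def]
        exact h1
    have hP1 : (∏ l ∈ Λ, (1 - l)) ≠ 0 := by
      rw [Finset.prod_ne_zero_iff]
      intro l hl hcon
      have h1 : l = ι 1 := by rw [map_one]; exact (sub_eq_zero.mp hcon).symm
      rw [h1] at hl
      exact hnot 1 one_ne_zero hl
    -- polynomial identity
    set P : Polynomial κ := ∏ l ∈ Λ, (Polynomial.X - Polynomial.C l) with hP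
    set R : Polynomial κ := Polynomial.C (∏ l ∈ Λ, (1 - l)) * Polynomial.X ^ (p ^ b) with hR
    have hPdeg : P.degree < ((Finset.univ.image ι).card : ℕ) := by
      rw [Finset.card_image_of_injective _ hinj, Finset.card_univ, hcard, hP,
        Polynomial.degree_prod]
      simp only [Polynomial.degree_X_sub_C, Finset.sum_const, nsmul_eq_mul, mul_one]
      exact_mod_cast hΛ
    have hRdeg : R.degree < ((Finset.univ.image ι).card : ℕ) := by
      rw [Finset.card_image_of_injective _ hinj, Finset.card_univ, hcard, hR,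
        Polynomial.degree_C_mul_X_pow _ hP1]
      exact_mod_cast Nat.pow_lt_pow_right hp.one_lt hbn
    have hPR : P = R := by
      apply Polynomial.eq_of_degrees_lt_of_eval_finset_eq (Finset.univ.image ι) hPdeg hRdeg
      intro z hz
      obtain ⟨ω, -, rfl⟩ := Finset.mem_image.mp hz
      rw [hP, hR, Polynomial.eval_prod]
      simp only [Polynomial.eval_sub, Polynomial.eval_X, Polynomial.eval_C, Polynomial.eval_mul,
        Polynomial.eval_pow]
      exact hpt ω
    have hΛ0 : Λ = {0} := by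
      apply Finset.eq_singleton_iff_unique_mem.mpr
      refine ⟨h0, ?_⟩
      intro l hl
      have h1 : P.eval l = 0 := by
        rw [hP, Polynomial.eval_prod]
        exact Finset.prod_eq_zero hl (by simp)
      rw [hPR, hR] at h1
      simp only [Polynomial.eval_mul, Polynomial.eval_C, Polynomial.eval_pow,
        Polynomial.eval_X] at h1
      rcases mul_eq_zero.mp h1 with h2 | h2
      · exact absurd h2 hP1
      · exact pow_eq_zero_iff (pow_pos hp.pos _).ne' |>.mp h2
    refine ⟨hΛ0, ?_⟩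
    have hb0 : p ^ b = 1 := by
      have h1 : P.natDegree = 1 := by
        rw [hP, hΛ0]; simp
      have h2 : R.natDegree = p ^ b := Polynomial.natDegree_C_mul_X_pow _ _ hP1
      rw [← h2, ← hPR, h1]
    have hb1 : b = 0 := by
      rcases Nat.pow_eq_one.mp hb0 with h | h
      · exact absurd h hp.one_lt.ne'
      · exact h
    subst hb1
    have h1 : a + 0 + n * i ≡ a [MOD n] := by
      rw [add_zero]
      exact (Nat.modEq_iff_dvd' (Nat.le_add_right _ _)).mpr (by simp) |>.symm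
    have h2 : B + n * j ≡ B [MOD n] :=
      (Nat.modEq_iff_dvd' (Nat.le_add_right _ _)).mpr (by simp) |>.symm
    rw [← hij] at h1
    exact h1.symm.trans h2

/-! ### Group lemmas -/

theorem grp_card (H : Type) [AddCommGroup H] [Fintype H] (κ : Type) [AddCommGroup κ]
    (φ : H →+ κ) (p : ℕ) (hp : ∀ t, φ (p • t) = 0) :
    Nat.card φ.range ≤ Nat.card {t : H // p • t = 0} := by
  classical
  let f : H →+ H := nsmulAddMonoidHom p
  have h1 : f.range ≤ φ.ker := by
    rintro _ ⟨t, rfl⟩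
    exact hp t
  have h2 : Nat.card φ.range ≤ f.range.index := by
    rw [← AddSubgroup.index_ker]
    exact Nat.le_of_dvd (Nat.pos_of_ne_zero AddSubgroup.index_ne_zero_of_finite)
      (AddSubgroup.index_dvd_of_le h1)
  have h3 : Nat.card f.ker * Nat.card f.range = Nat.card H := by
    rw [← AddSubgroup.index_ker]; exact AddSubgroup.card_mul_index _
  have h4 : Nat.card f.range * f.range.index = Nat.card H := AddSubgroup.card_mul_index _
  have h5 : 0 < Nat.card f.range := Nat.card_pos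
  have h6 : f.range.index = Nat.card f.ker := by
    apply Nat.eq_of_mul_eq_mul_left h5
    rw [h4, ← h3, mul_comm]
  rw [h6] at h2
  exact h2

section
variable {C : Type} [NontriviallyNormedField C] [CompleteSpace C] [IsUltrametricDist C]

theorem gmul_gneg (A : ApiG) {G : FormalGroup C} (hG : IG G) (m : ℕ) {z : C} (hz : ‖z‖ < 1)
    (h0 : gmul G m z = 0) : gmul G m (gneg G z) = 0 := by
  have hn : ‖gneg G z‖ < 1 := by rw [A.neg_norm hG hz]; exact hz
  have h1 := A.mul_add hG m hz hn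
  rw [A.add_neg hG hz, A.mul_zero hG, h0, A.zero_add hG] at h1
  · exact h1.symm
  · exact (A.mul_norm_le hG m hn).trans_lt hn

/-- group structure on a ball of torsion points. -/
@[reducible] noncomputable def grp (A : ApiG) {G : FormalGroup C} (hG : IG G) (m : ℕ) (r : ℝ)
    (hr : 0 ≤ r)
    (TA : Finset C) (hTA : ∀ t, t ∈ TA ↔ ‖t‖ < 1 ∧ gmul G m t = 0 ∧ ‖t‖ ≤ r) :
    AddCommGroup {t // t ∈ TA} :=
  letI : Add {t // t ∈ TA} := ⟨fun a b => ⟨gadd G a.1 b.1, by
    obtain ⟨ha1, ha2, ha3⟩ := (hTA _).mp a.2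
    obtain ⟨hb1, hb2, hb3⟩ := (hTA _).mp b.2
    refine (hTA _).mpr ⟨A.add_ball hG ha1 hb1, ?_, (A.add_le hG ha1 hb1).trans (max_le ha3 hb3)⟩
    rw [A.mul_add hG m ha1 hb1, ha2, hb2, A.zero_add hG (by simp)]⟩⟩
  letI : Zero {t // t ∈ TA} := ⟨⟨0, (hTA _).mpr ⟨by simp, A.mul_zero hG m, by simpa using hr⟩⟩⟩
  letI : Neg {t // t ∈ TA} := ⟨fun a => ⟨gneg G a.1, by
    obtain ⟨ha1, ha2, ha3⟩ := (hTA _).mp a.2
    have hn := A.neg_norm hG ha1
    exact (hTA _).mpr ⟨by rw [hn]; exact ha1, gmul_gneg A hG m ha1 ha2, by rw [hn]; exact ha3⟩⟩⟩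
  { AddGroup.ofLeftAxioms
      (fun a b c => Subtype.ext
        (A.add_assoc hG ((hTA _).mp a.2).1 ((hTA _).mp b.2).1 ((hTA _).mp c.2).1))
      (fun a => Subtype.ext (A.zero_add hG ((hTA _).mp a.2).1))
      (fun a => Subtype.ext (by
        have ha1 := ((hTA _).mp a.2).1
        have hn1 : ‖gneg G a.1‖ < 1 := by rw [A.neg_norm hG ha1]; exact ha1
        exact (A.add_comm hG hn1 ha1).trans (A.add_neg hG ha1))) with
    add_comm := fun a b => Subtype.ext (A.add_comm hG ((hTA _).mp a.2).1 ((hTA _).mp b.2).1) }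

theorem grp_nsmul (A : ApiG) {G : FormalGroup C} (hG : IG G) (m : ℕ) (r : ℝ) (hr : 0 ≤ r)
    (TA : Finset C) (hTA : ∀ t, t ∈ TA ↔ ‖t‖ < 1 ∧ gmul G m t = 0 ∧ ‖t‖ ≤ r)
    (j : ℕ) (a : {t // t ∈ TA}) :
    letI := grp A hG m r hr TA hTA
    (j • a).1 = gmul G j a.1 := by
  letI := grp A hG m r hr TA hTA
  have ha1 := ((hTA _).mp a.2).1
  induction j with
  | zero =>
    rw [A.zero_mul hG ha1, zero_nsmul]
    rfl
  | succ j ih =>
    rw [A.add_mul hG j 1 ha1, A.one_mul hG ha1, ← ih, succ_nsmul]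
    rfl

theorem fib (A : ApiG) {G : FormalGroup C} (hG : IG G) (m p : ℕ) (y : C) (hy0 : y ≠ 0)
    (hy1 : ‖y‖ < 1)
    (TA : Finset C) (hTA : ∀ t, t ∈ TA ↔ ‖t‖ < 1 ∧ gmul G m t = 0 ∧ ‖t‖ ≤ ‖y‖)
    (hp : ∀ t ∈ TA, ‖gmul G p t‖ < ‖y‖)
    (T1 : Finset C) (hT1 : ∀ t, t ∈ T1 ↔ ‖t‖ < 1 ∧ gmul G p t = 0) :
    ∃ (Λ : Finset (Kap C)) (b : ℕ), 0 ∈ Λ ∧ (∀ t ∈ TA, res (t / y) ∈ Λ) ∧
      (∀ f : Kap C → Kap C, ∏ t ∈ TA, f (res (t / y)) = (∏ l ∈ Λ, f l) ^ b) ∧
      Λ.card * b = TA.card ∧ Λ.card ≤ T1.card ∧ (∀ l ∈ Λ, ∃ t ∈ TA, res (t / y) = l) := by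
  classical
  letI := grp A hG m ‖y‖ (norm_nonneg y) TA hTA
  have hdiv : ∀ t ∈ TA, ‖t / y‖ ≤ 1 := by
    intro t ht
    rw [norm_div]
    exact (div_le_one (norm_pos_iff.mpr hy0)).mpr ((hTA t).mp ht).2.2
  let φ : {t // t ∈ TA} →+ Kap C := AddMonoidHom.mk' (fun t => res (t.1 / y)) (by
    intro a b
    obtain ⟨ha1, ha2, ha3⟩ := (hTA _).mp a.2
    obtain ⟨hb1, hb2, hb3⟩ := (hTA _).mp b.2
    have hy := norm_pos_iff.mpr hy0
    change res (gadd G a.1 b.1 / y) = _
    rw [← res_add (hdiv _ a.2) (hdiv _ b.2), res_eq]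
    · have h1 := A.add_approx hG ha1 hb1
      have h2 : gadd G a.1 b.1 / y - (a.1 / y + b.1 / y) =
          (gadd G a.1 b.1 - (a.1 + b.1)) / y := by ring
      rw [h2, norm_div, div_lt_one hy]
      refine h1.trans_lt ?_
      calc ‖a.1‖ * ‖b.1‖ ≤ ‖y‖ * ‖y‖ := mul_le_mul ha3 hb3 (norm_nonneg _) (norm_nonneg _)
        _ < ‖y‖ * 1 := by exact mul_lt_mul_of_pos_left hy1 hy
        _ = ‖y‖ := mul_one _
    · rw [norm_div, div_le_one hy]
      exact (A.add_le hG ha1 hb1).trans (max_le ha3 hb3)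
    · exact (IsUltrametricDist.norm_add_le_max _ _).trans (max_le (hdiv _ a.2) (hdiv _ b.2)))
  have hφ : ∀ t : {t // t ∈ TA}, φ t = res (t.1 / y) := fun t => rfl
  let Λ : Finset (Kap C) := Finset.univ.image φ
  let b : ℕ := (Finset.univ.filter (fun t => φ t = 0)).card
  have hfibre : ∀ l ∈ Λ, (Finset.univ.filter (fun t => φ t = l)).card = b := by
    intro l hl
    obtain ⟨t, -, ht⟩ := Finset.mem_image.mp hl
    exact AddMonoidHom.card_fiber_eq_of_mem_range φ ⟨t, ht⟩ ⟨0, map_zero φ⟩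
  refine ⟨Λ, b, ?_, ?_, ?_, ?_, ?_, ?_⟩
  · exact Finset.mem_image.mpr ⟨0, Finset.mem_univ _, map_zero φ⟩
  · intro t ht
    exact Finset.mem_image.mpr ⟨⟨t, ht⟩, Finset.mem_univ _, rfl⟩
  · intro f
    rw [← Finset.prod_coe_sort TA (fun t => f (res (t / y)))]
    have h1 : ∏ t : {t // t ∈ TA}, f (φ t) = ∏ l ∈ Λ, f l ^ (Finset.univ.filter (fun t => φ t = l)).card :=
      Finset.prod_comp (s := (Finset.univ : Finset {t // t ∈ TA})) f φ
    calc ∏ t : {t // t ∈ TA}, f (res (t.1 / y)) = ∏ t : {t // t ∈ TA}, f (φ t) := rfl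
      _ = ∏ l ∈ Λ, f l ^ (Finset.univ.filter (fun t => φ t = l)).card := h1
      _ = ∏ l ∈ Λ, f l ^ b := Finset.prod_congr rfl (fun l hl => by rw [hfibre l hl])
      _ = (∏ l ∈ Λ, f l) ^ b := Finset.prod_pow _ _ _
  · have h1 : (Finset.univ : Finset {t // t ∈ TA}).card =
        ∑ l ∈ Λ, (Finset.univ.filter (fun t => φ t = l)).card :=
      Finset.card_eq_sum_card_image φ _
    rw [Finset.card_univ, Fintype.card_coe] at h1
    rw [h1, Finset.sum_congr rfl hfibre, Finset.sum_const, smul_eq_mul]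
  · have hp' : ∀ t : {t // t ∈ TA}, φ (p • t) = 0 := by
      intro t
      rw [hφ, grp_nsmul A hG m ‖y‖ (norm_nonneg y) TA hTA p t, res_eq_zero]
      · rw [norm_div, div_lt_one (norm_pos_iff.mpr hy0)]
        exact hp _ t.2
      · rw [norm_div, div_le_one (norm_pos_iff.mpr hy0)]
        exact (hp _ t.2).le
    have h1 := grp_card {t // t ∈ TA} (Kap C) φ p hp'
    have h2 : Nat.card φ.range = Λ.card := by
      have : (φ.range : Set (Kap C)) = (Λ : Set (Kap C)) := by
        ext l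
        simp [Λ]
      rw [← SetLike.coe_sort_coe, this, Nat.card_coe_set_eq, Set.ncard_coe_finset]
    rw [h2] at h1
    refine h1.trans ?_
    have h3 : Nat.card {t : {t // t ∈ TA} // p • t = 0} ≤ Nat.card {t // t ∈ T1} := by
      apply Nat.card_le_card_of_injective
        (fun t => (⟨t.1.1, (hT1 _).mpr ⟨((hTA _).mp t.1.2).1, by
          have h4 := congrArg Subtype.val t.2
          rw [grp_nsmul A hG m ‖y‖ (norm_nonneg y) TA hTA p t.1] at h4
          exact h4⟩⟩ : {t // t ∈ T1}))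
      intro s t hst
      have := congrArg Subtype.val hst
      exact Subtype.ext (Subtype.ext this)
    refine h3.trans ?_
    rw [Nat.card_eq_fintype_card, Fintype.card_coe]
  · intro l hl
    obtain ⟨t, -, ht⟩ := Finset.mem_image.mp hl
    exact ⟨t.1, t.2, ht⟩

end

/-! ### The main statement -/

section
variable {C : Type} [NontriviallyNormedField C] [CompleteSpace C] [IsUltrametricDist C]

theorem lam_le_iff {y t : C} (hy0 : y ≠ 0) : (t = 0 ∨ lam y ≤ lam t) ↔ ‖t‖ ≤ ‖y‖ := by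
  by_cases ht : t = 0
  · simp [ht]
  · unfold lam
    simp only [ht, false_or, neg_le_neg_iff]
    exact Real.log_le_log_iff (norm_pos_iff.mpr ht) (norm_pos_iff.mpr hy0)

theorem exp_lam {y : C} (hy0 : y ≠ 0) : Real.exp (-lam y) = ‖y‖ := by
  unfold lam
  rw [neg_neg, Real.exp_log (norm_pos_iff.mpr hy0)]

theorem down (A : ApiG) {p n h d : ℕ} (hp : p.Prime) {G : FormalGroup C} {w0 : C}
    {T : ℕ → Finset C} {σ : ℝ} {S : ℝ → ℝ} {c : ℝ → ℕ} {V₀ : ℝ} (hT : TSys p h d G w0 T)
    (hSc : Scale p n h d G w0 T σ S c V₀) (N : ℕ) (η : ℝ) (hη0 : 0 < η) (hη : η < σ) (k : ℕ) :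
    ∀ t ∈ T (N + k), t ≠ 0 → lam t = η / (p : ℝ) ^ (n * k) → ∃ s ∈ T N, s ≠ 0 ∧ lam s = η := by
  have hp1 : (1 : ℝ) ≤ p := by exact_mod_cast hp.one_lt.le
  induction k with
  | zero =>
    intro t ht ht0 hl
    refine ⟨t, ht, ht0, ?_⟩
    rw [hl]; simp
  | succ k ih =>
    intro t ht ht0 hl
    have ht1 := ((hT.mem _ _).mp ht).1
    have ht2 := ((hT.mem _ _).mp ht).2
    have hpow : (1 : ℝ) ≤ (p : ℝ) ^ (n * (k + 1)) := one_le_pow₀ hp1
    have hlt : lam t < σ := by
      rw [hl]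
      exact (div_le_self hη0.le hpow).trans_lt hη
    obtain ⟨h1, h2⟩ := hSc.mul_lt t ht0 ht1 hlt
    have h3 : gmul G p t ∈ T (N + k) := by
      refine (hT.mem _ _).mpr ⟨(A.mul_norm_le hT.ig p ht1).trans_lt ht1, ?_⟩
      rw [← A.mul_mul hT.ig _ _ ht1, ← pow_succ]
      exact ht2
    apply ih _ h3 h1
    rw [h2, hl]
    have hp0 : (p : ℝ) ≠ 0 := by positivity
    rw [Nat.mul_succ, pow_add]
    field_simp

theorem up (A : ApiG) {p n h d : ℕ} (hp : p.Prime) {G : FormalGroup C} {w0 : C}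
    {T : ℕ → Finset C} {σ : ℝ} {S : ℝ → ℝ} {c : ℝ → ℕ} {V₀ : ℝ} (hT : TSys p h d G w0 T)
    (hSc : Scale p n h d G w0 T σ S c V₀) (N : ℕ) (t : C) (ht : t ∈ T N) (ht0 : t ≠ 0)
    (hl0 : 0 < lam t) (hl : lam t < σ) (k : ℕ) :
    ∃ s ∈ T (N + k), s ≠ 0 ∧ lam s = lam t / (p : ℝ) ^ (n * k) := by
  have hp1 : (1 : ℝ) ≤ p := by exact_mod_cast hp.one_lt.le
  induction k with
  | zero => exact ⟨t, ht, ht0, by simp⟩
  | succ k ih =>
    obtain ⟨s, hs, hs0, hsl⟩ := ih
    obtain ⟨s', hs', hs'2⟩ := hT.surj _ s hs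
    have hs'0 : s' ≠ 0 := by
      rintro rfl
      rw [A.mul_zero hT.ig] at hs'2
      exact hs0 hs'2.symm
    have hs'1 := ((hT.mem _ _).mp hs').1
    have hpow : (1 : ℝ) ≤ (p : ℝ) ^ (n * k) := one_le_pow₀ hp1
    have hslt : lam s < σ := by
      rw [hsl]
      exact (div_le_self hl0.le hpow).trans_lt hl
    refine ⟨s', hs', hs'0, ?_⟩
    have hp0 : (p : ℝ) ≠ 0 := by positivity
    by_cases hc : lam s' < σ
    · obtain ⟨-, h2⟩ := hSc.mul_lt s' hs'0 hs'1 hc
      rw [hs'2, hsl] at h2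
      rw [Nat.mul_succ, pow_add]
      field_simp
      field_simp at h2
      linarith
    · exfalso
      rcases hSc.mul_ge s' hs'0 hs'1 (not_lt.mp hc) with h1 | h1
      · rw [hs'2] at h1; exact hs0 h1
      · rw [hs'2] at h1
        have h2 : σ ≤ (p : ℝ) ^ n * σ := le_mul_of_one_le_left hSc.σpos.le (one_le_pow₀ hp1)
        linarith

end

theorem main (A : ApiG) : Spec3.OMEGA := by
  intro p _ n h d C _ _ _ _ _ G w0 T σ S c V₀ hhd hT hSc ι N y Y hy0 hy1 hyσ hY
  classical
  have hp : p.Prime := Fact.out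
  have hn : n ≠ 0 := by have := hT.hd; omega
  have hdn : d < n := by have := hT.hh; omega
  have hG := hT.ig
  have hypos : 0 < ‖y‖ := norm_pos_iff.mpr hy0
  have hlam : 0 < lam y := by
    unfold lam
    have := Real.log_neg hypos hy1
    linarith
  have hp1 : (1 : ℝ) < p := by exact_mod_cast hp.one_lt
  have hp0 : (p : ℝ) ≠ 0 := by positivity
  set TA : Finset C := (T N).filter (fun t => t = 0 ∨ lam y ≤ lam t) with hTAdef
  have hcnt : cntf T N (lam y) = TA.card := by
    unfold cntf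
    rw [hTAdef]
  have hTAle : ∀ t, t ∈ TA ↔ t ∈ T N ∧ ‖t‖ ≤ ‖y‖ := by
    intro t
    rw [hTAdef, Finset.mem_filter, lam_le_iff hy0]
  have hTA : ∀ t, t ∈ TA ↔ ‖t‖ < 1 ∧ gmul G (p ^ N) t = 0 ∧ ‖t‖ ≤ ‖y‖ := by
    intro t
    rw [hTAle, hT.mem, and_assoc]
  have hpt : ∀ t ∈ TA, ‖gmul G p t‖ < ‖y‖ := by
    intro t ht
    obtain ⟨h1, h2, h3⟩ := (hTA t).mp ht
    by_cases ht0 : t = 0
    · rw [ht0, A.mul_zero hG, norm_zero]; exact hypos
    · rcases hSc.mul_q t ht0 h1 with h4 | h4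
      · rw [h4, norm_zero]; exact hypos
      · by_cases h5 : gmul G p t = 0
        · rw [h5, norm_zero]; exact hypos
        · have h6 : lam y ≤ lam t := by
            rcases (lam_le_iff hy0).mpr h3 with h | h
            · exact absurd h ht0
            · exact h
          have h7 : lam t < (p : ℝ) ^ h * lam t := by
            have h8 : (1 : ℝ) < (p : ℝ) ^ h := one_lt_pow₀ hp1 (by have := hT.hh; omega)
            have h9 : 0 < lam t := hlam.trans_le h6
            nlinarith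
          have h8 : lam y < lam (gmul G p t) := by linarith
          unfold lam at h8
          have h9 := neg_lt_neg_iff.mp h8
          exact (Real.log_lt_log_iff (norm_pos_iff.mpr h5) hypos).mp h9
  have hT1 : ∀ t, t ∈ T 1 ↔ ‖t‖ < 1 ∧ gmul G p t = 0 := by
    intro t
    rw [hT.mem, pow_one]
  obtain ⟨Λ, b, h0Λ, hmemΛ, hprodΛ, hcardΛ, hΛT1, hsurjΛ⟩ :=
    fib A hG (p ^ N) p y hy0 hy1 TA hTA hpt (T 1) hT1
  have hΛlt : Λ.card < p ^ n := by
    refine hΛT1.trans_lt ?_
    rw [hT.card, mul_one]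
    exact Nat.pow_lt_pow_right hp.one_lt hdn
  obtain ⟨alg1, alg2⟩ := alg p n hn (Kap C) (iotar ι) Λ h0Λ hΛlt
  set q : ℕ := p ^ (h * N) with hq
  have hqpos : 0 < q := pow_pos hp.pos _
  -- the normalising constant
  set den : C → C := fun t => if t ∈ TA then y else -t with hden
  have hnotTA : ∀ t ∈ T N, t ∉ TA → ‖y‖ < ‖t‖ := by
    intro t ht htA
    by_contra hcon
    exact htA ((hTAle t).mpr ⟨ht, not_lt.mp hcon⟩)
  have hden0 : ∀ t ∈ T N, den t ≠ 0 := by
    intro t ht
    simp only [hden]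
    split_ifs with h1
    · exact hy0
    · intro h2
      have h3 := hnotTA t ht h1
      rw [neg_eq_zero] at h2
      rw [h2, norm_zero] at h3
      exact absurd h3 (not_lt.mpr (norm_nonneg _))
  set D : C := ∏ t ∈ T N, (den t) ^ q with hD
  have hDne : D ≠ 0 := by
    rw [hD, Finset.prod_ne_zero_iff]
    intro t ht
    exact pow_ne_zero _ (hden0 t ht)
  have hDn : ‖D‖ = Real.exp (-S ((p : ℝ) ^ (n * N) * lam y)) := by
    rw [← hSc.hS N (lam y) hlam hyσ]
    unfold SNf
    rw [Finset.mul_sum, ← Finset.sum_neg_distrib, Real.exp_sum, hD, norm_prod]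
    apply Finset.prod_congr rfl
    intro t ht
    rw [norm_pow]
    have h1 : ‖den t‖ = Real.exp (-(if t = 0 then lam y else min (lam y) (lam t))) := by
      simp only [hden]
      by_cases htA : t ∈ TA
      · rw [if_pos htA, ← exp_lam hy0]
        congr 2
        by_cases ht0 : t = 0
        · rw [if_pos ht0]
        · rw [if_neg ht0]
          rcases (lam_le_iff hy0).mpr ((hTAle t).mp htA).2 with h2 | h2
          · exact absurd h2 ht0
          · rw [min_eq_left h2]
      · have h2 := hnotTA t ht htA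
        have ht0 : t ≠ 0 := by
          rintro rfl
          rw [norm_zero] at h2
          exact absurd h2 (not_lt.mpr (norm_nonneg _))
        rw [if_neg htA, if_neg ht0, norm_neg]
        have h3 : lam t ≤ lam y := by
          unfold lam
          have := Real.log_le_log hypos h2.le
          linarith
        rw [min_eq_right h3, exp_lam ht0]
    rw [h1, ← Real.exp_nat_mul]
    congr 1
    rw [hq]
    push_cast
    ring
  have key : ∀ z c' : C, ‖c'‖ ≤ 1 → ‖z - c' * y‖ < ‖y‖ → ∃ g : C, ‖g‖ ≤ 1 ∧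
      gmul G (p ^ N) z = D * g ∧ res g = (∏ t ∈ TA, (res c' - res (t / y))) ^ q := by
    intro z c' hc' hz
    have hzy : ‖z‖ ≤ ‖y‖ := by
      have h1 : z = (z - c' * y) + c' * y := by ring
      rw [h1]
      refine (IsUltrametricDist.norm_add_le_max _ _).trans (max_le hz.le ?_)
      rw [norm_mul]
      calc ‖c'‖ * ‖y‖ ≤ 1 * ‖y‖ := mul_le_mul_of_nonneg_right hc' hypos.le
        _ = ‖y‖ := one_mul _
    obtain ⟨u, hu, hprod⟩ := hT.prod N z (hzy.trans_lt hy1)
    have hu1 : ‖u‖ ≤ 1 := by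
      have h1 : u = (u - 1) + 1 := by ring
      rw [h1]
      exact (IsUltrametricDist.norm_add_le_max _ _).trans (max_le hu.le (by simp))
    have hresu : res u = 1 := by
      rw [← res_one, res_eq hu1 (by simp)]
      exact hu
    -- each factor
    have hfac : ∀ t ∈ T N, ‖(z - t) / den t‖ ≤ 1 := by
      intro t ht
      rw [norm_div, div_le_one (norm_pos_iff.mpr (hden0 t ht))]
      simp only [hden]
      split_ifs with h1
      · rw [sub_eq_add_neg]
        refine (IsUltrametricDist.norm_add_le_max _ _).trans (max_le hzy ?_)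
        rw [norm_neg]
        exact ((hTAle t).mp h1).2
      · have h2 := hnotTA t ht h1
        rw [sub_eq_add_neg]
        refine (IsUltrametricDist.norm_add_le_max _ _).trans (max_le ?_ le_rfl)
        rw [norm_neg]
        exact hzy.trans h2.le
    have hresfac : ∀ t ∈ T N, res ((z - t) / den t) =
        if (t = 0 ∨ lam y ≤ lam t) then res c' - res (t / y) else 1 := by
      intro t ht
      by_cases h1 : t ∈ TA
      · have h2 := (Finset.mem_filter.mp (hTAdef ▸ h1)).2
        rw [if_pos h2]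
        simp only [hden]
        rw [if_pos h1, sub_div]
        have h3 : ‖t / y‖ ≤ 1 := by
          rw [norm_div, div_le_one hypos]; exact ((hTAle t).mp h1).2
        have h4 : ‖z / y‖ ≤ 1 := by
          rw [norm_div, div_le_one hypos]; exact hzy
        rw [res_sub h4 h3]
        congr 1
        rw [res_eq h4 hc']
        have h5 : z / y - c' = (z - c' * y) / y := by field_simp
        rw [h5, norm_div, div_lt_one hypos]
        exact hz
      · have h2 : ¬ (t = 0 ∨ lam y ≤ lam t) := fun h3 =>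
          h1 (hTAdef ▸ Finset.mem_filter.mpr ⟨ht, h3⟩)
        rw [if_neg h2]
        have h3 := hnotTA t ht h1
        rw [← res_one, res_eq (hfac t ht) (by simp)]
        simp only [hden]
        rw [if_neg h1]
        have ht0 : t ≠ 0 := fun h => h2 (Or.inl h)
        have h5 : (z - t) / (-t) - 1 = -(z / t) := by field_simp; ring
        rw [h5, norm_neg, norm_div, div_lt_one (norm_pos_iff.mpr ht0)]
        exact hzy.trans_lt h3
    refine ⟨u * ∏ t ∈ T N, ((z - t) / den t) ^ q, ?_, ?_, ?_⟩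
    · exact norm_mul_le_one hu1 (norm_prod_le_one _ _ (fun t ht => norm_pow_le_one (hfac t ht) _))
    · rw [hprod, hD, mul_left_comm, ← Finset.prod_mul_distrib]
      congr 1
      apply Finset.prod_congr rfl
      intro t ht
      rw [← mul_pow, mul_div_cancel₀ _ (hden0 t ht)]
    · rw [res_mul hu1 (norm_prod_le_one _ _ (fun t ht => norm_pow_le_one (hfac t ht) _)), hresu,
        one_mul, res_prod _ _ (fun t ht => norm_pow_le_one (hfac t ht) _), hTAdef,
        Finset.prod_filter, ← Finset.prod_pow]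
      apply Finset.prod_congr rfl
      intro t ht
      rw [res_pow (hfac t ht), hresfac t ht]
  have key2 : ∀ ω, ω ≠ 0 → ∃ g : C, ‖g‖ ≤ 1 ∧ gmul G (p ^ N) (Y ω) = D * g ∧
      res g = (∏ l ∈ Λ, (iotar ι ω - l)) ^ (b * q) := by
    intro ω hω
    obtain ⟨g, hg1, hg2, hg3⟩ := key (Y ω) (ι ω) (iota_le ι ω) (hY ω hω)
    refine ⟨g, hg1, hg2, ?_⟩
    rw [hg3, pow_mul]
    congr 1
    exact hprodΛ (fun l => iotar ι ω - l)
  constructor
  · obtain ⟨ω, hω, hωΛ⟩ := alg1
    refine ⟨ω, hω, ?_⟩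
    obtain ⟨g, hg1, hg2, hg3⟩ := key2 ω hω
    have h1 : res g ≠ 0 := by
      rw [hg3]
      apply pow_ne_zero
      rw [Finset.prod_ne_zero_iff]
      intro l hl h2
      rw [sub_eq_zero.mp h2] at hωΛ
      exact hωΛ hl
    have h2 : ‖g‖ = 1 := by
      apply le_antisymm hg1
      by_contra h3
      exact h1 ((res_eq_zero hg1).mpr (not_le.mp h3))
    rw [hg2, norm_mul, h2, mul_one, hDn]
  · intro B hB
    have hbpos : 0 < b := by
      rcases Nat.eq_zero_or_pos b with h1 | h1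
      · exfalso
        rw [h1, mul_zero] at hcardΛ
        have h2 : (0 : C) ∈ TA := (hTA 0).mpr ⟨by simp, A.mul_zero hG _, by simp⟩
        have h3 := Finset.card_pos.mpr ⟨0, h2⟩
        omega
      · exact h1
    have hc := hSc.hc N (lam y) hlam hyσ
    rw [hcnt] at hc
    obtain ⟨e, -, he⟩ : ∃ e, e ≤ d * N ∧ b = p ^ e := by
      apply (Nat.dvd_prime_pow hp).mp
      rw [← hc, ← hcardΛ]
      exact Dvd.intro_left (p ^ c ((p : ℝ) ^ (n * N) * lam y) * Λ.card) (by ring)
    have hbq : b * q = p ^ (e + h * N) := by rw [he, hq, pow_add]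
    -- units
    have hg : ∀ ω, ω ≠ 0 → ∃ g : C, ‖g‖ = 1 ∧ gmul G (p ^ N) (Y ω) = D * g ∧
      res g = (∏ l ∈ Λ, (iotar ι ω - l)) ^ (p ^ (e + h * N)) := by
      intro ω hω
      obtain ⟨g, hg1, hg2, hg3⟩ := key2 ω hω
      refine ⟨g, ?_, hg2, by rw [hg3, hbq]⟩
      have h1 := (hB ω hω).1
      rw [hg2, norm_mul, ← hDn] at h1
      exact (mul_eq_left₀ (norm_ne_zero_iff.mpr hDne)).mp h1
    have hnot : ∀ ω, ω ≠ 0 → iotar ι ω ∉ Λ := by
      intro ω hω hcon
      obtain ⟨g, hg1, hg2, hg3⟩ := hg ω hω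
      have h1 : res g = 0 := by
        rw [hg3, Finset.prod_eq_zero hcon (by simp), zero_pow (pow_pos hp.pos _).ne']
      rw [res_eq_zero hg1.le, hg1] at h1
      exact lt_irrefl _ h1
    obtain ⟨hΛ0, hmod⟩ := alg2 (e + h * N) B hnot (by
      intro ω hω
      obtain ⟨g, hg1, hg2, hg3⟩ := hg ω hω
      obtain ⟨g', hg'1, hg'2, hg'3⟩ := hg 1 one_ne_zero
      have h1 := (hB ω hω).2
      rw [hg2, hg'2, mul_div_mul_left _ _ hDne] at h1
      have hgne : g' ≠ 0 := by
        rintro rfl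
        rw [norm_zero] at hg'1
        exact zero_ne_one hg'1
      have h2 : ‖g / g'‖ ≤ 1 := by rw [norm_div, hg1, hg'1]; simp
      rw [← res_eq h2 (norm_pow_le_one (iota_le ι ω) _), res_pow (iota_le ι ω)] at h1
      have h3 : res g = res (g / g') * res g' := by
        rw [← res_mul h2 hg'1.le, div_mul_cancel₀ _ hgne]
      rw [hg3, h1, hg'3, map_one] at h3
      exact h3.trans (mul_comm _ _))
    constructor
    · -- nonbreak
      have hNB : ∀ s ∈ T N, s ≠ 0 → lam s ≠ lam y := by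
        intro s hs hs0 hl
        have h1 : s ∈ TA := hTAdef ▸ Finset.mem_filter.mpr ⟨hs, Or.inr hl.ge⟩
        have h2 := hmemΛ s h1
        rw [hΛ0, Finset.mem_singleton] at h2
        have h3 : ‖s‖ = ‖y‖ := by rw [← exp_lam hs0, ← exp_lam hy0, hl]
        have h4 : ‖s / y‖ = 1 := by rw [norm_div, h3, div_self hypos.ne']
        rw [res_eq_zero h4.le, h4] at h2
        exact lt_irrefl _ h2
      intro N' hN' t ht ht0 hl
      rcases le_total N N' with hNN | hNN
      · obtain ⟨k, rfl⟩ := Nat.exists_eq_add_of_le hNN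
        obtain ⟨s, hs, hs0, hsl⟩ := down A hp hT hSc N (lam y) hlam hyσ k t ht ht0 (by
          rw [hl, Nat.mul_add, pow_add]
          field_simp)
        exact hNB s hs hs0 hsl
      · obtain ⟨k, hk⟩ := Nat.exists_eq_add_of_le hNN
        have hlpos : 0 < lam t := by rw [hl]; positivity
        obtain ⟨s, hs, hs0, hsl⟩ := up A hp hT hSc N' t ht ht0 hlpos (by rw [hl]; exact hN') k
        rw [← hk] at hs
        apply hNB s hs hs0
        rw [hsl, hl, hk, Nat.mul_add, pow_add]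
        field_simp
    · rw [hΛ0, Finset.card_singleton, one_mul] at hcardΛ
      rw [← hcardΛ, he, ← pow_add] at hc
      have h1 := Nat.pow_right_injective hp.two_le hc
      generalize c ((p : ℝ) ^ (n * N) * lam y) = cc at *
      have h1' : cc + e = d * N := h1
      have h2' : n * N = h * N + d * N := by rw [← hhd, Nat.add_mul]
      have h2 : e + h * N + cc = n * N := by omega
      have h3 : e + h * N + cc ≡ B + cc [MOD n] := Nat.ModEq.add_right _ hmod
      rw [h2] at h3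
      exact (Nat.modEq_zero_iff_dvd).mp (h3.symm.trans (by
        rw [Nat.modEq_zero_iff_dvd]; exact dvd_mul_right _ _))

end Crest.Agent.LT3OMEGA
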