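/- rid 227 (S0351): existence of a derivation not killing a non-`p`-th power. -/
import Crest.Agent.LT3Spec3

set_option autoImplicit false

namespace Crest.Agent.LT3PDER
open Crest.Agent.LT3 Polynomial

variable (p : ℕ) [hp : Fact p.Prime] {K : Type} [Field K] [CharP K p]

/-- maximal subfield containing `K^p` and not `ξ`. -/
theorem exists_max (ξ : K) (hξ : ∀ y : K, y ^ p ≠ ξ) :
    ∃ M : Subfield K, (∀ y : K, y ^ p ∈ M) ∧ ξ ∉ M ∧
      ∀ N : Subfield K, M ≤ N → ξ ∉ N → N = M := by
  have : ExpChar K p := ExpChar.prime Fact.out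
  let S : Set (Subfield K) := {M | (∀ y : K, y ^ p ∈ M) ∧ ξ ∉ M}
  have h0 : (frobenius K p).fieldRange ∈ S := by
    constructor
    · intro y
      exact ⟨y, rfl⟩
    · rintro ⟨y, hy⟩
      exact hξ y hy
  obtain ⟨M, -, hM⟩ := zorn_le_nonempty₀ S (by
    intro c hc hchain y hy
    refine ⟨sSup c, ⟨?_, ?_⟩, fun z hz => le_sSup hz⟩
    · intro z
      exact (le_sSup hy : y ≤ sSup c) ((hc hy).1 z)
    · intro h
      rw [Subfield.mem_sSup_of_directedOn ⟨y, hy⟩ hchain.directedOn] at h
      obtain ⟨N, hN, hξN⟩ := h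
      exact (hc hN).2 hξN) _ h0
  refine ⟨M, hM.1.1, hM.1.2, fun N hMN hN => ?_⟩
  exact le_antisymm (hM.2 ⟨fun y => hMN (hM.1.1 y), hN⟩ hMN) hMN

theorem minpoly_eq (M : Subfield K) (hM : ∀ y : K, y ^ p ∈ M) (y : K) (hy : y ∉ M) :
    minpoly M y = X ^ p - C (⟨y ^ p, hM y⟩ : M) := by
  have : ExpChar K p := ExpChar.prime Fact.out
  symm
  apply minpoly.eq_of_irreducible_of_monic
  · apply X_pow_sub_C_irreducible_of_prime hp.out
    intro b hb
    have h1 : (b : K) ^ p = y ^ p := by
      have := congr_arg (fun z : M => (z : K)) hb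
      simpa using this
    have h2 : (b : K) = y := (frobenius_inj K p) h1
    exact hy (h2 ▸ b.2)
  · simp only [map_sub, map_pow, aeval_X, aeval_C]
    exact sub_self _
  · exact monic_X_pow_sub_C _ hp.out.ne_zero

theorem finrank_adjoin (M : Subfield K) (hM : ∀ y : K, y ^ p ∈ M) (y : K) (hy : y ∉ M) :
    Module.finrank M (IntermediateField.adjoin M {y}) = p := by
  have hint : IsIntegral M y := by
    refine ⟨X ^ p - C (⟨y ^ p, hM y⟩ : M), monic_X_pow_sub_C _ hp.out.ne_zero, ?_⟩
    simp only [eval₂_sub, eval₂_pow, eval₂_X, eval₂_C]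
    exact sub_self _
  rw [IntermediateField.adjoin.finrank hint, minpoly_eq p M hM y hy, natDegree_X_pow_sub_C]

theorem mem_adjoin (ξ : K) (M : Subfield K) (hM : ∀ y : K, y ^ p ∈ M) (hξM : ξ ∉ M)
    (hmax : ∀ N : Subfield K, M ≤ N → ξ ∉ N → N = M) (y : K) :
    y ∈ IntermediateField.adjoin M {ξ} := by
  by_cases hy : y ∈ M
  · exact (IntermediateField.adjoin M {ξ}).algebraMap_mem ⟨y, hy⟩
  · have h1 : ξ ∈ IntermediateField.adjoin M {y} := by
      by_contra hcon
      have h2 : (IntermediateField.adjoin M {y}).toSubfield = M := by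
        apply hmax
        · intro z hz
          exact (IntermediateField.adjoin M {y}).algebraMap_mem ⟨z, hz⟩
        · exact hcon
      have h3 : y ∈ (IntermediateField.adjoin M {y}).toSubfield :=
        IntermediateField.mem_adjoin_simple_self M y
      rw [h2] at h3
      exact hy h3
    have h4 : IntermediateField.adjoin M {ξ} ≤ IntermediateField.adjoin M {y} := by
      rw [IntermediateField.adjoin_simple_le_iff]; exact h1
    have hfin : FiniteDimensional M (IntermediateField.adjoin M {y}) := by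
      apply FiniteDimensional.of_finrank_pos
      rw [finrank_adjoin p M hM y hy]
      exact hp.out.pos
    have h5 : IntermediateField.adjoin M {ξ} = IntermediateField.adjoin M {y} := by
      apply IntermediateField.eq_of_le_of_finrank_eq h4
      rw [finrank_adjoin p M hM y hy, finrank_adjoin p M hM ξ hξM]
    rw [h5]
    exact IntermediateField.mem_adjoin_simple_self M y

theorem exists_poly (ξ : K) (M : Subfield K) (hM : ∀ y : K, y ^ p ∈ M) (hξM : ξ ∉ M)
    (hmax : ∀ N : Subfield K, M ≤ N → ξ ∉ N → N = M) (y : K) :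
    ∃ f : M[X], aeval ξ f = y := by
  have hint : IsAlgebraic M ξ := by
    refine ⟨X ^ p - C (⟨ξ ^ p, hM ξ⟩ : M), X_pow_sub_C_ne_zero hp.out.pos _, ?_⟩
    simp only [map_sub, map_pow, aeval_X, aeval_C]
    exact sub_self _
  have h1 := mem_adjoin p ξ M hM hξM hmax y
  rw [← IntermediateField.mem_toSubalgebra,
    IntermediateField.adjoin_simple_toSubalgebra_of_isAlgebraic hint,
    Algebra.adjoin_singleton_eq_range_aeval] at h1
  exact h1

theorem deriv_wd (ξ : K) (M : Subfield K) (hM : ∀ y : K, y ^ p ∈ M) (hξM : ξ ∉ M)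
    (f g : M[X]) (h : aeval ξ f = aeval ξ g) :
    aeval ξ (derivative f) = aeval ξ (derivative g) := by
  have h1 : aeval ξ (f - g) = 0 := by rw [map_sub, h, sub_self]
  have h2 := minpoly.dvd M ξ h1
  rw [minpoly_eq p M hM ξ hξM] at h2
  obtain ⟨q, hq⟩ := h2
  have h3 : derivative (f - g) = (X ^ p - C (⟨ξ ^ p, hM ξ⟩ : M)) * derivative q := by
    have : CharP M p :=
      (RingHom.charP_iff (algebraMap M K) (algebraMap M K).injective p).mpr inferInstance
    rw [hq, derivative_mul]
    simp [derivative_X_pow]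
  have h4 : aeval ξ (derivative (f - g)) = 0 := by
    rw [h3, map_mul]
    have : aeval ξ (X ^ p - C (⟨ξ ^ p, hM ξ⟩ : M)) = 0 := by
      simp only [map_sub, map_pow, aeval_X, aeval_C]
      exact sub_self _
    rw [this, zero_mul]
  rw [derivative_sub, map_sub] at h4
  exact sub_eq_zero.mp h4

theorem main : Spec3.PDER := by
  intro p hp K _ _ ξ hξ
  obtain ⟨M, hM, hξM, hmax⟩ := exists_max p ξ hξ
  choose P hP using exists_poly p ξ M hM hξM hmax
  refine ⟨fun y => aeval ξ (derivative (P y)), ?_, ?_, ?_⟩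
  · intro f g
    rw [← map_add, ← derivative_add]
    apply deriv_wd p ξ M hM hξM
    rw [hP, map_add, hP, hP]
  · intro f g
    have : aeval ξ (derivative (P (f * g))) = aeval ξ (derivative (P f * P g)) := by
      apply deriv_wd p ξ M hM hξM
      rw [hP, map_mul, hP, hP]
    simp only
    rw [this, derivative_mul, map_add, map_mul, map_mul, hP, hP]
    ring
  · have : aeval ξ (derivative (P ξ)) = aeval ξ (derivative (X : M[X])) := by
      apply deriv_wd p ξ M hM hξM
      rw [hP, aeval_X]
    simp only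
    rw [this, derivative_X, map_one]
    exact one_ne_zero

end Crest.Agent.LT3PDER
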