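import Crest.Agent.LT3Spec4

set_option autoImplicit false
set_option linter.unusedSectionVars false
set_option linter.style.haveILetI false
open Crest.LubinTate
open Crest Crest.GeometryTopology

namespace Crest.Agent.LT3PER

open LT3

section gauss

variable {m : ℕ} {C : Type} [NontriviallyNormedField C] [IsUltrametricDist C]

theorem gb_add {r B : ℝ} (hr : 0 ≤ r) {f g : MvPowerSeries (Fin m) C} (hf : GB r B f)
    (hg : GB r B g) : GB r B (f + g) := by
  intro e
  rw [map_add]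
  have h1 := IsUltrametricDist.norm_add_le_max (MvPowerSeries.coeff e f) (MvPowerSeries.coeff e g)
  calc _ ≤ max ‖MvPowerSeries.coeff e f‖ ‖MvPowerSeries.coeff e g‖ * r ^ (∑ i, e i) :=
        mul_le_mul_of_nonneg_right h1 (pow_nonneg hr _)
    _ = max (‖MvPowerSeries.coeff e f‖ * r ^ (∑ i, e i))
          (‖MvPowerSeries.coeff e g‖ * r ^ (∑ i, e i)) := max_mul_of_nonneg _ _ (pow_nonneg hr _)
    _ ≤ B := max_le (hf e) (hg e)

theorem gb_sum {ι : Type} {r B : ℝ} (hr : 0 ≤ r) (hB : 0 ≤ B) (s : Finset ι)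
    (f : ι → MvPowerSeries (Fin m) C) (hf : ∀ i ∈ s, GB r B (f i)) : GB r B (∑ i ∈ s, f i) := by
  classical
  induction s using Finset.induction_on with
  | empty => intro e; simpa using hB
  | insert a s ha ih =>
    rw [Finset.sum_insert ha]
    exact gb_add hr (hf a (Finset.mem_insert_self _ _))
      (ih (fun i hi => hf i (Finset.mem_insert_of_mem hi)))

theorem gb_mono {r B B' : ℝ} (h : B ≤ B') {f : MvPowerSeries (Fin m) C} (hf : GB r B f) :
    GB r B' f := fun e => (hf e).trans h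

theorem gb_mul {r B B' : ℝ} (hr : 0 < r) (hB : 0 ≤ B) (hB' : 0 ≤ B')
    {f g : MvPowerSeries (Fin m) C} (hf : GB r B f) (hg : GB r B' g) :
    GB r (B * B') (f * g) := by
  classical
  intro e
  rw [MvPowerSeries.coeff_mul, ← le_div_iff₀ (pow_pos hr _)]
  apply IsUltrametricDist.norm_sum_le_of_forall_le_of_nonneg
    (div_nonneg (mul_nonneg hB hB') (pow_nonneg hr.le _))
  intro x hx
  rw [le_div_iff₀ (pow_pos hr _), norm_mul]
  have hxe : x.1 + x.2 = e := Finset.HasAntidiagonal.mem_antidiagonal.1 hx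
  have h1 : r ^ (∑ i, e i) = r ^ (∑ i, x.1 i) * r ^ (∑ i, x.2 i) := by
    rw [← pow_add, ← Finset.sum_add_distrib, ← hxe]
    rfl
  rw [h1]
  calc ‖MvPowerSeries.coeff x.1 f‖ * ‖MvPowerSeries.coeff x.2 g‖ *
        (r ^ (∑ i, x.1 i) * r ^ (∑ i, x.2 i))
      = (‖MvPowerSeries.coeff x.1 f‖ * r ^ (∑ i, x.1 i)) *
        (‖MvPowerSeries.coeff x.2 g‖ * r ^ (∑ i, x.2 i)) := by ring
    _ ≤ B * B' := mul_le_mul (hf _) (hg _)
        (mul_nonneg (norm_nonneg _) (pow_nonneg hr.le _)) hB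

theorem gb_C {r B : ℝ} (c : C) {f : MvPowerSeries (Fin m) C}
    (hf : GB r B f) : GB r (‖c‖ * B) (MvPowerSeries.C c * f) := by
  intro e
  rw [MvPowerSeries.coeff_C_mul, norm_mul, mul_assoc]
  exact mul_le_mul_of_nonneg_left (hf e) (norm_nonneg _)

theorem evm_C_mul (c : C) (f : MvPowerSeries (Fin m) C) (w : Fin m → C) :
    evm (MvPowerSeries.C c * f) w = c * evm f w := by
  unfold evm
  rw [← tsum_mul_left]
  congr 1
  ext e
  rw [MvPowerSeries.coeff_C_mul]
  ring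

end gauss

section witt

variable {p : ℕ} [Fact p.Prime] {n : ℕ}

/-- elements of `W` with zero constant coefficient are divisible by `p`. -/
theorem dvd_of_const (c : WittVector p (GaloisField p n))
    (hc : WittVector.constantCoeff c = 0) : ∃ b : WittVector p (GaloisField p n), c = p * b := by
  by_cases h0 : c = 0
  · exact ⟨0, by rw [h0, mul_zero]⟩
  · obtain ⟨m, b, hb, he⟩ := WittVector.exists_eq_pow_p_mul c h0
    rcases m with _ | m
    · exfalso
      rw [pow_zero, one_mul] at he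
      rw [he] at hc
      exact hb hc
    · exact ⟨(p : WittVector p (GaloisField p n)) ^ m * b, by rw [he, pow_succ]; ring⟩


variable {C : Type} [NontriviallyNormedField C] [IsUltrametricDist C]
  {ι : WittVector p (GaloisField p n) →+* C}

theorem gb_map_one (hι : ∀ c, ‖ι c‖ ≤ 1) {r : ℝ} (hr0 : 0 ≤ r) (hr1 : r ≤ 1) {m : ℕ}
    (f : MvPowerSeries (Fin m) (WittVector p (GaloisField p n))) :
    GB r 1 (MvPowerSeries.map ι f) := by
  intro e
  rw [MvPowerSeries.coeff_map]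
  exact mul_le_one₀ (hι _) (pow_nonneg hr0 _) (pow_le_one₀ hr0 hr1)

theorem gb_mE1 (hι : ∀ c, ‖ι c‖ ≤ 1) {r : ℝ} (hpr : ‖(p : C)‖ ≤ r) (hr1 : r ≤ 1)
    {f : LTRing p n} (hf : f ∈ mE p n) : GB r r (MvPowerSeries.map ι f) := by
  have hr0 : 0 ≤ r := (norm_nonneg _).trans hpr
  intro e
  rw [MvPowerSeries.coeff_map]
  by_cases he : e = 0
  · subst he
    have h1 : WittVector.constantCoeff (MvPowerSeries.coeff 0 f) = 0 := by
      have : LTRing.residue p n f = 0 := hf
      simpa [LTRing.residue] using this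
    obtain ⟨b, hb⟩ := dvd_of_const _ h1
    rw [hb, map_mul, map_natCast, norm_mul]
    simp only [Finsupp.coe_zero, Pi.zero_apply, Finset.sum_const_zero, pow_zero, mul_one]
    exact (mul_le_of_le_one_right (norm_nonneg _) (hι b)).trans hpr
  · have h2 : 1 ≤ ∑ i, e i := by
      by_contra h3
      apply he
      ext i
      have h4 : ∑ i, e i = 0 := by omega
      exact (Finset.sum_eq_zero_iff.1 h4) i (Finset.mem_univ _)
    calc ‖ι (MvPowerSeries.coeff e f)‖ * r ^ (∑ i, e i) ≤ 1 * r ^ 1 :=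
          mul_le_mul (hι _) (pow_le_pow_of_le_one hr0 hr1 h2) (pow_nonneg hr0 _) zero_le_one
      _ = r := by ring

theorem gb_mE (hι : ∀ c, ‖ι c‖ ≤ 1) {r : ℝ} (hr : 0 < r) (hpr : ‖(p : C)‖ ≤ r) (hr1 : r ≤ 1)
    (i : ℕ) : ∀ {f : LTRing p n}, f ∈ (mE p n) ^ i → GB r (r ^ i) (MvPowerSeries.map ι f) := by
  induction i with
  | zero => intro f _; rw [pow_zero]; exact gb_map_one hι hr.le hr1 f
  | succ i ih =>
    intro f hf
    rw [pow_succ] at hf
    refine Submodule.mul_induction_on hf ?_ ?_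
    · intro a ha b hb
      rw [map_mul, pow_succ]
      exact gb_mul hr (pow_nonneg hr.le _) hr.le (ih ha) (gb_mE1 hι hpr hr1 hb)
    · intro a b ha hb
      rw [map_add]
      exact gb_add hr.le ha hb

theorem norm_nat_one (hp : ‖(p : C)‖ < 1) {m : ℕ} (hm : ¬ p ∣ m) : ‖(m : C)‖ = 1 := by
  apply le_antisymm (IsUltrametricDist.norm_natCast_le_one C m)
  have hc : Nat.Coprime p m := (Nat.Prime.coprime_iff_not_dvd Fact.out).2 hm
  have h1 : IsCoprime (p : ℤ) (m : ℤ) := Nat.isCoprime_iff_coprime.2 hc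
  obtain ⟨a, b, hab⟩ := h1
  have h2 : (a : C) * (p : C) + (b : C) * (m : C) = 1 := by exact_mod_cast congrArg (Int.cast (R := C)) hab
  have h3 := IsUltrametricDist.norm_add_le_max ((a : C) * (p : C)) ((b : C) * (m : C))
  rw [h2, norm_one, norm_mul, norm_mul] at h3
  rcases le_max_iff.1 h3 with h4 | h4
  · have := mul_le_of_le_one_left (norm_nonneg (p : C)) (IsUltrametricDist.norm_intCast_le_one C a)
    linarith
  · have := mul_le_of_le_one_left (norm_nonneg (m : C)) (IsUltrametricDist.norm_intCast_le_one C b)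
    linarith

theorem exists_k [CharZero C] (hp : ‖(p : C)‖ < 1) :
    ∃ k : ℕ, ∀ i : ℕ, 1 ≤ i → ‖(i : C)‖⁻¹ ≤ (i : ℝ) ^ k := by
  have hpp : p.Prime := Fact.out
  have hp0 : 0 < ‖(p : C)‖ := norm_pos_iff.2 (by exact_mod_cast hpp.ne_zero)
  obtain ⟨k, hk⟩ := pow_unbounded_of_one_lt (‖(p : C)‖⁻¹)
    (by exact_mod_cast hpp.one_lt : (1 : ℝ) < (p : ℝ))
  refine ⟨k, fun i hi => ?_⟩
  obtain ⟨v, m, hm, he⟩ := Nat.exists_eq_pow_mul_and_not_dvd (by omega : i ≠ 0) p hpp.ne_one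
  have h1 : ‖(i : C)‖ = ‖(p : C)‖ ^ v := by
    rw [he]; push_cast
    rw [norm_mul, norm_pow, norm_nat_one hp hm, mul_one]
  rw [h1, ← inv_pow]
  have h2 : 1 ≤ m := by
    rcases Nat.eq_zero_or_pos m with h | h
    · exact absurd (h ▸ dvd_zero p) hm
    · exact h
  calc (‖(p : C)‖⁻¹) ^ v ≤ ((p : ℝ) ^ k) ^ v := pow_le_pow_left₀ (inv_nonneg.2 hp0.le) hk.le _
    _ = ((p ^ v : ℕ) : ℝ) ^ k := by push_cast; rw [← pow_mul, ← pow_mul, mul_comm]
    _ ≤ (i : ℝ) ^ k := by
        apply pow_le_pow_left₀ (by positivity)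
        rw [he]
        exact_mod_cast Nat.le_mul_of_pos_right _ h2

theorem exists_bound [CharZero C] (hp : ‖(p : C)‖ < 1) {r : ℝ} (hr0 : 0 ≤ r) (hr1 : r < 1) :
    ∃ B : ℝ, 0 < B ∧ ∀ i : ℕ, 1 ≤ i → ‖(i : C)‖⁻¹ * r ^ i ≤ B := by
  obtain ⟨k, hk⟩ := exists_k (p := p) (C := C) hp
  have h1 := tendsto_pow_const_mul_const_pow_of_abs_lt_one k (by rwa [abs_of_nonneg hr0] : |r| < 1)
  obtain ⟨B, hB⟩ := h1.bddAbove_range
  refine ⟨max B 1, lt_max_of_lt_right one_pos, fun i hi => ?_⟩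
  have h2 : (i : ℝ) ^ k * r ^ i ≤ B := hB ⟨i, rfl⟩
  exact ((mul_le_mul_of_nonneg_right (hk i hi) (pow_nonneg hr0 _)).trans h2).trans (le_max_left _ _)

end witt

section ident

theorem zc_const {R : Type} [CommRing R] {f : PowerSeries R} (h : ZC f) :
    PowerSeries.constantCoeff f = 0 := h

/-- coefficient of `f(X^Q)`. -/
theorem coeff_cmp_X_pow {R : Type} [CommRing R] (f : PowerSeries R) {Q : ℕ} (hQ : Q ≠ 0) (m : ℕ) :
    PowerSeries.coeff (Q * m) (cmp f (PowerSeries.X ^ Q : PowerSeries R) : PowerSeries R) =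
      PowerSeries.coeff m f := by
  have h1 : (cmp f (PowerSeries.X ^ Q : PowerSeries R) : PowerSeries R) =
      PowerSeries.expand Q hQ f := (PowerSeries.expand_apply Q hQ f).symm
  rw [h1, PowerSeries.coeff_expand_mul]

theorem coeff_pow_zero_of_lt {R : Type} [CommRing R] {f : PowerSeries R} (hf : ZC f) {i j : ℕ}
    (h : j < i) : PowerSeries.coeff j (f ^ i) = 0 := by
  have h1 : (PowerSeries.X : PowerSeries R) ∣ f := PowerSeries.X_dvd_iff.2 hf
  have h2 : (PowerSeries.X : PowerSeries R) ^ i ∣ f ^ i := pow_dvd_pow_of_dvd h1 i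
  exact PowerSeries.X_pow_dvd_iff.1 h2 j h

/-- coefficients of `f(g)` as a finite sum. -/
theorem coeff_cmp {R : Type} [CommRing R] (f : PowerSeries R) {g : PowerSeries R} (hg : ZC g)
    (j : ℕ) :
    PowerSeries.coeff j (cmp f g : PowerSeries R) =
      ∑ i ∈ Finset.range (j + 1), PowerSeries.coeff i f * PowerSeries.coeff j (g ^ i) := by
  have hs : PowerSeries.HasSubst g := PowerSeries.HasSubst.of_constantCoeff_zero' hg
  have h1 : PowerSeries.coeff j (cmp f g : PowerSeries R) =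
      finsum (fun (d : ℕ) ↦ PowerSeries.coeff d f • PowerSeries.coeff j (g ^ d)) :=
    PowerSeries.coeff_subst' hs f j
  rw [h1, finsum_eq_sum_of_support_subset _ (s := Finset.range (j + 1))]
  · rfl
  · intro i hi
    by_contra hcon
    have h2 : j < i := by simpa using hcon
    apply hi
    simp only
    rw [coeff_pow_zero_of_lt hg h2, smul_zero]

theorem coeff_pow_mem {R : Type} [CommRing R] {I : Ideal R} {f : PowerSeries R} (hf : InI I f)
    (i : ℕ) : ∀ j, PowerSeries.coeff j (f ^ i) ∈ I ^ i := by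
  induction i with
  | zero => intro j; rw [pow_zero I, Ideal.one_eq_top]; trivial
  | succ i ih =>
    intro j
    rw [pow_succ, pow_succ, PowerSeries.coeff_mul]
    apply Ideal.sum_mem
    intro x _
    exact Ideal.mul_mem_mul (ih _) (hf _)

end ident

section core

variable {p : ℕ} [Fact p.Prime] {n : ℕ}

/-- coefficients of the invariant differential. -/
noncomputable def sc (H : FormalGroup (LTRing p n)) (i : ℕ) : LTRing p n :=
  PowerSeries.coeff (i - 1) (om H)

variable {C : Type} [NontriviallyNormedField C] [IsUltrametricDist C]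

/-- coefficients of the logarithm, over `C[[X]]`. -/
noncomputable def aa (ι : WittVector p (GaloisField p n) →+* C) (H : FormalGroup (LTRing p n))
    (i : ℕ) : MvPowerSeries (Fin (n - 1)) C :=
  MvPowerSeries.C ((i : C)⁻¹) * MvPowerSeries.map ι (sc H i)

theorem aa_zero (ι : WittVector p (GaloisField p n) →+* C) (H : FormalGroup (LTRing p n)) :
    aa ι H 0 = 0 := by
  unfold aa
  rw [Nat.cast_zero, inv_zero, map_zero, zero_mul]

theorem aa_map [CharZero C] (hL : Spec4.LOG) (ι : WittVector p (GaloisField p n) →+* C)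
    (H : FormalGroup (LTRing p n)) (K : Type) [Field K] [CharZero K]
    (g : MvPowerSeries (Fin (n - 1)) C →+* K) (i : ℕ) :
    g (aa ι H i) = PowerSeries.coeff i (lg (H.map (g.comp (MvPowerSeries.map ι)))) := by
  unfold aa lg
  rw [PowerSeries.coeff_mk, map_mul, ← hL.1 _ _ (g.comp (MvPowerSeries.map ι)) H,
    PowerSeries.coeff_map, div_eq_mul_inv, mul_comm]
  congr 1
  have : g (MvPowerSeries.C ((i : C)⁻¹)) = (g.comp (MvPowerSeries.C)) ((i : C)⁻¹) := rfl
  rw [this, map_inv₀, map_natCast]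

/-- the main identity -/
theorem core_ident [CharZero C] (hL : Spec4.LOG) (A : ApiA) (B : ApiB) (Cc : ApiC)
    (hn : 1 ≤ n)
    (Γ : FormalGroup (GaloisField p n))
    (H : FormalGroup (LTRing p n)) (hc : H.IsComm)
    (hΓ : mulSeries Γ p = PowerSeries.X ^ (p ^ n)) (hH : H.map (LTRing.residue p n) = Γ)
    (ι : WittVector p (GaloisField p n) →+* C) :
    ∃ δ : PowerSeries (LTRing p n), InI (mE p n) δ ∧ ∀ m : ℕ,
      MvPowerSeries.C (p : C) * aa ι H (p ^ n * m) - aa ι H m =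
        ∑ i ∈ Finset.range (p ^ n * m + 1),
          aa ι H i * MvPowerSeries.map ι (PowerSeries.coeff (p ^ n * m) (δ ^ i)) := by
  have hpp : p.Prime := Fact.out
  have hQ : p ^ n ≠ 0 := pow_ne_zero _ hpp.ne_zero
  have hzX : ZC (PowerSeries.X ^ (p ^ n) : PowerSeries (LTRing p n)) := by
    show PowerSeries.constantCoeff _ = 0
    rw [map_pow, PowerSeries.constantCoeff_X, zero_pow hQ]
  have hzm := Cc.zc_mul H p
  let δ : PowerSeries (LTRing p n) := fsub H (mulSeries H p) (PowerSeries.X ^ (p ^ n))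
  have hδ : InI (mE p n) δ := by
    refine (A.fsub_mem_iff (mE p n) H hzm hzX).2 ?_
    intro e
    show LTRing.residue p n _ = 0
    rw [map_sub, ← MvPowerSeries.coeff_map, ← MvPowerSeries.coeff_map]
    have h1 : MvPowerSeries.map (LTRing.residue p n) (mulSeries H p : PowerSeries (LTRing p n)) =
        (PowerSeries.X ^ (p ^ n) : PowerSeries (GaloisField p n)) := by
      rw [← hΓ, ← hH]
      exact Cc.mul_map (LTRing.residue p n) H p
    have h2 : MvPowerSeries.map (LTRing.residue p n)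
        (PowerSeries.X ^ (p ^ n) : PowerSeries (LTRing p n)) =
        (PowerSeries.X ^ (p ^ n) : PowerSeries (GaloisField p n)) := by
      have := map_pow (PowerSeries.map (LTRing.residue p n)) PowerSeries.X (p ^ n)
      rw [PowerSeries.map_X] at this
      exact this
    rw [h1, h2, sub_self]
  have hzδ : ZC δ := by
    have h3 : ZC (fneg H (PowerSeries.X ^ (p ^ n) : PowerSeries (LTRing p n))) := A.zc_fneg H hzX
    exact A.zc_fadd H hzm h3
  have hsum : fadd H δ (PowerSeries.X ^ (p ^ n) : PowerSeries (LTRing p n)) = mulSeries H p :=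
    A.fsub_fadd H hzm hzX
  refine ⟨δ, hδ, fun m => ?_⟩
  -- pass to the fraction field
  let K := FractionRing (MvPowerSeries (Fin (n - 1)) C)
  haveI : CharZero (MvPowerSeries (Fin (n - 1)) C) :=
    charZero_of_injective_ringHom (f := (MvPowerSeries.C : C →+* MvPowerSeries (Fin (n - 1)) C))
      (MvPowerSeries.C_injective)
  haveI : CharZero K := charZero_of_injective_algebraMap
    (IsFractionRing.injective (MvPowerSeries (Fin (n - 1)) C) K)
  let g : MvPowerSeries (Fin (n - 1)) C →+* K := algebraMap _ K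
  have hginj : Function.Injective g := IsFractionRing.injective _ _
  let ρ : LTRing p n →+* K := g.comp (MvPowerSeries.map ι)
  let HK := H.map ρ
  have hHK : HK.IsComm := B.comm_map ρ H hc
  obtain ⟨-, -, l3, l4⟩ := hL.2 K HK
  have hhom := l4 HK _ (Cc.mul_hom hHK p)
  rw [Cc.coeff_one_mul HK p] at hhom
  have hmulK : mulSeries HK p = fadd HK (MvPowerSeries.map ρ δ)
      (PowerSeries.X ^ (p ^ n) : PowerSeries K) := by
    have h1 := Cc.mul_map ρ H p
    rw [← hsum] at h1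
    have h2 := A.map_fadd ρ H hzδ hzX
    have h3 : MvPowerSeries.map ρ (PowerSeries.X ^ (p ^ n) : PowerSeries (LTRing p n)) =
        (PowerSeries.X ^ (p ^ n) : PowerSeries K) := by
      have := map_pow (PowerSeries.map ρ) PowerSeries.X (p ^ n)
      rw [PowerSeries.map_X] at this
      exact this
    rw [h3] at h2
    rw [← h2]
    exact h1.symm
  have hzK : ZC (PowerSeries.X ^ (p ^ n) : PowerSeries K) := by
    show PowerSeries.constantCoeff _ = 0
    rw [map_pow, PowerSeries.constantCoeff_X, zero_pow hQ]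
  have hzδK : ZC (MvPowerSeries.map ρ δ) := by
    show MvPowerSeries.constantCoeff _ = 0
    rw [MvPowerSeries.constantCoeff_map, hzδ, map_zero]
  have hadd := l3 Unit (MvPowerSeries.map ρ δ) (PowerSeries.X ^ (p ^ n) : PowerSeries K) hzδK hzK
  rw [← hmulK] at hadd
  have hadd' : (PowerSeries.C (p : K) * lg HK : PowerSeries K) =
      (cmp (lg HK) (MvPowerSeries.map ρ δ) : PowerSeries K) +
        (cmp (lg HK) (PowerSeries.X ^ (p ^ n) : PowerSeries K) : PowerSeries K) := by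
    rw [← hhom]; exact hadd
  have hco := congrArg (PowerSeries.coeff (p ^ n * m)) hadd'
  rw [PowerSeries.coeff_C_mul, map_add, coeff_cmp_X_pow _ hQ, coeff_cmp _ hzδK] at hco
  apply hginj
  rw [map_sub, map_mul, aa_map hL ι H K g, aa_map hL ι H K g, map_sum]
  have e1 : g (MvPowerSeries.C (p : C)) = (p : K) := by
    rw [map_natCast, map_natCast]
  rw [e1]
  have e2 : ∀ i ∈ Finset.range (p ^ n * m + 1),
      g (aa ι H i * MvPowerSeries.map ι (PowerSeries.coeff (p ^ n * m) (δ ^ i))) =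
      PowerSeries.coeff i (lg HK) *
        PowerSeries.coeff (p ^ n * m) ((MvPowerSeries.map ρ δ : PowerSeries K) ^ i) := by
    intro i _
    rw [map_mul, aa_map hL ι H K g]
    congr 1
    have h5 : (MvPowerSeries.map ρ δ : PowerSeries K) ^ i = PowerSeries.map ρ (δ ^ i) := by
      rw [map_pow]; rfl
    rw [h5, PowerSeries.coeff_map]
    rfl
  rw [Finset.sum_congr rfl e2]
  linear_combination hco

end core

section final

variable {p : ℕ} [Fact p.Prime] {n : ℕ} {C : Type} [NontriviallyNormedField C]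
  [IsUltrametricDist C]

theorem gb_aa {ι : WittVector p (GaloisField p n) →+* C} (hι : ∀ c, ‖ι c‖ ≤ 1)
    (H : FormalGroup (LTRing p n)) {r : ℝ} (hr0 : 0 ≤ r) (hr1 : r ≤ 1) (i : ℕ) :
    GB r (‖(i : C)‖⁻¹) (aa ι H i) := by
  have h := gb_C ((i : C)⁻¹) (gb_map_one hι hr0 hr1 (sc H i))
  rw [mul_one, norm_inv] at h
  exact h

/-- `g_N = p^N a_{p^{s+nN}}`. -/
noncomputable def gg (ι : WittVector p (GaloisField p n) →+* C) (H : FormalGroup (LTRing p n))
    (s N : ℕ) : MvPowerSeries (Fin (n - 1)) C :=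
  MvPowerSeries.C ((p : C) ^ N) * aa ι H (p ^ (s + n * N))

theorem gb_diff [CharZero C] (hL : Spec4.LOG) (A : ApiA) (B : ApiB) (Cc : ApiC)
    (hn : 1 ≤ n)
    (Γ : FormalGroup (GaloisField p n))
    (H : FormalGroup (LTRing p n)) (hc : H.IsComm)
    (hΓ : mulSeries Γ p = PowerSeries.X ^ (p ^ n)) (hH : H.map (LTRing.residue p n) = Γ)
    (ι : WittVector p (GaloisField p n) →+* C) (hι : ∀ c, ‖ι c‖ ≤ 1)
    {r : ℝ} (hr0 : 0 < r) (hpr : ‖(p : C)‖ ≤ r) (hr1 : r ≤ 1) {B₀ : ℝ} (hB₀ : 0 ≤ B₀)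
    (hB : ∀ i : ℕ, 1 ≤ i → ‖(i : C)‖⁻¹ * r ^ i ≤ B₀) (m : ℕ) :
    GB r B₀ (MvPowerSeries.C (p : C) * aa ι H (p ^ n * m) - aa ι H m) := by
  obtain ⟨δ, hδ, hid⟩ := core_ident hL A B Cc hn Γ H hc hΓ hH ι
  rw [hid m]
  apply gb_sum hr0.le hB₀
  intro i _
  rcases Nat.eq_zero_or_pos i with h | h
  · subst h
    rw [aa_zero, zero_mul]
    intro e
    simpa using hB₀
  · refine gb_mono (hB i h) ?_
    exact gb_mul hr0 (inv_nonneg.2 (norm_nonneg _)) (pow_nonneg hr0.le _) (gb_aa hι H hr0.le hr1 i)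
      (gb_mE hι hr0 hpr hr1 i (coeff_pow_mem hδ i _))

theorem gb_step [CharZero C] (hL : Spec4.LOG) (A : ApiA) (B : ApiB) (Cc : ApiC)
    (hn : 1 ≤ n)
    (Γ : FormalGroup (GaloisField p n))
    (H : FormalGroup (LTRing p n)) (hc : H.IsComm)
    (hΓ : mulSeries Γ p = PowerSeries.X ^ (p ^ n)) (hH : H.map (LTRing.residue p n) = Γ)
    (ι : WittVector p (GaloisField p n) →+* C) (hι : ∀ c, ‖ι c‖ ≤ 1)
    {r : ℝ} (hr0 : 0 < r) (hpr : ‖(p : C)‖ ≤ r) (hr1 : r ≤ 1) {B₀ : ℝ} (hB₀ : 0 ≤ B₀)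
    (hB : ∀ i : ℕ, 1 ≤ i → ‖(i : C)‖⁻¹ * r ^ i ≤ B₀) (s N : ℕ) :
    GB r (B₀ * ‖(p : C)‖ ^ N) (gg ι H s (N + 1) - gg ι H s N) := by
  have h1 : gg ι H s (N + 1) - gg ι H s N = MvPowerSeries.C ((p : C) ^ N) *
      (MvPowerSeries.C (p : C) * aa ι H (p ^ n * p ^ (s + n * N)) - aa ι H (p ^ (s + n * N))) := by
    unfold gg
    have h2 : p ^ (s + n * (N + 1)) = p ^ n * p ^ (s + n * N) := by
      rw [← pow_add]; congr 1; ring
    rw [h2, pow_succ, map_mul]
    ring
  rw [h1]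
  have h3 := gb_C ((p : C) ^ N) (gb_diff hL A B Cc hn Γ H hc hΓ hH ι hι hr0 hpr hr1 hB₀ hB
    (p ^ (s + n * N)))
  rw [norm_pow, mul_comm] at h3
  exact h3

/-- evaluation of `g_N`. -/
theorem evm_gg [CharZero C] (hL : Spec4.LOG) (H : FormalGroup (LTRing p n))
    {ι : WittVector p (GaloisField p n) →+* C} {w : Fin (n - 1) → C} {x : LTRing p n →+* C}
    (hx : IsEvW p n ι w x) (s N : ℕ) :
    (p : C) ^ N * PowerSeries.coeff (p ^ (s + n * N)) (lg (H.map x)) = evm (gg ι H s N) w := by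
  unfold gg aa
  rw [evm_C_mul, evm_C_mul, ← hx.hx]
  congr 1
  unfold lg sc
  rw [PowerSeries.coeff_mk, ← hL.1 _ _ x H, PowerSeries.coeff_map, div_eq_mul_inv, mul_comm]

end final

theorem main (hL : Spec4.LOG) (A : ApiA) (B : ApiB) (Cc : ApiC) (Gb : ApiGB) : Spec4.PER := by
  intro p _ n Γ H hn hc hΓ hH C _ _ _ _ ι hι r hpr hr1
  have hpp : p.Prime := Fact.out
  have hp0 : 0 < ‖(p : C)‖ := norm_pos_iff.2 (by exact_mod_cast hpp.ne_zero)
  have hr0 : 0 < r := lt_of_lt_of_le hp0 hpr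
  have hp1 : ‖(p : C)‖ < 1 := lt_of_le_of_lt hpr hr1
  obtain ⟨B₀, hB₀, hB⟩ := exists_bound (p := p) (C := C) hp1 hr0.le hr1
  have hlim : ∀ s : Fin n, ∃ g' : MvPowerSeries (Fin (n - 1)) C,
      ∀ N, GB r (B₀ * ‖(p : C)‖ ^ N) (g' - gg ι H s.1 N) := fun s =>
    Gb.limit (gg ι H s.1) hr0 hB₀.le hp0.le hp1
      (gb_step hL A B Cc hn Γ H hc hΓ hH ι hι hr0 hpr hr1.le hB₀.le hB s.1)
  choose L hLs using hlim
  let B₁ : ℝ := max B₀ ((‖(p : C)‖⁻¹) ^ n)
  have hgg : ∀ (s : Fin n) (N : ℕ), GB r (‖(p : C) ^ N‖ * ‖((p ^ (s.1 + n * N) : ℕ) : C)‖⁻¹)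
      (gg ι H s.1 N) := fun s N => gb_C _ (gb_aa hι H hr0.le hr1.le _)
  have hLB : ∀ s, GB r B₁ (L s) := by
    intro s
    have h1 : L s = (L s - gg ι H s.1 0) + gg ι H s.1 0 := by ring
    rw [h1]
    apply gb_add hr0.le
    · refine gb_mono ?_ (hLs s 0)
      rw [pow_zero, mul_one]; exact le_max_left _ _
    · refine gb_mono ?_ (hgg s 0)
      refine le_trans ?_ (le_max_right _ _)
      rw [pow_zero, norm_one, one_mul, mul_zero, add_zero, Nat.cast_pow, norm_pow, ← inv_pow]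
      exact pow_le_pow_right₀ ((one_le_inv₀ hp0).2 hp1.le) s.2.le
  refine ⟨B₁, L, lt_max_of_lt_left hB₀, hLB, ?_⟩
  intro w x hx r₀ hr₀ hw s N
  rw [evm_gg hL H hx, norm_sub_rev, ← Gb.sub hr0 hr₀ hw (hLB s) (hgg s N)]
  have hnn : 0 ≤ B₀ * ‖(p : C)‖ ^ N := mul_nonneg hB₀.le (pow_nonneg hp0.le _)
  refine (Gb.bound hr0 hr₀ hw hnn (hLs s N)).trans ?_
  exact mul_le_mul_of_nonneg_right (le_max_left _ _) (pow_nonneg hp0.le _)

end Crest.Agent.LT3PER
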