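/- rid 227 (S0351): API W, evaluation points of `W[[X_0..X_{m-1}]]`. -/
import Crest.Agent.LT3Spec4
import Crest.Agent.LT3RINGE

set_option autoImplicit false
set_option linter.unusedSectionVars false
open Crest.LubinTate

namespace Crest.Agent.LT3PTW
open Crest.Agent.LT3

section

variable {p : ℕ} [Fact p.Prime] {n : ℕ} {m : ℕ}
  {C : Type} [NontriviallyNormedField C] [CompleteSpace C] [IsUltrametricDist C]
  {ι : WittVector p (GaloisField p n) →+* C}

theorem int_map {σ : Type} (hι : ∀ c, ‖ι c‖ ≤ 1)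
    (f : MvPowerSeries σ (WittVector p (GaloisField p n))) :
    Int1 (MvPowerSeries.map ι f) := fun e => by
  rw [MvPowerSeries.coeff_map]; exact hι _

theorem le_one (hE : ApiE) {w : Fin m → C}
    {x : MvPowerSeries (Fin m) (WittVector p (GaloisField p n)) →+* C}
    (hx : IsEvW p n ι w x) (f) : ‖x f‖ ≤ 1 := by
  rw [hx.hx]; exact hE.evm_le_one (int_map hx.hι f) hx.hw

theorem x_C (hE : ApiE) {w : Fin m → C}
    {x : MvPowerSeries (Fin m) (WittVector p (GaloisField p n)) →+* C}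
    (hx : IsEvW p n ι w x) (c) :
    x (MvPowerSeries.C c) = ι c := by
  rw [hx.hx, MvPowerSeries.map_C]; exact hE.evm_C _ _

theorem x_X (hE : ApiE) {w : Fin m → C}
    {x : MvPowerSeries (Fin m) (WittVector p (GaloisField p n)) →+* C}
    (hx : IsEvW p n ι w x) (i) :
    x (MvPowerSeries.X i) = w i := by
  rw [hx.hx, MvPowerSeries.map_X]; exact hE.evm_X _ _

theorem exists_rho (a : ℝ) (ha0 : 0 ≤ a) (ha : a < 1) (w : Fin m → C) (hw : ∀ i, ‖w i‖ < 1)
    (ρ : ℝ) (hρ : a ≤ ρ)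
    (h : ∀ i, ‖w i‖ ≤ ρ) : ∃ r : ℝ, 0 ≤ r ∧ r < 1 ∧ r ≤ ρ ∧ a ≤ r ∧ ∀ i, ‖w i‖ ≤ r := by
  rcases isEmpty_or_nonempty (Fin m) with he | he
  · exact ⟨a, ha0, ha, hρ, le_rfl, fun i => (he.false i).elim⟩
  · obtain ⟨i, hi⟩ := Finite.exists_max (fun i => ‖w i‖)
    exact ⟨max a ‖w i‖, le_max_of_le_left ha0, max_lt ha (hw i), max_le hρ (h i),
      le_max_left _ _, fun j => le_max_of_le_right (hi j)⟩

theorem mem_one' (hE : ApiE) {w : Fin m → C}
    {x : MvPowerSeries (Fin m) (WittVector p (GaloisField p n)) →+* C}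
    (hx : IsEvW p n ι w x) (ρ : ℝ) (hρ : ‖(p : C)‖ ≤ ρ)
    (h : ∀ i, ‖w i‖ ≤ ρ) (f) (hf : MvPowerSeries.constantCoeff f ∈
      Ideal.span {(p : WittVector p (GaloisField p n))}) : ‖x f‖ ≤ ρ := by
  obtain ⟨r, hr0, hr1, hr2, hr3, hr4⟩ := exists_rho ‖(p : C)‖ (norm_nonneg _) hx.hp w hx.hw ρ hρ h
  refine le_trans ?_ hr2
  have hdec : f = MvPowerSeries.C (MvPowerSeries.constantCoeff f) +
      (f - MvPowerSeries.C (MvPowerSeries.constantCoeff f)) := by ring
  rw [hdec, map_add]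
  refine (IsUltrametricDist.norm_add_le_max _ _).trans (max_le ?_ ?_)
  · rw [x_C hE hx]
    obtain ⟨c, hc⟩ := Ideal.mem_span_singleton.mp hf
    rw [hc, map_mul, map_natCast, norm_mul]
    calc ‖(p : C)‖ * ‖ι c‖ ≤ ‖(p : C)‖ * 1 :=
          mul_le_mul_of_nonneg_left (hx.hι c) (norm_nonneg _)
      _ ≤ r := by rw [mul_one]; exact hr3
  · rw [hx.hx]
    refine hE.evm_le_of_zc r hr0 hr1 (int_map hx.hι _) ?_ hr4
    unfold ZC
    rw [MvPowerSeries.constantCoeff_map, map_sub, MvPowerSeries.constantCoeff_C, sub_self, map_zero]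

/-- evaluation as a ring hom -/
noncomputable def evHom (hE : ApiE) (hι : ∀ c, ‖ι c‖ ≤ 1) (w : Fin m → C)
    (hw : ∀ i, ‖w i‖ < 1) :
    MvPowerSeries (Fin m) (WittVector p (GaloisField p n)) →+* C where
  toFun f := evm (MvPowerSeries.map ι f) w
  map_one' := by
    rw [map_one, ← map_one (MvPowerSeries.C : C →+* MvPowerSeries (Fin m) C)]
    exact hE.evm_C 1 w
  map_mul' f g := by rw [map_mul]; exact hE.evm_mul (int_map hι f) (int_map hι g) hw
  map_zero' := by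
    rw [map_zero, ← map_zero (MvPowerSeries.C : C →+* MvPowerSeries (Fin m) C)]
    exact hE.evm_C 0 w
  map_add' f g := by rw [map_add]; exact hE.evm_add (int_map hι f) (int_map hι g) hw

theorem evHom_isEvW (hE : ApiE) (hp : ‖(p : C)‖ < 1) (hι : ∀ c, ‖ι c‖ ≤ 1) (w : Fin m → C)
    (hw : ∀ i, ‖w i‖ < 1) :
    IsEvW p n ι w (evHom hE hι w hw) := ⟨hp, hι, hw, fun _ => rfl⟩

theorem pderiv_map (i : Fin m) (f : MvPowerSeries (Fin m) (WittVector p (GaloisField p n))) :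
    MvPowerSeries.pderiv C i (MvPowerSeries.map ι f) =
      MvPowerSeries.map ι (MvPowerSeries.pderiv _ i f) := by
  ext e
  rw [MvPowerSeries.coeff_pderiv, MvPowerSeries.coeff_map, MvPowerSeries.coeff_map,
    MvPowerSeries.coeff_pderiv, map_mul, map_add, map_natCast, map_one]

theorem taylor (hE : ApiE) {w w' : Fin m → C}
    {x x' : MvPowerSeries (Fin m) (WittVector p (GaloisField p n)) →+* C}
    (hx : IsEvW p n ι w x) (hx' : IsEvW p n ι w' x') (ε : ℝ)
    (hε : 0 ≤ ε) (h : ∀ i, ‖w' i - w i‖ ≤ ε) (f) :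
    ‖x' f - x f - ∑ i, x (MvPowerSeries.pderiv _ i f) * (w' i - w i)‖ ≤ ε ^ 2 := by
  have := hE.evm_taylor ε hε (int_map hx.hι f) hx.hw hx'.hw h
  rw [hx'.hx, hx.hx]
  convert this using 5 with i
  rw [hx.hx, pderiv_map]

end

section

variable {p : ℕ} [Fact p.Prime] {n : ℕ}
  {C : Type} [NontriviallyNormedField C] [CompleteSpace C] [IsUltrametricDist C]
  {ι : WittVector p (GaloisField p n) →+* C}

theorem mem_one (hE : ApiE) {w : Fin (n - 1) → C}
    {x : LTRing p n →+* C}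
    (hx : IsEvW p n ι w x) (ρ : ℝ) (hρ : ‖(p : C)‖ ≤ ρ)
    (h : ∀ i, ‖w i‖ ≤ ρ) (f) (hf : f ∈ mE p n) : ‖x f‖ ≤ ρ :=
  mem_one' hE hx ρ hρ h f ((LT3RINGE.mem_mE p n f).mp hf)

theorem mem_pow (hE : ApiE) {w : Fin (n - 1) → C}
    {x : LTRing p n →+* C} (hx : IsEvW p n ι w x) (ρ : ℝ) (hρ0 : 0 ≤ ρ) (hρ : ‖(p : C)‖ ≤ ρ)
    (h : ∀ i, ‖w i‖ ≤ ρ) (j : ℕ) : ∀ f, f ∈ (mE p n) ^ j → ‖x f‖ ≤ ρ ^ j := by
  induction j with
  | zero => intro f _; rw [pow_zero]; exact le_one hE hx f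
  | succ j ih =>
    intro f hf
    rw [pow_succ] at hf
    refine Submodule.mul_induction_on hf ?_ ?_
    · intro a ha b hb
      rw [map_mul, norm_mul, pow_succ]
      exact mul_le_mul (ih a ha) (mem_one hE hx ρ hρ h b hb) (norm_nonneg _) (pow_nonneg hρ0 j)
    · intro a b ha hb
      rw [map_add]
      exact (IsUltrametricDist.norm_add_le_max _ _).trans (max_le ha hb)

theorem mem_mE_pow (j : ℕ) (f : LTRing p n)
    (h : ∀ e : Fin (n - 1) →₀ ℕ, e.degree < j → MvPowerSeries.coeff e f = 0) :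
    f ∈ (mE p n) ^ j := by
  rw [LT3RINGE.mE_eq]
  refine LT3RINGE.DD_le_pow _ j fun e => ?_
  rcases Nat.lt_or_ge e.degree j with h1 | h1
  · rw [h e h1]; exact Ideal.zero_mem _
  · rw [Nat.sub_eq_zero_of_le h1, pow_zero, Ideal.one_eq_top]; trivial

theorem comp (hE : ApiE) {w : Fin (n - 1) → C}
    {x : LTRing p n →+* C} (hx : IsEvW p n ι w x)
    (φ : LTRing p n →ₐ[WittVector p (GaloisField p n)] LTRing p n)
    (h2 : ∀ f, f ∈ mE p n → φ f ∈ mE p n) :
    IsEvW p n ι (fun i => x (φ (MvPowerSeries.X i))) (x.comp φ.toRingHom) := by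
  obtain ⟨r, hr0, hr1, -, hr3, hr4⟩ := exists_rho ‖(p : C)‖ (norm_nonneg _) hx.hp w hx.hw 1
    hx.hp.le (fun i => (hx.hw i).le)
  have hXm : ∀ i, (MvPowerSeries.X i : LTRing p n) ∈ mE p n := fun i => by
    rw [LT3RINGE.mem_mE]; simp
  have hr5 : ∀ i, ‖x (φ (MvPowerSeries.X i))‖ ≤ r := fun i =>
    mem_one hE hx r hr3 hr4 _ (h2 _ (hXm i))
  have hw' : ∀ i, ‖x (φ (MvPowerSeries.X i))‖ < 1 := fun i => (hr5 i).trans_lt hr1
  refine ⟨hx.hp, hx.hι, hw', fun f => ?_⟩
  set x' := evHom hE hx.hι (fun i => x (φ (MvPowerSeries.X i))) hw' with hx'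
  have hx'' : IsEvW p n ι _ x' := evHom_isEvW hE hx.hp hx.hι _ hw'
  have h1 : ∀ c, φ (MvPowerSeries.C c) = MvPowerSeries.C c := fun c => by
    have := φ.commutes c
    rwa [MvPowerSeries.algebraMap_apply, Algebra.algebraMap_self, RingHom.id_apply] at this
  change (x.comp φ.toRingHom) f = x' f
  have hpoly : ∀ P : MvPolynomial (Fin (n - 1)) (WittVector p (GaloisField p n)),
      (x.comp φ.toRingHom) (P : MvPowerSeries (Fin (n - 1)) (WittVector p (GaloisField p n))) =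
        x' (P : MvPowerSeries (Fin (n - 1)) (WittVector p (GaloisField p n))) := by
    intro P
    have : (x.comp φ.toRingHom).comp (MvPolynomial.coeToMvPowerSeries.ringHom) =
        x'.comp (MvPolynomial.coeToMvPowerSeries.ringHom) := by
      refine MvPolynomial.ringHom_ext ?_ ?_
      · intro c
        simp only [RingHom.comp_apply, MvPolynomial.coeToMvPowerSeries.ringHom_apply,
          MvPolynomial.coe_C, AlgHom.toRingHom_eq_coe, RingHom.coe_coe]
        rw [h1, x_C hE hx, x_C hE hx'']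
      · intro i
        simp only [RingHom.comp_apply, MvPolynomial.coeToMvPowerSeries.ringHom_apply,
          MvPolynomial.coe_X, AlgHom.toRingHom_eq_coe, RingHom.coe_coe]
        rw [x_X hE hx'']
    exact DFunLike.congr_fun this P
  have key : ∀ j : ℕ, ‖(x.comp φ.toRingHom) f - x' f‖ ≤ r ^ j := by
    intro j
    set P := MvPowerSeries.truncTotal j f with hP
    have hg : f - (P : LTRing p n) ∈ (mE p n) ^ j := by
      refine mem_mE_pow j _ fun e he => ?_
      rw [map_sub, MvPolynomial.coeff_coe, hP, MvPowerSeries.coeff_truncTotal _ he, sub_self]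
    have e1 : (x.comp φ.toRingHom) f - x' f = (x.comp φ.toRingHom) (f - (P : LTRing p n)) -
        x' (f - (P : LTRing p n)) := by
      rw [map_sub, map_sub, hpoly P]; ring
    rw [e1]
    have hφ : φ.toRingHom (f - (P : LTRing p n)) ∈ (mE p n) ^ j := by
      have h3 : (mE p n).map φ.toRingHom ≤ mE p n := Ideal.map_le_iff_le_comap.mpr h2
      have h4 := Ideal.mem_map_of_mem φ.toRingHom hg
      rw [Ideal.map_pow] at h4
      exact Ideal.pow_right_mono h3 j h4
    have b1 := mem_pow hE hx r hr0 hr3 hr4 j _ hφ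
    have b2 := mem_pow hE hx'' r hr0 hr3 hr5 j _ hg
    rw [sub_eq_add_neg]
    refine (IsUltrametricDist.norm_add_le_max _ _).trans (max_le b1 ?_)
    rwa [norm_neg]
  have h5 : Filter.Tendsto (fun j : ℕ => r ^ j) Filter.atTop (nhds 0) :=
    tendsto_pow_atTop_nhds_zero_of_lt_one hr0 hr1
  have h6 : ‖(x.comp φ.toRingHom) f - x' f‖ ≤ 0 := ge_of_tendsto' h5 key
  exact sub_eq_zero.mp (norm_le_zero_iff.mp h6)

theorem comm_map {R S : Type} [CommRing R] [CommRing S] (r : R →+* S) (F : FormalGroup R)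
    (hF : F.IsComm) : (F.map r).IsComm := by
  constructor
  have h1 := hF.comm
  have h2 := congrArg (MvPowerSeries.map r) h1
  rw [MvPowerSeries.map_subst MvPowerSeries.HasSubst.X_X] at h2
  have h3 : (F.map r).toPowerSeries = MvPowerSeries.map r F.toPowerSeries := rfl
  rw [h3]
  conv_lhs => rw [h2]
  congr 1
  funext s
  fin_cases s <;> simp

theorem ig (hE : ApiE) {w : Fin (n - 1) → C}
    {x : LTRing p n →+* C} (hx : IsEvW p n ι w x)
    (F : FormalGroup (LTRing p n)) (hF : F.IsComm) : IG (F.map x) := by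
  refine ⟨comm_map x F hF, fun e => ?_⟩
  have h3 : (F.map x).toPowerSeries = MvPowerSeries.map x F.toPowerSeries := rfl
  rw [h3, MvPowerSeries.coeff_map]
  exact le_one hE hx _

end

theorem main (hE : ApiE) : ApiW where
  le_one := fun _ _ _ _ _ _ _ _ _ _ _ hx f => le_one hE hx f
  x_X := fun _ _ _ _ _ _ _ _ _ _ _ hx i => x_X hE hx i
  x_C := fun _ _ _ _ _ _ _ _ _ _ _ hx c => x_C hE hx c
  mem_pow := fun _ _ _ _ _ _ _ _ _ _ hx r hr0 hp h j f hf => mem_pow hE hx r hr0 hp h j f hf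
  comp := fun _ _ _ _ _ _ _ _ _ _ hx φ h2 => comp hE hx φ h2
  taylor := fun _ _ _ _ _ _ _ _ _ _ _ _ hx hx' ε hε h f => taylor hE hx hx' ε hε h f
  ig := fun _ _ _ _ _ _ _ _ _ _ hx H hH => ig hE hx H hH

end Crest.Agent.LT3PTW
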