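/- rid 227 (S0351), module RATIO: size and leading term of `[p^N] y`. -/
import Crest.Agent.LT3Spec3

set_option autoImplicit false
set_option linter.unusedSectionVars false
open Crest.LubinTate
open Crest Crest.GeometryTopology

namespace Crest.Agent.LT3RATIO
open LT3

section
variable {C : Type} [NontriviallyNormedField C] [IsUltrametricDist C]

lemma norm_add_lt' {a b : C} {ε : ℝ} (ha : ‖a‖ < ε) (hb : ‖b‖ < ε) : ‖a + b‖ < ε :=
  (IsUltrametricDist.norm_add_le_max a b).trans_lt (max_lt ha hb)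

lemma norm_sub_lt' {a b : C} {ε : ℝ} (ha : ‖a‖ < ε) (hb : ‖b‖ < ε) : ‖a - b‖ < ε := by
  rw [sub_eq_add_neg]; exact norm_add_lt' ha (by rwa [norm_neg])

lemma norm_mul_lt_one {a b : C} (ha : ‖a‖ < 1) (hb : ‖b‖ ≤ 1) : ‖a * b‖ < 1 := by
  rw [norm_mul]
  calc ‖a‖ * ‖b‖ ≤ ‖a‖ * 1 := mul_le_mul_of_nonneg_left hb (norm_nonneg _)
    _ < 1 := by rwa [mul_one]

/-- `‖a - b‖ < ‖b‖` implies `‖a‖ = ‖b‖`. -/
lemma norm_eq_of_sub_lt {a b : C} (h : ‖a - b‖ < ‖b‖) : ‖a‖ = ‖b‖ := by
  have h1 : ‖(a - b) + b‖ = max ‖a - b‖ ‖b‖ :=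
    IsUltrametricDist.norm_add_eq_max_of_norm_ne_norm h.ne
  rw [sub_add_cancel, max_eq_right h.le] at h1
  exact h1

lemma norm_sub_eq_max {a b : C} (h : ‖a‖ ≠ ‖b‖) : ‖a - b‖ = max ‖a‖ ‖b‖ := by
  rw [sub_eq_add_neg, ← norm_neg b]
  exact IsUltrametricDist.norm_add_eq_max_of_norm_ne_norm (by rwa [norm_neg])

lemma mul_close {a a' b b' : C} (ha : ‖a‖ ≤ 1) (hb' : ‖b'‖ ≤ 1) (h : ‖a - a'‖ < 1)
    (h' : ‖b - b'‖ < 1) : ‖a * b - a' * b'‖ < 1 := by
  have e : a * b - a' * b' = (b - b') * a + (a - a') * b' := by ring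
  rw [e]
  exact norm_add_lt' (norm_mul_lt_one h' ha) (norm_mul_lt_one h hb')

lemma prod_close {ι : Type} (s : Finset ι) (a b : ι → C) (ha : ∀ i ∈ s, ‖a i‖ ≤ 1)
    (hb : ∀ i ∈ s, ‖b i‖ ≤ 1) (h : ∀ i ∈ s, ‖a i - b i‖ < 1) :
    ‖∏ i ∈ s, a i - ∏ i ∈ s, b i‖ < 1 := by
  classical
  induction s using Finset.induction_on with
  | empty => simp
  | insert k s hk ih =>
    rw [Finset.prod_insert hk, Finset.prod_insert hk]
    refine mul_close (ha k (Finset.mem_insert_self _ _)) ?_ (h k (Finset.mem_insert_self _ _))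
      (ih (fun i hi => ha i (Finset.mem_insert_of_mem hi))
        (fun i hi => hb i (Finset.mem_insert_of_mem hi))
        (fun i hi => h i (Finset.mem_insert_of_mem hi)))
    rw [norm_prod]
    exact Finset.prod_le_one (fun _ _ => norm_nonneg _)
      (fun i hi => hb i (Finset.mem_insert_of_mem hi))

lemma pow_close {a b : C} (ha : ‖a‖ ≤ 1) (hb : ‖b‖ ≤ 1) (h : ‖a - b‖ < 1) (n : ℕ) :
    ‖a ^ n - b ^ n‖ < 1 := by
  induction n with
  | zero => simp
  | succ n ih =>
    rw [pow_succ, pow_succ]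
    refine mul_close ?_ hb ih h
    rw [norm_pow]; exact pow_le_one₀ (norm_nonneg _) ha

lemma norm_eq_exp {z : C} (hz : z ≠ 0) : ‖z‖ = Real.exp (-lam z) := by
  unfold lam
  rw [neg_neg, Real.exp_log (norm_pos_iff.mpr hz)]

lemma lam_pos {z : C} (hz : z ≠ 0) (h : ‖z‖ < 1) : 0 < lam z := by
  unfold lam
  rw [neg_pos]
  exact Real.log_neg (norm_pos_iff.mpr hz) h

lemma lam_lt_lam {z z' : C} (hz : z ≠ 0) (hz' : z' ≠ 0) : lam z < lam z' ↔ ‖z'‖ < ‖z‖ := by
  unfold lam
  rw [neg_lt_neg_iff]
  exact Real.log_lt_log_iff (norm_pos_iff.mpr hz') (norm_pos_iff.mpr hz)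

lemma norm_eq_of_lam_eq {z z' : C} (hz : z ≠ 0) (hz' : z' ≠ 0) (h : lam z = lam z') :
    ‖z‖ = ‖z'‖ := by
  rw [norm_eq_exp hz, norm_eq_exp hz', h]

end

theorem main : Spec3.RATIO := by
  classical
  intro p _ n h d C _ _ _ _ _ G w0 T σ S c V₀ hn ts sc N y hy hy1 hyσ
  have hlpos : 0 < lam y := lam_pos hy hy1
  -- the function `m_t`
  set mt : C → ℝ := fun t => if t = 0 then lam y else min (lam y) (lam t) with hmt
  have hS : ((p : ℝ) ^ (h * N) * ∑ t ∈ T N, mt t) = S ((p : ℝ) ^ (n * N) * lam y) := by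
    rw [← sc.hS N (lam y) hlpos hyσ, SNf]
  have hexp : ∏ t ∈ T N, (Real.exp (-(mt t))) ^ (p ^ (h * N)) =
      Real.exp (-S ((p : ℝ) ^ (n * N) * lam y)) := by
    rw [← hS, Finset.prod_pow, ← Real.exp_sum, ← Real.exp_nat_mul]
    congr 1
    rw [Finset.sum_neg_distrib]
    push_cast
    ring
  -- norms of `z - t` for a point `z` with `lam z = lam y`
  have hle : ∀ z : C, z ≠ 0 → lam z = lam y → ∀ t : C, ‖z - t‖ ≤ Real.exp (-(mt t)) := by
    intro z hz hzy t
    simp only [hmt]
    split_ifs with ht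
    · rw [ht, sub_zero, norm_eq_exp hz, hzy]
    · have h1 : ‖z - t‖ ≤ max ‖z‖ ‖t‖ := by
        rw [sub_eq_add_neg, ← norm_neg t]
        exact IsUltrametricDist.norm_add_le_max _ _
      refine h1.trans ?_
      rw [norm_eq_exp hz, norm_eq_exp ht, hzy]
      refine max_le (Real.exp_le_exp.mpr (neg_le_neg (min_le_left _ _)))
        (Real.exp_le_exp.mpr (neg_le_neg (min_le_right _ _)))
  obtain ⟨u, hu, hprod⟩ := ts.prod N y hy1
  have hunorm : ∀ u : C, ‖u - 1‖ < 1 → ‖u‖ = 1 := fun u hu => by
    have := norm_eq_of_sub_lt (a := u) (b := 1) (by rwa [norm_one])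
    rwa [norm_one] at this
  have hnorm : ‖gmul G (p ^ N) y‖ = ∏ t ∈ T N, ‖y - t‖ ^ (p ^ (h * N)) := by
    rw [hprod, norm_mul, hunorm u hu, one_mul, norm_prod]
    exact Finset.prod_congr rfl fun t _ => norm_pow _ _
  refine ⟨?_, ?_⟩
  · rw [hnorm, ← hexp]
    exact Finset.prod_le_prod (fun t _ => pow_nonneg (norm_nonneg _) _)
      (fun t _ => pow_le_pow_left₀ (norm_nonneg _) (hle y hy rfl t) _)
  · intro hNB
    have hppos : (0 : ℝ) < (p : ℝ) ^ (n * N) := by
      have : 0 < p := (Fact.out : p.Prime).pos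
      positivity
    have hne : ∀ t ∈ T N, t ≠ 0 → lam t ≠ lam y := by
      intro t ht ht0
      have h1 : (p : ℝ) ^ (n * N) * lam y / (p : ℝ) ^ (n * N) = lam y := by
        field_simp
      have := hNB N (by rw [h1]; exact hyσ) t ht ht0
      rwa [h1] at this
    have hnne : ∀ z : C, z ≠ 0 → lam z = lam y → ∀ t ∈ T N, t ≠ 0 → ‖z‖ ≠ ‖t‖ := by
      intro z hz hzy t ht ht0 heq
      apply hne t ht ht0
      rw [← hzy]
      unfold lam
      rw [heq]
    have heq : ∀ z : C, z ≠ 0 → lam z = lam y → ∀ t ∈ T N,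
        ‖z - t‖ = Real.exp (-(mt t)) := by
      intro z hz hzy t ht
      simp only [hmt]
      split_ifs with ht0
      · rw [ht0, sub_zero, norm_eq_exp hz, hzy]
      · rw [norm_sub_eq_max (hnne z hz hzy t ht ht0), norm_eq_exp hz, norm_eq_exp ht0, hzy]
        rcases le_total (lam y) (lam t) with hh | hh
        · rw [min_eq_left hh, max_eq_left (Real.exp_le_exp.mpr (neg_le_neg hh))]
        · rw [min_eq_right hh, max_eq_right (Real.exp_le_exp.mpr (neg_le_neg hh))]
    refine ⟨?_, ?_⟩
    · rw [hnorm, ← hexp]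
      exact Finset.prod_congr rfl fun t ht => by rw [heq y hy rfl t ht]
    · intro y' hy' hyy
      have hyn : ‖y'‖ = ‖y‖ := norm_eq_of_lam_eq hy' hy hyy
      obtain ⟨u', hu', hprod'⟩ := ts.prod N y' (hyn ▸ hy1)
      have hyt : ∀ t ∈ T N, y - t ≠ 0 := by
        intro t ht
        rw [← norm_pos_iff, heq y hy rfl t ht]
        exact Real.exp_pos _
      have hu0 : u ≠ 0 := by
        rw [← norm_pos_iff, hunorm u hu]; exact one_pos
      have e1 : gmul G (p ^ N) y' / gmul G (p ^ N) y =
          (u' / u) * ∏ t ∈ T N, ((y' - t) / (y - t)) ^ (p ^ (h * N)) := by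
        rw [hprod, hprod', mul_div_mul_comm, ← Finset.prod_div_distrib]
        congr 1
        exact Finset.prod_congr rfl fun t _ => (div_pow _ _ _).symm
      have e2 : (y' / y) ^ (p ^ (h * N) * cntf T N (lam y)) =
          1 * ∏ t ∈ T N, (if (t = 0 ∨ lam y ≤ lam t) then y' / y else 1) ^ (p ^ (h * N)) := by
        rw [one_mul, Finset.prod_pow, Finset.prod_ite, Finset.prod_const, Finset.prod_const_one,
          mul_one, cntf, ← pow_mul, mul_comm]
      rw [e1, e2]
      have hratio : ‖y' / y‖ = 1 := by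
        rw [norm_div, hyn, div_self (norm_pos_iff.mpr hy).ne']
      have ha1 : ∀ t ∈ T N, ‖(y' - t) / (y - t)‖ ≤ 1 := by
        intro t ht
        rw [norm_div, heq y hy rfl t ht, heq y' hy' hyy t ht, div_self (Real.exp_pos _).ne']
      refine mul_close (by rw [norm_div, hunorm u hu, hunorm u' hu', div_one]) ?_ ?_ ?_
      · rw [norm_prod]
        refine Finset.prod_le_one (fun _ _ => norm_nonneg _) fun t _ => ?_
        rw [norm_pow]
        refine pow_le_one₀ (norm_nonneg _) ?_
        split_ifs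
        · exact hratio.le
        · rw [norm_one]
      · have : u' / u - 1 = ((u' - 1) - (u - 1)) / u := by
          field_simp
          ring
        rw [this, norm_div, hunorm u hu, div_one]
        exact norm_sub_lt' hu' hu
      · refine prod_close _ _ _ ?_ ?_ ?_
        · intro t ht
          rw [norm_pow]
          exact pow_le_one₀ (norm_nonneg _) (ha1 t ht)
        · intro t ht
          rw [norm_pow]
          refine pow_le_one₀ (norm_nonneg _) ?_
          split_ifs
          · exact hratio.le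
          · rw [norm_one]
        · intro t ht
          refine pow_close (ha1 t ht) ?_ ?_ _
          · split_ifs
            · exact hratio.le
            · rw [norm_one]
          · split_ifs with hc
            · -- `t = 0` or `‖t‖ < ‖y‖`
              rcases eq_or_ne t 0 with ht0 | ht0
              · simp [ht0]
              have hlt : lam y < lam t := by
                rcases hc with h0 | h0
                · exact absurd h0 ht0
                · exact lt_of_le_of_ne h0 (fun hh => hne t ht ht0 hh.symm)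
              have hlt' : ‖t‖ < ‖y‖ := (lam_lt_lam hy ht0).mp hlt
              have hyt' : ‖y - t‖ = ‖y‖ := by
                rw [norm_sub_eq_max (fun hh => hlt'.ne' hh), max_eq_left hlt'.le]
              have e3 : (y' - t) / (y - t) - y' / y = t * (y' - y) / ((y - t) * y) := by
                have := hyt t ht
                field_simp
                ring
              rw [e3, norm_div, norm_mul, norm_mul, hyt']
              have hd : ‖y' - y‖ ≤ ‖y‖ := by
                have h1 : ‖y' - y‖ ≤ max ‖y'‖ ‖y‖ := by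
                  rw [sub_eq_add_neg, ← norm_neg y]
                  exact IsUltrametricDist.norm_add_le_max _ _
                rwa [hyn, max_self] at h1
              have hypos : 0 < ‖y‖ := norm_pos_iff.mpr hy
              rw [div_lt_one (mul_pos hypos hypos)]
              calc ‖t‖ * ‖y' - y‖ ≤ ‖t‖ * ‖y‖ :=
                    mul_le_mul_of_nonneg_left hd (norm_nonneg _)
                _ < ‖y‖ * ‖y‖ := mul_lt_mul_of_pos_right hlt' hypos
            · -- `‖y‖ < ‖t‖`
              push Not at hc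
              obtain ⟨ht0, hlt⟩ := hc
              have hlt' : ‖y‖ < ‖t‖ := (lam_lt_lam ht0 hy).mp hlt
              have hyt' : ‖y - t‖ = ‖t‖ := by
                rw [norm_sub_eq_max (fun hh => hlt'.ne hh), max_eq_right hlt'.le]
              have e3 : (y' - t) / (y - t) - 1 = (y' - y) / (y - t) := by
                have := hyt t ht
                field_simp
                ring
              rw [e3, norm_div, hyt', div_lt_one (norm_pos_iff.mpr ht0)]
              have h1 : ‖y' - y‖ ≤ max ‖y'‖ ‖y‖ := by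
                rw [sub_eq_add_neg, ← norm_neg y]
                exact IsUltrametricDist.norm_add_le_max _ _
              rw [hyn, max_self] at h1
              exact h1.trans_lt hlt'

end Crest.Agent.LT3RATIO
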