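/- rid 227 (S0351): module REAL1 (arithmetic contradiction). -/
import Crest.Agent.LT3Spec3
import Crest.Agent.LT3ASYM

set_option autoImplicit false

namespace Crest.Agent.LT3REAL1

open Crest.Agent.LT3ASYM

theorem main : LT3.Spec3.REAL1 := by
  intro p hp n h d C _ _ _ _ _ G w0 T σ S c V₀ hn hh hd hsc V v i A K₁ hV hVv hA hyp
  have g := gr_of_scale p n h d C G w0 T σ S c V₀ hn hh hsc
  have hp1 : (1 : ℝ) < p := by exact_mod_cast hp.out.one_lt
  have hp0 : (0 : ℝ) < p := by linarith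
  set ℓ := LT3.lam w0 with hℓ
  set Q : ℝ := (p : ℝ) ^ n with hQ
  set q : ℝ := (p : ℝ) ^ h with hq
  have hQ0 : 0 < Q := by positivity
  have hq0 : 0 < q := by positivity
  have key : ∀ (m K : ℕ) (a : ℝ), (p : ℝ) ^ (m + n * K) * a = Q ^ K * ((p : ℝ) ^ m * a) := by
    intro m K a
    rw [pow_add, pow_mul]
    ring
  -- pigeonhole
  obtain ⟨m, hm⟩ : ∃ m : ℕ, ∀ K₂ : ℕ, ∃ K, K₂ ≤ K ∧
      (Real.exp (-S ((p : ℝ) ^ (m + n * K) * v)) =
          A * Real.exp (-((p : ℝ) ^ i * S ((p : ℝ) ^ (m + n * K) * V))) ∧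
        (n : ℤ) ∣ (i : ℤ) + c ((p : ℝ) ^ (m + n * K) * v) -
          c ((p : ℝ) ^ (m + n * K) * V)) := by
    by_contra hcon
    push Not at hcon
    obtain ⟨K₃, h3⟩ := unif n (fun m K => ¬ (Real.exp (-S ((p : ℝ) ^ (m + n * K) * v)) =
          A * Real.exp (-((p : ℝ) ^ i * S ((p : ℝ) ^ (m + n * K) * V))) ∧
        (n : ℤ) ∣ (i : ℤ) + c ((p : ℝ) ^ (m + n * K) * v) -
          c ((p : ℝ) ^ (m + n * K) * V))) (fun m _ => by
        obtain ⟨K₂, h2⟩ := hcon m
        exact ⟨K₂, fun K hK hP => h2 K hK hP.1 hP.2⟩)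
    obtain ⟨m, _, hmn, hP⟩ := hyp (max K₁ K₃) (le_max_left _ _)
    exact h3 _ (le_max_right _ _) m hmn hP
  set a : ℝ := (p : ℝ) ^ m * v with ha
  set b : ℝ := (p : ℝ) ^ m * V with hb
  have hb0 : 0 < b := by positivity
  have hv0 : 0 < v := hV.trans hVv
  have ha0 : 0 < a := by positivity
  have hba : b < a := mul_lt_mul_of_pos_left hVv (by positivity)
  simp only [key] at hm
  obtain ⟨K₀, hK₀⟩ := exists_thr g hb0
  obtain ⟨K, hK, hP1, hP2⟩ := hm K₀
  obtain ⟨K', hK', hP1', -⟩ := hm (K + 1)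
  have lg : ∀ x y : ℝ, Real.exp (-x) = A * Real.exp (-y) → x = y - Real.log A := by
    intro x y hxy
    have h1 := congrArg Real.log hxy
    rw [Real.log_exp, Real.log_mul hA.ne' (Real.exp_ne_zero _), Real.log_exp] at h1
    linarith
  have e1 := lg _ _ hP1
  have e2 := lg _ _ hP1'
  have hbK : V₀ ≤ Q ^ K * b := hK₀ K hK
  have haK : V₀ ≤ Q ^ K * a := hbK.trans (mul_le_mul_of_nonneg_left hba.le (by positivity))
  have hbK0 : 0 < Q ^ K * b := by positivity
  have haK0 : 0 < Q ^ K * a := by positivity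
  have fb := ff_iter g hbK (K' - K)
  have fa := ff_iter g haK (K' - K)
  rw [← mul_assoc, ← pow_add, Nat.sub_add_cancel (by omega)] at fb fa
  have hlt : 1 < q ^ (K' - K) := one_lt_pow₀ g.hq (by omega)
  set X := ff q ℓ S (Q ^ K * a) with hX
  set Y := ff q ℓ S (Q ^ K * b) with hY
  have hY0 : 0 < Y := ff_pos g hbK0
  have c1 : X - (p : ℝ) ^ i * Y = ℓ / (q - 1) * (1 - (p : ℝ) ^ i) - Real.log A := by
    rw [hX, hY]
    unfold ff
    rw [e1]
    ring
  have c2 : q ^ (K' - K) * X - (p : ℝ) ^ i * (q ^ (K' - K) * Y) =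
      ℓ / (q - 1) * (1 - (p : ℝ) ^ i) - Real.log A := by
    rw [← fa, ← fb]
    unfold ff
    rw [e2]
    ring
  have c3 : X = (p : ℝ) ^ i * Y := by
    have h4 : (q ^ (K' - K) - 1) * (X - (p : ℝ) ^ i * Y) = 0 := by
      calc _ = (q ^ (K' - K) * X - (p : ℝ) ^ i * (q ^ (K' - K) * Y)) -
            (X - (p : ℝ) ^ i * Y) := by ring
        _ = 0 := by rw [c1, c2]; ring
    rcases mul_eq_zero.1 h4 with h5 | h5
    · exfalso; linarith
    · linarith
  obtain ⟨l, hl1, hl2⟩ := exists_nat_pow_near (x := v / V) (y := Q)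
    (by rw [le_div_iff₀ hV]; linarith) g.hQ
  rw [le_div_iff₀ hV] at hl1
  rw [div_lt_iff₀ hV] at hl2
  -- comparison
  have s1 : Q ^ l * (Q ^ K * b) = Q ^ K * ((p : ℝ) ^ m * (Q ^ l * V)) := by rw [hb]; ring
  have s2 : Q ^ (l + 1) * (Q ^ K * b) = Q ^ K * ((p : ℝ) ^ m * (Q ^ (l + 1) * V)) := by
    rw [hb]; ring
  have f1 := ff_iter g hbK l
  have f2 := ff_iter g hbK (l + 1)
  rw [← hY] at f1 f2
  have hup : (p : ℝ) ^ i < q ^ (l + 1) := by
    have : X < q ^ (l + 1) * Y := by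
      rw [← f2, hX]
      apply ff_lt g haK0
      rw [s2, ha]
      exact mul_lt_mul_of_pos_left (mul_lt_mul_of_pos_left hl2 (by positivity)) (by positivity)
    rw [c3] at this
    exact lt_of_mul_lt_mul_right this hY0.le
  have hi2 : i < h * (l + 1) := by
    rw [hq, ← pow_mul] at hup
    exact (pow_lt_pow_iff_right₀ hp1).1 hup
  rcases hl1.eq_or_lt with heq | hlt'
  · refine ⟨l, ?_, ?_⟩
    · rw [pow_mul]; exact heq.symm
    · have h6 : X = q ^ l * Y := by
        rw [← f1, hX, s1, ha, heq]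
      rw [c3] at h6
      have h7 := mul_right_cancel₀ hY0.ne' h6
      rw [hq, ← pow_mul] at h7
      exact (pow_right_injective₀ hp0 hp1.ne') h7
  · exfalso
    have hlo : q ^ l < (p : ℝ) ^ i := by
      have : q ^ l * Y < X := by
        rw [← f1, hX]
        apply ff_lt g (by positivity)
        rw [s1, ha]
        exact mul_lt_mul_of_pos_left (mul_lt_mul_of_pos_left hlt' (by positivity))
          (by positivity)
      rw [c3] at this
      exact lt_of_mul_lt_mul_right this hY0.le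
    have hi1 : h * l < i := by
      rw [hq, ← pow_mul] at hlo
      exact (pow_lt_pow_iff_right₀ hp1).1 hlo
    -- c bounds
    have citer : ∀ k : ℕ, c (Q ^ k * (Q ^ K * b)) = c (Q ^ K * b) + d * k := by
      intro k
      induction k with
      | zero => simp
      | succ k ih =>
        have h1 : V₀ ≤ Q ^ k * (Q ^ K * b) := by
          have h2 : 1 ≤ Q ^ k := one_le_pow₀ g.hQ.le
          nlinarith [g.hV]
        rw [pow_succ', mul_assoc, hsc.cstep _ h1, ih]
        ring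
    have hc1 : c (Q ^ K * b) + d * l ≤ c (Q ^ K * a) := by
      rw [← citer l]
      apply hsc.cmono (Set.mem_Ioi.2 (by positivity)) (Set.mem_Ioi.2 haK0)
      rw [s1, ha]
      exact mul_le_mul_of_nonneg_left (mul_le_mul_of_nonneg_left hlt'.le (by positivity))
          (by positivity)
    have hc2 : c (Q ^ K * a) ≤ c (Q ^ K * b) + d * (l + 1) := by
      rw [← citer (l + 1)]
      apply hsc.cmono (Set.mem_Ioi.2 haK0) (Set.mem_Ioi.2 (by positivity))
      rw [s2, ha]
      exact mul_le_mul_of_nonneg_left (mul_le_mul_of_nonneg_left hl2.le (by positivity))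
          (by positivity)
    obtain ⟨z, hz⟩ := hP2
    have b1 : (n : ℤ) * l < (i : ℤ) + c (Q ^ K * a) - c (Q ^ K * b) := by
      have h1 : (h : ℤ) * l < i := by exact_mod_cast hi1
      have h2 : (c (Q ^ K * b) : ℤ) + d * l ≤ c (Q ^ K * a) := by exact_mod_cast hc1
      have h3 : (n : ℤ) = h + d := by exact_mod_cast hn.symm
      rw [h3]
      linarith [add_mul (h : ℤ) d l]
    have b2 : (i : ℤ) + c (Q ^ K * a) - c (Q ^ K * b) < (n : ℤ) * (l + 1) := by
      have h1 : (i : ℤ) < h * (l + 1) := by exact_mod_cast hi2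
      have h2 : (c (Q ^ K * a) : ℤ) ≤ c (Q ^ K * b) + d * (l + 1) := by exact_mod_cast hc2
      have h3 : (n : ℤ) = h + d := by exact_mod_cast hn.symm
      rw [h3]
      linarith [add_mul (h : ℤ) d (l + 1)]
    rw [hz] at b1 b2
    have hn0 : (0 : ℤ) < n := by omega
    have b3 := lt_of_mul_lt_mul_left b1 hn0.le
    have b4 := lt_of_mul_lt_mul_left b2 hn0.le
    omega

end Crest.Agent.LT3REAL1
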