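/- rid 227 (S0351): module RELAT (relation between the periods of `x` and `x ∘ φ`). -/
import Crest.Agent.LT3Spec4

set_option autoImplicit false

namespace Crest.Agent.LT3RELAT

open Crest Crest.GeometryTopology Crest.LubinTate Crest.Agent.LT3

theorem map_map_fg {R S T : Type} [CommRing R] [CommRing S] [CommRing T] (F : FormalGroup R)
    (f : R →+* S) (g : S →+* T) : (F.map f).map g = F.map (g.comp f) := by
  apply FormalGroup.ext
  ext e
  simp [FormalGroup.map]

theorem hasL_tendsto {p n : ℕ} {C : Type} [NormedField C] (hp : ‖(p : C)‖ < 1)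
    {F : PowerSeries C} {s : ℕ} {z : C} (h : HasL p n F s z) :
    Filter.Tendsto (fun N : ℕ => (p : C) ^ N * PowerSeries.coeff (p ^ (s + n * N)) F)
      Filter.atTop (nhds z) := by
  obtain ⟨B, hB, hb⟩ := h
  rw [tendsto_iff_norm_sub_tendsto_zero]
  refine squeeze_zero (fun _ => norm_nonneg _) hb ?_
  have h1 := (tendsto_pow_atTop_nhds_zero_of_lt_one (norm_nonneg (p : C)) hp).const_mul B
  simpa using h1

theorem zc_X {R : Type} [CommRing R] : ZC (PowerSeries.X : PowerSeries R) := by
  simp [ZC, PowerSeries.X]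

theorem map_zc {σ R S : Type} [CommRing R] [CommRing S] (r : R →+* S) {f : MvPowerSeries σ R}
    (hf : ZC f) : ZC (MvPowerSeries.map r f) := by
  unfold ZC at hf ⊢
  rw [MvPowerSeries.constantCoeff_map, hf, map_zero]

/-- scalar multiplication and composition. -/
theorem cmp_C_mul {R σ : Type} [CommRing R] (a : R) (φ : PowerSeries R)
    {b : MvPowerSeries σ R} (hb : ZC b) :
    LT3.cmp (PowerSeries.C a * φ) b = a • LT3.cmp φ b := by
  unfold LT3.cmp
  rw [← PowerSeries.smul_eq_C_mul, PowerSeries.subst_smul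
    (PowerSeries.HasSubst.of_constantCoeff_zero hb)]

theorem main (A : ApiA) (B : ApiB) (Cc : ApiC) (W : ApiW) (hLog : Spec4.LOG)
    (hLGB : Spec4.LGB) : Spec4.RELAT := by
  intro p hpp n Γ H hn hcH hcΓ hΓ hH C _ _ _ _ ι w x hx φ θ hφ hθ m c hm hc hres
  have hp := hx.hp
  have hIG : IG (H.map x) := W.ig p n hx H hcH
  -- the radius
  obtain ⟨r, hr0, hr1, hpr, hwr⟩ : ∃ r : ℝ, 0 ≤ r ∧ r < 1 ∧ ‖(p : C)‖ ≤ r ∧ ∀ i, ‖w i‖ ≤ r := by
    rcases isEmpty_or_nonempty (Fin (n - 1)) with he | he
    · exact ⟨‖(p : C)‖, norm_nonneg _, hp, le_rfl, fun i => he.elim i⟩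
    · obtain ⟨i₀, hi₀⟩ := Finite.exists_max (fun i : Fin (n - 1) => ‖w i‖)
      refine ⟨max ‖(p : C)‖ ‖w i₀‖, by positivity, max_lt hp (hx.hw i₀), le_max_left _ _,
        fun i => (hi₀ i).trans (le_max_right _ _)⟩
  have hxm : ∀ f, f ∈ mE p n → ‖x f‖ ≤ r := by
    intro f hf
    have := W.mem_pow p n hx r hr0 hpr hwr 1 f (by simpa using hf)
    simpa using this
  have hθ0 : ZC θ := hθ.1
  -- part 1
  have hcharp : CharP (GaloisField p n) p := inferInstance
  have hpm0 : ((p ^ m : ℕ) : GaloisField p n) = 0 := by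
    rw [Nat.cast_pow, CharP.cast_eq_zero, zero_pow (by omega)]
  have hzmul : ZC (LT3.cmp (mulSeries Γ (p ^ m)) c : PowerSeries (GaloisField p n)) :=
    B.zc_cmp (Cc.zc_mul Γ _) hc
  have hc1 : LTRing.residue p n (PowerSeries.coeff 1 θ) = 1 := by
    have h1 := congrArg (PowerSeries.coeff 1) hres
    rw [PowerSeries.coeff_map] at h1
    rw [h1, A.coeff_one_fadd Γ zc_X hzmul, B.coeff_one_cmp (Cc.zc_mul Γ _) hc,
      Cc.coeff_one_mul, hpm0]
    simp
  have hnorm1 : ‖x (PowerSeries.coeff 1 θ)‖ = 1 := by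
    have h1 : PowerSeries.coeff 1 θ - 1 ∈ mE p n := by
      unfold mE
      rw [RingHom.mem_ker, map_sub, hc1, map_one, sub_self]
    have h2 := hxm _ h1
    rw [map_sub, map_one] at h2
    have h3 : ‖x (PowerSeries.coeff 1 θ) - 1‖ < ‖(1 : C)‖ := by
      rw [norm_one]; exact lt_of_le_of_lt h2 hr1
    have h4 := IsUltrametricDist.norm_add_eq_max_of_norm_ne_norm h3.ne
    rw [sub_add_cancel, max_eq_right h3.le, norm_one] at h4
    exact h4
  refine ⟨hnorm1, ?_⟩
  intro s z z'' y hz hz'' c' hc' hc'c hy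
  -- decomposition over E
  set A' : PowerSeries (LTRing p n) := LT3.cmp (mulSeries H (p ^ m)) c' with hA'
  have hA'0 : ZC A' := B.zc_cmp (Cc.zc_mul H _) hc'
  set η : PowerSeries (LTRing p n) := fsub H θ PowerSeries.X with hη
  have hη0 : ZC η := by
    rw [hη]; exact A.zc_fadd H hθ0 (A.zc_fneg H zc_X)
  have hηX : fadd H η PowerSeries.X = θ := A.fsub_fadd H hθ0 zc_X
  have hresη : PowerSeries.map (LTRing.residue p n) η =
      (LT3.cmp (mulSeries Γ (p ^ m)) c : PowerSeries (GaloisField p n)) := by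
    apply A.fadd_cancel_right Γ (g := (PowerSeries.X : PowerSeries (GaloisField p n)))
      (map_zc _ hη0) hzmul zc_X
    have h1 := congrArg (PowerSeries.map (LTRing.residue p n)) hηX
    rw [hres] at h1
    have h2 : PowerSeries.map (LTRing.residue p n) (fadd H η PowerSeries.X) =
        fadd (H.map (LTRing.residue p n)) (PowerSeries.map (LTRing.residue p n) η)
          (PowerSeries.map (LTRing.residue p n) PowerSeries.X) :=
      A.map_fadd (LTRing.residue p n) H hη0 zc_X
    rw [h2, hH, PowerSeries.map_X] at h1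
    rw [A.fadd_comm Γ hcΓ hzmul zc_X]
    exact h1
  have hresA : PowerSeries.map (LTRing.residue p n) A' =
      (LT3.cmp (mulSeries Γ (p ^ m)) c : PowerSeries (GaloisField p n)) := by
    have h1 : PowerSeries.map (LTRing.residue p n) A' =
        (LT3.cmp (PowerSeries.map (LTRing.residue p n) (mulSeries H (p ^ m)))
          (PowerSeries.map (LTRing.residue p n) c') : PowerSeries (GaloisField p n)) :=
      B.cmp_map (LTRing.residue p n) hc'
    rw [h1, Cc.mul_map, hH, hc'c]
  have hEq : EqM (mE p n) η A' := by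
    intro e
    unfold mE
    rw [RingHom.mem_ker, map_sub, ← MvPowerSeries.coeff_map, ← MvPowerSeries.coeff_map]
    have h1 : MvPowerSeries.map (LTRing.residue p n) η =
        MvPowerSeries.map (LTRing.residue p n) A' := hresη.trans hresA.symm
    rw [h1, sub_self]
  set μ : PowerSeries (LTRing p n) := fsub H η A' with hμ
  have hμ0 : ZC μ := by
    rw [hμ]; exact A.zc_fadd H hη0 (A.zc_fneg H hA'0)
  have hμI : InI (mE p n) μ := (A.fsub_mem_iff (mE p n) H hη0 hA'0).2 hEq
  have hμA : fadd H μ A' = η := A.fsub_fadd H hη0 hA'0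
  -- over C
  set G := H.map x with hG
  obtain ⟨hlg0, hlg1, hadd, -⟩ := hLog.2 C G
  have hθx : (PowerSeries.map x θ : PowerSeries C) =
      fadd G (fadd G (PowerSeries.map x μ) (PowerSeries.map x A')) PowerSeries.X := by
    have h1 : PowerSeries.map x (fadd H η PowerSeries.X) =
        fadd G (PowerSeries.map x η) (PowerSeries.map x PowerSeries.X) :=
      A.map_fadd x H hη0 zc_X
    have h2 : PowerSeries.map x (fadd H μ A') =
        fadd G (PowerSeries.map x μ) (PowerSeries.map x A') :=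
      A.map_fadd x H hμ0 hA'0
    rw [← hηX, h1, PowerSeries.map_X, ← hμA, h2]
  have hμx0 : ZC (PowerSeries.map x μ) := map_zc x hμ0
  have hAx0 : ZC (PowerSeries.map x A') := map_zc x hA'0
  have hcx0 : ZC (PowerSeries.map x c') := map_zc x hc'
  have e1 : (LT3.cmp (lg G) (PowerSeries.map x θ) : PowerSeries C) =
      LT3.cmp (lg G) (PowerSeries.map x μ) + LT3.cmp (lg G) (PowerSeries.map x A') + lg G := by
    rw [hθx]
    have h1 := hadd Unit (fadd G (PowerSeries.map x μ) (PowerSeries.map x A')) PowerSeries.X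
      (A.zc_fadd G hμx0 hAx0) zc_X
    have h2 := hadd Unit (PowerSeries.map x μ) (PowerSeries.map x A') hμx0 hAx0
    rw [h2] at h1
    have h3 := B.cmp_X (lg G)
    rw [h3] at h1
    exact h1
  have e2 : (LT3.cmp (lg G) (PowerSeries.map x A') : PowerSeries C) =
      ((p : C) ^ m) • (LT3.cmp (lg G) (PowerSeries.map x c') : PowerSeries C) := by
    have h1 : PowerSeries.map x A' =
        (LT3.cmp (PowerSeries.map x (mulSeries H (p ^ m))) (PowerSeries.map x c') :
          PowerSeries C) := B.cmp_map x hc'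
    rw [h1, Cc.mul_map]
    have h2 : (LT3.cmp (lg G) (LT3.cmp (mulSeries G (p ^ m)) (PowerSeries.map x c') :
        PowerSeries C) : PowerSeries C) =
        LT3.cmp (LT3.cmp (lg G) (mulSeries G (p ^ m)) : PowerSeries C) (PowerSeries.map x c') :=
      B.cmp_assoc (Cc.zc_mul G _) hcx0
    have h3 := (hLog.2 C G).2.2.2 G (mulSeries G (p ^ m)) (Cc.mul_hom hIG.comm _)
    rw [Cc.coeff_one_mul] at h3
    rw [← hG, h2, h3, cmp_C_mul _ _ hcx0]
    push_cast
    rfl
  have e3 : (LT3.cmp (lg G) (PowerSeries.map x θ) : PowerSeries C) =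
      PowerSeries.C (x (PowerSeries.coeff 1 θ)) * lg (H.map (x.comp φ.toRingHom)) := by
    have h1 := B.hom_map x hθ
    rw [map_map_fg] at h1
    have h2 := (hLog.2 C (H.map (x.comp φ.toRingHom))).2.2.2 G (PowerSeries.map x θ) h1
    rw [PowerSeries.coeff_map] at h2
    exact h2
  obtain ⟨Bd, hBd0, hBd⟩ := hLGB p C hp r hr0 hr1
  have hb := hBd G hIG (PowerSeries.map x μ) hμx0 (fun i => by
    rw [PowerSeries.coeff_map]
    exact hxm _ (hμI (Finsupp.single () i)))
  -- coefficients
  have e4 : ∀ j, x (PowerSeries.coeff 1 θ) *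
        PowerSeries.coeff j (lg (H.map (x.comp φ.toRingHom))) -
      PowerSeries.coeff j (lg G) - (p : C) ^ m *
        PowerSeries.coeff j (LT3.cmp (lg G) (PowerSeries.map x c') : PowerSeries C) =
      PowerSeries.coeff j (LT3.cmp (lg G) (PowerSeries.map x μ) : PowerSeries C) := by
    intro j
    have h1 := congrArg (PowerSeries.coeff j) (e3.symm.trans e1)
    rw [e2, PowerSeries.coeff_C_mul, map_add, map_add, PowerSeries.coeff_smul] at h1
    rw [h1]
    simp only [smul_eq_mul]
    ring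
  -- limits
  have t1 := hasL_tendsto hp hz
  have t2 := hasL_tendsto hp hz''
  have t3 := hasL_tendsto hp hy
  have t4 := ((t2.const_mul (x (PowerSeries.coeff 1 θ))).sub t1).sub (t3.const_mul ((p : C) ^ m))
  have t5 : Filter.Tendsto (fun N : ℕ => (p : C) ^ N * PowerSeries.coeff (p ^ (s + n * N))
      (LT3.cmp (lg G) (PowerSeries.map x μ) : PowerSeries C)) Filter.atTop (nhds 0) := by
    rw [tendsto_zero_iff_norm_tendsto_zero]
    refine squeeze_zero (fun _ => norm_nonneg _) (g := fun N : ℕ => Bd * ‖(p : C)‖ ^ N)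
      (fun N => ?_) ?_
    · rw [norm_mul, norm_pow, mul_comm]
      exact mul_le_mul_of_nonneg_right (hb _) (by positivity)
    · have h1 := (tendsto_pow_atTop_nhds_zero_of_lt_one (norm_nonneg (p : C)) hp).const_mul Bd
      simpa using h1
  have t6 : (fun N : ℕ => x (PowerSeries.coeff 1 θ) *
        ((p : C) ^ N * PowerSeries.coeff (p ^ (s + n * N)) (lg (H.map (x.comp φ.toRingHom)))) -
      (p : C) ^ N * PowerSeries.coeff (p ^ (s + n * N)) (lg G) -
      (p : C) ^ m * ((p : C) ^ N * PowerSeries.coeff (p ^ (s + n * N))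
        (LT3.cmp (lg G) (PowerSeries.map x c') : PowerSeries C))) =
      (fun N : ℕ => (p : C) ^ N * PowerSeries.coeff (p ^ (s + n * N))
      (LT3.cmp (lg G) (PowerSeries.map x μ) : PowerSeries C)) := by
    funext N
    rw [← e4 (p ^ (s + n * N))]
    ring
  rw [t6] at t4
  have t7 := tendsto_nhds_unique t4 t5
  linear_combination t7

end Crest.Agent.LT3RELAT
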