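import Crest.Agent.LT3Spec3

set_option autoImplicit false
set_option linter.unusedSectionVars false
set_option linter.style.haveILetI false
open Crest.LubinTate
open Crest Crest.GeometryTopology

namespace Crest.Agent.LT3SCALE

open LT3

section basics

variable {C : Type} [NontriviallyNormedField C] [IsUltrametricDist C]

theorem norm_one_add_like {u : C} (hu : ‖u - 1‖ < 1) : ‖u‖ = 1 := by
  apply le_antisymm
  · have h := IsUltrametricDist.norm_add_le_max (u - 1) 1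
    rw [sub_add_cancel, norm_one] at h
    exact h.trans (max_le hu.le le_rfl)
  · have h := IsUltrametricDist.norm_add_le_max u (-(u - 1))
    rw [norm_neg, ← sub_eq_add_neg, sub_sub_cancel, norm_one] at h
    rcases le_max_iff.1 h with h | h
    · exact h
    · exact absurd hu (not_lt.2 h)

theorem norm_sub_of_lt {z t : C} (h : ‖t‖ < ‖z‖) : ‖z - t‖ = ‖z‖ := by
  apply le_antisymm
  · have h1 := IsUltrametricDist.norm_add_le_max z (-t)
    rw [norm_neg, ← sub_eq_add_neg] at h1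
    exact h1.trans (max_le le_rfl h.le)
  · have h1 := IsUltrametricDist.norm_add_le_max (z - t) t
    rw [sub_add_cancel] at h1
    rcases le_max_iff.1 h1 with h2 | h2
    · exact h2
    · exact absurd h (not_lt.2 h2)

theorem norm_eq_exp {z : C} (hz : z ≠ 0) : ‖z‖ = Real.exp (-lam z) := by
  unfold lam
  rw [neg_neg, Real.exp_log (norm_pos_iff.2 hz)]

theorem le_lam_iff {z : C} (hz : z ≠ 0) (a : ℝ) : a ≤ lam z ↔ ‖z‖ ≤ Real.exp (-a) := by
  rw [norm_eq_exp hz, Real.exp_le_exp]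
  constructor <;> intro h <;> linarith

theorem lt_lam_iff {z : C} (hz : z ≠ 0) (a : ℝ) : a < lam z ↔ ‖z‖ < Real.exp (-a) := by
  rw [norm_eq_exp hz, Real.exp_lt_exp]
  constructor <;> intro h <;> linarith

theorem lam_lt_iff {z : C} (hz : z ≠ 0) (a : ℝ) : lam z < a ↔ Real.exp (-a) < ‖z‖ := by
  rw [norm_eq_exp hz, Real.exp_lt_exp]
  constructor <;> intro h <;> linarith

theorem lam_pos {z : C} (hz : z ≠ 0) (h1 : ‖z‖ < 1) : 0 < lam z := by
  rw [lt_lam_iff hz]; simpa using h1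

theorem lam_of_norm {z : C} {a : ℝ} (h : ‖z‖ = Real.exp (-a)) : lam z = a := by
  unfold lam
  rw [h, Real.log_exp, neg_neg]

end basics

/-- cut-off valuation. -/
noncomputable def mm {C : Type} [NormedField C] (η : ℝ) (t : C) : ℝ := by
  classical exact if t = 0 then η else min η (lam t)

theorem mm_zero {C : Type} [NormedField C] (η : ℝ) : mm η (0 : C) = η := by
  unfold mm; simp

theorem mm_ne {C : Type} [NormedField C] (η : ℝ) {t : C} (ht : t ≠ 0) :
    mm η t = min η (lam t) := by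
  unfold mm; simp [ht]

theorem SNf_eq {C : Type} [NormedField C] (p h : ℕ) (T : ℕ → Finset C) (N : ℕ) (η : ℝ) :
    SNf p h T N η = (p : ℝ) ^ (h * N) * ∑ t ∈ T N, mm η t := by
  unfold SNf mm
  congr 1

theorem mm_mono {C : Type} [NormedField C] {η η' : ℝ} (h : η ≤ η') (t : C) :
    mm η t ≤ mm η' t := by
  by_cases ht : t = 0
  · subst ht; rw [mm_zero, mm_zero]; exact h
  · rw [mm_ne _ ht, mm_ne _ ht]; exact min_le_min_right _ h

section main

variable {p h d : ℕ} [Fact p.Prime] {C : Type} [NontriviallyNormedField C] [CompleteSpace C]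
  [IsUltrametricDist C] {G : FormalGroup C} {w0 : C} {T : ℕ → Finset C}

theorem mem_lt (S : TSys p h d G w0 T) {N : ℕ} {t : C} (ht : t ∈ T N) : ‖t‖ < 1 :=
  ((S.mem N t).1 ht).1

theorem mem_eq (S : TSys p h d G w0 T) {N : ℕ} {t : C} (ht : t ∈ T N) :
    gmul G (p ^ N) t = 0 :=
  ((S.mem N t).1 ht).2

theorem zero_mem (A : ApiG) (S : TSys p h d G w0 T) (N : ℕ) : (0 : C) ∈ T N := by
  rw [S.mem]
  exact ⟨by simp, A.mul_zero S.ig _⟩

theorem prod_norm (S : TSys p h d G w0 T) (N : ℕ) {y : C} (hy : ‖y‖ < 1) :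
    ‖gmul G (p ^ N) y‖ = ∏ t ∈ T N, ‖y - t‖ ^ (p ^ (h * N)) := by
  obtain ⟨u, hu, he⟩ := S.prod N y hy
  rw [he, norm_mul, norm_one_add_like hu, one_mul, norm_prod]
  apply Finset.prod_congr rfl
  intro t _
  rw [norm_pow]

theorem prod_norm_one (S : TSys p h d G w0 T) {y : C} (hy : ‖y‖ < 1) :
    ‖gmul G p y‖ = ∏ t ∈ T 1, ‖y - t‖ ^ (p ^ h) := by
  have := prod_norm S 1 hy
  rwa [pow_one, mul_one] at this

theorem mul_mem (A : ApiG) (S : TSys p h d G w0 T) {N : ℕ} {t : C} (ht : t ∈ T (N + 1)) :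
    gmul G p t ∈ T N := by
  rw [S.mem]
  have h1 := mem_lt S ht
  refine ⟨(A.mul_norm_le S.ig p h1).trans_lt h1, ?_⟩
  rw [← A.mul_mul S.ig (p ^ N) p h1, ← pow_succ]
  exact mem_eq S ht

theorem mem_succ (A : ApiG) (S : TSys p h d G w0 T) {N : ℕ} {t : C} (ht : t ∈ T N) :
    t ∈ T (N + 1) := by
  rw [S.mem]
  have h1 := mem_lt S ht
  refine ⟨h1, ?_⟩
  rw [pow_succ', A.mul_mul S.ig p (p ^ N) h1, mem_eq S ht, A.mul_zero S.ig]

theorem mulpow_mem (A : ApiG) (S : TSys p h d G w0 T) {N : ℕ} {t : C} (ht : t ∈ T (N + 1)) :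
    gmul G (p ^ N) t ∈ T 1 := by
  rw [S.mem]
  have h1 := mem_lt S ht
  refine ⟨(A.mul_norm_le S.ig _ h1).trans_lt h1, ?_⟩
  rw [← A.mul_mul S.ig (p ^ 1) (p ^ N) h1, ← pow_add, add_comm 1 N]
  exact mem_eq S ht

/-- the group structure on torsion points -/
@[instance_reducible] noncomputable def grp (A : ApiG) (S : TSys p h d G w0 T) (N : ℕ) : AddCommGroup {t // t ∈ T N} :=
  have hneg : ∀ t ∈ T N, gneg G t ∈ T N := by
    intro t ht
    have h1 := mem_lt S ht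
    have h2 : ‖gneg G t‖ < 1 := by rw [A.neg_norm S.ig h1]; exact h1
    rw [S.mem]
    refine ⟨h2, ?_⟩
    have h3 := A.mul_add S.ig (p ^ N) h1 h2
    rw [A.add_neg S.ig h1, A.mul_zero S.ig, mem_eq S ht,
      A.zero_add S.ig ((A.mul_norm_le S.ig _ h2).trans_lt h2)] at h3
    exact h3.symm
  have hadd : ∀ t ∈ T N, ∀ t' ∈ T N, gadd G t t' ∈ T N := by
    intro t ht t' ht'
    rw [S.mem]
    refine ⟨A.add_ball S.ig (mem_lt S ht) (mem_lt S ht'), ?_⟩
    rw [A.mul_add S.ig _ (mem_lt S ht) (mem_lt S ht'), mem_eq S ht, mem_eq S ht',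
      A.zero_add S.ig (by simp)]
  letI iadd : Add {t // t ∈ T N} := ⟨fun a b => ⟨gadd G a.1 b.1, hadd a.1 a.2 b.1 b.2⟩⟩
  letI izero : Zero {t // t ∈ T N} := ⟨⟨0, zero_mem A S N⟩⟩
  letI ineg : Neg {t // t ∈ T N} := ⟨fun a => ⟨gneg G a.1, hneg a.1 a.2⟩⟩
  { add := fun a b => a + b
    zero := 0
    neg := fun a => -a
    add_assoc := fun a b c => Subtype.ext
      (A.add_assoc S.ig (mem_lt S a.2) (mem_lt S b.2) (mem_lt S c.2))
    zero_add := fun a => Subtype.ext (A.zero_add S.ig (mem_lt S a.2))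
    add_zero := fun a => Subtype.ext (by
      show gadd G a.1 0 = a.1
      rw [A.add_comm S.ig (mem_lt S a.2) (by simp), A.zero_add S.ig (mem_lt S a.2)])
    add_comm := fun a b => Subtype.ext (A.add_comm S.ig (mem_lt S a.2) (mem_lt S b.2))
    neg_add_cancel := fun a => Subtype.ext (by
      show gadd G (gneg G a.1) a.1 = 0
      rw [A.add_comm S.ig (by rw [A.neg_norm S.ig (mem_lt S a.2)]; exact mem_lt S a.2)
        (mem_lt S a.2), A.add_neg S.ig (mem_lt S a.2)])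
    nsmul := nsmulRec
    zsmul := zsmulRec }

/-- fibres of a surjective homomorphism -/
theorem sum_fibre_gen {α β : Type} [AddCommGroup α] [AddCommGroup β] [Fintype α] [Fintype β]
    (φ : α →+ β) (hφ : Function.Surjective φ) (m : ℕ) (hm : Fintype.card α = Fintype.card β * m)
    (f : β → ℝ) : ∑ a, f (φ a) = (m : ℝ) * ∑ b, f b := by
  classical
  have hfib : ∀ x y : β,
      (Finset.univ.filter (fun g => φ g = x)).card = (Finset.univ.filter (fun g => φ g = y)).card :=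
    fun x y => AddMonoidHom.card_fiber_eq_of_mem_range φ (hφ x) (hφ y)
  have htot : Fintype.card α = Fintype.card β * (Finset.univ.filter (fun g => φ g = 0)).card := by
    have h1 := Finset.card_eq_sum_card_fiberwise
      (f := φ) (s := (Finset.univ : Finset α))
      (t := (Finset.univ : Finset β)) (fun _ _ => Finset.mem_coe.2 (Finset.mem_univ _))
    rw [Finset.card_univ] at h1
    rw [h1, Finset.sum_congr rfl (fun b _ => hfib b 0), Finset.sum_const, Finset.card_univ,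
      smul_eq_mul]
  have hk : (Finset.univ.filter (fun g => φ g = 0)).card = m :=
    Nat.eq_of_mul_eq_mul_left (Fintype.card_pos) (htot.symm.trans hm)
  rw [← Finset.sum_fiberwise (s := Finset.univ) (g := φ), Finset.mul_sum]
  apply Finset.sum_congr rfl
  intro x _
  rw [Finset.sum_congr rfl (fun y hy => by
    rw [(Finset.mem_filter.1 hy).2] : ∀ y ∈ Finset.univ.filter (fun g => φ g = x),
      f (φ y) = f x), Finset.sum_const, hfib x 0, hk, nsmul_eq_mul]

/-- fibres of `[p]` -/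
theorem sum_fibre_aux (A : ApiG) (S : TSys p h d G w0 T) (N N' : ℕ) (hN : N' = N + 1)
    (f : C → ℝ) :
    ∑ t ∈ T N', f (gmul G p t) = (p : ℝ) ^ d * ∑ t ∈ T N, f t := by
  have hpp : 0 < p := (Fact.out : p.Prime).pos
  have hmem : ∀ t ∈ T N', gmul G p t ∈ T N := by
    subst hN; intro t ht; exact mul_mem A S ht
  letI i1 := grp A S N
  letI i2 := grp A S N'
  let φ : {t // t ∈ T N'} →+ {t // t ∈ T N} :=
    { toFun := fun t => ⟨gmul G p t.1, hmem t.1 t.2⟩
      map_zero' := Subtype.ext (A.mul_zero S.ig p)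
      map_add' := fun a b => Subtype.ext (A.mul_add S.ig p (mem_lt S a.2) (mem_lt S b.2)) }
  have hsurj : Function.Surjective φ := by
    rintro ⟨t, ht⟩
    obtain ⟨t', ht', he⟩ := S.surj N t ht
    exact ⟨⟨t', hN ▸ ht'⟩, Subtype.ext he⟩
  have hm : Fintype.card {t // t ∈ T N'} = Fintype.card {t // t ∈ T N} * p ^ d := by
    rw [Fintype.card_coe, Fintype.card_coe, S.card, S.card, hN, mul_add, mul_one, pow_add]
  have key := sum_fibre_gen φ hsurj (p ^ d) hm (fun t => f t.1)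
  have e1 : ∑ t ∈ T N', f (gmul G p t) = ∑ t : {t // t ∈ T N'}, f (φ t).1 := by
    rw [← Finset.sum_coe_sort]
    rfl
  have e2 : ∑ t ∈ T N, f t = ∑ t : {t // t ∈ T N}, f t.1 := (Finset.sum_coe_sort _ _).symm
  rw [e1, e2, key]
  push_cast
  rfl

theorem sum_fibre (A : ApiG) (S : TSys p h d G w0 T) (N : ℕ) (f : C → ℝ) :
    ∑ t ∈ T (N + 1), f (gmul G p t) = (p : ℝ) ^ d * ∑ t ∈ T N, f t :=
  sum_fibre_aux A S N (N + 1) rfl f

theorem mul_lt (S : TSys p h d G w0 T) {n : ℕ} (hn : h + d = n) {σ : ℝ}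
    (hσ : ∀ t ∈ T 1, t ≠ 0 → σ ≤ lam t) {z : C} (hz : z ≠ 0) (h1 : ‖z‖ < 1)
    (hl : lam z < σ) :
    gmul G p z ≠ 0 ∧ lam (gmul G p z) = (p : ℝ) ^ n * lam z := by
  have hnorm : ‖gmul G p z‖ = ‖z‖ ^ (p ^ n) := by
    rw [prod_norm_one S h1]
    have : ∀ t ∈ T 1, ‖z - t‖ ^ (p ^ h) = ‖z‖ ^ (p ^ h) := by
      intro t ht
      by_cases h0 : t = 0
      · rw [h0, sub_zero]
      · rw [norm_sub_of_lt]
        rw [norm_eq_exp h0, norm_eq_exp hz, Real.exp_lt_exp]
        linarith [hσ t ht h0]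
    rw [Finset.prod_congr rfl this, Finset.prod_const, S.card, mul_one, ← pow_mul, ← pow_add, hn]
  have hne : gmul G p z ≠ 0 := by
    rw [← norm_pos_iff, hnorm]; exact pow_pos (norm_pos_iff.2 hz) _
  refine ⟨hne, lam_of_norm ?_⟩
  rw [hnorm, norm_eq_exp hz, ← Real.exp_nat_mul]
  congr 1
  push_cast
  ring

theorem mul_ge (S : TSys p h d G w0 T) {n : ℕ} (hn : h + d = n) {σ : ℝ}
    (hσ : ∀ t ∈ T 1, t ≠ 0 → σ ≤ lam t) {z : C} (hz : z ≠ 0) (h1 : ‖z‖ < 1)
    (hl : σ ≤ lam z) :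
    gmul G p z = 0 ∨ (p : ℝ) ^ n * σ ≤ lam (gmul G p z) := by
  by_cases hne : gmul G p z = 0
  · exact Or.inl hne
  right
  rw [le_lam_iff hne, prod_norm_one S h1]
  have : ∀ t ∈ T 1, ‖z - t‖ ^ (p ^ h) ≤ (Real.exp (-σ)) ^ (p ^ h) := by
    intro t ht
    apply pow_le_pow_left₀ (norm_nonneg _)
    have hzs : ‖z‖ ≤ Real.exp (-σ) := (le_lam_iff hz σ).1 hl
    have hts : ‖t‖ ≤ Real.exp (-σ) := by
      by_cases h0 : t = 0
      · rw [h0, norm_zero]; exact (Real.exp_pos _).le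
      · exact (le_lam_iff h0 σ).1 (hσ t ht h0)
    have h2 := IsUltrametricDist.norm_add_le_max z (-t)
    rw [norm_neg, ← sub_eq_add_neg] at h2
    exact h2.trans (max_le hzs hts)
  refine (Finset.prod_le_prod (fun t _ => pow_nonneg (norm_nonneg _) _) this).trans (le_of_eq ?_)
  rw [Finset.prod_const, S.card, mul_one, ← pow_mul, ← pow_add, hn, ← Real.exp_nat_mul]
  congr 1
  push_cast
  ring

theorem mul_q (A : ApiG) (S : TSys p h d G w0 T) {z : C} (hz : z ≠ 0) (h1 : ‖z‖ < 1) :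
    gmul G p z = 0 ∨ (p : ℝ) ^ h * lam z ≤ lam (gmul G p z) := by
  classical
  by_cases hne : gmul G p z = 0
  · exact Or.inl hne
  right
  rw [le_lam_iff hne, prod_norm_one S h1, ← Finset.mul_prod_erase _ _ (zero_mem A S 1), sub_zero]
  have h2 : ∏ t ∈ (T 1).erase 0, ‖z - t‖ ^ (p ^ h) ≤ 1 := by
    apply Finset.prod_le_one (fun t _ => pow_nonneg (norm_nonneg _) _)
    intro t ht
    apply pow_le_one₀ (norm_nonneg _)
    have h2 := IsUltrametricDist.norm_add_le_max z (-t)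
    rw [norm_neg, ← sub_eq_add_neg] at h2
    exact h2.trans (max_le h1.le (mem_lt S (Finset.mem_of_mem_erase ht)).le)
  have h3 : ‖z‖ ^ (p ^ h) = Real.exp (-((p : ℝ) ^ h * lam z)) := by
    rw [norm_eq_exp hz, ← Real.exp_nat_mul]
    congr 1
    push_cast
    ring
  rw [← h3]
  exact mul_le_of_le_one_right (pow_nonneg (norm_nonneg _) _) h2

theorem one_lt_pn (S : TSys p h d G w0 T) {n : ℕ} (hn : h + d = n) : (1 : ℝ) < (p : ℝ) ^ n := by
  have hp : (1 : ℝ) < p := by exact_mod_cast (Fact.out : p.Prime).one_lt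
  have hd := S.hd
  exact one_lt_pow₀ hp (by omega)

/-- relation between cut-offs on a fibre -/
theorem mm_rel (S : TSys p h d G w0 T) {n : ℕ} (hn : h + d = n) {σ : ℝ}
    (hσ : ∀ t ∈ T 1, t ≠ 0 → σ ≤ lam t) {η : ℝ} (hη0 : 0 < η) (hη : η < σ) {t : C} (A : ApiG)
    (h1 : ‖t‖ < 1) :
    (p : ℝ) ^ n * mm (η / (p : ℝ) ^ n) t = mm η (gmul G p t) ∧
    ((t = 0 ∨ η / (p : ℝ) ^ n ≤ lam t) ↔ (gmul G p t = 0 ∨ η ≤ lam (gmul G p t))) := by
  have hQ := one_lt_pn S hn
  have hQ0 : (0 : ℝ) < (p : ℝ) ^ n := by linarith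
  have hdiv : η / (p : ℝ) ^ n ≤ η := div_le_self hη0.le hQ.le
  by_cases h0 : t = 0
  · subst h0
    rw [A.mul_zero S.ig, mm_zero, mm_zero]
    exact ⟨by field_simp, by simp⟩
  · by_cases hl : lam t < σ
    · obtain ⟨hne, he⟩ := mul_lt S hn hσ h0 h1 hl
      rw [mm_ne _ h0, mm_ne _ hne, he]
      constructor
      · rw [mul_min_of_nonneg _ _ hQ0.le]
        congr 1
        field_simp
      · simp only [h0, hne, false_or]
        rw [div_le_iff₀ hQ0, mul_comm]
    · push Not at hl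
      have h2 := mul_ge S hn hσ h0 h1 hl
      rw [mm_ne _ h0, min_eq_left (by linarith)]
      have hb : σ ≤ (p : ℝ) ^ n * σ := by nlinarith
      constructor
      · rcases h2 with h2 | h2
        · rw [h2, mm_zero]; field_simp
        · by_cases h3 : gmul G p t = 0
          · rw [h3, mm_zero]; field_simp
          · rw [mm_ne _ h3, min_eq_left (by linarith)]; field_simp
      · constructor
        · intro _
          rcases h2 with h2 | h2
          · exact Or.inl h2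
          · exact Or.inr (by linarith)
        · intro _
          exact Or.inr (by linarith)

theorem SNf_step (A : ApiG) (S : TSys p h d G w0 T) {n : ℕ} (hn : h + d = n) {σ : ℝ}
    (hσ : ∀ t ∈ T 1, t ≠ 0 → σ ≤ lam t) {η : ℝ} (hη0 : 0 < η) (hη : η < σ) (N : ℕ) :
    SNf p h T (N + 1) (η / (p : ℝ) ^ n) = SNf p h T N η := by
  have hQ := one_lt_pn S hn
  have hQ0 : (0 : ℝ) < (p : ℝ) ^ n := by linarith
  have hp0 : (0 : ℝ) < p := by exact_mod_cast (Fact.out : p.Prime).pos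
  rw [SNf_eq, SNf_eq]
  have h1 : ∑ t ∈ T (N + 1), mm (η / (p : ℝ) ^ n) t =
      ((p : ℝ) ^ n)⁻¹ * ∑ t ∈ T (N + 1), mm η (gmul G p t) := by
    rw [Finset.mul_sum]
    apply Finset.sum_congr rfl
    intro t ht
    rw [← (mm_rel S hn hσ hη0 hη A (mem_lt S ht)).1]
    field_simp
  rw [h1, sum_fibre A S N (mm η)]
  have h2 : (p : ℝ) ^ (h * (N + 1)) * (((p : ℝ) ^ n)⁻¹ * (p : ℝ) ^ d) = (p : ℝ) ^ (h * N) := by
    rw [← hn, pow_add, mul_add, mul_one, pow_add]
    field_simp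
  calc _ = ((p : ℝ) ^ (h * (N + 1)) * (((p : ℝ) ^ n)⁻¹ * (p : ℝ) ^ d)) * ∑ t ∈ T N, mm η t := by
        ring
    _ = _ := by rw [h2]

open Classical in
theorem cntf_eq_sum (N : ℕ) (η : ℝ) : (cntf T N η : ℝ) =
    ∑ t ∈ T N, (if (t = 0 ∨ η ≤ lam t) then (1 : ℝ) else 0) := by
  unfold cntf
  rw [Finset.card_filter]
  push_cast
  rfl

theorem cntf_step (A : ApiG) (S : TSys p h d G w0 T) {n : ℕ} (hn : h + d = n) {σ : ℝ}
    (hσ : ∀ t ∈ T 1, t ≠ 0 → σ ≤ lam t) {η : ℝ} (hη0 : 0 < η) (hη : η < σ) (N : ℕ) :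
    cntf T (N + 1) (η / (p : ℝ) ^ n) = p ^ d * cntf T N η := by
  classical
  have key : (cntf T (N + 1) (η / (p : ℝ) ^ n) : ℝ) = ((p ^ d * cntf T N η : ℕ) : ℝ) := by
    push_cast
    rw [cntf_eq_sum, cntf_eq_sum, ← sum_fibre A S N (fun t => if (t = 0 ∨ η ≤ lam t) then (1 : ℝ) else 0)]
    apply Finset.sum_congr rfl
    intro t ht
    have := (mm_rel S hn hσ hη0 hη A (mem_lt S ht)).2
    by_cases hc : (t = 0 ∨ η / (p : ℝ) ^ n ≤ lam t)
    · rw [if_pos hc, if_pos (this.1 hc)]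
    · rw [if_neg hc, if_neg (fun h => hc (this.2 h))]
  exact_mod_cast key

theorem P_iff (η : ℝ) (t : C) : (t = 0 ∨ η ≤ lam t) ↔ ‖t‖ ≤ Real.exp (-η) := by
  by_cases h0 : t = 0
  · subst h0; simp [(Real.exp_pos _).le]
  · simp only [h0, false_or]
    exact le_lam_iff h0 η

theorem cntf_dvd (A : ApiG) (S : TSys p h d G w0 T) (N : ℕ) (η : ℝ) :
    cntf T N η ∣ p ^ (d * N) := by
  classical
  letI i1 := grp A S N
  let H : AddSubgroup {t // t ∈ T N} :=
    { carrier := {t | ‖t.1‖ ≤ Real.exp (-η)}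
      add_mem' := by
        intro a b ha hb
        exact (A.add_le S.ig (mem_lt S a.2) (mem_lt S b.2)).trans (max_le ha hb)
      zero_mem' := by
        show ‖(0 : C)‖ ≤ _
        rw [norm_zero]; exact (Real.exp_pos _).le
      neg_mem' := by
        intro a ha
        show ‖gneg G a.1‖ ≤ _
        rw [A.neg_norm S.ig (mem_lt S a.2)]
        exact ha }
  have h1 := AddSubgroup.card_addSubgroup_dvd_card H
  have h2 : Nat.card {t // t ∈ T N} = p ^ (d * N) := by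
    rw [Nat.card_eq_fintype_card, Fintype.card_coe, S.card]
  let e : H ≃ {t // t ∈ (T N).filter (fun t => t = 0 ∨ η ≤ lam t)} :=
    { toFun := fun x => ⟨x.1.1, Finset.mem_filter.2 ⟨x.1.2, (P_iff η _).2 x.2⟩⟩
      invFun := fun y => ⟨⟨y.1, (Finset.mem_filter.1 y.2).1⟩,
        (P_iff η _).1 (Finset.mem_filter.1 y.2).2⟩
      left_inv := fun x => rfl
      right_inv := fun y => rfl }
  have h3 : Nat.card H = cntf T N η := by
    rw [Nat.card_congr e, Nat.card_eq_fintype_card, Fintype.card_coe]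
    unfold cntf
    congr
  rw [h2, h3] at h1
  exact h1

theorem cntf_pos (A : ApiG) (S : TSys p h d G w0 T) (N : ℕ) (η : ℝ) : 0 < cntf T N η := by
  classical
  unfold cntf
  exact Finset.card_pos.2 ⟨0, Finset.mem_filter.2 ⟨zero_mem A S N, Or.inl rfl⟩⟩

theorem exists_c (A : ApiG) (S : TSys p h d G w0 T) (N : ℕ) (η : ℝ) :
    ∃ k : ℕ, p ^ k * cntf T N η = p ^ (d * N) := by
  obtain ⟨m, hm⟩ := cntf_dvd A S N η
  have h1 : m ∣ p ^ (d * N) := ⟨cntf T N η, by rw [hm, mul_comm]⟩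
  obtain ⟨k, -, hk⟩ := (Nat.dvd_prime_pow (Fact.out : p.Prime)).1 h1
  exact ⟨k, by rw [hm, hk, mul_comm]⟩

theorem exists_small (s : Finset C) : (∀ t ∈ s, t ≠ 0) → ∃ ε : ℝ, 0 < ε ∧ ∀ t ∈ s, ε ≤ ‖t‖ := by
  classical
  induction s using Finset.induction_on with
  | empty => intro _; exact ⟨1, one_pos, by simp⟩
  | insert a s ha ih =>
    intro h
    obtain ⟨ε, hε, h2⟩ := ih (fun t ht => h t (Finset.mem_insert_of_mem ht))
    have ha0 : 0 < ‖a‖ := norm_pos_iff.2 (h a (Finset.mem_insert_self _ _))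
    refine ⟨min ε ‖a‖, lt_min hε ha0, ?_⟩
    intro t ht
    rcases Finset.mem_insert.1 ht with rfl | ht
    · exact min_le_right _ _
    · exact (min_le_left _ _).trans (h2 t ht)

open Classical in
theorem tiny_lam (A : ApiG) (S : TSys p h d G w0 T) (M : ℕ) {y : C} (hy0 : y ≠ 0)
    (hy1 : ‖y‖ < 1) (hs : ∀ t ∈ T M, t ≠ 0 → ‖y‖ < ‖t‖) :
    gmul G (p ^ M) y ≠ 0 ∧ lam (gmul G (p ^ M) y) =
      (p : ℝ) ^ (h * M) * lam y + (p : ℝ) ^ (h * M) * ∑ t ∈ (T M).erase 0, lam t := by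
  have hnorm : ‖gmul G (p ^ M) y‖ = Real.exp (-((p : ℝ) ^ (h * M) * lam y +
      (p : ℝ) ^ (h * M) * ∑ t ∈ (T M).erase 0, lam t)) := by
    rw [prod_norm S M hy1, ← Finset.mul_prod_erase _ _ (zero_mem A S M), sub_zero]
    have h1 : ∀ t ∈ (T M).erase 0, ‖y - t‖ ^ (p ^ (h * M)) =
        Real.exp (-((p : ℝ) ^ (h * M) * lam t)) := by
      intro t ht
      have ht0 := Finset.ne_of_mem_erase ht
      rw [norm_sub_rev, norm_sub_of_lt (hs t (Finset.mem_of_mem_erase ht) ht0),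
        norm_eq_exp ht0, ← Real.exp_nat_mul]
      congr 1
      push_cast
      ring
    rw [Finset.prod_congr rfl h1, ← Real.exp_sum, norm_eq_exp hy0, ← Real.exp_nat_mul,
      ← Real.exp_add]
    congr 1
    rw [Finset.sum_neg_distrib, ← Finset.mul_sum]
    push_cast
    ring
  have hne : gmul G (p ^ M) y ≠ 0 := by
    rw [← norm_pos_iff, hnorm]; exact Real.exp_pos _
  exact ⟨hne, lam_of_norm hnorm⟩

open Classical in
theorem w0_one (S : TSys p h d G w0 T) :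
    lam w0 = (p : ℝ) ^ h * ∑ t ∈ (T 1).erase 0, lam t := by
  have h1 := S.w0_prod
  have h2 : ‖w0‖ = Real.exp (-((p : ℝ) ^ h * ∑ t ∈ (T 1).erase 0, lam t)) := by
    rw [h1]
    have h3 : ∀ t ∈ (T 1).erase 0, ‖t‖ ^ (p ^ h) =
        Real.exp (-((p : ℝ) ^ h * lam t)) := by
      intro t ht
      rw [norm_eq_exp (Finset.ne_of_mem_erase ht), ← Real.exp_nat_mul]
      congr 1
      push_cast
      ring
    rw [Finset.prod_congr rfl h3, ← Real.exp_sum]
    congr 1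
    rw [Finset.sum_neg_distrib, ← Finset.mul_sum]
  exact lam_of_norm h2

theorem T_mono (A : ApiG) (S : TSys p h d G w0 T) {M N : ℕ} (hMN : M ≤ N) : T M ⊆ T N := by
  induction hMN with
  | refl => exact Finset.Subset.refl _
  | step _ ih => exact ih.trans (fun t ht => mem_succ A S ht)

open Classical in
theorem w0_sum (A : ApiG) (S : TSys p h d G w0 T) (N : ℕ) :
    (p : ℝ) ^ (h * (N + 1)) * ∑ t ∈ T (N + 1) \ T N, lam t = lam w0 := by
  obtain ⟨ε, hε, hsm⟩ := exists_small ((T (N + 1)).erase 0)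
    (fun t ht => Finset.ne_of_mem_erase ht)
  obtain ⟨y, hy0, hy⟩ := NormedField.exists_norm_lt C (lt_min hε one_pos)
  have hyne : y ≠ 0 := norm_pos_iff.1 hy0
  have hy1 : ‖y‖ < 1 := hy.trans_le (min_le_right _ _)
  have hsy : ∀ t ∈ T (N + 1), t ≠ 0 → ‖y‖ < ‖t‖ := fun t ht ht0 =>
    (hy.trans_le (min_le_left _ _)).trans_le (hsm t (Finset.mem_erase.2 ⟨ht0, ht⟩))
  obtain ⟨hne1, he1⟩ := tiny_lam A S (N + 1) hyne hy1 hsy
  obtain ⟨hne2, he2⟩ := tiny_lam A S N hyne hy1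
    (fun t ht ht0 => hsy t (mem_succ A S ht) ht0)
  have hz1 : ‖gmul G (p ^ N) y‖ ≤ ‖y‖ := A.mul_norm_le S.ig _ hy1
  obtain ⟨hne3, he3⟩ := tiny_lam A S 1 hne2 (hz1.trans_lt hy1)
    (fun t ht ht0 => hz1.trans_lt (hsy t (T_mono A S (by omega) ht) ht0))
  have hc : gmul G (p ^ 1) (gmul G (p ^ N) y) = gmul G (p ^ (N + 1)) y := by
    rw [← A.mul_mul S.ig (p ^ 1) (p ^ N) hy1, ← pow_add, add_comm 1 N]
  rw [hc, he1, he2, mul_one, ← w0_one S] at he3
  have hsplit : ∑ t ∈ (T (N + 1)).erase 0, lam t =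
      ∑ t ∈ (T N).erase 0, lam t + ∑ t ∈ T (N + 1) \ T N, lam t := by
    rw [← Finset.sum_union]
    · apply Finset.sum_congr _ (fun _ _ => rfl)
      ext t
      simp only [Finset.mem_erase, Finset.mem_union, Finset.mem_sdiff]
      have h1 := T_mono A S (Nat.le_succ N)
      have h2 := zero_mem A S N
      constructor
      · rintro ⟨h0, ht⟩
        by_cases h3 : t ∈ T N
        · exact Or.inl ⟨h0, h3⟩
        · exact Or.inr ⟨ht, h3⟩
      · rintro (⟨h0, ht⟩ | ⟨ht, h3⟩)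
        · exact ⟨h0, h1 ht⟩
        · exact ⟨fun h => h3 (h ▸ h2), ht⟩
    · rw [Finset.disjoint_left]
      intro t ht ht2
      exact (Finset.mem_sdiff.1 ht2).2 (Finset.mem_of_mem_erase ht)
  rw [hsplit] at he3
  have hpw : (p : ℝ) ^ (h * (N + 1)) = (p : ℝ) ^ h * (p : ℝ) ^ (h * N) := by
    rw [mul_add, mul_one, pow_add]; ring
  rw [hpw] at he3 ⊢
  linear_combination he3

theorem lam_mulpow (A : ApiG) (S : TSys p h d G w0 T) {N : ℕ} {η : ℝ} {t : C}
    (h1 : ‖t‖ < 1) (ht0 : t ≠ 0) (hl : η ≤ lam t) (hne : gmul G (p ^ N) t ≠ 0) :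
    SNf p h T N η ≤ lam (gmul G (p ^ N) t) := by
  rw [le_lam_iff hne, prod_norm S N h1, SNf_eq]
  have h2 : ∀ t' ∈ T N, ‖t - t'‖ ^ (p ^ (h * N)) ≤
      Real.exp (-((p : ℝ) ^ (h * N) * mm η t')) := by
    intro t' _
    have h3 : Real.exp (-((p : ℝ) ^ (h * N) * mm η t')) = Real.exp (-(mm η t')) ^ (p ^ (h * N)) := by
      rw [← Real.exp_nat_mul]
      congr 1
      push_cast
      ring
    rw [h3]
    apply pow_le_pow_left₀ (norm_nonneg _)
    have ht : ‖t‖ ≤ Real.exp (-η) := (le_lam_iff ht0 η).1 hl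
    by_cases h0 : t' = 0
    · rw [h0, sub_zero, mm_zero]; exact ht
    · rw [mm_ne _ h0]
      have h4 := IsUltrametricDist.norm_add_le_max t (-t')
      rw [norm_neg, ← sub_eq_add_neg] at h4
      refine h4.trans (max_le (ht.trans ?_) ?_)
      · exact Real.exp_le_exp.2 (by linarith [min_le_left η (lam t')])
      · rw [norm_eq_exp h0]
        exact Real.exp_le_exp.2 (by linarith [min_le_right η (lam t')])
  refine (Finset.prod_le_prod (fun t _ => pow_nonneg (norm_nonneg _) _) h2).trans (le_of_eq ?_)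
  rw [← Real.exp_sum]
  congr 1
  rw [Finset.sum_neg_distrib, ← Finset.mul_sum]

/-- one step for large arguments -/
theorem big_step (A : ApiG) (S : TSys p h d G w0 T) {Λ : ℝ}
    (hΛ : ∀ t ∈ T 1, t ≠ 0 → lam t ≤ Λ) {N : ℕ} {η : ℝ} (hb : Λ < SNf p h T N η) :
    cntf T (N + 1) η = cntf T N η ∧
    SNf p h T (N + 1) η = (p : ℝ) ^ h * SNf p h T N η + lam w0 := by
  classical
  have key : ∀ t ∈ T (N + 1), t ∉ T N → t ≠ 0 ∧ lam t < η := by
    intro t ht htN
    have ht0 : t ≠ 0 := fun h => htN (h ▸ zero_mem A S N)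
    refine ⟨ht0, ?_⟩
    by_contra hcon
    push Not at hcon
    have h1 := mem_lt S ht
    have hne : gmul G (p ^ N) t ≠ 0 := fun h => htN ((S.mem N t).2 ⟨h1, h⟩)
    have h2 := lam_mulpow A S h1 ht0 hcon hne
    have h3 := hΛ _ (mulpow_mem A S ht) hne
    linarith
  have hsub := T_mono A S (Nat.le_succ N)
  constructor
  · unfold cntf
    congr 1
    ext t
    simp only [Finset.mem_filter]
    constructor
    · rintro ⟨ht, hc⟩
      refine ⟨?_, hc⟩
      by_contra hn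
      obtain ⟨h0, hl⟩ := key t ht hn
      rcases hc with hc | hc
      · exact h0 hc
      · linarith
    · rintro ⟨ht, hc⟩
      exact ⟨hsub ht, hc⟩
  · rw [SNf_eq, SNf_eq, ← Finset.sum_sdiff hsub]
    have h1 : ∑ t ∈ T (N + 1) \ T N, mm η t = ∑ t ∈ T (N + 1) \ T N, lam t := by
      apply Finset.sum_congr rfl
      intro t ht
      obtain ⟨h0, hl⟩ := key t (Finset.mem_sdiff.1 ht).1 (Finset.mem_sdiff.1 ht).2
      rw [mm_ne _ h0, min_eq_right hl.le]
    have h2 := w0_sum A S N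
    rw [h1, mul_add, h2, mul_add, mul_one, pow_add]
    ring

theorem SNf_ge (A : ApiG) (S : TSys p h d G w0 T) (N : ℕ) {η : ℝ} (hη : 0 < η) :
    (p : ℝ) ^ (h * N) * η ≤ SNf p h T N η := by
  classical
  have hp0 : (0 : ℝ) < p := by exact_mod_cast (Fact.out : p.Prime).pos
  rw [SNf_eq]
  apply mul_le_mul_of_nonneg_left _ (pow_nonneg hp0.le _)
  rw [← Finset.add_sum_erase _ _ (zero_mem A S N), mm_zero]
  have : 0 ≤ ∑ t ∈ (T N).erase 0, mm η t := by
    apply Finset.sum_nonneg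
    intro t ht
    rw [mm_ne _ (Finset.ne_of_mem_erase ht)]
    exact le_min hη.le (lam_pos (Finset.ne_of_mem_erase ht)
      (mem_lt S (Finset.mem_of_mem_erase ht))).le
  linarith

theorem SNf_lt (A : ApiG) (S : TSys p h d G w0 T) (N : ℕ) {η η' : ℝ} (hη : η < η') :
    SNf p h T N η < SNf p h T N η' := by
  have hp0 : (0 : ℝ) < p := by exact_mod_cast (Fact.out : p.Prime).pos
  rw [SNf_eq, SNf_eq]
  apply mul_lt_mul_of_pos_left _ (pow_pos hp0 _)
  apply Finset.sum_lt_sum (fun t _ => mm_mono hη.le t)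
  exact ⟨0, zero_mem A S N, by rw [mm_zero, mm_zero]; exact hη⟩

theorem cntf_anti (N : ℕ) {η η' : ℝ} (hη : η ≤ η') : cntf T N η' ≤ cntf T N η := by
  classical
  unfold cntf
  apply Finset.card_le_card
  intro t ht
  rw [Finset.mem_filter] at ht ⊢
  exact ⟨ht.1, ht.2.imp id (fun h => hη.trans h)⟩

/-- independence of the level -/
theorem indep_level (A : ApiG) (S : TSys p h d G w0 T) {n : ℕ} (hn : h + d = n) {σ : ℝ}
    (hσ : ∀ t ∈ T 1, t ≠ 0 → σ ≤ lam t) {V : ℝ} (hV : 0 < V) {N : ℕ}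
    (hN : V / (p : ℝ) ^ (n * N) < σ) (k : ℕ) :
    SNf p h T (N + k) (V / (p : ℝ) ^ (n * (N + k))) = SNf p h T N (V / (p : ℝ) ^ (n * N)) ∧
    cntf T (N + k) (V / (p : ℝ) ^ (n * (N + k))) =
      p ^ (d * k) * cntf T N (V / (p : ℝ) ^ (n * N)) ∧
    V / (p : ℝ) ^ (n * (N + k)) < σ := by
  have hp0 : (0 : ℝ) < p := by exact_mod_cast (Fact.out : p.Prime).pos
  have hQ := one_lt_pn S hn
  induction k with
  | zero => simp [hN]
  | succ k ih =>
    obtain ⟨i1, i2, i3⟩ := ih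
    have he : V / (p : ℝ) ^ (n * (N + (k + 1))) = V / (p : ℝ) ^ (n * (N + k)) / (p : ℝ) ^ n := by
      rw [div_div, ← pow_add]
      congr 2
    have hpos : 0 < V / (p : ℝ) ^ (n * (N + k)) := div_pos hV (pow_pos hp0 _)
    rw [he]
    refine ⟨?_, ?_, ?_⟩
    · rw [← add_assoc, SNf_step A S hn hσ hpos i3, i1]
    · rw [← add_assoc, cntf_step A S hn hσ hpos i3, i2, ← mul_assoc, ← pow_add]
      congr 2
      ring
    · exact (div_le_self hpos.le hQ.le).trans_lt i3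

end main

theorem main (A : ApiG) : Spec3.SCALE := by
  intro p _ n h d C _ _ _ _ _ G w0 T hn S
  classical
  have hpp : p.Prime := Fact.out
  have hp0 : (0 : ℝ) < p := by exact_mod_cast hpp.pos
  have hQ := one_lt_pn S hn
  have hne : ((T 1).erase 0).Nonempty := by
    rw [← Finset.card_pos, Finset.card_erase_of_mem (zero_mem A S 1), S.card, mul_one]
    have : 1 < p ^ d := Nat.one_lt_pow (by have := S.hd; omega) hpp.one_lt
    omega
  obtain ⟨t0, ht0, hmin⟩ := Finset.exists_min_image _ lam hne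
  obtain ⟨t1, ht1, hmax⟩ := Finset.exists_max_image _ lam hne
  obtain ⟨σ, hσdef⟩ : ∃ σ, σ = lam t0 := ⟨_, rfl⟩
  have hσ : ∀ t ∈ T 1, t ≠ 0 → σ ≤ lam t := fun t ht h0 =>
    hσdef ▸ hmin t (Finset.mem_erase.2 ⟨h0, ht⟩)
  have hσpos : 0 < σ := by
    rw [hσdef]
    exact lam_pos (Finset.ne_of_mem_erase ht0) (mem_lt S (Finset.mem_of_mem_erase ht0))
  have hΛ : ∀ t ∈ T 1, t ≠ 0 → lam t ≤ lam t1 := fun t ht h0 =>
    hmax t (Finset.mem_erase.2 ⟨h0, ht⟩)
  have hex : ∀ V : ℝ, ∃ N : ℕ, V / (p : ℝ) ^ (n * N) < σ := by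
    intro V
    obtain ⟨N, hN⟩ := pow_unbounded_of_one_lt (V / σ) hQ
    refine ⟨N, ?_⟩
    rw [div_lt_iff₀ (pow_pos hp0 _), pow_mul, mul_comm]
    rwa [div_lt_iff₀ hσpos] at hN
  choose NV hNV using hex
  choose kc hkc using (fun V : ℝ => exists_c A S (NV V) (V / (p : ℝ) ^ (n * NV V)))
  have hS' : ∀ V, 0 < V → ∀ N, V / (p : ℝ) ^ (n * N) < σ →
      SNf p h T (NV V) (V / (p : ℝ) ^ (n * NV V)) = SNf p h T N (V / (p : ℝ) ^ (n * N)) := by
    intro V hV N hN
    rcases le_total N (NV V) with hle | hle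
    · obtain ⟨k, hk⟩ := Nat.exists_eq_add_of_le hle
      have := (indep_level A S hn hσ hV hN k).1
      rw [← hk] at this
      exact this
    · obtain ⟨k, hk⟩ := Nat.exists_eq_add_of_le hle
      have := (indep_level A S hn hσ hV (hNV V) k).1
      rw [← hk] at this
      exact this.symm
  have hc' : ∀ V, 0 < V → ∀ N, V / (p : ℝ) ^ (n * N) < σ →
      p ^ (kc V) * cntf T N (V / (p : ℝ) ^ (n * N)) = p ^ (d * N) := by
    intro V hV N hN
    have hk := hkc V
    rcases le_total N (NV V) with hle | hle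
    · obtain ⟨k, hk2⟩ := Nat.exists_eq_add_of_le hle
      have h1 := (indep_level A S hn hσ hV hN k).2.1
      rw [← hk2] at h1
      rw [h1] at hk
      have h2 : p ^ (d * NV V) = p ^ (d * k) * p ^ (d * N) := by
        rw [hk2, mul_add, pow_add]; ring
      rw [h2] at hk
      apply Nat.eq_of_mul_eq_mul_left (pow_pos hpp.pos (d * k))
      rw [← hk]; ring
    · obtain ⟨k, hk2⟩ := Nat.exists_eq_add_of_le hle
      have h1 := (indep_level A S hn hσ hV (hNV V) k).2.1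
      rw [← hk2] at h1
      have h2 : p ^ (d * N) = p ^ (d * k) * p ^ (d * NV V) := by
        rw [hk2, mul_add, pow_add]; ring
      rw [h1, h2, ← hk]; ring
  have hscale : ∀ (N : ℕ) (η : ℝ), (p : ℝ) ^ (n * N) * η / (p : ℝ) ^ (n * N) = η := by
    intro N η
    have : (p : ℝ) ^ (n * N) ≠ 0 := (pow_pos hp0 _).ne'
    field_simp
  have hS : ∀ N η, 0 < η → η < σ → SNf p h T N η =
      SNf p h T (NV ((p : ℝ) ^ (n * N) * η))
        ((p : ℝ) ^ (n * N) * η / (p : ℝ) ^ (n * NV ((p : ℝ) ^ (n * N) * η))) := by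
    intro N η h0 h1
    rw [hS' _ (mul_pos (pow_pos hp0 _) h0) N (by rw [hscale]; exact h1), hscale]
  -- threshold
  have hqp : (1 : ℝ) < (p : ℝ) ^ h := by
    have h1 : (1 : ℝ) < p := by exact_mod_cast hpp.one_lt
    have := S.hh
    exact one_lt_pow₀ h1 (by omega)
  obtain ⟨N0, hN0⟩ := pow_unbounded_of_one_lt (lam t1 / (σ / 2)) hqp
  have hσ2 : 0 < σ / 2 := by linarith
  have hV0 : lam t1 < SNf p h T N0 (σ / 2) := by
    rw [div_lt_iff₀ hσ2, ← pow_mul] at hN0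
    exact hN0.trans_le (SNf_ge A S N0 hσ2)
  have hmono : StrictMonoOn (fun V => SNf p h T (NV V) (V / (p : ℝ) ^ (n * NV V)))
      (Set.Ioi 0) := by
    intro V hV V' hV' hlt
    have hV : 0 < V := hV
    have hV' : 0 < V' := hV'
    have hle : V / (p : ℝ) ^ (n * NV V') < V' / (p : ℝ) ^ (n * NV V') :=
      (div_lt_div_iff_of_pos_right (pow_pos hp0 _)).2 hlt
    show SNf p h T (NV V) (V / (p : ℝ) ^ (n * NV V)) <
      SNf p h T (NV V') (V' / (p : ℝ) ^ (n * NV V'))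
    rw [hS' V hV (NV V') (hle.trans (hNV V'))]
    exact SNf_lt A S _ hle
  have hVpos : 0 < (p : ℝ) ^ (n * N0) * (σ / 2) := mul_pos (pow_pos hp0 _) hσ2
  have hbig : ∀ V, (p : ℝ) ^ (n * N0) * (σ / 2) ≤ V →
      lam t1 < SNf p h T (NV V) (V / (p : ℝ) ^ (n * NV V)) := by
    intro V hV
    have h1 : SNf p h T N0 (σ / 2) ≤ SNf p h T (NV V) (V / (p : ℝ) ^ (n * NV V)) := by
      rw [hS N0 (σ / 2) hσ2 (by linarith)]
      rcases hV.eq_or_lt with h2 | h2
      · rw [h2]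
      · exact (hmono (Set.mem_Ioi.2 hVpos) (Set.mem_Ioi.2 (hVpos.trans h2)) h2).le
    linarith
  have hshift : ∀ (N : ℕ) (V : ℝ), (p : ℝ) ^ n * V / (p : ℝ) ^ (n * (N + 1)) =
      V / (p : ℝ) ^ (n * N) := by
    intro N V
    rw [mul_add, mul_one, pow_add]
    have h1 : (p : ℝ) ^ (n * N) ≠ 0 := (pow_pos hp0 _).ne'
    have h2 : (p : ℝ) ^ n ≠ 0 := (pow_pos hp0 _).ne'
    field_simp
  refine ⟨σ, fun V => SNf p h T (NV V) (V / (p : ℝ) ^ (n * NV V)), kc,
    (p : ℝ) ^ (n * N0) * (σ / 2), ?_⟩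
  refine ⟨hσpos, hσ, ⟨t0, Finset.mem_of_mem_erase ht0, Finset.ne_of_mem_erase ht0, hσdef.symm⟩,
    hVpos, hS, ?_, ?_, hmono, ?_, ?_, ?_, lam_pos S.w0_ne S.w0_lt, ?_, ?_, ?_⟩
  · intro N η h0 h1
    have := hc' _ (mul_pos (pow_pos hp0 (n * N)) h0) N (by rw [hscale]; exact h1)
    rwa [hscale] at this
  · intro V hV
    have hη : 0 < V / (p : ℝ) ^ (n * NV V) := div_pos hV (pow_pos hp0 _)
    exact (mul_pos (pow_pos hp0 _) hη).trans_le (SNf_ge A S (NV V) hη)
  · intro V hV V' hV' hle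
    have hV : 0 < V := hV
    have hV' : 0 < V' := hV'
    have hle2 : V / (p : ℝ) ^ (n * NV V') ≤ V' / (p : ℝ) ^ (n * NV V') :=
      div_le_div_of_nonneg_right hle (pow_pos hp0 _).le
    have h1 := hc' V hV (NV V') (hle2.trans_lt (hNV V'))
    have h2 := hkc V'
    have h3 : cntf T (NV V') (V' / (p : ℝ) ^ (n * NV V')) ≤
        cntf T (NV V') (V / (p : ℝ) ^ (n * NV V')) := cntf_anti _ hle2
    have h4 : p ^ kc V ≤ p ^ kc V' := by
      apply Nat.le_of_mul_le_mul_right _ (cntf_pos A S (NV V') (V' / (p : ℝ) ^ (n * NV V')))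
      calc p ^ kc V * cntf T (NV V') (V' / (p : ℝ) ^ (n * NV V'))
          ≤ p ^ kc V * cntf T (NV V') (V / (p : ℝ) ^ (n * NV V')) := Nat.mul_le_mul_left _ h3
        _ = p ^ kc V' * cntf T (NV V') (V' / (p : ℝ) ^ (n * NV V')) := by rw [h1, h2]
    exact (Nat.pow_le_pow_iff_right hpp.one_lt).1 h4
  · intro V hV
    have hV1 : 0 < V := hVpos.trans_le hV
    show SNf p h T (NV ((p : ℝ) ^ n * V)) _ = _
    rw [hS' ((p : ℝ) ^ n * V) (mul_pos (pow_pos hp0 _) hV1) (NV V + 1)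
      (by rw [hshift]; exact hNV V), hshift]
    exact (big_step A S hΛ (hbig V hV)).2
  · intro V hV
    have hV1 : 0 < V := hVpos.trans_le hV
    have h1 := hc' ((p : ℝ) ^ n * V) (mul_pos (pow_pos hp0 _) hV1) (NV V + 1)
      (by rw [hshift]; exact hNV V)
    rw [hshift, (big_step A S hΛ (hbig V hV)).1] at h1
    have h2 := hkc V
    have h3 : p ^ kc ((p : ℝ) ^ n * V) = p ^ (kc V + d) := by
      apply Nat.eq_of_mul_eq_mul_right (cntf_pos A S (NV V) (V / (p : ℝ) ^ (n * NV V)))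
      rw [h1, mul_add, mul_one, pow_add, ← h2, pow_add]
      ring
    exact Nat.pow_right_injective hpp.two_le h3
  · intro z hz h1 hl
    exact mul_lt S hn hσ hz h1 hl
  · intro z hz h1 hl
    exact mul_ge S hn hσ hz h1 hl
  · intro z hz h1
    exact mul_q A S hz h1

end Crest.Agent.LT3SCALE
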