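/- rid 227 (S0351), module STRASS: Strassman's bound for the number of zeros. -/
import Crest.Agent.LT3Spec2

set_option autoImplicit false
open Crest.LubinTate
open Crest Crest.GeometryTopology
open Crest.Agent.LT3

namespace Crest.Agent.LT3STRASS

variable {C : Type} [NontriviallyNormedField C] [CompleteSpace C] [IsUltrametricDist C]

lemma int_coeff {f : PowerSeries C} (hf : Int1 f) (n : ℕ) : ‖PowerSeries.coeff n f‖ ≤ 1 :=
  hf (Finsupp.single () n)

lemma int_of_coeff {f : PowerSeries C} (hf : ∀ n, ‖PowerSeries.coeff n f‖ ≤ 1) : Int1 f := by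
  intro e
  have h1 : e = Finsupp.single () (e ()) := by
    ext
    simp
  have h2 := hf (e ())
  rw [h1]
  exact h2

lemma summable_shift {a : ℕ → C} (ha : ∀ n, ‖a n‖ ≤ 1) {z : C} (hz : ‖z‖ < 1) :
    Summable (fun m : ℕ => a m * z ^ m) := by
  apply Summable.of_norm_bounded (g := fun m : ℕ => ‖z‖ ^ m)
    (summable_geometric_of_lt_one (norm_nonneg z) hz)
  intro m
  rw [norm_mul, norm_pow]
  calc ‖a m‖ * ‖z‖ ^ m ≤ 1 * ‖z‖ ^ m :=
        mul_le_mul_of_nonneg_right (ha m) (pow_nonneg (norm_nonneg z) m)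
    _ = ‖z‖ ^ m := one_mul _

/-- division by `X - z₀`. -/
lemma exists_factor {f : PowerSeries C} (hf : Int1 f) {z₀ : C} (hz : ‖z₀‖ < 1)
    (h0 : ev f z₀ = 0) : ∃ g : PowerSeries C, Int1 g ∧
      PowerSeries.coeff 0 f = -(z₀ * PowerSeries.coeff 0 g) ∧
      ∀ i, PowerSeries.coeff (i + 1) f =
        PowerSeries.coeff i g - z₀ * PowerSeries.coeff (i + 1) g := by
  have hc := int_coeff hf
  have hs : ∀ i : ℕ, Summable (fun m : ℕ => PowerSeries.coeff (i + m) f * z₀ ^ m) := fun i =>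
    summable_shift (a := fun m => PowerSeries.coeff (i + m) f) (fun m => hc _) hz
  have hrec : ∀ i : ℕ, (∑' m : ℕ, PowerSeries.coeff (i + m) f * z₀ ^ m) =
      PowerSeries.coeff i f + z₀ * ∑' m : ℕ, PowerSeries.coeff (i + 1 + m) f * z₀ ^ m := by
    intro i
    rw [(hs i).tsum_eq_zero_add, ← tsum_mul_left]
    congr 1
    · simp
    · apply tsum_congr
      intro m
      rw [pow_succ, show i + (m + 1) = i + 1 + m by omega]
      ring
  refine ⟨PowerSeries.mk (fun i => ∑' m : ℕ, PowerSeries.coeff (i + 1 + m) f * z₀ ^ m),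
    int_of_coeff ?_, ?_, ?_⟩
  · intro n
    rw [PowerSeries.coeff_mk]
    apply IsUltrametricDist.norm_tsum_le_of_forall_le_of_nonneg zero_le_one
    intro m
    rw [norm_mul, norm_pow]
    calc ‖PowerSeries.coeff (n + 1 + m) f‖ * ‖z₀‖ ^ m ≤ 1 * 1 :=
          mul_le_mul (hc _) (pow_le_one₀ (norm_nonneg _) hz.le) (pow_nonneg (norm_nonneg _) m)
            zero_le_one
      _ = 1 := one_mul _
  · have h1 := hrec 0
    rw [PowerSeries.coeff_mk]
    have h2 : (∑' m : ℕ, PowerSeries.coeff (0 + m) f * z₀ ^ m) = 0 := by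
      rw [← h0]
      unfold ev
      apply tsum_congr
      intro m
      rw [Nat.zero_add]
    rw [h2] at h1
    exact eq_neg_of_add_eq_zero_left h1.symm
  · intro i
    rw [PowerSeries.coeff_mk, PowerSeries.coeff_mk]
    have h1 := hrec (i + 1)
    rw [h1]
    ring

lemma ev_factor {f g : PowerSeries C} (hg : Int1 g) {z₀ z : C} (hz : ‖z‖ < 1)
    (h0 : PowerSeries.coeff 0 f = -(z₀ * PowerSeries.coeff 0 g))
    (h1 : ∀ i, PowerSeries.coeff (i + 1) f =
        PowerSeries.coeff i g - z₀ * PowerSeries.coeff (i + 1) g) (hf : Int1 f) :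
    ev f z = (z - z₀) * ev g z := by
  have hsg := summable_shift (int_coeff hg) hz
  have hsf := summable_shift (int_coeff hf) hz
  have hsg' : Summable (fun m : ℕ => PowerSeries.coeff (m + 1) g * z ^ (m + 1)) :=
    (summable_nat_add_iff (f := fun m : ℕ => PowerSeries.coeff m g * z ^ m) 1).2 hsg
  have e1 : (∑' m : ℕ, PowerSeries.coeff m g * z ^ m) =
      PowerSeries.coeff 0 g + ∑' m : ℕ, PowerSeries.coeff (m + 1) g * z ^ (m + 1) := by
    rw [hsg.tsum_eq_zero_add, pow_zero, mul_one]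
  have e2 : (∑' m : ℕ, PowerSeries.coeff m f * z ^ m) =
      PowerSeries.coeff 0 f + ∑' m : ℕ, PowerSeries.coeff (m + 1) f * z ^ (m + 1) := by
    rw [hsf.tsum_eq_zero_add, pow_zero, mul_one]
  have e3 : (∑' m : ℕ, PowerSeries.coeff (m + 1) f * z ^ (m + 1)) =
      z * (∑' m : ℕ, PowerSeries.coeff m g * z ^ m) -
      z₀ * ∑' m : ℕ, PowerSeries.coeff (m + 1) g * z ^ (m + 1) := by
    rw [← tsum_mul_left, ← tsum_mul_left, ← (hsg.mul_left z).tsum_sub (hsg'.mul_left z₀)]
    apply tsum_congr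
    intro m
    rw [h1 m, pow_succ]
    ring
  unfold ev
  generalize (∑' m : ℕ, PowerSeries.coeff (m + 1) f * z ^ (m + 1)) = S1 at e2 e3
  generalize (∑' m : ℕ, PowerSeries.coeff (m + 1) g * z ^ (m + 1)) = S2 at e1 e3
  generalize (∑' m : ℕ, PowerSeries.coeff m f * z ^ m) = S3 at e2 ⊢
  generalize (∑' m : ℕ, PowerSeries.coeff m g * z ^ m) = S4 at e1 e3 ⊢
  rw [e2, e3, h0, e1]
  ring

lemma norm_ev_sub_coeff_zero {f : PowerSeries C} (hf : Int1 f) {z : C} (hz : ‖z‖ < 1) :
    ‖ev f z - PowerSeries.coeff 0 f‖ ≤ ‖z‖ := by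
  have hsf := summable_shift (int_coeff hf) hz
  have e2 : ev f z - PowerSeries.coeff 0 f =
      ∑' m : ℕ, PowerSeries.coeff (m + 1) f * z ^ (m + 1) := by
    unfold ev
    rw [hsf.tsum_eq_zero_add]
    simp
  rw [e2]
  apply IsUltrametricDist.norm_tsum_le_of_forall_le_of_nonneg (norm_nonneg z)
  intro m
  rw [norm_mul, norm_pow]
  calc ‖PowerSeries.coeff (m + 1) f‖ * ‖z‖ ^ (m + 1) ≤ 1 * ‖z‖ ^ 1 :=
        mul_le_mul (int_coeff hf _)
          (pow_le_pow_of_le_one (norm_nonneg _) hz.le (by omega))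
          (pow_nonneg (norm_nonneg _) _) zero_le_one
    _ = ‖z‖ := by rw [one_mul, pow_one]

lemma strass_aux (j : ℕ) : ∀ f : PowerSeries C, Int1 f → ‖PowerSeries.coeff j f‖ = 1 →
    ∀ Z : Finset C, (∀ z ∈ Z, ‖z‖ < 1 ∧ ev f z = 0) → Z.card ≤ j := by
  classical
  induction j with
  | zero =>
    intro f hf h1 Z hZ
    rcases Z.eq_empty_or_nonempty with h | ⟨z, hz⟩
    · rw [h]; simp
    · exfalso
      obtain ⟨hz1, hz2⟩ := hZ z hz
      have h2 := norm_ev_sub_coeff_zero hf hz1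
      rw [hz2, zero_sub, norm_neg, h1] at h2
      exact absurd hz1 (not_lt.2 h2)
  | succ j ih =>
    intro f hf h1 Z hZ
    rcases Z.eq_empty_or_nonempty with h | ⟨z₀, hz₀⟩
    · rw [h]; simp
    · obtain ⟨hz1, hz2⟩ := hZ z₀ hz₀
      obtain ⟨g, hg, g0, g1⟩ := exists_factor hf hz1 hz2
      have hgj : ‖PowerSeries.coeff j g‖ = 1 := by
        apply le_antisymm (int_coeff hg j)
        by_contra hlt
        rw [not_le] at hlt
        have h3 : ‖z₀ * PowerSeries.coeff (j + 1) g‖ < 1 := by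
          rw [norm_mul]
          calc ‖z₀‖ * ‖PowerSeries.coeff (j + 1) g‖ ≤ ‖z₀‖ * 1 :=
                mul_le_mul_of_nonneg_left (int_coeff hg _) (norm_nonneg _)
            _ < 1 := by rw [mul_one]; exact hz1
        have h4 : ‖PowerSeries.coeff j g - z₀ * PowerSeries.coeff (j + 1) g‖ < 1 := by
          have h5 := IsUltrametricDist.norm_add_le_max (PowerSeries.coeff j g)
            (-(z₀ * PowerSeries.coeff (j + 1) g))
          rw [norm_neg, ← sub_eq_add_neg] at h5
          exact lt_of_le_of_lt h5 (max_lt hlt h3)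
        rw [← g1 j, h1] at h4
        exact lt_irrefl _ h4
      have h6 := ih g hg hgj (Z.erase z₀) (by
        intro z hz
        obtain ⟨hzne, hzZ⟩ := Finset.mem_erase.1 hz
        obtain ⟨hz3, hz4⟩ := hZ z hzZ
        refine ⟨hz3, ?_⟩
        rw [ev_factor hg hz3 g0 g1 hf] at hz4
        rcases mul_eq_zero.1 hz4 with h | h
        · exact absurd (sub_eq_zero.1 h) hzne
        · exact h)
      rw [Finset.card_erase_of_mem hz₀] at h6
      omega

/-- STRASS. -/
theorem main : Spec2.STRASS := by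
  intro C _ _ _ f j hf h1 Z hZ
  exact strass_aux j f hf h1 Z hZ

end Crest.Agent.LT3STRASS
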