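/- rid 227, module BASIS (helper6). -/
import Crest.Agent.LT3Spec3

set_option autoImplicit false
open Crest.LubinTate
open Crest Crest.GeometryTopology

namespace Crest.Agent.LT3BASIS

open LT3

/-- linear algebra over `F_p`: a basis adapted to a subspace. -/
theorem linalg (p : ℕ) [Fact p.Prime] (V : Type) [AddCommGroup V] [Module (ZMod p) V]
    [Finite V] (Z : Submodule (ZMod p) V) (d : ℕ) (hcard : Nat.card V = p ^ d) :
    ∃ (r' : ℕ) (t : Fin d → V) (hr' : r' ≤ d), p ^ r' * Nat.card Z = p ^ d ∧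
      (∀ K : Submodule (ZMod p) V, (∀ i, t i ∈ K) → K = ⊤) ∧
      (∀ i, r' ≤ i.1 → t i ∈ Z ∧ t i ≠ 0) ∧
      (∀ b : Fin r' → ℕ, (∀ i, b i < p) → (∃ i, b i ≠ 0) →
        ∑ i, b i • t (Fin.castLE hr' i) ∉ Z) := by
  classical
  have hp : p.Prime := Fact.out
  have : Fintype V := Fintype.ofFinite V
  have : FiniteDimensional (ZMod p) V := Module.Finite.of_finite
  obtain ⟨W, hW⟩ := Submodule.exists_isCompl Z
  have hfr : Module.finrank (ZMod p) V = d := by
    have h1 : Nat.card V = p ^ Module.finrank (ZMod p) V := by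
      rw [Nat.card_eq_fintype_card, Module.card_eq_pow_finrank (K := ZMod p), ZMod.card]
    exact Nat.pow_right_injective hp.two_le (h1.symm.trans hcard)
  have hsum := Submodule.finrank_add_eq_of_isCompl hW
  set s := Module.finrank (ZMod p) Z with hs
  set r' := Module.finrank (ZMod p) W with hr'
  have hrs : r' + s = d := by omega
  have hle : r' ≤ d := by omega
  let bW := Module.finBasis (ZMod p) W
  let bZ := Module.finBasis (ZMod p) Z
  let t : Fin d → V := fun i => if h : i.1 < r' then (bW ⟨i.1, h⟩ : V) else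
    (bZ ⟨i.1 - r', by have := i.2; omega⟩ : V)
  refine ⟨r', t, hle, ?_, ?_, ?_, ?_⟩
  · have : Fintype Z := Fintype.ofFinite Z
    rw [Nat.card_eq_fintype_card, Module.card_eq_pow_finrank (K := ZMod p) (V := Z), ZMod.card,
      ← pow_add, ← hs, hrs]
  · intro K hK
    have h1 : W ≤ K := by
      have : (Submodule.span (ZMod p) (Set.range bW)).map W.subtype ≤ K := by
        rw [Submodule.map_span, Submodule.span_le]
        rintro _ ⟨_, ⟨j, rfl⟩, rfl⟩
        have hj := hK ⟨j.1, by have := j.2; omega⟩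
        have hjt : t ⟨j.1, by have := j.2; omega⟩ = (bW j : V) := by
          simp only [t]
          rw [dif_pos (show j.1 < r' from j.2)]
        rw [hjt] at hj
        exact hj
      rw [bW.span_eq, Submodule.map_top, Submodule.range_subtype] at this
      exact this
    have h2 : Z ≤ K := by
      have : (Submodule.span (ZMod p) (Set.range bZ)).map Z.subtype ≤ K := by
        rw [Submodule.map_span, Submodule.span_le]
        rintro _ ⟨_, ⟨j, rfl⟩, rfl⟩
        have hj := hK ⟨r' + j.1, by have := j.2; omega⟩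
        have hjt : t ⟨r' + j.1, by have := j.2; omega⟩ = (bZ j : V) := by
          simp only [t]
          rw [dif_neg (by omega)]
          congr 2
          ext
          simp
        rw [hjt] at hj
        exact hj
      rw [bZ.span_eq, Submodule.map_top, Submodule.range_subtype] at this
      exact this
    have h3 : Z ⊔ W ≤ K := sup_le h2 h1
    rw [hW.sup_eq_top] at h3
    exact top_le_iff.mp h3
  · intro i hi
    have hti : t i = (bZ ⟨i.1 - r', by have := i.2; omega⟩ : V) := by
      simp only [t]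
      rw [dif_neg (by omega)]
    rw [hti]
    refine ⟨Submodule.coe_mem _, ?_⟩
    intro h0
    have : bZ ⟨i.1 - r', by have := i.2; omega⟩ = 0 := by
      ext; simpa using h0
    exact bZ.ne_zero _ this
  · intro b hb hne hmem
    have hti : ∀ i : Fin r', t (Fin.castLE hle i) = (bW i : V) := by
      intro i
      simp only [t, Fin.val_castLE]
      rw [dif_pos i.2]
    have h1 : ∑ i, b i • t (Fin.castLE hle i) = ((∑ i, ((b i : ZMod p)) • bW i : W) : V) := by
      push_cast
      refine Finset.sum_congr rfl fun i _ => ?_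
      rw [hti]
      norm_cast
    rw [h1] at hmem
    have h2 : ((∑ i, ((b i : ZMod p)) • bW i : W) : V) ∈ Z ⊓ W :=
      ⟨hmem, Submodule.coe_mem _⟩
    rw [hW.inf_eq_bot] at h2
    have h3 : (∑ i, ((b i : ZMod p)) • bW i : W) = 0 := by
      ext; simpa using h2
    have h4 := Fintype.linearIndependent_iff.mp bW.linearIndependent _ h3
    obtain ⟨i, hi⟩ := hne
    have h5 := h4 i
    rw [ZMod.natCast_eq_zero_iff] at h5
    exact hi (Nat.eq_zero_of_dvd_of_lt h5 (hb i))


/-- the same for abelian groups killed by `p`. -/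
theorem linalg' (p : ℕ) [Fact p.Prime] (V : Type) [AddCommGroup V] [Finite V]
    (hpV : ∀ a : V, p • a = 0) (Z : AddSubgroup V) (d : ℕ) (hcard : Nat.card V = p ^ d) :
    ∃ (r' : ℕ) (t : Fin d → V) (hr' : r' ≤ d), p ^ r' * Nat.card Z = p ^ d ∧
      (∀ K : AddSubgroup V, (∀ i, t i ∈ K) → ∀ a, a ∈ K) ∧
      (∀ i, r' ≤ i.1 → t i ∈ Z ∧ t i ≠ 0) ∧
      (∀ b : Fin r' → ℕ, (∀ i, b i < p) → (∃ i, b i ≠ 0) →
        ∑ i, b i • t (Fin.castLE hr' i) ∉ Z) := by
  letI : Module (ZMod p) V := AddCommGroup.zmodModule hpV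
  obtain ⟨r', t, hr', h1, h2, h3, h4⟩ := linalg p V (AddSubgroup.toZModSubmodule p Z) d hcard
  refine ⟨r', t, hr', h1, ?_, h3, h4⟩
  intro K hK a
  have h5 := h2 (AddSubgroup.toZModSubmodule p K) hK
  exact Submodule.eq_top_iff'.mp h5 a

/-! ### the group of points of the open ball -/

section Group

variable {C : Type} [NontriviallyNormedField C] [CompleteSpace C] [IsUltrametricDist C]

/-- points of the open unit ball. -/
structure PG (G : FormalGroup C) where
  val : C
  lt : ‖val‖ < 1

variable {G : FormalGroup C}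

theorem PG.ext' {a b : PG G} (h : a.val = b.val) : a = b := by
  cases a; cases b; simpa using h

variable [fA : Fact ApiG] [fG : Fact (IG G)]

noncomputable instance : Add (PG G) :=
  ⟨fun a b => ⟨gadd G a.val b.val, fA.out.add_ball fG.out a.lt b.lt⟩⟩

instance : Zero (PG G) := ⟨⟨0, by simp⟩⟩

noncomputable instance : Neg (PG G) :=
  ⟨fun a => ⟨gneg G a.val, by rw [fA.out.neg_norm fG.out a.lt]; exact a.lt⟩⟩

noncomputable instance : AddCommGroup (PG G) where
  add_assoc a b c := PG.ext' (fA.out.add_assoc fG.out a.lt b.lt c.lt)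
  zero_add a := PG.ext' (fA.out.zero_add fG.out a.lt)
  add_zero a := PG.ext' (by
    change gadd G a.val 0 = a.val
    rw [fA.out.add_comm fG.out a.lt (by simp)]
    exact fA.out.zero_add fG.out a.lt)
  add_comm a b := PG.ext' (fA.out.add_comm fG.out a.lt b.lt)
  neg_add_cancel a := PG.ext' (by
    change gadd G (gneg G a.val) a.val = 0
    rw [fA.out.add_comm fG.out (by rw [fA.out.neg_norm fG.out a.lt]; exact a.lt) a.lt]
    exact fA.out.add_neg fG.out a.lt)
  nsmul := nsmulRec
  zsmul := zsmulRec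

theorem val_add (a b : PG G) : (a + b).val = gadd G a.val b.val := rfl

theorem val_zero : (0 : PG G).val = 0 := rfl

theorem val_nsmul (m : ℕ) (a : PG G) : (m • a).val = gmul G m a.val := by
  induction m with
  | zero => rw [zero_nsmul, val_zero, fA.out.zero_mul fG.out a.lt]
  | succ m ih =>
    rw [succ_nsmul, val_add, ih, fA.out.add_mul fG.out m 1 a.lt, fA.out.one_mul fG.out a.lt]

theorem norm_add_le' (a b : PG G) : ‖(a + b).val‖ ≤ max ‖a.val‖ ‖b.val‖ :=
  fA.out.add_le fG.out a.lt b.lt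

/-- formal sums and ordinary sums. -/
theorem sum_approx {ι : Type} (s : Finset ι) (a : ι → PG G) (ρ : ℝ) (hρ : 0 ≤ ρ)
    (ha : ∀ i ∈ s, ‖(a i).val‖ ≤ ρ) :
    ‖(∑ i ∈ s, a i).val‖ ≤ ρ ∧ ‖(∑ i ∈ s, a i).val - ∑ i ∈ s, (a i).val‖ ≤ ρ ^ 2 := by
  classical
  induction s using Finset.induction_on with
  | empty => simp [val_zero, hρ]
  | insert j s hj ih =>
    have ih' := ih fun i hi => ha i (Finset.mem_insert_of_mem hi)
    have hj' := ha j (Finset.mem_insert_self _ _)
    rw [Finset.sum_insert hj, Finset.sum_insert hj]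
    refine ⟨(norm_add_le' _ _).trans (max_le hj' ih'.1), ?_⟩
    have h1 := fA.out.add_approx fG.out (a j).lt (∑ i ∈ s, a i).lt
    rw [← val_add] at h1
    have h2 : (a j + ∑ i ∈ s, a i).val - ((a j).val + ∑ i ∈ s, (a i).val) =
        ((a j + ∑ i ∈ s, a i).val - ((a j).val + (∑ i ∈ s, a i).val)) +
        ((∑ i ∈ s, a i).val - ∑ i ∈ s, (a i).val) := by ring
    rw [h2]
    refine (IsUltrametricDist.norm_add_le_max _ _).trans (max_le ?_ ih'.2)
    refine h1.trans ?_
    rw [sq]
    exact mul_le_mul hj' ih'.1 (norm_nonneg _) hρ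

theorem nsmul_approx (m : ℕ) (a : PG G) (ρ : ℝ) (hρ : 0 ≤ ρ) (ha : ‖a.val‖ ≤ ρ) :
    ‖(m • a).val‖ ≤ ρ ∧ ‖(m • a).val - (m : C) * a.val‖ ≤ ρ ^ 2 := by
  have := sum_approx (Finset.range m) (fun _ => a) ρ hρ (fun _ _ => ha)
  simpa [Finset.sum_const, nsmul_eq_mul] using this

theorem comb_approx {ι : Type} (s : Finset ι) (b : ι → ℕ) (a : ι → PG G) (ρ : ℝ) (hρ : 0 ≤ ρ)
    (ha : ∀ i ∈ s, ‖(a i).val‖ ≤ ρ) :
    ‖(∑ i ∈ s, b i • a i).val - ∑ i ∈ s, (b i : C) * (a i).val‖ ≤ ρ ^ 2 := by
  classical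
  have h1 := (sum_approx s (fun i => b i • a i) ρ hρ
    (fun i hi => (nsmul_approx (b i) (a i) ρ hρ (ha i hi)).1)).2
  have h2 : ‖∑ i ∈ s, ((b i • a i).val - (b i : C) * (a i).val)‖ ≤ ρ ^ 2 := by
    refine IsUltrametricDist.norm_sum_le_of_forall_le_of_nonneg (sq_nonneg _) ?_
    intro i hi
    exact (nsmul_approx (b i) (a i) ρ hρ (ha i hi)).2
  have h3 : (∑ i ∈ s, b i • a i).val - ∑ i ∈ s, (b i : C) * (a i).val =
      ((∑ i ∈ s, b i • a i).val - ∑ i ∈ s, (b i • a i).val) +
      ∑ i ∈ s, ((b i • a i).val - (b i : C) * (a i).val) := by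
    rw [Finset.sum_sub_distrib]; ring
  rw [h3]
  exact (IsUltrametricDist.norm_add_le_max _ _).trans (max_le h1 h2)

end Group


theorem norm_eq_exp {C : Type} [NormedField C] {z : C} (hz : z ≠ 0) : ‖z‖ = Real.exp (-lam z) := by
  unfold lam
  rw [neg_neg, Real.exp_log (norm_pos_iff.mpr hz)]

theorem lam_pos {C : Type} [NormedField C] {z : C} (hz : z ≠ 0) (h1 : ‖z‖ < 1) : 0 < lam z := by
  unfold lam
  have := Real.log_neg (norm_pos_iff.mpr hz) h1
  linarith

section Seq

variable {p n h d : ℕ} {C : Type} [NontriviallyNormedField C] [CompleteSpace C]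
  [IsUltrametricDist C] {G : FormalGroup C} {w0 : C} {T : ℕ → Finset C} {σ : ℝ} {S : ℝ → ℝ}
  {c : ℝ → ℕ} {V₀ : ℝ}

omit [CompleteSpace C] [IsUltrametricDist C] in
theorem step_lam (sc : Scale p n h d G w0 T σ S c V₀) {z : C} (hz : z ≠ 0) (h1 : ‖z‖ < 1)
    (hy : gmul G p z ≠ 0) (hlt : lam (gmul G p z) < (p : ℝ) ^ n * σ) :
    lam z < σ ∧ lam (gmul G p z) = (p : ℝ) ^ n * lam z := by
  have h2 : lam z < σ := by
    by_contra hcon
    push Not at hcon
    rcases sc.mul_ge z hz h1 hcon with h3 | h3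
    · exact hy h3
    · linarith
  exact ⟨h2, (sc.mul_lt z hz h1 h2).2⟩

omit [CompleteSpace C] [IsUltrametricDist C] in
/-- a compatible sequence starting at valuation `σ`. -/
theorem seq_dom (sc : Scale p n h d G w0 T σ S c V₀) (hQ : 1 < (p : ℝ) ^ n)
    (h00 : gmul G p 0 = 0)
    (g : ℕ → C) (hg : ∀ N, ‖g N‖ < 1) (hstep : ∀ N, gmul G p (g (N + 1)) = g N)
    (h1 : g 1 ≠ 0) (hl : lam (g 1) = σ) :
    ∀ N, 1 ≤ N → g N ≠ 0 ∧ lam (g N) = (p : ℝ) ^ n * σ / (p : ℝ) ^ (n * N) := by
  intro N hN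
  induction N, hN using Nat.le_induction with
  | base =>
    refine ⟨h1, ?_⟩
    rw [hl, mul_one]
    field_simp
  | succ N hN ih =>
    obtain ⟨ih1, ih2⟩ := ih
    have hne : g (N + 1) ≠ 0 := by
      intro h0
      have := hstep N
      rw [h0, h00] at this
      exact ih1 this.symm
    refine ⟨hne, ?_⟩
    have hQ0 : (0 : ℝ) < (p : ℝ) ^ n := by linarith
    have hlt : lam (gmul G p (g (N + 1))) < (p : ℝ) ^ n * σ := by
      rw [hstep N, ih2]
      have : 1 < (p : ℝ) ^ (n * N) := by
        rw [pow_mul]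
        exact one_lt_pow₀ hQ (by omega)
      have hpos : 0 < (p : ℝ) ^ n * σ := mul_pos hQ0 sc.σpos
      exact div_lt_self hpos this
    have h3 := (step_lam sc hne (hg _) (by rw [hstep N]; exact ih1) hlt).2
    rw [hstep N, ih2] at h3
    have h4 : lam (g (N + 1)) = (p : ℝ) ^ n * σ / (p : ℝ) ^ (n * N) / (p : ℝ) ^ n := by
      rw [h3]; field_simp
    rw [h4, div_div, ← pow_add]
    congr 2

omit [CompleteSpace C] [IsUltrametricDist C] in
/-- a compatible sequence starting at valuation `> σ`. -/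
theorem seq_nondom (sc : Scale p n h d G w0 T σ S c V₀) (hQ : 1 < (p : ℝ) ^ n)
    (hq : 1 < (p : ℝ) ^ h)
    (h00 : gmul G p 0 = 0)
    (g : ℕ → C) (hg : ∀ N, ‖g N‖ < 1) (hstep : ∀ N, gmul G p (g (N + 1)) = g N)
    (h1 : g 1 ≠ 0) (hl : σ < lam (g 1)) :
    ∃ V, (p : ℝ) ^ n * σ < V ∧ HasV p n g V := by
  have hQ0 : (0 : ℝ) < (p : ℝ) ^ n := by linarith
  have hne : ∀ N, 1 ≤ N → g N ≠ 0 := by
    intro N hN
    induction N, hN using Nat.le_induction with
    | base => exact h1
    | succ N hN ih =>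
      intro h0
      have := hstep N
      rw [h0, h00] at this
      exact ih this.symm
  -- the decay
  have hdec : ∀ N, 1 ≤ N → (p : ℝ) ^ h * lam (g (N + 1)) ≤ lam (g N) := by
    intro N hN
    rcases sc.mul_q (g (N + 1)) (hne _ (by omega)) (hg _) with h3 | h3
    · rw [hstep N] at h3
      exact absurd h3 (hne N hN)
    · rwa [hstep N] at h3
  have hdec2 : ∀ N, ((p : ℝ) ^ h) ^ N * lam (g (N + 1)) ≤ lam (g 1) := by
    intro N
    induction N with
    | zero => simp
    | succ N ih =>
      refine le_trans ?_ ih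
      rw [pow_succ, mul_assoc]
      exact mul_le_mul_of_nonneg_left (hdec (N + 1) (by omega)) (by positivity)
  have hex : ∃ N₁, 1 ≤ N₁ ∧ lam (g N₁) < σ := by
    obtain ⟨M, hM⟩ := pow_unbounded_of_one_lt (lam (g 1) / σ) hq
    refine ⟨M + 1, by omega, ?_⟩
    rw [div_lt_iff₀ sc.σpos] at hM
    have h2 := hdec2 M
    by_contra hcon
    push Not at hcon
    have hpM : (0 : ℝ) < ((p : ℝ) ^ h) ^ M := by
      have : (0 : ℝ) < (p : ℝ) ^ h := by linarith
      positivity
    have : ((p : ℝ) ^ h) ^ M * σ ≤ ((p : ℝ) ^ h) ^ M * lam (g (M + 1)) :=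
      mul_le_mul_of_nonneg_left hcon hpM.le
    linarith
  obtain ⟨N₁, hN₁, hlt⟩ := hex
  have hlt' : ∀ N, N₁ ≤ N → lam (g N) < σ := by
    intro N hN
    induction N, hN using Nat.le_induction with
    | base => exact hlt
    | succ N hN ih =>
      have h2 := hdec N (by omega)
      have h3 := lam_pos (hne (N + 1) (by omega)) (hg (N + 1))
      nlinarith
  -- `Q^N lam (g N) > Q σ`
  have hbig : ∀ N, 1 ≤ N → (p : ℝ) ^ n * σ < (p : ℝ) ^ (n * N) * lam (g N) := by
    intro N hN
    induction N, hN using Nat.le_induction with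
    | base => rw [mul_one]; exact mul_lt_mul_of_pos_left hl hQ0
    | succ N hN ih =>
      by_cases hc : lam (g (N + 1)) < σ
      · have h3 := (sc.mul_lt _ (hne (N + 1) (by omega)) (hg _) hc).2
        rw [hstep N] at h3
        rw [h3] at ih
        calc (p : ℝ) ^ n * σ < (p : ℝ) ^ (n * N) * ((p : ℝ) ^ n * lam (g (N + 1))) := ih
          _ = (p : ℝ) ^ (n * (N + 1)) * lam (g (N + 1)) := by
            rw [mul_add, pow_add, mul_one]; ring
      · push Not at hc
        have h3 : (p : ℝ) ^ n < (p : ℝ) ^ (n * (N + 1)) := by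
          rw [mul_add, pow_add, mul_one]
          have : 1 < (p : ℝ) ^ (n * N) := by
            rw [pow_mul]
            exact one_lt_pow₀ hQ (by omega)
          nlinarith
        have h4 := sc.σpos
        calc (p : ℝ) ^ n * σ < (p : ℝ) ^ (n * (N + 1)) * σ := mul_lt_mul_of_pos_right h3 h4
          _ ≤ (p : ℝ) ^ (n * (N + 1)) * lam (g (N + 1)) :=
            mul_le_mul_of_nonneg_left hc (by positivity)
  refine ⟨(p : ℝ) ^ (n * N₁) * lam (g N₁), hbig N₁ hN₁, N₁, ?_⟩
  intro N hN
  refine ⟨hne N (by omega), ?_⟩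
  induction N, hN using Nat.le_induction with
  | base =>
    have : (p : ℝ) ^ (n * N₁) ≠ 0 := by rw [pow_mul]; positivity
    field_simp
  | succ N hN ih =>
    have h3 := (sc.mul_lt _ (hne (N + 1) (by omega)) (hg _) (hlt' (N + 1) (by omega))).2
    rw [hstep N, ih] at h3
    have h4 : lam (g (N + 1)) = (p : ℝ) ^ (n * N₁) * lam (g N₁) / (p : ℝ) ^ (n * N) /
        (p : ℝ) ^ n := by
      rw [h3]; field_simp
    rw [h4, div_div, ← pow_add]
    congr 2

end Seq


section Main

variable {p n h d : ℕ} [Fact p.Prime] {C : Type} [NontriviallyNormedField C] [CompleteSpace C]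
  [IsUltrametricDist C] {G : FormalGroup C} {w0 : C} {T : ℕ → Finset C}

/-- compatible sequence through a `p`-torsion point. -/
theorem exists_seq (aG : ApiG) (ts : TSys p h d G w0 T) (t : C) (ht : t ∈ T 1) :
    ∃ τ : ℕ → C, IsSeq p G T τ ∧ τ 1 = t := by
  classical
  have h0 : (0 : C) ∈ T 0 := by
    rw [ts.mem]
    exact ⟨by simp, aG.mul_zero ts.ig _⟩
  -- recursion on members
  let step : ∀ N, {t // t ∈ T N} → {t // t ∈ T (N + 1)} := fun N t =>
    ⟨(ts.surj N t.1 t.2).choose, (ts.surj N t.1 t.2).choose_spec.1⟩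
  have hstep : ∀ N t, gmul G p (step N t).1 = t.1 := fun N t =>
    (ts.surj N t.1 t.2).choose_spec.2
  let g : ∀ N, {t // t ∈ T (N + 1)} := fun N =>
    Nat.rec (motive := fun N => {t // t ∈ T (N + 1)}) ⟨t, ht⟩ (fun N t => step (N + 1) t) N
  let τ : ℕ → C := fun N => match N with
    | 0 => 0
    | N + 1 => (g N).1
  refine ⟨τ, ⟨rfl, ?_, ?_⟩, rfl⟩
  · intro N
    cases N with
    | zero => exact h0
    | succ N => exact (g N).2
  · intro N
    cases N with
    | zero =>
      have := ((ts.mem 1 t).mp ht).2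
      rw [pow_one] at this
      exact this
    | succ N => exact hstep (N + 1) (g N)

end Main

theorem main (aG : ApiG) : Spec3.BASIS := by
  classical
  intro p _ n h d C _ _ _ _ _ G w0 T σ S c V₀ hhd ts sc
  have hp : p.Prime := Fact.out
  have fA : Fact ApiG := ⟨aG⟩
  have fG : Fact (IG G) := ⟨ts.ig⟩
  have hp1 : (1 : ℝ) < p := by exact_mod_cast hp.one_lt
  have hQ : 1 < (p : ℝ) ^ n := one_lt_pow₀ hp1 (by have := ts.hd; have := ts.hh; omega)
  have hq : 1 < (p : ℝ) ^ h := one_lt_pow₀ hp1 (by have := ts.hh; omega)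
  have h00 : gmul G p 0 = 0 := aG.mul_zero ts.ig p
  -- the torsion subgroup
  let A : AddSubgroup (PG G) := (nsmulAddMonoidHom (α := PG G) p).ker
  have memA : ∀ a : PG G, a ∈ A ↔ a.val ∈ T 1 := by
    intro a
    rw [ts.mem 1, pow_one, ← val_nsmul]
    constructor
    · intro ha
      have ha' : p • a = 0 := ha
      exact ⟨a.lt, by rw [ha']; rfl⟩
    · intro ha
      exact PG.ext' ha.2
  let eA : A ≃ {t // t ∈ T 1} :=
    { toFun := fun a => ⟨a.1.val, (memA a.1).mp a.2⟩
      invFun := fun t => ⟨⟨t.1, ((ts.mem 1 t.1).mp t.2).1⟩, (memA _).mpr t.2⟩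
      left_inv := fun a => rfl
      right_inv := fun t => rfl }
  have finA : Finite A := Finite.of_equiv _ eA.symm
  have hcardA : Nat.card A = p ^ d := by
    rw [Nat.card_congr eA, Nat.card_eq_fintype_card, Fintype.card_coe, ts.card 1, mul_one]
  have hpA : ∀ a : A, p • a = 0 := by
    intro a
    apply Subtype.ext
    exact a.2
  -- the subgroup of elements of large valuation
  let Zg : AddSubgroup A :=
    { carrier := {a | a.1.val = 0 ∨ σ < lam a.1.val}
      zero_mem' := Or.inl rfl
      add_mem' := by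
        intro a b ha hb
        by_cases h0 : (a + b).1.val = 0
        · exact Or.inl h0
        · right
          have h1 : ‖(a + b).1.val‖ ≤ max ‖a.1.val‖ ‖b.1.val‖ := norm_add_le' a.1 b.1
          have h2 : ∀ x : A, (x.1.val = 0 ∨ σ < lam x.1.val) → ‖x.1.val‖ < Real.exp (-σ) := by
            intro x hx
            rcases hx with hx | hx
            · rw [hx, norm_zero]; exact Real.exp_pos _
            · by_cases hx0 : x.1.val = 0
              · rw [hx0, norm_zero]; exact Real.exp_pos _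
              · rw [norm_eq_exp hx0]; exact Real.exp_lt_exp.mpr (by linarith)
          have h3 : ‖(a + b).1.val‖ < Real.exp (-σ) :=
            lt_of_le_of_lt h1 (max_lt (h2 a ha) (h2 b hb))
          rw [norm_eq_exp h0] at h3
          have := Real.exp_lt_exp.mp h3
          change σ < lam (a + b).1.val
          linarith
      neg_mem' := by
        intro a ha
        have h1 : ‖(-a).1.val‖ = ‖a.1.val‖ := aG.neg_norm ts.ig a.1.lt
        rcases ha with ha | ha
        · left
          have : ‖(-a).1.val‖ = 0 := by rw [h1, ha, norm_zero]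
          exact norm_eq_zero.mp this
        · right
          change σ < lam (-a).1.val
          unfold lam at ha ⊢
          rwa [h1] }
  obtain ⟨r', t, hr', hcZ, hgen, hnd, hind⟩ := linalg' p A hpA Zg d hcardA
  have htT : ∀ i, (t i).1.val ∈ T 1 := fun i => (memA _).mp (t i).2
  choose τ hτ hτ1 using fun i => exists_seq aG ts (t i).1.val (htT i)
  have hτlt : ∀ i N, ‖τ i N‖ < 1 := fun i N => ((ts.mem N _).mp ((hτ i).mem N)).1
  refine ⟨r', τ, ?_, hr', ?_, hτ, ?_, ?_, ?_, ?_⟩
  · -- `1 ≤ r'`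
    by_contra hcon
    have hr0 : r' = 0 := by omega
    rw [hr0, pow_zero, one_mul] at hcZ
    obtain ⟨t0, ht0, hne0, hl0⟩ := sc.σatt
    have hall : Zg = ⊤ := by
      apply AddSubgroup.eq_top_of_card_eq
      rw [hcardA]
      exact hcZ
    have hin : eA.symm ⟨t0, ht0⟩ ∈ Zg := by rw [hall]; exact AddSubgroup.mem_top _
    rcases hin with h1 | h1
    · exact hne0 h1
    · change σ < lam t0 at h1
      linarith
  · refine ⟨(T 1).filter (fun t => t = 0 ∨ σ < lam t), fun t => by rw [Finset.mem_filter], ?_⟩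
    rw [← hcZ]
    congr 1
    rw [← Fintype.card_coe, ← Nat.card_eq_fintype_card]
    refine Nat.card_congr ?_
    exact
      { toFun := fun t => ⟨eA.symm ⟨t.1, (Finset.mem_filter.mp t.2).1⟩,
          (Finset.mem_filter.mp t.2).2⟩
        invFun := fun a => ⟨a.1.1.val, Finset.mem_filter.mpr ⟨(memA _).mp a.1.2, a.2⟩⟩
        left_inv := fun t => rfl
        right_inv := fun a => rfl }
  · intro E hE hEi t0 ht0
    -- the kernel of `E`
    let Eh : A →+ C := AddMonoidHom.mk' (fun a => E a.1.val) (by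
      intro a b
      exact hE _ ((memA _).mp a.2) _ ((memA _).mp b.2))
    exact hgen Eh.ker (by
      intro i
      change E (t i).1.val = 0
      rw [← hτ1 i]
      exact hEi i) (eA.symm ⟨t0, ht0⟩)
  · -- dominant: valuation
    intro i hi
    have hnz : t i ∉ Zg := by
      have := hind (fun j => if j.1 = i.1 then 1 else 0) (by
        intro j; split_ifs
        · exact hp.one_lt
        · exact hp.pos) ⟨⟨i.1, hi⟩, by simp⟩
      rw [Finset.sum_eq_single (⟨i.1, hi⟩ : Fin r')] at this
      · simpa using this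
      · intro j _ hj
        have : j.1 ≠ i.1 := fun h => hj (Fin.ext h)
        simp [this]
      · intro h; exact absurd (Finset.mem_univ _) h
    have h1 : (t i).1.val ≠ 0 := fun h0 => hnz (Or.inl h0)
    have h2 : ¬ σ < lam (t i).1.val := fun h0 => hnz (Or.inr h0)
    have h3 : lam (t i).1.val = σ := le_antisymm (not_lt.mp h2) (sc.σmin _ (htT i) h1)
    rw [← hτ1 i] at h1 h3
    exact ⟨1, seq_dom sc hQ h00 (τ i) (hτlt i) (hτ i).step h1 h3⟩
  · -- independence
    intro _
    refine ⟨1, ?_⟩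
    intro N hN b hb hne i'
    -- valuations of the members
    have hval : ∀ i : Fin r', lam (t (Fin.castLE hr' i)).1.val = σ ∧
        (t (Fin.castLE hr' i)).1.val ≠ 0 := by
      intro i
      have hnz : t (Fin.castLE hr' i) ∉ Zg := by
        have := hind (fun j => if j = i then 1 else 0) (by
          intro j; split_ifs
          · exact hp.one_lt
          · exact hp.pos) ⟨i, by simp⟩
        rw [Finset.sum_eq_single i] at this
        · simpa using this
        · intro j _ hj
          simp [hj]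
        · intro h; exact absurd (Finset.mem_univ _) h
      have h1 : (t (Fin.castLE hr' i)).1.val ≠ 0 := fun h0 => hnz (Or.inl h0)
      have h2 : ¬ σ < lam (t (Fin.castLE hr' i)).1.val := fun h0 => hnz (Or.inr h0)
      exact ⟨le_antisymm (not_lt.mp h2) (sc.σmin _ (htT _) h1), h1⟩
    have hdom : ∀ i : Fin r', τ (Fin.castLE hr' i) N ≠ 0 ∧
        lam (τ (Fin.castLE hr' i) N) = (p : ℝ) ^ n * σ / (p : ℝ) ^ (n * N) := by
      intro i
      obtain ⟨h3, h1⟩ := hval i
      rw [← hτ1] at h1 h3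
      exact seq_dom sc hQ h00 (τ _) (hτlt _) (hτ _).step h1 h3 N hN
    set ρ : ℝ := Real.exp (-((p : ℝ) ^ n * σ / (p : ℝ) ^ (n * N))) with hρ
    have hnorm : ∀ i : Fin r', ‖τ (Fin.castLE hr' i) N‖ = ρ := by
      intro i
      rw [norm_eq_exp (hdom i).1, (hdom i).2]
    have hρ0 : 0 < ρ := Real.exp_pos _
    have hρ1 : ρ < 1 := by rw [← hnorm i']; exact hτlt _ _
    -- the formal sums
    let τh : Fin r' → ℕ → PG G := fun i M => ⟨τ (Fin.castLE hr' i) M, hτlt _ _⟩
    let g : ℕ → PG G := fun M => ∑ i, b i • τh i M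
    have hstep : ∀ M, p • g (M + 1) = g M := by
      intro M
      simp only [g]
      rw [Finset.smul_sum]
      refine Finset.sum_congr rfl fun i _ => ?_
      rw [smul_comm]
      congr 1
      apply PG.ext'
      rw [val_nsmul]
      exact (hτ _).step M
    have hg1 : g 1 = ((∑ i, b i • t (Fin.castLE hr' i) : A) : PG G) := by
      simp only [g]
      push_cast
      refine Finset.sum_congr rfl fun i _ => ?_
      congr 1
      apply PG.ext'
      exact hτ1 _
    have hnz := hind b hb hne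
    have hg1T : (g 1).val ∈ T 1 := by
      rw [← memA, hg1]; exact Subtype.coe_prop _
    have h1 : (g 1).val ≠ 0 := by
      intro h0
      apply hnz
      left
      rw [← hg1]; exact h0
    have h2 : ¬ σ < lam (g 1).val := by
      intro h0
      apply hnz
      right
      change σ < lam ((∑ i, b i • t (Fin.castLE hr' i) : A) : PG G).val
      rw [← hg1]; exact h0
    have h3 : lam (g 1).val = σ := le_antisymm (not_lt.mp h2) (sc.σmin _ hg1T h1)
    have h4 := seq_dom sc hQ h00 (fun M => (g M).val) (fun M => (g M).lt)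
      (fun M => by
        change gmul G p (g (M + 1)).val = (g M).val
        rw [← val_nsmul, hstep]) h1 h3 N hN
    have hgn : ‖(g N).val‖ = ρ := by rw [norm_eq_exp h4.1, h4.2]
    have h5 := comb_approx Finset.univ b (fun i => τh i N) ρ hρ0.le
      (fun i _ => (hnorm i).le)
    change ‖(g N).val - ∑ i, (b i : C) * τ (Fin.castLE hr' i) N‖ ≤ ρ ^ 2 at h5
    have h6 : ‖(g N).val - ∑ i, (b i : C) * τ (Fin.castLE hr' i) N‖ < ‖(g N).val‖ := by
      rw [hgn]
      refine lt_of_le_of_lt h5 ?_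
      nlinarith
    rw [hnorm i', ← hgn]
    have h7 : ∑ i, (b i : C) * τ (Fin.castLE hr' i) N =
        (g N).val + -((g N).val - ∑ i, (b i : C) * τ (Fin.castLE hr' i) N) := by ring
    rw [h7]
    rw [IsUltrametricDist.norm_add_eq_max_of_norm_ne_norm (by rw [norm_neg]; exact h6.ne')]
    rw [norm_neg]
    exact max_eq_left h6.le
  · intro i hi
    obtain ⟨h1, h2⟩ := hnd i hi
    have h3 : (t i).1.val ≠ 0 := by
      intro h0
      apply h2
      apply Subtype.ext
      exact PG.ext' h0
    have h4 : σ < lam (t i).1.val := by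
      rcases h1 with h1 | h1
      · exact absurd h1 h3
      · exact h1
    rw [← hτ1 i] at h3 h4
    exact ⟨h3, seq_nondom sc hQ hq h00 (τ i) (hτlt i) (hτ i).step h3 h4⟩

end Crest.Agent.LT3BASIS
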