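/- rid 227, module TJ (helper6). -/
import Crest.Agent.LT3BASIS

set_option autoImplicit false
open Crest.LubinTate
open Crest Crest.GeometryTopology

namespace Crest.Agent.LT3TJ

open LT3 LT3BASIS

section Seq

variable {p n h d : ℕ} {C : Type} [NontriviallyNormedField C]
  {G : FormalGroup C} {w0 : C} {T : ℕ → Finset C} {σ : ℝ} {S : ℝ → ℝ}
  {c : ℝ → ℕ} {V₀ : ℝ}

theorem seq_tail (sc : Scale p n h d G w0 T σ S c V₀) (hQ : 1 < (p : ℝ) ^ n)
    (hq : 1 < (p : ℝ) ^ h) (h00 : gmul G p 0 = 0)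
    (g : ℕ → C) (hg : ∀ N, ‖g N‖ < 1) (hstep : ∀ N, gmul G p (g (N + 1)) = g N)
    (h1 : g 1 ≠ 0) (M : ℕ) (hM : lam (g 1) / σ < ((p : ℝ) ^ h) ^ M) :
    ∀ N, M + 1 ≤ N → g N ≠ 0 ∧
      lam (g N) = (p : ℝ) ^ (n * (M + 1)) * lam (g (M + 1)) / (p : ℝ) ^ (n * N) := by
  have hQ0 : (0 : ℝ) < (p : ℝ) ^ n := by linarith
  have hne : ∀ N, 1 ≤ N → g N ≠ 0 := by
    intro N hN
    induction N, hN using Nat.le_induction with
    | base => exact h1
    | succ N hN ih =>
      intro h0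
      have := hstep N
      rw [h0, h00] at this
      exact ih this.symm
  have hdec : ∀ N, 1 ≤ N → (p : ℝ) ^ h * lam (g (N + 1)) ≤ lam (g N) := by
    intro N hN
    rcases sc.mul_q (g (N + 1)) (hne _ (by omega)) (hg _) with h3 | h3
    · rw [hstep N] at h3
      exact absurd h3 (hne N hN)
    · rwa [hstep N] at h3
  have hdec2 : ∀ N, ((p : ℝ) ^ h) ^ N * lam (g (N + 1)) ≤ lam (g 1) := by
    intro N
    induction N with
    | zero => simp
    | succ N ih =>
      refine le_trans ?_ ih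
      rw [pow_succ, mul_assoc]
      exact mul_le_mul_of_nonneg_left (hdec (N + 1) (by omega)) (by positivity)
  have hlt : lam (g (M + 1)) < σ := by
    rw [div_lt_iff₀ sc.σpos] at hM
    have h2 := hdec2 M
    by_contra hcon
    push Not at hcon
    have hpM : (0 : ℝ) < ((p : ℝ) ^ h) ^ M := by
      have : (0 : ℝ) < (p : ℝ) ^ h := by linarith
      positivity
    have : ((p : ℝ) ^ h) ^ M * σ ≤ ((p : ℝ) ^ h) ^ M * lam (g (M + 1)) :=
      mul_le_mul_of_nonneg_left hcon hpM.le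
    linarith
  have hlt' : ∀ N, M + 1 ≤ N → lam (g N) < σ := by
    intro N hN
    induction N, hN using Nat.le_induction with
    | base => exact hlt
    | succ N hN ih =>
      have h2 := hdec N (by omega)
      have h3 := lam_pos (hne (N + 1) (by omega)) (hg (N + 1))
      nlinarith
  intro N hN
  refine ⟨hne N (by omega), ?_⟩
  induction N, hN using Nat.le_induction with
  | base =>
    have : (p : ℝ) ^ (n * (M + 1)) ≠ 0 := by rw [pow_mul]; positivity
    field_simp
  | succ N hN ih =>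
    have h3 := (sc.mul_lt _ (hne (N + 1) (by omega)) (hg _) (hlt' (N + 1) (by omega))).2
    rw [hstep N, ih] at h3
    have h4 : lam (g (N + 1)) = (p : ℝ) ^ (n * (M + 1)) * lam (g (M + 1)) / (p : ℝ) ^ (n * N) /
        (p : ℝ) ^ n := by
      rw [h3]; field_simp
    rw [h4, div_div, ← pow_add]
    congr 2

theorem hasV_unique (hp : 0 < (p : ℝ)) {g : ℕ → C} {V V' : ℝ} (h : HasV p n g V)
    (h' : HasV p n g V') : V = V' := by
  obtain ⟨N, hN⟩ := h
  obtain ⟨N', hN'⟩ := h'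
  have h1 := (hN (max N N') (le_max_left _ _)).2
  have h2 := (hN' (max N N') (le_max_right _ _)).2
  rw [h1] at h2
  have h3 : (p : ℝ) ^ (n * max N N') ≠ 0 := by positivity
  field_simp at h2
  exact h2

end Seq

theorem lam_lt_of_norm_lt {C : Type} [NormedField C] {z z' : C} (hz : z ≠ 0)
    (hlt : ‖z‖ < ‖z'‖) : lam z' < lam z := by
  unfold lam
  have := Real.log_lt_log (norm_pos_iff.mpr hz) hlt
  linarith

theorem main (aG : ApiG) : Spec3.TJ := by
  classical
  intro p _ n h d C _ _ _ _ _ G w0 T σ S c V₀ hhd ts sc s τ hτ hτV hind τ' V' hτ' hτ'1 hV' hlt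
  have hp : p.Prime := Fact.out
  have fA : Fact ApiG := ⟨aG⟩
  have fG : Fact (IG G) := ⟨ts.ig⟩
  have hp1 : (1 : ℝ) < p := by exact_mod_cast hp.one_lt
  have hp0 : (0 : ℝ) < p := by linarith
  have hQ : 1 < (p : ℝ) ^ n := one_lt_pow₀ hp1 (by have := ts.hd; have := ts.hh; omega)
  have hQ0 : (0 : ℝ) < (p : ℝ) ^ n := by linarith
  have hq : 1 < (p : ℝ) ^ h := one_lt_pow₀ hp1 (by have := ts.hh; omega)
  have h00 : gmul G p 0 = 0 := aG.mul_zero ts.ig p
  have hlt1 : ∀ g : ℕ → C, IsSeq p G T g → ∀ N, ‖g N‖ < 1 := fun g hg N =>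
    ((ts.mem N _).mp (hg.mem N)).1
  -- `lam (τ' 1) > σ`
  have hσ' : σ < lam (τ' 1) := by
    by_contra hcon
    push Not at hcon
    have h1 : lam (τ' 1) = σ := le_antisymm hcon (sc.σmin _ (hτ'.mem 1) hτ'1)
    have h2 : HasV p n τ' ((p : ℝ) ^ n * σ) :=
      ⟨1, seq_dom sc hQ h00 τ' (hlt1 τ' hτ') hτ'.step hτ'1 h1⟩
    have := hasV_unique hp0 hV' h2
    linarith
  obtain ⟨M, hM⟩ := pow_unbounded_of_one_lt (lam (τ' 1) / σ) hq
  -- the maximal sequence
  let A : Finset C := (T (M + 1)).filter fun x =>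
    ∃ g : ℕ → C, IsSeq p G T g ∧ g 1 = τ' 1 ∧ g (M + 1) = x
  have hA : A.Nonempty :=
    ⟨τ' (M + 1), Finset.mem_filter.mpr ⟨hτ'.mem _, τ', hτ', rfl, rfl⟩⟩
  obtain ⟨x, hxA, hxmax⟩ := Finset.exists_max_image A lam hA
  obtain ⟨hxT, g, hg, hg1, hgx⟩ := Finset.mem_filter.mp hxA
  have hgne : g 1 ≠ 0 := by rw [hg1]; exact hτ'1
  have hgM : lam (g 1) / σ < ((p : ℝ) ^ h) ^ M := by rw [hg1]; exact hM
  have htail := seq_tail sc hQ hq h00 g (hlt1 g hg) hg.step hgne M hgM
  obtain ⟨v, hvlt, hvV⟩ := seq_nondom sc hQ hq h00 g (hlt1 g hg) hg.step hgne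
    (by rw [hg1]; exact hσ')
  have hv : v = (p : ℝ) ^ (n * (M + 1)) * lam (g (M + 1)) :=
    hasV_unique hp0 hvV ⟨M + 1, htail⟩
  refine ⟨g, v, hg, hg1, hvV, hvlt, ?_⟩
  by_cases hcase : ∀ l : ℕ, v ≠ (p : ℝ) ^ (n * l) * ((p : ℝ) ^ n * σ)
  · exact Or.inl hcase
  right
  push Not at hcase
  obtain ⟨l, hl⟩ := hcase
  have hl1 : 1 ≤ l := by
    rcases Nat.eq_zero_or_pos l with h0 | h0
    · rw [h0, mul_zero, pow_zero, one_mul] at hl
      linarith
    · exact h0
  refine ⟨l, hl1, hl, ?_⟩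
  -- levels
  obtain ⟨N₁, hN₁⟩ := hind
  obtain ⟨N₂, hN₂⟩ := hvV
  choose N₃ hN₃ using hτV
  let N₄ := ∑ i, N₃ i
  have hN₄ : ∀ i, N₃ i ≤ N₄ := fun i =>
    Finset.single_le_sum (f := N₃) (fun _ _ => Nat.zero_le _) (Finset.mem_univ i)
  refine ⟨M + 1 + N₁ + N₂ + N₄ + l, ?_⟩
  intro N hN b hb hne i'
  set ρ : ℝ := Real.exp (-(v / (p : ℝ) ^ (n * N))) with hρ
  have hgN : ‖g N‖ = ρ := by
    obtain ⟨h1, h2⟩ := hN₂ N (by omega)
    rw [norm_eq_exp h1, h2]
  have hτN : ∀ i, ‖τ i (N - l)‖ = ρ := by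
    intro i
    obtain ⟨h1, h2⟩ := hN₃ i (N - l) (by have := hN₄ i; omega)
    rw [norm_eq_exp h1, h2, hρ, hl]
    congr 2
    have h3 : (p : ℝ) ^ (n * N) = (p : ℝ) ^ (n * l) * (p : ℝ) ^ (n * (N - l)) := by
      rw [← pow_add, ← mul_add]
      congr 2
      omega
    rw [h3]
    have h4 : (p : ℝ) ^ (n * l) ≠ 0 := by positivity
    have h5 : (p : ℝ) ^ (n * (N - l)) ≠ 0 := by positivity
    field_simp
  have hρ0 : 0 < ρ := Real.exp_pos _
  have hρ1 : ρ < 1 := by rw [← hgN]; exact hlt1 g hg N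
  set X : Fin (s + 2) → ℕ → C := Fin.cons g (fun i => shift l (τ i)) with hX
  have hX0 : X 0 = g := rfl
  have hXs : ∀ i : Fin (s + 1), X i.succ = shift l (τ i) := fun i => rfl
  have hXN : ∀ i, ‖X i N‖ = ρ := by
    intro i
    refine Fin.cases ?_ (fun j => ?_) i
    · exact hgN
    · exact hτN j
  rw [hXN i']
  have hle : ‖∑ i, (b i : C) * X i N‖ ≤ ρ := by
    refine IsUltrametricDist.norm_sum_le_of_forall_le_of_nonneg hρ0.le ?_
    intro i _
    rw [norm_mul, hXN i]
    exact mul_le_of_le_one_left hρ0.le (IsUltrametricDist.norm_natCast_le_one C (b i))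
  by_contra hcon
  have hltρ : ‖∑ i, (b i : C) * X i N‖ < ρ := lt_of_le_of_ne hle hcon
  -- the coefficient of `g` is nonzero
  have hb0 : b 0 ≠ 0 := by
    intro hb0
    rw [Fin.sum_univ_succ, hb0, Nat.cast_zero, zero_mul, zero_add] at hltρ
    have hex : ∃ i : Fin (s + 1), b i.succ ≠ 0 := by
      obtain ⟨i, hi⟩ := hne
      revert hi
      refine Fin.cases ?_ (fun j => ?_) i
      · intro h; exact absurd hb0 h
      · intro h; exact ⟨j, h⟩
    have h2 := hN₁ (N - l) (by omega) (fun i => b i.succ) (fun i => hb _) hex 0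
    rw [hτN 0] at h2
    have h3 : ∑ i : Fin (s + 1), (b i.succ : C) * X i.succ N =
        ∑ i, ((fun i : Fin (s + 1) => b i.succ) i : C) * τ i (N - l) := rfl
    rw [h3, h2] at hltρ
    exact lt_irrefl _ hltρ
  -- scale
  obtain ⟨e, he⟩ : ∃ e : ℕ, ((e * b 0 : ℕ) : ZMod p) = 1 := by
    have hne0 : ((b 0 : ℕ) : ZMod p) ≠ 0 := by
      intro h0
      rw [ZMod.natCast_eq_zero_iff] at h0
      exact hb0 (Nat.eq_zero_of_dvd_of_lt h0 (hb 0))
    refine ⟨((b 0 : ZMod p)⁻¹).val, ?_⟩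
    push_cast
    rw [ZMod.natCast_zmod_val, inv_mul_cancel₀ hne0]
  have heC : ((e * b 0 : ℕ) : C) = 1 := by
    have h1 : (e * b 0) ≡ 1 [MOD p] := by
      rw [← ZMod.natCast_eq_natCast_iff]; rw [he, Nat.cast_one]
    have := (CharP.natCast_eq_natCast C p).mpr h1
    rw [this, Nat.cast_one]
  -- the new sequence
  let a : Fin (s + 1) → ℕ → PG G := fun i N => ⟨τ i (N - l), hlt1 _ (hτ i) _⟩
  let gg : ℕ → PG G := fun N => ⟨g N, hlt1 _ hg _⟩
  let g' : ℕ → PG G := fun N => gg N + ∑ i, (e * b i.succ) • a i N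
  have hg'step : ∀ N, p • g' (N + 1) = g' N := by
    intro N
    simp only [g']
    rw [smul_add, Finset.smul_sum]
    congr 1
    · apply PG.ext'
      rw [val_nsmul]
      exact hg.step N
    · refine Finset.sum_congr rfl fun i _ => ?_
      rw [smul_comm]
      congr 1
      apply PG.ext'
      rw [val_nsmul]
      change gmul G p (τ i (N + 1 - l)) = τ i (N - l)
      by_cases hNl : l ≤ N
      · have : N + 1 - l = (N - l) + 1 := by omega
        rw [this]
        exact (hτ i).step (N - l)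
      · have h1 : N + 1 - l = 0 := by omega
        have h2 : N - l = 0 := by omega
        rw [h1, h2, (hτ i).zero]
        exact h00
  have hg'0 : g' 0 = 0 := by
    simp only [g']
    have h1 : gg 0 = 0 := PG.ext' hg.zero
    have h2 : ∀ i, a i 0 = 0 := by
      intro i
      apply PG.ext'
      change τ i (0 - l) = 0
      rw [Nat.zero_sub, (hτ i).zero]
    rw [h1, zero_add]
    exact Finset.sum_eq_zero fun i _ => by rw [h2, smul_zero]
  have hg'1 : g' 1 = gg 1 := by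
    simp only [g']
    have h2 : ∀ i, a i 1 = 0 := by
      intro i
      apply PG.ext'
      change τ i (1 - l) = 0
      have : 1 - l = 0 := by omega
      rw [this, (hτ i).zero]
    rw [Finset.sum_eq_zero fun i _ => by rw [h2, smul_zero], add_zero]
  have hg'seq : IsSeq p G T (fun N => (g' N).val) := by
    refine ⟨by rw [hg'0]; rfl, ?_, ?_⟩
    · intro N
      rw [ts.mem]
      refine ⟨(g' N).lt, ?_⟩
      rw [← val_nsmul]
      have : ∀ N, p ^ N • g' N = 0 := by
        intro N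
        induction N with
        | zero => rw [hg'0, smul_zero]
        | succ N ih => rw [pow_succ, mul_smul, hg'step, ih]
      rw [this]; rfl
    · intro N
      change gmul G p (g' (N + 1)).val = (g' N).val
      rw [← val_nsmul, hg'step]
  have hg'1v : (g' 1).val = τ' 1 := by
    rw [hg'1]; exact hg1
  have hg'ne1 : (g' 1).val ≠ 0 := by rw [hg'1v]; exact hτ'1
  have htail' := seq_tail sc hQ hq h00 (fun N => (g' N).val) (fun N => (g' N).lt)
    hg'seq.step hg'ne1 M (by rw [hg'1v]; exact hM)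
  -- it is smaller at level `N`
  let coef : Fin (s + 2) → ℕ := Fin.cons 1 (fun j => e * b j.succ)
  let pt : Fin (s + 2) → PG G := fun i => ⟨X i N, by rw [hXN i]; exact hρ1⟩
  have happ0 := comb_approx (G := G) (Finset.univ : Finset (Fin (s + 2))) coef pt ρ hρ0.le
    (fun i _ => (hXN i).le)
  have e1 : ∑ i, coef i • pt i = g' N := by
    have h1 : ∑ i, coef i • pt i = coef 0 • pt 0 + ∑ i : Fin (s + 1), coef i.succ • pt i.succ :=
      Fin.sum_univ_succ _
    rw [h1]
    have h2 : coef 0 • pt 0 = gg N := by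
      change 1 • pt 0 = gg N
      rw [one_smul]; rfl
    rw [h2]; rfl
  have e2 : ∑ i, (coef i : C) * (pt i).val = (e : C) * ∑ i, (b i : C) * X i N := by
    have h1 : ∑ i, (coef i : C) * (pt i).val =
        (coef 0 : C) * X 0 N + ∑ i : Fin (s + 1), (coef i.succ : C) * X i.succ N :=
      Fin.sum_univ_succ _
    have h2 : ∑ i, (b i : C) * X i N =
        (b 0 : C) * X 0 N + ∑ i : Fin (s + 1), (b i.succ : C) * X i.succ N :=
      Fin.sum_univ_succ _
    have h3 : (coef 0 : C) = 1 := by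
      change ((1 : ℕ) : C) = 1
      exact Nat.cast_one
    rw [h1, h2, mul_add, ← mul_assoc, ← Nat.cast_mul, heC, h3, one_mul, Finset.mul_sum]
    congr 1
    refine Finset.sum_congr rfl fun i _ => ?_
    change ((e * b i.succ : ℕ) : C) * _ = _
    push_cast
    ring
  rw [e1, e2] at happ0
  have happ := happ0
  have hg'N : ‖(g' N).val‖ < ρ := by
    have h1 : ‖(g' N).val - (e : C) * ∑ i, (b i : C) * X i N‖ ≤ ρ ^ 2 := happ
    have h2 : ‖(e : C) * ∑ i, (b i : C) * X i N‖ < ρ := by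
      rw [norm_mul]
      refine lt_of_le_of_lt ?_ hltρ
      exact mul_le_of_le_one_left (norm_nonneg _) (IsUltrametricDist.norm_natCast_le_one C e)
    have h3 : (g' N).val = ((g' N).val - (e : C) * ∑ i, (b i : C) * X i N) +
        (e : C) * ∑ i, (b i : C) * X i N := by ring
    rw [h3]
    refine lt_of_le_of_lt (IsUltrametricDist.norm_add_le_max _ _) (max_lt ?_ h2)
    refine lt_of_le_of_lt h1 ?_
    nlinarith
  have hlamN : lam (g N) < lam (g' N).val :=
    lam_lt_of_norm_lt (htail' N (by omega)).1 (by rw [hgN]; exact hg'N)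
  rw [(htail N (by omega)).2, (htail' N (by omega)).2] at hlamN
  have hpos : (0 : ℝ) < (p : ℝ) ^ (n * N) := by positivity
  have hposM : (0 : ℝ) < (p : ℝ) ^ (n * (M + 1)) := by positivity
  have h5 : lam (g (M + 1)) < lam (g' (M + 1)).val := by
    have h6 := (div_lt_div_iff_of_pos_right hpos).mp hlamN
    exact lt_of_mul_lt_mul_left h6 hposM.le
  have h6 := hxmax (g' (M + 1)).val (Finset.mem_filter.mpr
    ⟨hg'seq.mem _, fun N => (g' N).val, hg'seq, hg'1v, rfl⟩)
  rw [← hgx] at h6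
  exact absurd h5 (not_lt.mpr h6)

end Crest.Agent.LT3TJ
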