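/- rid 227 (S0351), module TOR: torsion points (helper22). -/
import Crest.Agent.LT3Spec3
import Crest.Agent.LT3EVALb

set_option autoImplicit false
open Crest.LubinTate
open Crest Crest.GeometryTopology

namespace Crest.Agent.LT3TOR

open Crest.Agent.LT3

section

variable {C : Type} [NontriviallyNormedField C] [CompleteSpace C] [IsUltrametricDist C]

theorem ev_X_pow (E : ApiE1) (m : ℕ) (z : C) : ev (PowerSeries.X ^ m : PowerSeries C) z = z ^ m := by
  have := E.ev_poly (Polynomial.X ^ m : Polynomial C) z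
  simpa using this

omit [CompleteSpace C] in
/-- roots of a distinguished polynomial are in the open ball. -/
theorem root_ball {P : Polynomial C} (hP : P.Monic) (ρ : ℝ) (h0 : 0 ≤ ρ) (hρ : ρ < 1)
    (hlow : ∀ i, i < P.natDegree → ‖P.coeff i‖ ≤ ρ) (y : C) (hy : P.eval y = 0) : ‖y‖ < 1 := by
  by_contra hc
  rw [not_lt] at hc
  have h1 : P.eval y = y ^ P.natDegree + ∑ i ∈ Finset.range P.natDegree, P.coeff i * y ^ i := by
    conv_lhs => rw [hP.as_sum]
    simp [Polynomial.eval_finsetSum]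
  have h2 : ‖∑ i ∈ Finset.range P.natDegree, P.coeff i * y ^ i‖ ≤ ρ * ‖y‖ ^ P.natDegree := by
    apply IsUltrametricDist.norm_sum_le_of_forall_le_of_nonneg (by positivity)
    intro i hi
    rw [norm_mul, norm_pow]
    exact mul_le_mul (hlow i (Finset.mem_range.1 hi))
      (pow_le_pow_right₀ hc (Finset.mem_range.1 hi).le) (by positivity) h0
  have h3 : ‖y‖ ^ P.natDegree = ‖∑ i ∈ Finset.range P.natDegree, P.coeff i * y ^ i‖ := by
    have h5 : y ^ P.natDegree + ∑ i ∈ Finset.range P.natDegree, P.coeff i * y ^ i = 0 := by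
      rw [← h1]; exact hy
    rw [← norm_pow, eq_neg_of_add_eq_zero_left h5, norm_neg]
  have h4 : 0 < ‖y‖ ^ P.natDegree := by
    have : 0 < ‖y‖ := by linarith
    positivity
  nlinarith

omit [CompleteSpace C] [IsUltrametricDist C] in
theorem bdd_of {f : PowerSeries C} (ρ : ℝ) (h : ∀ i, ‖PowerSeries.coeff i f‖ ≤ ρ)
    (e : Unit →₀ ℕ) : ‖MvPowerSeries.coeff e f‖ ≤ ρ := by
  have := h (e ())
  rwa [PowerSeries.coeff_def (s := e) rfl] at this

theorem ev_le (E : ApiE1) {f : PowerSeries C} (ρ : ℝ) (h0 : 0 ≤ ρ)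
    (h : ∀ i, ‖PowerSeries.coeff i f‖ ≤ ρ) {z : C} (hz : ‖z‖ < 1) : ‖ev f z‖ ≤ ρ := by
  rw [← E.ev_eq]
  exact E.evm_le ρ h0 (fun e => bdd_of ρ h e) (fun _ => hz)

/-- level data. -/
structure Lev (p k m : ℕ) (G : FormalGroup C) (fx : Polynomial C) (Ux : PowerSeries C) (ρ : ℝ)
    (a : C) : Prop where
  ig : IG G
  ρ0 : 0 ≤ ρ
  ρ1 : ρ < 1
  monic : fx.Monic
  low : ∀ i, i < fx.natDegree → ‖fx.coeff i‖ ≤ ρ
  zero : fx.coeff 0 = 0
  U1 : ∀ i, ‖PowerSeries.coeff i (Ux - 1)‖ ≤ ρ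
  intU : Int1 Ux
  intf : Int1 (fx : PowerSeries C)
  eq : mulSeries G m = cmp ((fx : PowerSeries C) * Ux) (PowerSeries.X ^ (p ^ k) : PowerSeries C)
  a1 : PowerSeries.coeff 1 ((fx : PowerSeries C) * Ux) = a
  a0 : a ≠ 0

variable {p k m : ℕ} [hp : Fact p.Prime] {G : FormalGroup C} {fx : Polynomial C}
  {Ux : PowerSeries C} {ρ : ℝ} {a : C}

include hp in
omit [CompleteSpace C] [IsUltrametricDist C] in
theorem pk_ne : p ^ k ≠ 0 := pow_ne_zero _ hp.out.ne_zero

omit [CompleteSpace C] [IsUltrametricDist C] in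
theorem ball_pow {z : C} (hz : ‖z‖ < 1) : ‖z ^ (p ^ k)‖ < 1 := by
  rw [norm_pow]
  exact pow_lt_one₀ (norm_nonneg _) hz (pow_ne_zero _ hp.out.ne_zero)

omit hp in
theorem evF (E : ApiE1) (L : Lev p k m G fx Ux ρ a) {y : C} (hy : ‖y‖ < 1) :
    ev ((fx : PowerSeries C) * Ux) y = fx.eval y * ev Ux y := by
  rw [E.ev_mul L.intf L.intU hy, E.ev_poly]

omit hp in
theorem evU (E : ApiE1) (L : Lev p k m G fx Ux ρ a) {y : C} (hy : ‖y‖ < 1) :
    ‖ev Ux y - 1‖ ≤ ρ := by
  have hV : Int1 (Ux - 1) := by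
    intro e
    exact (bdd_of ρ L.U1 e).trans L.ρ1.le
  have h1 : Int1 (1 : PowerSeries C) := LT3EVALb.int1_one
  have h2 : ev Ux y = ev (1 : PowerSeries C) y + ev (Ux - 1) y := by
    rw [← E.ev_add h1 hV hy]
    congr 1
    ring
  have h3 : ev (1 : PowerSeries C) y = 1 := by
    have := E.ev_C (1 : C) y
    rwa [map_one] at this
  rw [h2, h3, add_sub_cancel_left]
  exact ev_le E ρ L.ρ0 L.U1 hy

omit hp in
theorem evU_norm (E : ApiE1) (L : Lev p k m G fx Ux ρ a) {y : C} (hy : ‖y‖ < 1) :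
    ‖ev Ux y‖ = 1 := by
  have h1 := lt_of_le_of_lt (evU E L hy) L.ρ1
  have h2 : ‖(1 : C)‖ = 1 := norm_one
  have h3 : ev Ux y = (ev Ux y - 1) + 1 := by ring
  rw [h3, IsUltrametricDist.norm_add_eq_max_of_norm_ne_norm (by rw [h2]; exact h1.ne), h2]
  exact max_eq_right h1.le

theorem gm (E : ApiE1) (E2 : ApiE2) (L : Lev p k m G fx Ux ρ a) {z : C} (hz : ‖z‖ < 1) :
    gmul G m z = ev ((fx : PowerSeries C) * Ux) (z ^ (p ^ k)) := by
  unfold gmul
  rw [L.eq]
  have hF : Int1 ((fx : PowerSeries C) * Ux) := E.int_mul L.intf L.intU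
  have hX : Int1 (PowerSeries.X ^ (p ^ k) : PowerSeries C) :=
    LT3EVALb.int1_pow E (E.int_X ()) _
  have hZ : ZC (PowerSeries.X ^ (p ^ k) : PowerSeries C) := by
    show PowerSeries.constantCoeff (PowerSeries.X ^ (p ^ k) : PowerSeries C) = 0
    rw [map_pow, PowerSeries.constantCoeff_X, zero_pow (pow_ne_zero _ hp.out.ne_zero)]
  rw [E2.ev_cmp hF hX hZ hz, ev_X_pow E]

theorem gm' (E : ApiE1) (E2 : ApiE2) (L : Lev p k m G fx Ux ρ a) {z : C} (hz : ‖z‖ < 1) :
    gmul G m z = fx.eval (z ^ (p ^ k)) * ev Ux (z ^ (p ^ k)) := by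
  rw [gm E E2 L hz, evF E L (ball_pow hz)]

theorem root_of (E : ApiE1) (E2 : ApiE2) (L : Lev p k m G fx Ux ρ a) {z : C} (hz : ‖z‖ < 1)
    (h : gmul G m z = 0) : fx.eval (z ^ (p ^ k)) = 0 := by
  rw [gm' E E2 L hz] at h
  rcases mul_eq_zero.1 h with h1 | h1
  · exact h1
  · have := evU_norm E L (ball_pow (p := p) (k := k) hz)
    rw [h1, norm_zero] at this
    exact absurd this zero_ne_one

/-- translation by a torsion point. -/
theorem notsq [CharP C p] (E : ApiE1) (E2 : ApiE2) (E3 : ApiE3) (Gr : ApiG)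
    (L : Lev p k m G fx Ux ρ a) {t : C} (ht : ‖t‖ < 1) (h0 : gmul G m t = 0) :
    ¬ ∀ y : C, ‖y‖ < 1 → ‖ev ((fx : PowerSeries C) * Ux) y‖ ≤ ‖y - t ^ (p ^ k)‖ ^ 2 := by
  intro hall
  have hF : Int1 ((fx : PowerSeries C) * Ux) := E.int_mul L.intf L.intU
  have ha0 : 0 < ‖a‖ := norm_pos_iff.2 L.a0
  have ha1 : ‖a‖ ≤ 1 := by
    rw [← L.a1]
    exact hF _
  obtain ⟨z, hz0, hza⟩ := NormedField.exists_norm_lt C ha0
  have hz1 : ‖z‖ < 1 := lt_of_lt_of_le hza ha1
  set Y : C := z ^ (p ^ k) with hY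
  have hYn : ‖Y‖ = ‖z‖ ^ (p ^ k) := norm_pow _ _
  have hY0 : 0 < ‖Y‖ := by rw [hYn]; positivity
  have hYz : ‖Y‖ ≤ ‖z‖ := by
    rw [hYn]
    exact pow_le_of_le_one (norm_nonneg _) hz1.le (pow_ne_zero _ hp.out.ne_zero)
  have hYa : ‖Y‖ < ‖a‖ := lt_of_le_of_lt hYz hza
  have hY1 : ‖Y‖ < 1 := lt_of_lt_of_le hYa ha1
  -- value near zero
  have hval : ‖ev ((fx : PowerSeries C) * Ux) Y‖ = ‖a‖ * ‖Y‖ := by
    have hT := E3.ev_taylor (f := (fx : PowerSeries C) * Ux) (z := 0) (z' := Y) hF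
      (by simp) hY1
    have e0 : ev ((fx : PowerSeries C) * Ux) 0 = 0 := by
      rw [evF E L (by simp), ← Polynomial.coeff_zero_eq_eval_zero, L.zero, zero_mul]
    have e1 : ev (PowerSeries.derivative C ((fx : PowerSeries C) * Ux)) 0 = a := by
      unfold ev
      rw [tsum_eq_single 0]
      · rw [PowerSeries.coeff_derivative, L.a1]
        simp
      · intro j hj
        rw [zero_pow hj, mul_zero]
    rw [e0, e1, sub_zero, sub_zero] at hT
    have hlt : ‖ev ((fx : PowerSeries C) * Ux) Y - a * Y‖ < ‖a * Y‖ := by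
      refine lt_of_le_of_lt hT ?_
      rw [norm_mul, pow_two]
      exact mul_lt_mul_of_pos_right hYa hY0
    have e2 : ev ((fx : PowerSeries C) * Ux) Y =
        (ev ((fx : PowerSeries C) * Ux) Y - a * Y) + a * Y := by ring
    rw [e2, IsUltrametricDist.norm_add_eq_max_of_norm_ne_norm hlt.ne, max_eq_right hlt.le,
      norm_mul]
  -- the translated point
  have hnt : ‖gneg G t‖ < 1 := by rw [Gr.neg_norm L.ig ht]; exact ht
  have hs1 : ‖gadd G z t‖ < 1 := Gr.add_ball L.ig hz1 ht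
  have hsub : gsub G (gadd G z t) t = z := by
    unfold gsub
    rw [Gr.add_assoc L.ig hz1 ht hnt, Gr.add_neg L.ig ht, Gr.add_comm L.ig hz1 (by simp),
      Gr.zero_add L.ig hz1]
  have hdist : ‖gadd G z t - t‖ = ‖z‖ := by
    rw [← Gr.sub_norm L.ig hs1 ht, hsub]
  have hgz : ‖gmul G m z‖ < 1 := lt_of_le_of_lt (Gr.mul_norm_le L.ig m hz1) hz1
  have hmul : gmul G m (gadd G z t) = gmul G m z := by
    rw [Gr.mul_add L.ig m hz1 ht, h0, Gr.add_comm L.ig hgz (by simp), Gr.zero_add L.ig hgz]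
  have h1 := hall ((gadd G z t) ^ (p ^ k)) (ball_pow hs1)
  have e3 : ‖(gadd G z t) ^ (p ^ k) - t ^ (p ^ k)‖ = ‖Y‖ := by
    rw [← sub_pow_char_pow, norm_pow, hdist, hYn]
  rw [← gm E E2 L hs1, hmul, gm E E2 L hz1, ← hY, hval, e3, pow_two] at h1
  have h2 := mul_lt_mul_of_pos_right hYa hY0
  linarith

variable [IsAlgClosed C] [CharP C p]

omit [CompleteSpace C] [IsUltrametricDist C] [IsAlgClosed C] in
theorem pow_inj {x y : C} (h : x ^ (p ^ k) = y ^ (p ^ k)) : x = y := by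
  have h1 : (x - y) ^ (p ^ k) = 0 := by rw [sub_pow_char_pow, h, sub_self]
  exact sub_eq_zero.1 (pow_eq_zero_iff (pow_ne_zero _ hp.out.ne_zero) |>.1 h1)

theorem separable (E : ApiE1) (E2 : ApiE2) (E3 : ApiE3) (Gr : ApiG)
    (L : Lev p k m G fx Ux ρ a) : fx.Separable := by
  have hF : Int1 ((fx : PowerSeries C) * Ux) := E.int_mul L.intf L.intU
  show IsCoprime fx (Polynomial.derivative fx)
  refine (Polynomial.isCoprime_iff_aeval_ne_zero_of_isAlgClosed C C _ _).2 ?_
  intro r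
  by_contra hc
  push Not at hc
  obtain ⟨hr, hr'⟩ := hc
  rw [Polynomial.coe_aeval_eq_eval] at hr hr'
  have hr1 : ‖r‖ < 1 := root_ball L.monic ρ L.ρ0 L.ρ1 L.low r hr
  obtain ⟨t, rfl⟩ := IsAlgClosed.exists_pow_nat_eq r (pow_pos hp.out.pos k : 0 < p ^ k)
  have ht1 : ‖t‖ < 1 := by
    by_contra hc
    rw [not_lt] at hc
    rw [norm_pow] at hr1
    have := one_le_pow₀ hc (n := p ^ k)
    linarith
  have h0 : gmul G m t = 0 := by rw [gm' E E2 L ht1, hr, zero_mul]
  refine notsq E E2 E3 Gr L ht1 h0 ?_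
  intro y hy
  have hT := E3.ev_taylor (f := (fx : PowerSeries C)) (z := t ^ (p ^ k)) (z' := y) L.intf hr1 hy
  have hd : PowerSeries.derivative C (fx : PowerSeries C) =
      ((Polynomial.derivative fx : Polynomial C) : PowerSeries C) :=
    PowerSeries.derivative_coe fx
  rw [hd, E.ev_poly, E.ev_poly, E.ev_poly, hr, hr', sub_zero, zero_mul, sub_zero] at hT
  rw [evF E L hy, norm_mul, evU_norm E L hy, mul_one]
  exact hT

/-- the torsion points of a level. -/
theorem level (E : ApiE1) (E2 : ApiE2) (E3 : ApiE3) (Gr : ApiG)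
    (L : Lev p k m G fx Ux ρ a) :
    ∃ T : Finset C, (∀ t, t ∈ T ↔ ‖t‖ < 1 ∧ gmul G m t = 0) ∧ T.card = fx.natDegree ∧
      fx = ∏ t ∈ T, (Polynomial.X - Polynomial.C (t ^ (p ^ k))) := by
  classical
  have hex : ∀ r : C, ∃ t, t ^ (p ^ k) = r := fun r =>
    IsAlgClosed.exists_pow_nat_eq r (pow_pos hp.out.pos k : 0 < p ^ k)
  choose rt hrt using hex
  have hinj : Function.Injective rt := by
    intro r s h
    rw [← hrt r, ← hrt s, h]
  have hsep := separable E E2 E3 Gr L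
  have hnd := Polynomial.nodup_roots hsep
  have hroots : fx = ∏ r ∈ fx.roots.toFinset, (Polynomial.X - Polynomial.C r) := by
    conv_lhs => rw [(IsAlgClosed.splits fx).eq_prod_roots_of_monic L.monic]
    rw [Finset.prod_multiset_map_count]
    apply Finset.prod_congr rfl
    intro r hr
    rw [Multiset.count_eq_one_of_mem hnd (Multiset.mem_toFinset.1 hr), pow_one]
  refine ⟨fx.roots.toFinset.image rt, ?_, ?_, ?_⟩
  · intro t
    rw [Finset.mem_image]
    constructor
    · rintro ⟨r, hr, rfl⟩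
      rw [Multiset.mem_toFinset, Polynomial.mem_roots L.monic.ne_zero] at hr
      have hr0 : fx.eval r = 0 := hr
      have hr1 : ‖r‖ < 1 := root_ball L.monic ρ L.ρ0 L.ρ1 L.low r hr0
      have ht1 : ‖rt r‖ < 1 := by
        by_contra hc
        rw [not_lt] at hc
        rw [← hrt r, norm_pow] at hr1
        have := one_le_pow₀ hc (n := p ^ k)
        linarith
      refine ⟨ht1, ?_⟩
      rw [gm' E E2 L ht1, hrt, hr0, zero_mul]
    · rintro ⟨ht1, h0⟩
      have := root_of E E2 L ht1 h0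
      refine ⟨t ^ (p ^ k), ?_, pow_inj (p := p) (k := k) (hrt _)⟩
      rw [Multiset.mem_toFinset, Polynomial.mem_roots L.monic.ne_zero]
      exact this
  · rw [Finset.card_image_of_injective _ hinj, Multiset.toFinset_card_of_nodup hnd]
    exact ((IsAlgClosed.splits fx).natDegree_eq_card_roots).symm
  · rw [Finset.prod_image (fun _ _ _ _ h => hinj h)]
    conv_lhs => rw [hroots]
    exact Finset.prod_congr rfl fun r _ => by rw [hrt]

omit [IsAlgClosed C] in
theorem prodF (E : ApiE1) (E2 : ApiE2) (L : Lev p k m G fx Ux ρ a) {T : Finset C}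
    (hT : fx = ∏ t ∈ T, (Polynomial.X - Polynomial.C (t ^ (p ^ k)))) (y : C) (hy : ‖y‖ < 1) :
    ∃ u : C, ‖u - 1‖ < 1 ∧ gmul G m y = u * ∏ t ∈ T, (y - t) ^ (p ^ k) := by
  refine ⟨ev Ux (y ^ (p ^ k)), lt_of_le_of_lt (evU E L (ball_pow hy)) L.ρ1, ?_⟩
  rw [gm' E E2 L hy, mul_comm]
  congr 1
  rw [hT, Polynomial.eval_prod]
  apply Finset.prod_congr rfl
  intro t _
  rw [Polynomial.eval_sub, Polynomial.eval_X, Polynomial.eval_C, sub_pow_char_pow]

omit [CompleteSpace C] [IsAlgClosed C] [CharP C p] in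
open Classical in
theorem prodA (L : Lev p k m G fx Ux ρ a) {T : Finset C} (h0 : (0 : C) ∈ T)
    (hT : fx = ∏ t ∈ T, (Polynomial.X - Polynomial.C (t ^ (p ^ k)))) :
    ‖a‖ = ∏ t ∈ T.erase 0, ‖t‖ ^ (p ^ k) := by
  have hU0 : ‖PowerSeries.coeff 0 Ux‖ = 1 := by
    have h1 := lt_of_le_of_lt (L.U1 0) L.ρ1
    rw [map_sub, PowerSeries.coeff_zero_one] at h1
    have h2 : ‖(1 : C)‖ = 1 := norm_one
    have h3 : PowerSeries.coeff 0 Ux = (PowerSeries.coeff 0 Ux - 1) + 1 := by ring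
    rw [h3, IsUltrametricDist.norm_add_eq_max_of_norm_ne_norm (by rw [h2]; exact h1.ne), h2]
    exact max_eq_right h1.le
  have ha : a = fx.coeff 1 * PowerSeries.coeff 0 Ux := by
    rw [← L.a1, PowerSeries.coeff_mul, Finset.Nat.antidiagonal_succ]
    simp [L.zero]
  rw [ha, norm_mul, hU0, mul_one]
  have hf : fx = Polynomial.X * ∏ t ∈ T.erase 0, (Polynomial.X - Polynomial.C (t ^ (p ^ k))) := by
    rw [hT, ← Finset.mul_prod_erase T _ h0, zero_pow (pow_ne_zero _ hp.out.ne_zero), map_zero,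
      sub_zero]
  rw [hf, Polynomial.coeff_X_mul, Polynomial.coeff_zero_eq_eval_zero, Polynomial.eval_prod,
    norm_prod]
  apply Finset.prod_congr rfl
  intro t _
  simp

omit [IsAlgClosed C] in
theorem linF (E : ApiE1) (E2 : ApiE2) (E3 : ApiE3) (Gr : ApiG)
    (L : Lev p k m G fx Ux ρ a) {t : C} (ht : ‖t‖ < 1) (h0 : gmul G m t = 0) :
    ∃ c : C, c ≠ 0 ∧ ∀ z : C, ‖z‖ < 1 →
      ‖gmul G m z - c * (z ^ (p ^ k) - t ^ (p ^ k))‖ ≤ ‖z ^ (p ^ k) - t ^ (p ^ k)‖ ^ 2 := by
  have hF : Int1 ((fx : PowerSeries C) * Ux) := E.int_mul L.intf L.intU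
  have hev0 : ev ((fx : PowerSeries C) * Ux) (t ^ (p ^ k)) = 0 := by rw [← gm E E2 L ht, h0]
  refine ⟨ev (PowerSeries.derivative C ((fx : PowerSeries C) * Ux)) (t ^ (p ^ k)), ?_, ?_⟩
  · intro hc
    refine notsq E E2 E3 Gr L ht h0 ?_
    intro y hy
    have hT := E3.ev_taylor (f := (fx : PowerSeries C) * Ux) (z := t ^ (p ^ k)) (z' := y) hF
      (ball_pow ht) hy
    rwa [hev0, hc, sub_zero, zero_mul, sub_zero] at hT
  · intro z hz
    have hT := E3.ev_taylor (f := (fx : PowerSeries C) * Ux) (z := t ^ (p ^ k))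
      (z' := z ^ (p ^ k)) hF (ball_pow ht) (ball_pow hz)
    rwa [hev0, sub_zero, ← gm E E2 L hz] at hT

end

theorem lev_of (B : ApiB) (Cc : ApiC) (Xx : ApiX)
    {p : ℕ} [Fact p.Prime] {n h d : ℕ} {Γ : FormalGroup (GaloisField p n)}
    {F : FormalGroup (MvPowerSeries (Fin d) (GaloisField p n))} (st : Strat p n h d Γ F)
    {C : Type} [NontriviallyNormedField C] [CompleteSpace C] [IsUltrametricDist C]
    {ι : GaloisField p n →+* C} {w : Fin d → C}
    {x : MvPowerSeries (Fin d) (GaloisField p n) →+* C} (hx : IsEv ι w x) (i0 : Fin d)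
    (hi0 : i0.1 = 0) (hw0 : w i0 ≠ 0) (ρ : ℝ) (hρ0 : 0 ≤ ρ) (hρ1 : ρ < 1) (hρ : ∀ i, ‖w i‖ ≤ ρ)
    (N : ℕ) (f : Polynomial (MvPowerSeries (Fin d) (GaloisField p n)))
    (U : PowerSeries (MvPowerSeries (Fin d) (GaloisField p n))) (hW : Wei p h d F N f U) :
    Lev p (h * N) (p ^ N) (F.map x) (f.map x) (PowerSeries.map x U) ρ
      (w i0 ^ (∑ i ∈ Finset.range N, (p ^ h) ^ i)) := by
  have hm : ∀ g, g ∈ mR (GaloisField p n) d → ‖x g‖ ≤ ρ := by
    intro g hg
    have := Xx.mem_pow hx ρ hρ0 hρ 1 g (by rwa [pow_one])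
    rwa [pow_one] at this
  have hint : ∀ g : PowerSeries (MvPowerSeries (Fin d) (GaloisField p n)),
      Int1 (PowerSeries.map x g) := by
    intro g e
    exact Xx.le_one hx _
  have hcoe : ((f.map x : Polynomial C) : PowerSeries C) =
      PowerSeries.map x (f : PowerSeries (MvPowerSeries (Fin d) (GaloisField p n))) :=
    Polynomial.polynomial_map_coe
  have hmul : ((f.map x : Polynomial C) : PowerSeries C) * PowerSeries.map x U =
      PowerSeries.map x ((f : PowerSeries (MvPowerSeries (Fin d) (GaloisField p n))) * U) := by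
    rw [hcoe, map_mul]
  have hpk : p ^ (h * N) ≠ 0 := pow_ne_zero _ (Fact.out : p.Prime).ne_zero
  refine ⟨Xx.ig hx F st.commF, hρ0, hρ1, hW.monic.map x, ?_, ?_, ?_, hint U, ?_, ?_, ?_, ?_⟩
  · intro i hi
    rw [hW.monic.natDegree_map, hW.deg] at hi
    rw [Polynomial.coeff_map]
    exact hm _ (hW.low i hi)
  · rw [Polynomial.coeff_map, hW.zero, map_zero]
  · intro i
    have h1 : PowerSeries.map x U - 1 = PowerSeries.map x (U - 1) := by rw [map_sub, map_one]
    rw [h1, PowerSeries.coeff_map]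
    exact hm _ (hW.U1 i)
  · rw [hcoe]
    exact hint _
  · rw [hmul, ← Cc.mul_map, hW.eq]
    have hZ : ZC (PowerSeries.X ^ (p ^ (h * N)) :
        PowerSeries (MvPowerSeries (Fin d) (GaloisField p n))) := by
      show PowerSeries.constantCoeff (PowerSeries.X ^ (p ^ (h * N)) :
        PowerSeries (MvPowerSeries (Fin d) (GaloisField p n))) = 0
      rw [map_pow, PowerSeries.constantCoeff_X, zero_pow hpk]
    have h2 := B.cmp_map x (φ := (f : PowerSeries (MvPowerSeries (Fin d) (GaloisField p n))) * U)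
      (a := (PowerSeries.X ^ (p ^ (h * N)) :
        PowerSeries (MvPowerSeries (Fin d) (GaloisField p n)))) hZ
    refine Eq.trans h2 ?_
    congr 1
    show PowerSeries.map x _ = _
    rw [map_pow, PowerSeries.map_X]
  · rw [hmul, PowerSeries.coeff_map, hW.lin i0 hi0, map_pow, Xx.x_X hx]
  · exact pow_ne_zero _ hw0

theorem main (W : LT3.Spec3.WEI) (E : ApiE) (Gr : ApiG) (B : ApiB) (Cc : ApiC) (Xx : ApiX) :
    LT3.Spec3.TOR := by
  classical
  intro p _ n h d Γ F st C _ _ _ _ _ ι w x hx i0 hi0 hw0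
  obtain ⟨ρ, hρ0, hρ1, hρ⟩ := LT3EVALb.exists_rho hx.hw
  have hL := fun N f U hW => lev_of B Cc Xx st hx i0 hi0 hw0 ρ hρ0 hρ1 hρ N f U hW
  have hWei := fun N => W p n h d Γ F st N
  choose f U hfU using hWei
  have hT := fun N => level E.toApiE1 E.toApiE2 E.toApiE3 Gr (hL N (f N) (U N) (hfU N))
  choose T hTm hTc hTp using hT
  have hcard : ∀ N, (T N).card = p ^ (d * N) := by
    intro N
    rw [hTc, (hfU N).monic.natDegree_map, (hfU N).deg]
  refine ⟨⟨T, ?_⟩, ?_, ?_⟩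
  · have hig : IG (F.map x) := Xx.ig hx F st.commF
    refine ⟨st.hd, st.hh, hig, hTm, hcard, ?_, hw0, hx.hw i0, ?_, ?_, ?_⟩
    · intro N y hy
      exact prodF E.toApiE1 E.toApiE2 (hL N (f N) (U N) (hfU N)) (hTp N) y hy
    · have h0 : (0 : C) ∈ T 1 := by
        rw [hTm]
        exact ⟨by simp, Gr.mul_zero hig _⟩
      have := prodA (hL 1 (f 1) (U 1) (hfU 1)) h0 (hTp 1)
      rw [mul_one] at this
      have h2 : w i0 ^ (∑ i ∈ Finset.range 1, (p ^ h) ^ i) = w i0 := by simp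
      rw [h2] at this
      convert this
    · intro N t ht
      -- the fibres of `[p] : T (N+1) → T N`
      have hmaps : ∀ s ∈ T (N + 1), gmul (F.map x) p s ∈ T N := by
        intro s hs
        obtain ⟨hs1, hs0⟩ := (hTm _ _).1 hs
        rw [hTm]
        refine ⟨lt_of_le_of_lt (Gr.mul_norm_le hig p hs1) hs1, ?_⟩
        rw [← Gr.mul_mul hig (p ^ N) p hs1, ← pow_succ]
        exact hs0
      have hfib : ∀ b ∈ (T (N + 1)).image (gmul (F.map x) p),
          ((T (N + 1)).filter (fun s => gmul (F.map x) p s = b)).card ≤ p ^ d := by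
        intro b hb
        obtain ⟨s0, hs0, rfl⟩ := Finset.mem_image.1 hb
        have hs01 := ((hTm _ _).1 hs0).1
        have h1 : (T 1).card = p ^ d := by rw [hcard, mul_one]
        rw [← h1]
        apply Finset.card_le_card_of_injOn (fun s => gsub (F.map x) s s0)
        · intro s hs
          rw [Finset.mem_coe, Finset.mem_filter] at hs
          have hs1 := ((hTm _ _).1 hs.1).1
          rw [Finset.mem_coe, hTm, pow_one]
          refine ⟨?_, ?_⟩
          · rw [Gr.sub_norm hig hs1 hs01]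
            rw [sub_eq_add_neg]
            refine lt_of_le_of_lt (IsUltrametricDist.norm_add_le_max _ _) (max_lt hs1 ?_)
            rwa [norm_neg]
          · rw [Gr.mul_sub hig p hs1 hs01, hs.2]
            have h3 : ‖gmul (F.map x) p s0‖ < 1 :=
              lt_of_le_of_lt (Gr.mul_norm_le hig p hs01) hs01
            unfold gsub
            exact Gr.add_neg hig h3
        · intro s hs s' hs' hss
          rw [Finset.mem_coe, Finset.mem_filter] at hs hs'
          have hs1 := ((hTm _ _).1 hs.1).1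
          have hs1' := ((hTm _ _).1 hs'.1).1
          have hn0 : ‖gneg (F.map x) s0‖ < 1 := by rw [Gr.neg_norm hig hs01]; exact hs01
          have hcan : ∀ u : C, ‖u‖ < 1 → gadd (F.map x) (gsub (F.map x) u s0) s0 = u := by
            intro u hu
            unfold gsub
            rw [Gr.add_assoc hig hu hn0 hs01, Gr.add_comm hig hn0 hs01, Gr.add_neg hig hs01,
              Gr.add_comm hig hu (by simp), Gr.zero_add hig hu]
          rw [← hcan s hs1, ← hcan s' hs1']
          exact congrArg (fun u => gadd (F.map x) u s0) hss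
      have hle := Finset.card_le_mul_card_image (T (N + 1)) (p ^ d) hfib
      have hsub : (T (N + 1)).image (gmul (F.map x) p) ⊆ T N := by
        intro b hb
        obtain ⟨s, hs, rfl⟩ := Finset.mem_image.1 hb
        exact hmaps s hs
      have hpd : 0 < p ^ d := pow_pos (Fact.out : p.Prime).pos _
      have hge : (T N).card ≤ ((T (N + 1)).image (gmul (F.map x) p)).card := by
        rw [hcard] at hle ⊢
        have h4 : p ^ (d * (N + 1)) = p ^ d * p ^ (d * N) := by rw [← pow_add]; ring_nf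
        rw [h4] at hle
        exact Nat.le_of_mul_le_mul_left hle hpd
      have heq := Finset.eq_of_subset_of_card_le hsub hge
      rw [← heq] at ht
      obtain ⟨s, hs, hst⟩ := Finset.mem_image.1 ht
      exact ⟨s, hs, hst⟩
    · intro m t ht
      obtain ⟨ht1, ht0⟩ := (hTm _ _).1 ht
      exact linF E.toApiE1 E.toApiE2 E.toApiE3 Gr (hL m (f m) (U m) (hfU m)) ht1 ht0
  · intro N f' U' hW
    exact separable E.toApiE1 E.toApiE2 E.toApiE3 Gr (hL N f' U' hW)
  · intro N f' U' hW z hz h0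
    exact root_of E.toApiE1 E.toApiE2 (hL N f' U' hW) hz h0

end Crest.Agent.LT3TOR
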