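/- rid 227 (S0351), module WEI: Weierstrass data of `[p^N]_F` (helper22). -/
import Crest.Agent.LT3Spec3
import Crest.Agent.LT3RINGE

set_option autoImplicit false
open Crest.LubinTate
open Crest Crest.GeometryTopology

namespace Crest.Agent.LT3WEI

open Crest.Agent.LT3

section local_ring

variable {k : Type} [Field k] {d : ℕ}

theorem mem_mR {f : MvPowerSeries (Fin d) k} :
    f ∈ mR k d ↔ MvPowerSeries.constantCoeff f = 0 := RingHom.mem_ker

theorem mR_span : mR k d = Ideal.span (Set.range MvPowerSeries.X) := by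
  apply le_antisymm
  · intro f hf
    rw [mem_mR] at hf
    rw [LT3RINGE.decomp f, hf, map_zero, zero_add]
    refine Ideal.sum_mem _ fun i _ => Ideal.mul_mem_right _ _ ?_
    exact Ideal.subset_span ⟨i, rfl⟩
  · rw [Ideal.span_le]
    rintro _ ⟨i, rfl⟩
    exact mem_mR.2 (MvPowerSeries.constantCoeff_X i)

theorem max_eq : IsLocalRing.maximalIdeal (MvPowerSeries (Fin d) k) = mR k d := by
  symm
  apply IsLocalRing.eq_maximalIdeal
  apply RingHom.ker_isMaximal_of_surjective
  intro c
  exact ⟨MvPowerSeries.C c, MvPowerSeries.constantCoeff_C c⟩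

theorem complete : IsAdicComplete (IsLocalRing.maximalIdeal (MvPowerSeries (Fin d) k))
    (MvPowerSeries (Fin d) k) := by
  rw [max_eq, mR_span]
  infer_instance

/-- Weierstrass preparation in the form needed. -/
theorem prep (φ : PowerSeries (MvPowerSeries (Fin d) k)) (h0 : PowerSeries.coeff 0 φ = 0) (P : ℕ)
    (hP : PowerSeries.map MvPowerSeries.constantCoeff φ = (PowerSeries.X ^ P : PowerSeries k)) :
    ∃ (f : Polynomial (MvPowerSeries (Fin d) k)) (U : PowerSeries (MvPowerSeries (Fin d) k)),
      f.Monic ∧ f.natDegree = P ∧ (∀ i, i < P → f.coeff i ∈ mR k d) ∧ f.coeff 0 = 0 ∧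
      (∀ i, PowerSeries.coeff i (U - 1) ∈ mR k d) ∧ φ = (f : PowerSeries _) * U := by
  have hc := complete (k := k) (d := d)
  have hne : φ.map (IsLocalRing.residue (MvPowerSeries (Fin d) k)) ≠ 0 := by
    intro hz
    have h1 := congrArg (PowerSeries.coeff P) hz
    rw [PowerSeries.coeff_map, map_zero, IsLocalRing.residue_eq_zero_iff, max_eq, mem_mR] at h1
    have h2 := congrArg (PowerSeries.coeff P) hP
    rw [PowerSeries.coeff_map, h1, PowerSeries.coeff_X_pow_self] at h2
    exact zero_ne_one h2
  obtain ⟨f, U, hfU⟩ := PowerSeries.exists_isWeierstrassFactorization hne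
  have hmon := hfU.isDistinguishedAt.monic
  have hlow : ∀ i, i < f.natDegree → f.coeff i ∈ mR k d := by
    intro i hi
    have := hfU.isDistinguishedAt.mem hi
    rwa [max_eq] at this
  -- reduce modulo the maximal ideal
  have hfb : f.map (MvPowerSeries.constantCoeff : MvPowerSeries (Fin d) k →+* k) =
      Polynomial.X ^ f.natDegree := by
    ext i
    rw [Polynomial.coeff_map, Polynomial.coeff_X_pow]
    rcases lt_trichotomy i f.natDegree with h | h | h
    · rw [if_neg h.ne]
      exact mem_mR.1 (hlow i h)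
    · rw [if_pos h, h, hmon.coeff_natDegree, map_one]
    · rw [if_neg h.ne', Polynomial.coeff_eq_zero_of_natDegree_lt h, map_zero]
  have hred : (PowerSeries.X ^ P : PowerSeries k) = PowerSeries.X ^ f.natDegree *
      PowerSeries.map MvPowerSeries.constantCoeff U := by
    rw [← hP]
    conv_lhs => rw [hfU.eq_mul]
    rw [map_mul, ← Polynomial.polynomial_map_coe, hfb]
    simp
  have hU0 : IsUnit (PowerSeries.coeff 0 U) := by
    rw [PowerSeries.coeff_zero_eq_constantCoeff_apply]
    exact PowerSeries.isUnit_iff_constantCoeff.1 hfU.isUnit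
  have hUb0 : PowerSeries.coeff 0 (PowerSeries.map
      (MvPowerSeries.constantCoeff : MvPowerSeries (Fin d) k →+* k) U) ≠ 0 := by
    rw [PowerSeries.coeff_map]
    exact (hU0.map _).ne_zero
  have hdeg : f.natDegree = P := by
    rcases lt_trichotomy f.natDegree P with h | h | h
    · exfalso
      have h1 := congrArg (PowerSeries.coeff f.natDegree) hred
      have h2 : PowerSeries.coeff f.natDegree (PowerSeries.X ^ f.natDegree *
          PowerSeries.map (MvPowerSeries.constantCoeff : MvPowerSeries (Fin d) k →+* k) U) =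
          PowerSeries.coeff 0 (PowerSeries.map
            (MvPowerSeries.constantCoeff : MvPowerSeries (Fin d) k →+* k) U) := by
        have := PowerSeries.coeff_X_pow_mul (PowerSeries.map
            (MvPowerSeries.constantCoeff : MvPowerSeries (Fin d) k →+* k) U) f.natDegree 0
        rwa [zero_add] at this
      rw [h2, PowerSeries.coeff_X_pow, if_neg h.ne] at h1
      exact hUb0 h1.symm
    · exact h
    · exfalso
      have h1 := congrArg (PowerSeries.coeff P) hred
      rw [PowerSeries.coeff_X_pow_self, PowerSeries.coeff_X_pow_mul', if_neg (not_le.2 h)] at h1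
      exact one_ne_zero h1
  have hUb : PowerSeries.map (MvPowerSeries.constantCoeff : MvPowerSeries (Fin d) k →+* k) U = 1 := by
    rw [hdeg] at hred
    have h3 : (PowerSeries.X ^ P : PowerSeries k) ≠ 0 := pow_ne_zero _ PowerSeries.X_ne_zero
    apply mul_left_cancel₀ h3
    rw [← hred, mul_one]
  refine ⟨f, U, hmon, hdeg, fun i hi => hlow i (by rw [hdeg]; exact hi), ?_, ?_, hfU.eq_mul⟩
  · have h1 := h0
    rw [hfU.eq_mul, PowerSeries.coeff_zero_eq_constantCoeff_apply, map_mul,
      Polynomial.constantCoeff_coe] at h1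
    rw [PowerSeries.coeff_zero_eq_constantCoeff_apply] at hU0
    exact (hU0.mul_left_eq_zero).1 h1
  · intro i
    rw [mem_mR, ← PowerSeries.coeff_map, map_sub, hUb, map_one, sub_self, map_zero]

end local_ring

section frob

variable {p : ℕ} [hp : Fact p.Prime] {R : Type} [CommRing R] [CharP R p]

theorem zc_X_pow {m : ℕ} (hm : m ≠ 0) {R : Type} [CommRing R] :
    ZC (PowerSeries.X ^ m : PowerSeries R) := by
  show PowerSeries.constantCoeff (PowerSeries.X ^ m : PowerSeries R) = 0
  rw [map_pow, PowerSeries.constantCoeff_X, zero_pow hm]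

theorem cmp_X_pow {R : Type} [CommRing R] (m : ℕ) (a : PowerSeries R) (ha : ZC a) :
    (cmp (PowerSeries.X ^ m) a : PowerSeries R) = a ^ m := by
  unfold LT3.cmp
  have hs : PowerSeries.HasSubst a := PowerSeries.HasSubst.of_constantCoeff_zero' ha
  rw [PowerSeries.subst_pow hs, PowerSeries.subst_X hs]

theorem frob_pow (f : PowerSeries R) (k : ℕ) :
    f ^ (p ^ k) = cmp (PowerSeries.map (iterateFrobenius R p k) f)
      (PowerSeries.X ^ (p ^ k) : PowerSeries R) := by
  have : ExpChar R p := ExpChar.prime hp.out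
  have h1 := MvPowerSeries.map_iterateFrobenius_expand p hp.out.ne_zero f k
  have h2 : PowerSeries.map (iterateFrobenius R p k)
      (PowerSeries.expand (p ^ k) (pow_ne_zero k hp.out.ne_zero) f) = f ^ (p ^ k) := h1
  rw [← h2, PowerSeries.map_expand, PowerSeries.expand_apply]
  rfl

end frob

/-- the series `φ_N`. -/
theorem phi (B : ApiB) (Cc : ApiC) (p : ℕ) [hp : Fact p.Prime] (n h d : ℕ)
    (Γ : FormalGroup (GaloisField p n))
    (F : FormalGroup (MvPowerSeries (Fin d) (GaloisField p n))) (st : Strat p n h d Γ F) :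
    ∀ N : ℕ, ∃ φ : PowerSeries (MvPowerSeries (Fin d) (GaloisField p n)),
      ZC φ ∧ mulSeries F (p ^ N) = cmp φ (PowerSeries.X ^ (p ^ (h * N)) :
        PowerSeries (MvPowerSeries (Fin d) (GaloisField p n))) ∧
      (∀ l : Fin d, l.1 = 0 → PowerSeries.coeff 1 φ =
        (MvPowerSeries.X l) ^ (∑ i ∈ Finset.range N, (p ^ h) ^ i)) ∧
      PowerSeries.map MvPowerSeries.constantCoeff φ =
        (PowerSeries.X ^ (p ^ (d * N)) : PowerSeries (GaloisField p n)) := by
  have hcp : CharP (MvPowerSeries (Fin d) (GaloisField p n)) p :=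
    charP_of_injective_ringHom (f := (MvPowerSeries.C :
      GaloisField p n →+* MvPowerSeries (Fin d) (GaloisField p n)))
      MvPowerSeries.C_injective p
  have hX0 : ZC (PowerSeries.X : PowerSeries (MvPowerSeries (Fin d) (GaloisField p n))) :=
    PowerSeries.constantCoeff_X
  -- first level
  obtain ⟨φ₁, hz1, he1, hl1, hr1⟩ : ∃ φ : PowerSeries (MvPowerSeries (Fin d) (GaloisField p n)),
      ZC φ ∧ mulSeries F p = cmp φ (PowerSeries.X ^ (p ^ h) :
        PowerSeries (MvPowerSeries (Fin d) (GaloisField p n))) ∧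
      (∀ l : Fin d, l.1 = 0 → PowerSeries.coeff 1 φ = MvPowerSeries.X l) ∧
      PowerSeries.map MvPowerSeries.constantCoeff φ =
        (PowerSeries.X ^ (p ^ d) : PowerSeries (GaloisField p n)) := by
    have hph : p ^ h ≠ 0 := pow_ne_zero _ hp.out.ne_zero
    refine ⟨PowerSeries.mk fun j => PowerSeries.coeff (p ^ h * j) (mulSeries F p), ?_, ?_, ?_, ?_⟩
    · show PowerSeries.constantCoeff _ = 0
      rw [← PowerSeries.coeff_zero_eq_constantCoeff_apply, PowerSeries.coeff_mk, mul_zero,
        PowerSeries.coeff_zero_eq_constantCoeff_apply]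
      exact Cc.zc_mul F p
    · unfold LT3.cmp
      rw [← PowerSeries.expand_apply (p ^ h) hph]
      ext1 j
      rw [PowerSeries.coeff_expand]
      split_ifs with hj
      · rw [PowerSeries.coeff_mk, Nat.mul_div_cancel' hj]
      · have := st.c3 0 (Nat.zero_le _) j (by rwa [add_zero])
        have h0 : varIdeal (GaloisField p n) d 0 = ⊥ := by
          unfold varIdeal
          rw [Ideal.span_eq_bot]
          rintro f ⟨l, hl, -⟩
          exact absurd hl (Nat.not_lt_zero _)
        rw [h0] at this
        exact this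
    · intro l hl
      rw [PowerSeries.coeff_mk, mul_one]
      have := st.c2 l
      rwa [hl, add_zero] at this
    · ext j
      rw [PowerSeries.coeff_map, PowerSeries.coeff_mk, ← PowerSeries.coeff_map, Cc.mul_map, st.red,
        st.hΓ, PowerSeries.coeff_X_pow, PowerSeries.coeff_X_pow, ← st.hn, pow_add]
      by_cases hj : j = p ^ d
      · rw [if_pos hj, if_pos (by rw [hj])]
      · rw [if_neg hj, if_neg]
        intro hc
        exact hj (Nat.eq_of_mul_eq_mul_left (Nat.pos_of_ne_zero hph) hc)
  intro N
  induction N with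
  | zero =>
    refine ⟨PowerSeries.X, hX0, ?_, ?_, ?_⟩
    · rw [pow_zero, Cc.mul_one, mul_zero, pow_zero, pow_one]
      exact (B.X_cmp hX0).symm
    · intro l _
      simp
    · rw [mul_zero, pow_zero, pow_one, PowerSeries.map_X]
  | succ N ih =>
    obtain ⟨φ, hz, he, hl, hr⟩ := ih
    set Fr := iterateFrobenius (MvPowerSeries (Fin d) (GaloisField p n)) p h with hFr
    have hzF : ZC (PowerSeries.map Fr φ) := by
      show PowerSeries.constantCoeff _ = 0
      rw [← PowerSeries.coeff_zero_eq_constantCoeff_apply, PowerSeries.coeff_map,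
        PowerSeries.coeff_zero_eq_constantCoeff_apply]
      have : PowerSeries.constantCoeff φ = 0 := hz
      rw [this, map_zero]
    have hph : p ^ h ≠ 0 := pow_ne_zero _ hp.out.ne_zero
    have hphN : p ^ (h * N) ≠ 0 := pow_ne_zero _ hp.out.ne_zero
    have hphN1 : p ^ (h * (N + 1)) ≠ 0 := pow_ne_zero _ hp.out.ne_zero
    refine ⟨cmp φ₁ (PowerSeries.map Fr φ), B.zc_cmp hz1 hzF, ?_, ?_, ?_⟩
    · have hA : ZC (mulSeries F (p ^ N)) := Cc.zc_mul F _
      rw [pow_succ', Cc.mul_mul, he1]
      have e1 : (cmp (cmp φ₁ (PowerSeries.X ^ (p ^ h) :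
          PowerSeries (MvPowerSeries (Fin d) (GaloisField p n))) :
          PowerSeries (MvPowerSeries (Fin d) (GaloisField p n))) (mulSeries F (p ^ N)) :
          PowerSeries (MvPowerSeries (Fin d) (GaloisField p n))) =
          cmp φ₁ (cmp (PowerSeries.X ^ (p ^ h)) (mulSeries F (p ^ N)) :
            PowerSeries (MvPowerSeries (Fin d) (GaloisField p n))) :=
        (B.cmp_assoc (zc_X_pow hph) hA).symm
      rw [e1, cmp_X_pow _ _ hA, frob_pow, he]
      have e2 : PowerSeries.map (iterateFrobenius (MvPowerSeries (Fin d) (GaloisField p n)) p h)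
          (cmp φ (PowerSeries.X ^ (p ^ (h * N)) :
            PowerSeries (MvPowerSeries (Fin d) (GaloisField p n)))) =
          cmp (PowerSeries.map Fr φ) (PowerSeries.X ^ (p ^ (h * N)) :
            PowerSeries (MvPowerSeries (Fin d) (GaloisField p n))) := by
        have := B.cmp_map Fr (φ := φ) (a := (PowerSeries.X ^ (p ^ (h * N)) :
            PowerSeries (MvPowerSeries (Fin d) (GaloisField p n)))) (zc_X_pow hphN)
        refine Eq.trans this ?_
        congr 1
        show PowerSeries.map Fr _ = _
        rw [map_pow, PowerSeries.map_X]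
      rw [e2]
      have e3 : (cmp (cmp (PowerSeries.map Fr φ) (PowerSeries.X ^ (p ^ (h * N)) :
            PowerSeries (MvPowerSeries (Fin d) (GaloisField p n))) :
            PowerSeries (MvPowerSeries (Fin d) (GaloisField p n)))
            (PowerSeries.X ^ (p ^ h) :
            PowerSeries (MvPowerSeries (Fin d) (GaloisField p n))) :
            PowerSeries (MvPowerSeries (Fin d) (GaloisField p n))) =
          cmp (PowerSeries.map Fr φ) (PowerSeries.X ^ (p ^ (h * (N + 1))) :
            PowerSeries (MvPowerSeries (Fin d) (GaloisField p n))) := by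
        rw [← B.cmp_assoc (zc_X_pow hphN) (zc_X_pow hph), cmp_X_pow _ _ (zc_X_pow hph), ← pow_mul,
          ← pow_add]
        have e4 : h + h * N = h * (N + 1) := by ring
        rw [e4]
      rw [e3]
      exact B.cmp_assoc hzF (zc_X_pow hphN1)
    · intro l hl0
      rw [B.coeff_one_cmp hz1 hzF, hl1 l hl0, PowerSeries.coeff_map, hl l hl0, hFr,
        iterateFrobenius_def, ← pow_mul, ← pow_succ']
      congr 1
      rw [geom_sum_succ, mul_comm]
    · have e1 : PowerSeries.map (MvPowerSeries.constantCoeff :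
          MvPowerSeries (Fin d) (GaloisField p n) →+* GaloisField p n)
          (cmp φ₁ (PowerSeries.map Fr φ)) =
          cmp (PowerSeries.map MvPowerSeries.constantCoeff φ₁)
            (PowerSeries.map (MvPowerSeries.constantCoeff :
          MvPowerSeries (Fin d) (GaloisField p n) →+* GaloisField p n) (PowerSeries.map Fr φ)) :=
        B.cmp_map _ (φ := φ₁) (a := PowerSeries.map Fr φ) hzF
      have e2 : PowerSeries.map (MvPowerSeries.constantCoeff :
          MvPowerSeries (Fin d) (GaloisField p n) →+* GaloisField p n) (PowerSeries.map Fr φ) =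
          PowerSeries.X ^ (p ^ (d * N)) := by
        ext j
        have h1 := congrArg (PowerSeries.coeff j) hr
        rw [PowerSeries.coeff_map, PowerSeries.coeff_X_pow] at h1
        rw [PowerSeries.coeff_map, PowerSeries.coeff_map, hFr, iterateFrobenius_def, map_pow, h1,
          PowerSeries.coeff_X_pow]
        split_ifs
        · exact one_pow _
        · exact zero_pow hph
      have hpdN : p ^ (d * N) ≠ 0 := pow_ne_zero _ hp.out.ne_zero
      rw [e1, e2, hr1, cmp_X_pow _ _ (zc_X_pow hpdN), ← pow_mul, ← pow_add]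
      congr 2

theorem main (B : ApiB) (Cc : ApiC) : LT3.Spec3.WEI := by
  intro p _ n h d Γ F st N
  obtain ⟨φ, hz, he, hl, hr⟩ := phi B Cc p n h d Γ F st N
  have h0 : PowerSeries.coeff 0 φ = 0 := by
    rw [PowerSeries.coeff_zero_eq_constantCoeff_apply]
    exact hz
  obtain ⟨f, U, hm, hd, hlow, hf0, hU1, hfU⟩ := prep φ h0 _ hr
  refine ⟨f, U, hm, hd, hlow, hf0, hU1, ?_, ?_⟩
  · rw [he, hfU]
  · intro l hl0
    rw [← hfU, hl l hl0]

end Crest.Agent.LT3WEI
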