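import Crest.Agent.LT3Spec4

set_option autoImplicit false
open Crest.LubinTate
open Crest Crest.GeometryTopology

namespace Crest.Agent.LT3WFIELD

open LT3
open scoped NNReal WithZero
open IsDedekindDomain

noncomputable section

def homR : ℤᵐ⁰ →*₀ ℝ≥0 := WithZeroMulInt.toNNReal (e := 2) (by norm_num)

lemma homR_strictMono : StrictMono homR :=
  WithZeroMulInt.toNNReal_strictMono (by norm_num : (1 : ℝ≥0) < 2)

variable (p : ℕ) [Fact p.Prime] (κ : Type) [Field κ] [CharP κ p] [PerfectRing κ p]

abbrev vW : HeightOneSpectrum (WittVector p κ) :=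
  IsDiscreteValuationRing.maximalIdeal (WittVector p κ)

abbrev KK : Type := (vW p κ).adicCompletion (FractionRing (WittVector p κ))

abbrev vv : Valuation (KK p κ) ℤᵐ⁰ := Valued.v

lemma vv_coe (c : WittVector p κ) :
    vv p κ (algebraMap (WittVector p κ) (KK p κ) c) = (vW p κ).intValuation c := by
  have := HeightOneSpectrum.valuedAdicCompletion_eq_valuation
    (K := FractionRing (WittVector p κ)) (vW p κ) c
  rw [HeightOneSpectrum.valuation_of_algebraMap] at this
  exact this

lemma mem_iff (c : WittVector p κ) : c ∈ (vW p κ).asIdeal ↔ WittVector.constantCoeff c = 0 := by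
  change c ∈ IsLocalRing.maximalIdeal _ ↔ _
  rw [IsLocalRing.mem_maximalIdeal, mem_nonunits_iff]
  constructor
  · intro h
    by_contra h0
    exact h (WittVector.isUnit_of_coeff_zero_ne_zero c h0)
  · intro h hu
    have := hu.map (WittVector.constantCoeff : WittVector p κ →+* κ)
    rw [h] at this
    exact not_isUnit_zero this

@[instance_reducible]
def rk : Valuation.RankOne (vv p κ) where
  hom' := homR.comp MonoidWithZeroHom.ValueGroup₀.embedding
  strictMono' := homR_strictMono.comp MonoidWithZeroHom.ValueGroup₀.embedding_strictMono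
  exists_val_nontrivial := by
    refine ⟨algebraMap (WittVector p κ) (KK p κ) p, ?_, ?_⟩
    · rw [vv_coe]
      exact HeightOneSpectrum.intValuation_ne_zero _ _ (WittVector.p_nonzero p κ)
    · rw [vv_coe]
      apply ne_of_lt
      rw [HeightOneSpectrum.intValuation_lt_one_iff_mem, mem_iff]
      rw [map_natCast]
      exact CharP.cast_eq_zero κ p

theorem main : Spec4.WFIELD := by
  intro p _ κ _ _ _
  let R := rk p κ
  let N : NontriviallyNormedField (KK p κ) :=
    Valued.toNontriviallyNormedField (KK p κ) ℤᵐ⁰
  have hnorm : ∀ (y : KK p κ), N.norm y = ((homR ((vv p κ) y) : ℝ≥0) : ℝ) := by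
    intro y
    show ((homR (MonoidWithZeroHom.ValueGroup₀.embedding ((vv p κ).restrict y)) : ℝ≥0) : ℝ) = _
    rw [Valuation.embedding_restrict]
  refine ⟨KK p κ, N, ?_, ?_, algebraMap (WittVector p κ) (KK p κ), ?_, ?_, ?_, ?_⟩
  · exact (inferInstance : CompleteSpace ((vW p κ).adicCompletion (FractionRing (WittVector p κ))))
  · exact Valued.instIsUltrametricDist _ _
  · have e : ((p : ℕ) : KK p κ) = algebraMap (WittVector p κ) (KK p κ) (p : WittVector p κ) := by
      rw [map_natCast]
    have h1 : N.norm ((p : ℕ) : KK p κ) = _ := hnorm _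
    show N.norm ((p : ℕ) : KK p κ) < 1
    rw [h1, e, vv_coe]
    have : (vW p κ).intValuation (p : WittVector p κ) < 1 := by
      rw [HeightOneSpectrum.intValuation_lt_one_iff_mem, mem_iff]
      rw [map_natCast]
      exact CharP.cast_eq_zero κ p
    have h2 := homR_strictMono this
    rw [map_one] at h2
    exact_mod_cast h2
  · intro c
    show N.norm _ ≤ 1
    rw [hnorm, vv_coe]
    have := homR_strictMono.monotone ((vW p κ).intValuation_le_one c)
    rw [map_one] at this
    exact_mod_cast this
  · intro c hc
    show N.norm _ = 1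
    rw [hnorm, vv_coe]
    have : (vW p κ).intValuation c = 1 := by
      rw [HeightOneSpectrum.intValuation_eq_one_iff, mem_iff]
      exact hc
    rw [this, map_one]
    rfl
  · refine charZero_of_inj_zero fun m hm => ?_
    by_contra h0
    have h1 : (m : WittVector p κ) ≠ 0 := by
      obtain ⟨a, b, hb, hab⟩ := Nat.exists_eq_pow_mul_and_not_dvd h0 p (Fact.out : p.Prime).ne_one
      rw [hab]
      push_cast
      refine mul_ne_zero (pow_ne_zero _ (WittVector.p_nonzero p κ)) ?_
      intro hb0
      have h2 := congrArg (WittVector.constantCoeff : WittVector p κ →+* κ) hb0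
      rw [map_natCast, map_zero] at h2
      exact hb ((CharP.cast_eq_zero_iff κ p b).mp h2)
    have : (vW p κ).intValuation (m : WittVector p κ) ≠ 0 :=
      HeightOneSpectrum.intValuation_ne_zero _ _ h1
    apply this
    rw [← vv_coe, map_natCast, hm, map_zero]

end

end Crest.Agent.LT3WFIELD
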