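/- rid 227 (S0351): module XIa (algebraic part of XI). -/
import Crest.Agent.LT3Spec3

set_option autoImplicit false
open Crest.LubinTate
open Crest Crest.GeometryTopology
open Polynomial

namespace Crest.Agent.LT3XIa

section Alg

variable {R L : Type} [CommRing R] [Field L]

/-- the field generated by `x(R)` -/
noncomputable def KK (x : R →+* L) : Subfield L := Subfield.closure (Set.range x)

/-- `x` as a ring homomorphism to `KK x`. -/
noncomputable def xK (x : R →+* L) : R →+* KK x :=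
  x.codRestrict (KK x) (fun r => Subfield.subset_closure ⟨r, rfl⟩)

theorem xK_coe (x : R →+* L) (r : R) : ((xK x r : KK x) : L) = x r := rfl

theorem alg_comp (x : R →+* L) : (algebraMap (KK x) L).comp (xK x) = x := rfl

theorem closure_range (x : R →+* L) (y : L) (hy : y ∈ Subring.closure (Set.range x)) :
    ∃ a : R, x a = y := by
  have h : Subring.closure (Set.range x) ≤ x.range := by
    rw [Subring.closure_le]
    rintro _ ⟨r, rfl⟩
    exact ⟨r, rfl⟩
  exact h hy

theorem mem_KK {x : R →+* L} {y : L} (hy : y ∈ KK x) : ∃ a b : R, x b ≠ 0 ∧ y * x b = x a := by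
  obtain ⟨u, hu, v, hv, h⟩ := Subfield.mem_closure_iff.1 hy
  obtain ⟨a, rfl⟩ := closure_range x u hu
  obtain ⟨b, rfl⟩ := closure_range x v hv
  by_cases hb : x b = 0
  · refine ⟨0, 1, by simp, ?_⟩
    rw [hb, div_zero] at h
    simp [← h]
  · exact ⟨a, b, hb, by rw [← h, div_mul_cancel₀ _ hb]⟩

theorem clear (x : R →+* L) (P : (KK x)[X]) : ∃ (c : R) (Q : R[X]), x c ≠ 0 ∧
    Q.map x = C (x c) * P.map (algebraMap (KK x) L) := by
  induction P using Polynomial.induction_on' with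
  | add p q hp hq =>
    obtain ⟨c, P, hc, hP⟩ := hp
    obtain ⟨c', Q, hc', hQ⟩ := hq
    refine ⟨c * c', C c' * P + C c * Q, by simp [hc, hc'], ?_⟩
    simp only [Polynomial.map_add, Polynomial.map_mul, hP, hQ, Polynomial.map_C, map_mul]
    ring
  | monomial n a =>
    obtain ⟨u, v, hv, h⟩ := mem_KK a.2
    refine ⟨v, monomial n u, hv, ?_⟩
    rw [Polynomial.map_monomial, Polynomial.map_monomial, C_mul_monomial, ← h, mul_comm]
    rfl

/-- polynomial relations transfer. -/
theorem transfer (x x' : R →+* L) (hk : ∀ g, x' g = 0 ↔ x g = 0) (ζ ζ' : L)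
    (M : R[X]) (c : R) (hc : x c ≠ 0)
    (hM : M.map x = C (x c) * (minpoly (KK x) ζ).map (algebraMap (KK x) L))
    (hM' : M.eval₂ x' ζ' = 0) (P : R[X]) (hP : P.eval₂ x ζ = 0) : P.eval₂ x' ζ' = 0 := by
  have h1 : aeval ζ (P.map (xK x)) = 0 := by
    rw [aeval_def, eval₂_map, alg_comp]
    exact hP
  obtain ⟨Q, hQ⟩ := minpoly.dvd _ _ h1
  obtain ⟨c', Q', hc', hQ'⟩ := clear x Q
  have h2 : (C (c * c') * P - M * Q').map x = 0 := by
    have e1 : P.map x = (P.map (xK x)).map (algebraMap (KK x) L) := by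
      rw [Polynomial.map_map, alg_comp]
    rw [Polynomial.map_sub, Polynomial.map_mul, Polynomial.map_mul, hM, hQ', e1, hQ,
      Polynomial.map_mul, Polynomial.map_C, map_mul, C_mul]
    ring
  have h3 : (C (c * c') * P - M * Q').map x' = 0 := by
    ext j
    have := congrArg (fun q => Polynomial.coeff q j) h2
    simp only [Polynomial.coeff_map, Polynomial.coeff_zero] at this ⊢
    exact (hk _).2 this
  have h4 : eval ζ' ((C (c * c') * P - M * Q').map x') = 0 := by rw [h3]; simp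
  rw [eval_map, eval₂_sub, eval₂_mul, eval₂_mul, hM', zero_mul, sub_zero, eval₂_C] at h4
  rcases mul_eq_zero.1 h4 with h | h
  · rw [hk, map_mul] at h
    exact absurd h (mul_ne_zero hc hc')
  · exact h

/-- evaluation of a homogenized polynomial. -/
theorem eval_homog (x : R →+* L) (g a e : R[X]) (z : L) (he : e.eval₂ x z ≠ 0) :
    (∑ j ∈ Finset.range (g.natDegree + 1), C (g.coeff j) * a ^ j * e ^ (g.natDegree - j)).eval₂ x z =
      (e.eval₂ x z) ^ g.natDegree * g.eval₂ x (a.eval₂ x z / e.eval₂ x z) := by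
  rw [eval₂_finsetSum, eval₂_eq_sum_range (p := g), Finset.mul_sum]
  refine Finset.sum_congr rfl fun j hj => ?_
  have hj' : j ≤ g.natDegree := by
    have := Finset.mem_range.1 hj
    omega
  rw [eval₂_mul, eval₂_mul, eval₂_pow, eval₂_pow, eval₂_C, div_pow]
  have : (e.eval₂ x z) ^ g.natDegree = (e.eval₂ x z) ^ (g.natDegree - j) * (e.eval₂ x z) ^ j := by
    rw [← pow_add, Nat.sub_add_cancel hj']
  rw [this]
  field_simp

theorem mem_K1 {x : R →+* L} {ζ y : L} (hy : y ∈ Subfield.closure (Set.range x ∪ {ζ})) :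
    ∃ a e : R[X], e.eval₂ x ζ ≠ 0 ∧ y = a.eval₂ x ζ / e.eval₂ x ζ := by
  have key : ∀ u ∈ Subring.closure (Set.range x ∪ {ζ}), ∃ a : R[X], a.eval₂ x ζ = u := by
    intro u hu
    have h : Subring.closure (Set.range x ∪ {ζ}) ≤ (eval₂RingHom x ζ).range := by
      rw [Subring.closure_le]
      rintro _ (⟨r, rfl⟩ | hz)
      · exact ⟨C r, by simp⟩
      · rw [Set.mem_singleton_iff] at hz
        exact ⟨X, by simp [hz]⟩
    obtain ⟨a, ha⟩ := h hu
    exact ⟨a, ha⟩
  obtain ⟨u, hu, v, hv, h⟩ := Subfield.mem_closure_iff.1 hy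
  obtain ⟨a, rfl⟩ := key u hu
  obtain ⟨b, rfl⟩ := key v hv
  by_cases hb : b.eval₂ x ζ = 0
  · refine ⟨0, 1, by simp, ?_⟩
    rw [hb, div_zero] at h
    simp [← h]
  · exact ⟨a, b, hb, h.symm⟩

/-- `ξ ∈ K(ζ)` is a simple root of a polynomial over `R`. -/
theorem simple_root (x : R →+* L) (f : R[X]) (ζ : L) (hf : f.Monic)
    (h0 : f.eval₂ x ζ = 0) (h1 : (derivative f).eval₂ x ζ ≠ 0) :
    (∃ (M N : R[X]) (c b : R), x c ≠ 0 ∧ x b ≠ 0 ∧
      M.map x = C (x c) * (minpoly (KK x) ζ).map (algebraMap (KK x) L) ∧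
      (C b * f).map x = (M * N).map x ∧ N.eval₂ x ζ ≠ 0) ∧
    ∀ ξ ∈ Subfield.closure (Set.range x ∪ {ζ}),
      ∃ g : R[X], g.eval₂ x ξ = 0 ∧ (derivative g).eval₂ x ξ ≠ 0 := by
  have hmon : (f.map (xK x)).Monic := hf.map _
  have ha : aeval ζ (f.map (xK x)) = 0 := by
    rw [aeval_def, eval₂_map, alg_comp]
    exact h0
  have hda : aeval ζ (derivative (f.map (xK x))) ≠ 0 := by
    rw [derivative_map, aeval_def, eval₂_map, alg_comp]
    exact h1
  have hint : IsIntegral (KK x) ζ := ⟨f.map (xK x), hmon, by rw [← aeval_def]; exact ha⟩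
  obtain ⟨ν, hν⟩ := minpoly.dvd _ _ ha
  have hroot := minpoly.aeval (KK x) ζ
  have hd : aeval ζ (derivative (f.map (xK x))) =
      aeval ζ (derivative (minpoly (KK x) ζ)) * aeval ζ ν := by
    rw [hν, derivative_mul, map_add, map_mul, map_mul, hroot, zero_mul, add_zero]
  rw [hd] at hda
  have hμ' : aeval ζ (derivative (minpoly (KK x) ζ)) ≠ 0 := left_ne_zero_of_mul hda
  have hν' : aeval ζ ν ≠ 0 := right_ne_zero_of_mul hda
  have hsep : IsSeparable (KK x) ζ := by
    rw [IsSeparable, separable_iff_derivative_ne_zero (minpoly.irreducible hint)]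
    intro h
    rw [h, map_zero] at hμ'
    exact hμ' rfl
  constructor
  · obtain ⟨c, M, hc, hM⟩ := clear x (minpoly (KK x) ζ)
    obtain ⟨b, N, hb, hN⟩ := clear x ν
    refine ⟨M, N, c, c * b, hc, by simp [hc, hb], hM, ?_, ?_⟩
    · have e1 : f.map x = (f.map (xK x)).map (algebraMap (KK x) L) := by
        rw [Polynomial.map_map, alg_comp]
      rw [Polynomial.map_mul, Polynomial.map_mul, hM, hN, e1, hν, Polynomial.map_mul,
        Polynomial.map_C, map_mul, C_mul]
      ring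
    · rw [← eval_map, hN, eval_mul, eval_C, eval_map, ← aeval_def]
      exact mul_ne_zero hb hν'
  · intro ξ hξ
    have hsepA : Algebra.IsSeparable (KK x) (IntermediateField.adjoin (KK x) {ζ}) :=
      (IntermediateField.isSeparable_adjoin_simple_iff_isSeparable (KK x) L).2 hsep
    have hle : Subfield.closure (Set.range x ∪ {ζ}) ≤
        (IntermediateField.adjoin (KK x) {ζ}).toSubfield := by
      rw [Subfield.closure_le]
      rintro _ (⟨r, rfl⟩ | hz)
      · exact (IntermediateField.adjoin (KK x) {ζ}).algebraMap_mem (xK x r)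
      · rw [Set.mem_singleton_iff] at hz
        rw [hz]
        exact IntermediateField.mem_adjoin_simple_self (KK x) ζ
    have hξ' : ξ ∈ IntermediateField.adjoin (KK x) {ζ} := hle hξ
    have hs1 : IsSeparable (KK x) (⟨ξ, hξ'⟩ : IntermediateField.adjoin (KK x) {ζ}) :=
      Algebra.IsSeparable.isSeparable _ _
    have hs2 : (minpoly (KK x) ξ).Separable := by
      have : minpoly (KK x) ξ =
          minpoly (KK x) (⟨ξ, hξ'⟩ : IntermediateField.adjoin (KK x) {ζ}) :=
        minpoly.algebraMap_eq (B := IntermediateField.adjoin (KK x) {ζ}) (B' := L)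
          Subtype.val_injective ⟨ξ, hξ'⟩
      rw [this]
      exact hs1
    have hs3 := hs2.aeval_derivative_ne_zero (minpoly.aeval (KK x) ξ)
    obtain ⟨c, g, hc, hg⟩ := clear x (minpoly (KK x) ξ)
    refine ⟨g, ?_, ?_⟩
    · rw [← eval_map, hg, eval_mul, eval_map, ← aeval_def, minpoly.aeval, mul_zero]
    · rw [← eval_map, ← derivative_map, hg, derivative_C_mul, derivative_map, eval_mul, eval_C,
        eval_map, ← aeval_def]
      exact mul_ne_zero hc hs3

/-- applying a derivation to a polynomial relation. -/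
theorem deriv_rel {R A : Type} [CommRing R] [Field A] (x : R →+* A) (D : A → A)
    (hadd : ∀ f g, D (f + g) = D f + D g) (hmul : ∀ f g, D (f * g) = f * D g + g * D f)
    (g : R[X]) (ξ : A) :
    D (g.eval₂ x ξ) = (∑ j ∈ Finset.range (g.natDegree + 1), D (x (g.coeff j)) * ξ ^ j) +
      (derivative g).eval₂ x ξ * D ξ := by
  have h0 : D 0 = 0 := by
    have := hadd 0 0
    rw [add_zero] at this
    exact left_eq_add.1 this
  have hsum : ∀ (s : Finset ℕ) (F : ℕ → A), D (∑ j ∈ s, F j) = ∑ j ∈ s, D (F j) := by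
    classical
    intro s F
    induction s using Finset.induction_on with
    | empty => simp [h0]
    | insert a s ha ih => rw [Finset.sum_insert ha, Finset.sum_insert ha, hadd, ih]
  have hpow : ∀ j : ℕ, D (ξ ^ j) = j * ξ ^ (j - 1) * D ξ := by
    intro j
    induction j with
    | zero =>
      have := hmul 1 1
      rw [mul_one, one_mul] at this
      have h1 : D 1 = 0 := left_eq_add.1 this
      simp [h1]
    | succ j ih =>
      rw [pow_succ, hmul, ih]
      rcases j with _ | j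
      · simp
      · push_cast
        ring
  have hder : (derivative g).eval₂ x ξ =
      ∑ j ∈ Finset.range (g.natDegree + 1), x (g.coeff j) * (j * ξ ^ (j - 1)) := by
    conv_lhs => rw [g.as_sum_range_C_mul_X_pow]
    rw [derivative_sum, eval₂_finsetSum]
    refine Finset.sum_congr rfl fun j _ => ?_
    rw [derivative_C_mul_X_pow, eval₂_mul, eval₂_C, eval₂_pow, eval₂_X, map_mul, map_natCast,
      mul_assoc]
  rw [eval₂_eq_sum_range, hsum, hder, Finset.sum_mul, ← Finset.sum_add_distrib]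
  refine Finset.sum_congr rfl fun j _ => ?_
  rw [hmul, hpow]
  ring

end Alg

section An

variable {C : Type} [NontriviallyNormedField C] [CompleteSpace C] [IsUltrametricDist C]

omit [CompleteSpace C] in
theorem pow_sub_le (z z' : C) (hz : ‖z‖ ≤ 1) (hz' : ‖z'‖ ≤ 1) (n : ℕ) :
    ‖z' ^ n - z ^ n‖ ≤ ‖z' - z‖ := by
  induction n with
  | zero => simp
  | succ n ih =>
    have : z' ^ (n + 1) - z ^ (n + 1) = (z' ^ n - z ^ n) * z' + z ^ n * (z' - z) := by ring
    rw [this]
    refine (IsUltrametricDist.norm_add_le_max _ _).trans (max_le ?_ ?_)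
    · rw [norm_mul]
      calc _ ≤ ‖z' ^ n - z ^ n‖ * 1 := mul_le_mul_of_nonneg_left hz' (norm_nonneg _)
        _ ≤ _ := by rw [mul_one]; exact ih
    · rw [norm_mul, norm_pow]
      calc _ ≤ 1 * ‖z' - z‖ :=
            mul_le_mul_of_nonneg_right (pow_le_one₀ (norm_nonneg _) hz) (norm_nonneg _)
        _ ≤ _ := by rw [one_mul]

theorem cont (hX : LT3.ApiX) {k : Type} [Field k] [Finite k] {d : ℕ} {ι : k →+* C}
    {w w' : Fin d → C} {x x' : MvPowerSeries (Fin d) k →+* C} (h : LT3.IsEv ι w x)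
    (h' : LT3.IsEv ι w' x') (ε : ℝ) (hε : 0 ≤ ε) (hw : ∀ i, ‖w' i - w i‖ ≤ ε) (ζ ζ' : C)
    (hζ : ‖ζ‖ ≤ 1) (hζ' : ‖ζ'‖ ≤ 1) (hd : ‖ζ' - ζ‖ ≤ ε) (P : (MvPowerSeries (Fin d) k)[X]) :
    ‖P.eval₂ x' ζ' - P.eval₂ x ζ‖ ≤ ε := by
  induction P using Polynomial.induction_on' with
  | add p q hp hq =>
    rw [eval₂_add, eval₂_add, add_sub_add_comm]
    exact (IsUltrametricDist.norm_add_le_max _ _).trans (max_le hp hq)
  | monomial n a =>
    rw [eval₂_monomial, eval₂_monomial]
    have : x' a * ζ' ^ n - x a * ζ ^ n = (x' a - x a) * ζ' ^ n + x a * (ζ' ^ n - ζ ^ n) := by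
      ring
    rw [this]
    refine (IsUltrametricDist.norm_add_le_max _ _).trans (max_le ?_ ?_)
    · rw [norm_mul, norm_pow]
      calc _ ≤ ‖x' a - x a‖ * 1 :=
            mul_le_mul_of_nonneg_left (pow_le_one₀ (norm_nonneg _) hζ') (norm_nonneg _)
        _ ≤ ε := by rw [mul_one]; exact hX.lip h h' ε hε hw a
    · rw [norm_mul]
      calc _ ≤ 1 * ‖ζ' ^ n - ζ ^ n‖ :=
            mul_le_mul_of_nonneg_right (hX.le_one h a) (norm_nonneg _)
        _ ≤ ‖ζ' - ζ‖ := by rw [one_mul]; exact pow_sub_le ζ ζ' hζ hζ' n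
        _ ≤ ε := hd

omit [CompleteSpace C] [IsUltrametricDist C] in
theorem exists_max (p : ℕ) [hp : Fact p.Prime] (K : Subfield C) (ζ : C) (hζ : ζ ∈ K)
    (hζ0 : ζ ≠ 0) (hζ1 : ‖ζ‖ < 1)
    (hD : ∃ (D : ℕ) (s : ℝ), 0 < D ∧ 0 < s ∧ s < 1 ∧ ∀ y ∈ K, y ≠ 0 → ∃ a : ℤ, ‖y‖ ^ D = s ^ a) :
    ∃ (i : ℕ), ∃ ξ ∈ K, ζ = ξ ^ (p ^ i) ∧ ∀ y ∈ K, y ^ p ≠ ξ := by
  by_contra hcon
  push Not at hcon
  have hall : ∀ i : ℕ, ∃ ξ ∈ K, ζ = ξ ^ (p ^ i) := by
    intro i
    induction i with
    | zero => exact ⟨ζ, hζ, by simp⟩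
    | succ i ih =>
      obtain ⟨ξ, hξ, h⟩ := ih
      obtain ⟨y, hy, hyξ⟩ := hcon i ξ hξ h
      exact ⟨y, hy, by rw [h, ← hyξ, ← pow_mul, pow_succ, mul_comm]⟩
  obtain ⟨D, s, hD0, hs0, hs1, hK⟩ := hD
  obtain ⟨a₀, ha₀⟩ := hK ζ hζ hζ0
  have ha₀pos : 0 < a₀ := by
    by_contra hneg
    push Not at hneg
    have h1 : 1 ≤ s ^ a₀ := one_le_zpow_of_nonpos₀ hs0 hs1.le hneg
    have h2 : ‖ζ‖ ^ D < 1 := pow_lt_one₀ (norm_nonneg _) hζ1 hD0.ne'
    rw [ha₀] at h2
    exact absurd h1 (not_le.2 h2)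
  obtain ⟨ξ, hξ, h⟩ := hall a₀.toNat
  have hξ0 : ξ ≠ 0 := by
    rintro rfl
    rw [zero_pow (pow_ne_zero _ hp.out.ne_zero)] at h
    exact hζ0 h
  obtain ⟨a, ha⟩ := hK ξ hξ hξ0
  have e1 : s ^ (a * (p ^ a₀.toNat : ℕ)) = s ^ a₀ := by
    rw [zpow_mul, ← ha, ← ha₀, h, norm_pow, zpow_natCast, ← pow_mul, ← pow_mul, mul_comm]
  have e2 : a * (p ^ a₀.toNat : ℕ) = a₀ := zpow_right_injective₀ hs0 hs1.ne e1
  have hapos : 0 < a := by
    by_contra hneg
    push Not at hneg
    have : a * (p ^ a₀.toNat : ℕ) ≤ 0 := mul_nonpos_of_nonpos_of_nonneg hneg (by positivity)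
    omega
  have h3 : a₀.toNat < p ^ a₀.toNat := Nat.lt_pow_self hp.out.one_lt
  have h4 : ((p ^ a₀.toNat : ℕ) : ℤ) ≤ a₀ := by
    calc ((p ^ a₀.toNat : ℕ) : ℤ) = 1 * ((p ^ a₀.toNat : ℕ) : ℤ) := (one_mul _).symm
      _ ≤ a * ((p ^ a₀.toNat : ℕ) : ℤ) := mul_le_mul_of_nonneg_right hapos (by positivity)
      _ = a₀ := e2
  omega

end An

/-- XIa. -/
theorem main (hDer : LT3.Spec3.DERIV) (hPder : LT3.Spec3.PDER) (hX : LT3.ApiX) :
    LT3.Spec3.XIa := by
  intro p hp n d hn C _ _ _ _ _ ι w x hev hdisc f ζ hf h0 h1 hζ0 hζ1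
  have hfx : f.map x ≠ 0 := (hf.map x).ne_zero
  obtain ⟨i, ξ, hξK, hξ, hmax⟩ := exists_max p (Subfield.closure (Set.range x ∪ {ζ})) ζ
    (Subfield.subset_closure (Or.inr rfl)) hζ0 hζ1 (hdisc ζ ⟨f, hfx, h0⟩)
  obtain ⟨⟨M, N, c, b, hc, hb, hM, hMN, hN⟩, hsimple⟩ := simple_root x f ζ hf h0 h1
  obtain ⟨g, hg0, hg1⟩ := hsimple ξ hξK
  refine ⟨i, ξ, g, hξ, hg0, hg1, ?_, ?_⟩
  · -- the derivation
    obtain ⟨D, hadd, hmul, hDξ⟩ := hPder p (Subfield.closure (Set.range x ∪ {ζ})) ⟨ξ, hξK⟩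
      (fun y hy => hmax y.1 y.2 (congrArg Subtype.val hy))
    let x1 : MvPowerSeries (Fin d) (GaloisField p n) →+*
        (Subfield.closure (Set.range x ∪ {ζ}) : Subfield C) :=
      x.codRestrict _ (fun r => Subfield.subset_closure (Or.inl ⟨r, rfl⟩))
    have hx1 : ∀ r, ((x1 r : Subfield.closure (Set.range x ∪ {ζ})) : C) = x r := fun r => rfl
    have hrel := hDer p n d hn C x (fun r => (D (x1 r) : C))
      (fun f g => by rw [map_add, hadd]; rfl)
      (fun f g => by rw [map_mul, hmul]; rfl)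
    refine ⟨fun l => (D (x1 (MvPowerSeries.X l)) : C), ?_, ?_⟩
    · intro r hr
      rw [← hrel r]
      have e : x1 r = 0 := Subtype.ext (by rw [hx1]; exact hr)
      have h00 : D 0 = 0 := by
        have := hadd 0 0
        rw [add_zero] at this
        exact left_eq_add.1 this
      simp only [e, h00]
      rfl
    · have key := deriv_rel x1 D hadd hmul g ⟨ξ, hξK⟩
      have h00 : D 0 = 0 := by
        have := hadd 0 0
        rw [add_zero] at this
        exact left_eq_add.1 this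
      have hcoe : ∀ P : (MvPowerSeries (Fin d) (GaloisField p n))[X],
          ((P.eval₂ x1 ⟨ξ, hξK⟩ : Subfield.closure (Set.range x ∪ {ζ})) : C) = P.eval₂ x ξ := by
        intro P
        have := Polynomial.hom_eval₂ P x1
          (Subfield.closure (Set.range x ∪ {ζ})).subtype ⟨ξ, hξK⟩
        exact this
      have hg0' : g.eval₂ x1 ⟨ξ, hξK⟩ = 0 := Subtype.ext (by rw [hcoe]; exact hg0)
      rw [hg0', h00] at key
      have key2 := congrArg (fun y : Subfield.closure (Set.range x ∪ {ζ}) => (y : C)) key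
      push_cast at key2
      rw [hcoe] at key2
      intro hcontra
      have e : ∑ j ∈ Finset.range (g.natDegree + 1), (D (x1 (g.coeff j)) : C) * ξ ^ j =
          ∑ l, (∑ j ∈ Finset.range (g.natDegree + 1),
            x (MvPowerSeries.pderiv _ l (g.coeff j)) * ξ ^ j) *
            (D (x1 (MvPowerSeries.X l)) : C) := by
        have e1 : ∀ j ∈ Finset.range (g.natDegree + 1), (D (x1 (g.coeff j)) : C) * ξ ^ j =
            ∑ l, x (MvPowerSeries.pderiv _ l (g.coeff j)) * ξ ^ j *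
              (D (x1 (MvPowerSeries.X l)) : C) := by
          intro j _
          have := hrel (g.coeff j)
          rw [this, Finset.sum_mul]
          refine Finset.sum_congr rfl fun l _ => ?_
          ring
        rw [Finset.sum_congr rfl e1, Finset.sum_comm]
        refine Finset.sum_congr rfl fun l _ => ?_
        rw [Finset.sum_mul]
      rw [e, hcontra, zero_add] at key2
      rcases mul_eq_zero.1 key2.symm with h | h
      · exact hg1 h
      · exact hDξ (Subtype.ext h)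
  · -- the transfer
    obtain ⟨a, e, he, hae⟩ := mem_K1 hξK
    have hne : (N * e).eval₂ x ζ ≠ 0 := by
      rw [eval₂_mul]
      exact mul_ne_zero hN he
    refine ⟨min 1 (‖(N * e).eval₂ x ζ‖ / 2), lt_min one_pos (half_pos (norm_pos_iff.2 hne)), ?_⟩
    intro w' x' hev' hker hw' ζ' hζ' hclose
    have hζ'1 : ‖ζ'‖ ≤ 1 := by
      have : ζ' = (ζ' - ζ) + ζ := by ring
      rw [this]
      exact (IsUltrametricDist.norm_add_le_max _ _).trans
        (max_le (hclose.le.trans (min_le_left _ _)) hζ1.le)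
    have hc1 := cont hX hev hev' (min 1 (‖(N * e).eval₂ x ζ‖ / 2))
      (le_min zero_le_one (by positivity)) (fun i => (hw' i).le) ζ ζ' hζ1.le hζ'1 hclose.le (N * e)
    have hne' : (N * e).eval₂ x' ζ' ≠ 0 := by
      intro h
      rw [h, zero_sub, norm_neg] at hc1
      have := hc1.trans (min_le_right _ _)
      have hpos := norm_pos_iff.2 hne
      linarith
    rw [eval₂_mul] at hne'
    have hN' := left_ne_zero_of_mul hne'
    have he' := right_ne_zero_of_mul hne'
    have hM' : M.eval₂ x' ζ' = 0 := by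
      have h3 : (Polynomial.C b * f - M * N).map x' = 0 := by
        have h2 : (Polynomial.C b * f - M * N).map x = 0 := by
          rw [Polynomial.map_sub, hMN, sub_self]
        ext j
        have := congrArg (fun q => Polynomial.coeff q j) h2
        simp only [Polynomial.coeff_map, Polynomial.coeff_zero] at this ⊢
        exact (hker _).2 this
      have h4 : eval ζ' ((Polynomial.C b * f - M * N).map x') = 0 := by rw [h3]; simp
      rw [eval_map, eval₂_sub, eval₂_mul, eval₂_mul, hζ', mul_zero, zero_sub, neg_eq_zero] at h4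
      exact (mul_eq_zero.1 h4).resolve_right hN'
    have htr := transfer x x' hker ζ ζ' M c hc hM hM'
    refine ⟨a.eval₂ x' ζ' / e.eval₂ x' ζ', ?_, ?_⟩
    · have h5 := htr (e ^ (p ^ i) * X - a ^ (p ^ i)) (by
        rw [eval₂_sub, eval₂_mul, eval₂_pow, eval₂_pow, eval₂_X, sub_eq_zero]
        have : ζ = (a.eval₂ x ζ / e.eval₂ x ζ) ^ (p ^ i) := by rw [← hae]; exact hξ
        rw [div_pow, eq_div_iff (pow_ne_zero _ he)] at this
        rw [← this, mul_comm])
      rw [eval₂_sub, eval₂_mul, eval₂_pow, eval₂_pow, eval₂_X, sub_eq_zero] at h5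
      rw [div_pow, ← h5]
      field_simp
    · have h6 := htr _ (by
        rw [eval_homog x g a e ζ he, ← hae, hg0, mul_zero])
      rw [eval_homog x' g a e ζ' he'] at h6
      exact (mul_eq_zero.1 h6).resolve_left (pow_ne_zero _ he')

end Crest.Agent.LT3XIa
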