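/- rid 227 (S0351): module XI (how a simple root moves). -/
import Crest.Agent.LT3XIa

set_option autoImplicit false
open Crest.LubinTate
open Crest Crest.GeometryTopology
open Polynomial

namespace Crest.Agent.LT3XI

theorem der_eval {R A : Type} [CommRing R] [Field A] (x : R →+* A) (g : R[X]) (ξ : A) :
    (derivative g).eval₂ x ξ =
      ∑ j ∈ Finset.range (g.natDegree + 1), x (g.coeff j) * (j * ξ ^ (j - 1)) := by
  conv_lhs => rw [g.as_sum_range_C_mul_X_pow]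
  rw [derivative_sum, eval₂_finsetSum]
  refine Finset.sum_congr rfl fun j _ => ?_
  rw [derivative_C_mul_X_pow, eval₂_mul, eval₂_C, eval₂_pow, eval₂_X, map_mul, map_natCast,
    mul_assoc]

section An

variable {C : Type} [NontriviallyNormedField C] [IsUltrametricDist C]

theorem nat_norm (j : ℕ) : ‖(j : C)‖ ≤ 1 := IsUltrametricDist.norm_natCast_le_one C j

theorem norm_sub_le_max (a b : C) : ‖a - b‖ ≤ max ‖a‖ ‖b‖ := by
  rw [sub_eq_add_neg, ← norm_neg b]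
  exact IsUltrametricDist.norm_add_le_max _ _

theorem pow_taylor (z z' : C) (hz : ‖z‖ ≤ 1) (hz' : ‖z'‖ ≤ 1) (n : ℕ) :
    ‖z' ^ n - z ^ n - n * z ^ (n - 1) * (z' - z)‖ ≤ ‖z' - z‖ ^ 2 := by
  induction n with
  | zero => simp
  | succ n ih =>
    have e : z' ^ (n + 1) - z ^ (n + 1) - ((n + 1 : ℕ) : C) * z ^ (n + 1 - 1) * (z' - z) =
        (z' ^ n - z ^ n - n * z ^ (n - 1) * (z' - z)) * z' +
          n * z ^ (n - 1) * (z' - z) ^ 2 := by
      rcases n with _ | n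
      · simp
      · push_cast
        ring
    rw [e]
    refine (IsUltrametricDist.norm_add_le_max _ _).trans (max_le ?_ ?_)
    · rw [norm_mul]
      calc _ ≤ ‖z' ^ n - z ^ n - n * z ^ (n - 1) * (z' - z)‖ * 1 :=
            mul_le_mul_of_nonneg_left hz' (norm_nonneg _)
        _ ≤ _ := by rw [mul_one]; exact ih
    · rw [norm_mul, norm_mul, norm_pow, norm_pow]
      have h1 : ‖(n : C)‖ * ‖z‖ ^ (n - 1) ≤ 1 := by
        calc _ ≤ (1 : ℝ) * 1 := mul_le_mul (nat_norm n) (pow_le_one₀ (norm_nonneg _) hz)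
              (by positivity) zero_le_one
          _ = 1 := one_mul 1
      calc _ ≤ 1 * ‖z' - z‖ ^ 2 := mul_le_mul_of_nonneg_right h1 (by positivity)
        _ = _ := one_mul _

theorem eval_taylor [CompleteSpace C] (hX : LT3.ApiX) {k : Type} [Field k] [Finite k] {d : ℕ}
    {ι : k →+* C} {w w' : Fin d → C} {x x' : MvPowerSeries (Fin d) k →+* C} (h : LT3.IsEv ι w x)
    (h' : LT3.IsEv ι w' x') (ε : ℝ) (hε : 0 ≤ ε) (hw : ∀ i, ‖w' i - w i‖ ≤ ε) (ξ ξ' : C)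
    (hξ : ‖ξ‖ ≤ 1) (hξ' : ‖ξ'‖ ≤ 1) (g : (MvPowerSeries (Fin d) k)[X]) :
    ‖g.eval₂ x' ξ' - g.eval₂ x ξ - (derivative g).eval₂ x ξ * (ξ' - ξ) -
      ∑ l, (∑ j ∈ Finset.range (g.natDegree + 1),
        x (MvPowerSeries.pderiv _ l (g.coeff j)) * ξ ^ j) * (w' l - w l)‖ ≤
      max ε ‖ξ' - ξ‖ ^ 2 := by
  have hm1 : ε ≤ max ε ‖ξ' - ξ‖ := le_max_left _ _
  have hm2 : ‖ξ' - ξ‖ ≤ max ε ‖ξ' - ξ‖ := le_max_right _ _
  have hm0 : 0 ≤ max ε ‖ξ' - ξ‖ := hε.trans hm1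
  have e : g.eval₂ x' ξ' - g.eval₂ x ξ - (derivative g).eval₂ x ξ * (ξ' - ξ) -
      ∑ l, (∑ j ∈ Finset.range (g.natDegree + 1),
        x (MvPowerSeries.pderiv _ l (g.coeff j)) * ξ ^ j) * (w' l - w l) =
      ∑ j ∈ Finset.range (g.natDegree + 1),
        ((x' (g.coeff j) - x (g.coeff j) -
            ∑ l, x (MvPowerSeries.pderiv _ l (g.coeff j)) * (w' l - w l)) * ξ ^ j +
          (x' (g.coeff j) - x (g.coeff j)) * (ξ' ^ j - ξ ^ j) +
          x (g.coeff j) * (ξ' ^ j - ξ ^ j - j * ξ ^ (j - 1) * (ξ' - ξ))) := by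
    have e1 : ∑ l, (∑ j ∈ Finset.range (g.natDegree + 1),
        x (MvPowerSeries.pderiv _ l (g.coeff j)) * ξ ^ j) * (w' l - w l) =
        ∑ j ∈ Finset.range (g.natDegree + 1),
          (∑ l, x (MvPowerSeries.pderiv _ l (g.coeff j)) * (w' l - w l)) * ξ ^ j := by
      simp only [Finset.sum_mul]
      rw [Finset.sum_comm]
      refine Finset.sum_congr rfl fun l _ => Finset.sum_congr rfl fun j _ => ?_
      ring
    rw [e1, der_eval, eval₂_eq_sum_range, eval₂_eq_sum_range, Finset.sum_mul,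
      ← Finset.sum_sub_distrib, ← Finset.sum_sub_distrib, ← Finset.sum_sub_distrib]
    refine Finset.sum_congr rfl fun j _ => ?_
    ring
  rw [e]
  refine IsUltrametricDist.norm_sum_le_of_forall_le_of_nonneg (by positivity) fun j _ => ?_
  refine (IsUltrametricDist.norm_add_le_max _ _).trans (max_le
    ((IsUltrametricDist.norm_add_le_max _ _).trans (max_le ?_ ?_)) ?_)
  · rw [norm_mul, norm_pow]
    calc _ ≤ ε ^ 2 * 1 := mul_le_mul (hX.taylor h h' ε hε hw (g.coeff j))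
          (pow_le_one₀ (norm_nonneg _) hξ) (by positivity) (by positivity)
      _ ≤ _ := by rw [mul_one]; exact pow_le_pow_left₀ hε hm1 2
  · rw [norm_mul, sq]
    exact mul_le_mul ((hX.lip h h' ε hε hw (g.coeff j)).trans hm1)
      ((LT3XIa.pow_sub_le ξ ξ' hξ hξ' j).trans hm2) (norm_nonneg _) hm0
  · rw [norm_mul]
    calc _ ≤ 1 * ‖ξ' - ξ‖ ^ 2 := mul_le_mul (hX.le_one h _) (pow_taylor ξ ξ' hξ hξ' j)
          (norm_nonneg _) zero_le_one
      _ ≤ _ := by rw [one_mul]; exact pow_le_pow_left₀ (norm_nonneg _) hm2 2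

theorem eval_le_one [CompleteSpace C] (hX : LT3.ApiX) {k : Type} [Field k] [Finite k] {d : ℕ}
    {ι : k →+* C} {w : Fin d → C} {x : MvPowerSeries (Fin d) k →+* C} (h : LT3.IsEv ι w x)
    (ξ : C) (hξ : ‖ξ‖ ≤ 1) (g : (MvPowerSeries (Fin d) k)[X]) : ‖g.eval₂ x ξ‖ ≤ 1 := by
  rw [eval₂_eq_sum_range]
  refine IsUltrametricDist.norm_sum_le_of_forall_le_of_nonneg zero_le_one fun j _ => ?_
  rw [norm_mul, norm_pow]
  exact mul_le_one₀ (hX.le_one h _) (by positivity) (pow_le_one₀ (norm_nonneg _) hξ)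

end An

theorem main (hXIa : LT3.Spec3.XIa) (hX : LT3.ApiX) : LT3.Spec3.XI := by
  intro p hp n d hn C _ _ _ _ _ ι w x hev hdisc f ζ hf h0 h1 hζ0 hζ1
  obtain ⟨i, ξ, g, hξ, hg0, hg1, ⟨δ, hδT, hδ⟩, κ, hκ, hmain⟩ :=
    hXIa p n d hn C ι w x hev hdisc f ζ hf h0 h1 hζ0 hζ1
  have hpi : p ^ i ≠ 0 := pow_ne_zero _ hp.out.ne_zero
  have hξ1 : ‖ξ‖ ≤ 1 := by
    by_contra hcon
    push Not at hcon
    have : 1 < ‖ξ‖ ^ (p ^ i) := one_lt_pow₀ hcon hpi
    rw [← norm_pow, ← hξ] at this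
    linarith
  set G := (derivative g).eval₂ x ξ with hG
  have hGpos : 0 < ‖G‖ := norm_pos_iff.2 hg1
  have hG1 : ‖G‖ ≤ 1 := eval_le_one hX hev ξ hξ1 _
  set B : Fin d → C := fun l => ∑ j ∈ Finset.range (g.natDegree + 1),
    x (MvPowerSeries.pderiv _ l (g.coeff j)) * ξ ^ j with hB
  have hB1 : ∀ l, ‖B l‖ ≤ 1 := by
    intro l
    refine IsUltrametricDist.norm_sum_le_of_forall_le_of_nonneg zero_le_one fun j _ => ?_
    rw [norm_mul, norm_pow]
    exact mul_le_one₀ (hX.le_one hev _) (by positivity) (pow_le_one₀ (norm_nonneg _) hξ1)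
  refine ⟨i, fun l => -(B l / G), 1 / ‖G‖ ^ 3, min κ (‖G‖ ^ (p ^ i)), by positivity,
    lt_min hκ (by positivity), ⟨δ, hδT, ?_⟩, ?_⟩
  · have : ∑ l, -(B l / G) * δ l = -(∑ l, B l * δ l) / G := by
      rw [← Finset.sum_neg_distrib, Finset.sum_div]
      refine Finset.sum_congr rfl fun l _ => ?_
      ring
    rw [this]
    exact div_ne_zero (neg_ne_zero.2 hδ) hg1
  · intro w' x' hev' hker ε hε hεκ hw' ζ' hζ' hclose
    obtain ⟨ξ', hξ', hg'⟩ := hmain w' x' hev' hker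
      (fun l => (hw' l).trans_lt (hεκ.trans_le (min_le_left _ _))) ζ' hζ'
      (hclose.trans_le (min_le_left _ _))
    have hs : ζ' - ζ = (ξ' - ξ) ^ (p ^ i) := by
      rw [hξ', hξ, sub_pow_char_pow]
    refine ⟨ξ' - ξ, hs, ?_⟩
    have hsG : ‖ξ' - ξ‖ < ‖G‖ := by
      have h2 : ‖ξ' - ξ‖ ^ (p ^ i) < ‖G‖ ^ (p ^ i) := by
        rw [← norm_pow, ← hs]
        exact hclose.trans_le (min_le_right _ _)
      exact lt_of_pow_lt_pow_left₀ _ (norm_nonneg _) h2
    have hξ'1 : ‖ξ'‖ ≤ 1 := by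
      have : ξ' = (ξ' - ξ) + ξ := by ring
      rw [this]
      exact (IsUltrametricDist.norm_add_le_max _ _).trans (max_le (hsG.le.trans hG1) hξ1)
    have hT := eval_taylor hX hev hev' ε hε hw' ξ ξ' hξ1 hξ'1 g
    rw [hg', hg0, sub_zero, zero_sub, ← neg_add', norm_neg] at hT
    change ‖G * (ξ' - ξ) + ∑ l, B l * (w' l - w l)‖ ≤ _ at hT
    have hBd : ‖∑ l, B l * (w' l - w l)‖ ≤ ε := by
      refine IsUltrametricDist.norm_sum_le_of_forall_le_of_nonneg hε fun l _ => ?_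
      rw [norm_mul]
      calc _ ≤ 1 * ε := mul_le_mul (hB1 l) (hw' l) (norm_nonneg _) zero_le_one
        _ = ε := one_mul _
    -- bound on `s`
    have hsb : ‖ξ' - ξ‖ ≤ ε / ‖G‖ := by
      rw [le_div_iff₀ hGpos]
      rcases le_or_gt ‖ξ' - ξ‖ ε with h | h
      · calc ‖ξ' - ξ‖ * ‖G‖ ≤ ε * 1 := mul_le_mul h hG1 (norm_nonneg _) hε
          _ = ε := mul_one _
      · by_contra hcon
        push Not at hcon
        have hspos : 0 < ‖ξ' - ξ‖ := hε.trans_lt h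
        have e1 : G * (ξ' - ξ) = (G * (ξ' - ξ) + ∑ l, B l * (w' l - w l)) -
            ∑ l, B l * (w' l - w l) := by ring
        have e2 : ‖G * (ξ' - ξ)‖ ≤ max (‖ξ' - ξ‖ ^ 2) ε := by
          rw [e1]
          refine (norm_sub_le_max _ _).trans (max_le_max ?_ hBd)
          rw [max_eq_right h.le] at hT
          exact hT
        rw [norm_mul, mul_comm] at e2
        rcases le_max_iff.1 e2 with h3 | h3
        · have : ‖ξ' - ξ‖ ^ 2 < ‖ξ' - ξ‖ * ‖G‖ := by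
            rw [sq]
            exact mul_lt_mul_of_pos_left hsG hspos
          linarith
        · linarith
    have hmax : max ε ‖ξ' - ξ‖ ≤ ε / ‖G‖ := by
      refine max_le ?_ hsb
      rw [le_div_iff₀ hGpos]
      exact mul_le_of_le_one_right hε hG1
    have e3 : ξ' - ξ - ∑ l, -(B l / G) * (w' l - w l) =
        (G * (ξ' - ξ) + ∑ l, B l * (w' l - w l)) / G := by
      have : ∑ l, -(B l / G) * (w' l - w l) = -(∑ l, B l * (w' l - w l)) / G := by
        rw [← Finset.sum_neg_distrib, Finset.sum_div]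
        refine Finset.sum_congr rfl fun l _ => ?_
        ring
      rw [this]
      field_simp
      ring
    change ‖ξ' - ξ - ∑ l, -(B l / G) * (w' l - w l)‖ ≤ _
    rw [e3, norm_div, div_le_iff₀ hGpos]
    calc _ ≤ max ε ‖ξ' - ξ‖ ^ 2 := hT
      _ ≤ (ε / ‖G‖) ^ 2 := pow_le_pow_left₀ (hε.trans (le_max_left _ _)) hmax 2
      _ = _ := by field_simp

end Crest.Agent.LT3XI
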