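/- rid 227 (S0351), modules YR and YO: sizes and ratios of `[p^N]_w ψ(τ_N)`. -/
import Crest.Agent.LT3RATIO

set_option autoImplicit false
set_option linter.unusedSectionVars false
open Crest.LubinTate
open Crest Crest.GeometryTopology

namespace Crest.Agent.LT3YR
open LT3 LT3RATIO

section
variable {C : Type} [NontriviallyNormedField C] [IsUltrametricDist C]

lemma iota_norm {k : Type} [Field k] [Finite k] (ι : k →+* C) {c : k} (hc : c ≠ 0) :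
    ‖ι c‖ = 1 := by
  have hpos : 0 < Nat.card k - 1 := by
    have : 1 < Nat.card k := Finite.one_lt_card
    omega
  have h1 : c ^ (Nat.card k - 1) = 1 := by
    have := Fintype.ofFinite k
    rw [Nat.card_eq_fintype_card]
    exact FiniteField.pow_card_sub_one_eq_one c hc
  have h2 : ‖ι c‖ ^ (Nat.card k - 1) = 1 := by
    rw [← norm_pow, ← map_pow, h1, map_one, norm_one]
  exact (pow_eq_one_iff_of_nonneg (norm_nonneg _) hpos.ne').mp h2

lemma tendsto_a (p n : ℕ) (hp : 1 < p) (hn : n ≠ 0) (A : ℝ) :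
    Filter.Tendsto (fun N : ℕ => A / (p : ℝ) ^ (n * N)) Filter.atTop (nhds 0) := by
  refine tendsto_const_nhds.div_atTop ?_
  have h1 : (1 : ℝ) < (p : ℝ) ^ n := one_lt_pow₀ (by exact_mod_cast hp) hn
  have := tendsto_pow_atTop_atTop_of_one_lt h1
  simpa only [← pow_mul] using this

end

section
variable {C : Type} [NontriviallyNormedField C] [CompleteSpace C] [IsUltrametricDist C]

lemma gneg_zero (A : ApiG) {G : FormalGroup C} (hG : IG G) : gneg G 0 = 0 := by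
  have := A.neg_norm hG (z := 0) (by simp)
  rw [norm_zero, norm_eq_zero] at this
  exact this

lemma gsub_zero (A : ApiG) {G : FormalGroup C} (hG : IG G) {z : C} (hz : ‖z‖ < 1) :
    gsub G z 0 = z := by
  unfold gsub
  rw [gneg_zero A hG, A.add_comm hG hz (by simp), A.zero_add hG hz]

/-- the basic data of a moved sequence. -/
lemma base (A : ApiG) {p : ℕ} [Fact p.Prime] {n h d r : ℕ} [IsAlgClosed C] [CharP C p]
    {Γ : FormalGroup (GaloisField p n)}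
    {F : FormalGroup (MvPowerSeries (Fin d) (GaloisField p n))} {ι : GaloisField p n →+* C}
    {w : Fin d → C} {x : MvPowerSeries (Fin d) (GaloisField p n) →+* C} {i0 : Fin d} {ρ : ℝ}
    {T : ℕ → Finset C} {σ : ℝ} {S : ℝ → ℝ} {c : ℝ → ℕ} {V₀ : ℝ}
    (sys : Sys p n h d r Γ F ι w x i0 ρ T σ S c V₀) (K m : ℕ) {τ : ℕ → C} {V : ℝ} (_hV : 0 < V)
    (hτ : IsSeq p (F.map x) T τ) (hτV : HasV p n τ V) :
    ∃ N₀ : ℕ, ∀ N, N₀ ≤ N →
      τ N ≠ 0 ∧ ‖τ N‖ < 1 ∧ lam (τ N) = V / (p : ℝ) ^ (n * N) ∧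
      (p : ℝ) ^ (m + n * K) * V / (p : ℝ) ^ (n * N) < σ ∧
      ∀ (ω : GaloisField p n) (w' : Fin d → C)
        (x' : MvPowerSeries (Fin d) (GaloisField p n) →+* C) (ψ : C → C), ω ≠ 0 →
        Move p n h F ι w x ρ K m ω w' x' ψ →
        ‖gsub (F.map x) (ψ (τ N)) (τ N) + ι ω * (τ N) ^ (p ^ (m + n * K))‖ <
          ‖τ N‖ ^ (p ^ (m + n * K)) ∧
        gmul (F.map x) (p ^ N) (gsub (F.map x) (ψ (τ N)) (τ N)) =
          gmul (F.map x) (p ^ N) (ψ (τ N)) := by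
  have hG : IG (F.map x) := sys.ts.ig
  have hp : 1 < p := (Fact.out : p.Prime).one_lt
  have hn : n ≠ 0 := by
    have := sys.st.hn; have := sys.st.hd; omega
  obtain ⟨N₁, hN₁⟩ := hτV
  have ha := tendsto_a p n hp hn ((p : ℝ) ^ (m + n * K) * V)
  have h1 : ∀ᶠ N : ℕ in Filter.atTop, (p : ℝ) ^ (m + n * K) * V / (p : ℝ) ^ (n * N) < σ :=
    ha.eventually_lt_const sys.sc.σpos
  have h2 : ∀ᶠ N : ℕ in Filter.atTop,
      ρ < Real.exp (-((p : ℝ) ^ (m + n * K) * V / (p : ℝ) ^ (n * N))) := by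
    have h3 : Filter.Tendsto
        (fun N : ℕ => Real.exp (-((p : ℝ) ^ (m + n * K) * V / (p : ℝ) ^ (n * N))))
        Filter.atTop (nhds (Real.exp (-0))) :=
      (Real.continuous_exp.tendsto _).comp ha.neg
    rw [neg_zero, Real.exp_zero] at h3
    exact h3.eventually_const_lt sys.hρ1
  obtain ⟨N₂, hN₂⟩ := Filter.eventually_atTop.mp (h1.and h2)
  refine ⟨max N₁ N₂, fun N hN => ?_⟩
  obtain ⟨ht0, htl⟩ := hN₁ N (le_trans (le_max_left _ _) hN)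
  obtain ⟨h5, h6⟩ := hN₂ N (le_trans (le_max_right _ _) hN)
  have htm := (sys.ts.mem N (τ N)).mp (hτ.mem N)
  refine ⟨ht0, htm.1, htl, h5, ?_⟩
  intro ω w' x' ψ hω mv
  have hnorm : ‖τ N‖ ^ (p ^ (m + n * K)) =
      Real.exp (-((p : ℝ) ^ (m + n * K) * V / (p : ℝ) ^ (n * N))) := by
    rw [norm_eq_exp ht0, ← Real.exp_nat_mul, htl]
    congr 1
    push_cast
    ring
  refine ⟨mv.lead (τ N) htm.1 (by rw [hnorm]; exact h6), ?_⟩
  have hψ : ‖ψ (τ N)‖ < 1 := by rw [mv.norm _ htm.1]; exact htm.1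
  rw [A.mul_sub hG _ hψ htm.1, htm.2]
  exact gsub_zero A hG ((A.mul_norm_le hG _ hψ).trans_lt hψ)

/-- consequences of the leading term. -/
lemma lead_facts {y t a : C} {P : ℕ} (ht : t ≠ 0) (ha : ‖a‖ = 1)
    (h : ‖y + a * t ^ P‖ < ‖t‖ ^ P) :
    y ≠ 0 ∧ ‖y‖ = ‖t‖ ^ P ∧ lam y = P * lam t := by
  have h1 : ‖y - (-(a * t ^ P))‖ < ‖-(a * t ^ P)‖ := by
    rw [norm_neg, norm_mul, ha, one_mul, norm_pow, sub_neg_eq_add]
    exact h
  have h2 := norm_eq_of_sub_lt h1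
  rw [norm_neg, norm_mul, ha, one_mul, norm_pow] at h2
  have h3 : y ≠ 0 := by
    rw [← norm_pos_iff, h2]
    exact pow_pos (norm_pos_iff.mpr ht) _
  refine ⟨h3, h2, ?_⟩
  unfold lam
  rw [h2, Real.log_pow]
  ring

end

theorem main (A : ApiG) (hR : Spec3.RATIO) : Spec3.YR := by
  classical
  intro p _ n h d r C _ _ _ _ _ Γ F ι w x i0 ρ T σ S c V₀ sys K m ω ω' hω hω' w' x' ψ mv
    w'' x'' ψ' mv' τ τ' V hV hτ hτ' hτV hτ'V
  obtain ⟨N₁, hN₁⟩ := base A sys K m hV hτ hτV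
  obtain ⟨N₂, hN₂⟩ := base A sys K m hV hτ' hτ'V
  refine ⟨max N₁ N₂, fun N hN => ?_⟩
  obtain ⟨ht0, ht1, htl, hσ, hb⟩ := hN₁ N (le_trans (le_max_left _ _) hN)
  obtain ⟨ht0', ht1', htl', -, hb'⟩ := hN₂ N (le_trans (le_max_right _ _) hN)
  obtain ⟨hl, hg⟩ := hb ω w' x' ψ hω mv
  obtain ⟨hl', hg'⟩ := hb' ω' w'' x'' ψ' hω' mv'
  have hι : ‖ι ω‖ = 1 := iota_norm ι hω
  have hι' : ‖ι ω'‖ = 1 := iota_norm ι hω'
  obtain ⟨hy0, hyn, hyl⟩ := lead_facts ht0 hι hl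
  obtain ⟨hy0', hyn', hyl'⟩ := lead_facts ht0' hι' hl'
  set y := gsub (F.map x) (ψ (τ N)) (τ N) with hy
  set y' := gsub (F.map x) (ψ' (τ' N)) (τ' N) with hy'
  have hppos : (0 : ℝ) < (p : ℝ) ^ (n * N) := by
    have : 0 < p := (Fact.out : p.Prime).pos
    positivity
  have hPne : p ^ (m + n * K) ≠ 0 := pow_ne_zero _ (Fact.out : p.Prime).ne_zero
  have hyl2 : lam y = (p : ℝ) ^ (m + n * K) * V / (p : ℝ) ^ (n * N) := by
    rw [hyl, htl]; push_cast; ring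
  have hyl2' : lam y' = (p : ℝ) ^ (m + n * K) * V / (p : ℝ) ^ (n * N) := by
    rw [hyl', htl']; push_cast; ring
  have hy1 : ‖y‖ < 1 := by rw [hyn]; exact pow_lt_one₀ (norm_nonneg _) ht1 hPne
  have hy1' : ‖y'‖ < 1 := by rw [hyn']; exact pow_lt_one₀ (norm_nonneg _) ht1' hPne
  have hV1 : (p : ℝ) ^ (n * N) * lam y = (p : ℝ) ^ (m + n * K) * V := by
    rw [hyl2]; field_simp
  have hV1' : (p : ℝ) ^ (n * N) * lam y' = (p : ℝ) ^ (m + n * K) * V := by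
    rw [hyl2']; field_simp
  have R := hR p n h d C (F.map x) (w i0) T σ S c V₀ sys.st.hn sys.ts sys.sc N y hy0 hy1
    (by rw [hyl2]; exact hσ)
  have R' := hR p n h d C (F.map x) (w i0) T σ S c V₀ sys.st.hn sys.ts sys.sc N y' hy0' hy1'
    (by rw [hyl2']; exact hσ)
  rw [hV1, hg] at R
  rw [hV1', hg'] at R'
  refine ⟨R.1, fun hNB => ?_⟩
  obtain ⟨R1, -⟩ := R.2 hNB
  obtain ⟨R1', R2'⟩ := R'.2 hNB
  refine ⟨R1, R1', ?_⟩
  have h1 := R2' y hy0 (by rw [hyl2, hyl2'])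
  rw [hg, hyl2'] at h1
  set P := p ^ (m + n * K) with hP
  set e := p ^ (h * N) * cntf T N ((p : ℝ) ^ (m + n * K) * V / (p : ℝ) ^ (n * N)) with he
  have htt : ‖τ N‖ = ‖τ' N‖ := norm_eq_of_lam_eq ht0 ht0' (by rw [htl, htl'])
  have hι0 : ι ω ≠ 0 := by rw [← norm_pos_iff, hι]; exact one_pos
  have hι0' : ι ω' ≠ 0 := by rw [← norm_pos_iff, hι']; exact one_pos
  have hy'pos : 0 < ‖y'‖ := norm_pos_iff.mpr hy0'
  have h2 : ‖y / y' - (ι ω / ι ω') * (τ N / τ' N) ^ P‖ < 1 := by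
    have e1 : y / y' - (ι ω / ι ω') * (τ N / τ' N) ^ P =
        ((y + ι ω * τ N ^ P) - (ι ω / ι ω') * (τ N / τ' N) ^ P * (y' + ι ω' * τ' N ^ P)) / y' := by
      have hq : (τ N / τ' N) ^ P * τ' N ^ P = τ N ^ P := by
        rw [← mul_pow, div_mul_cancel₀ _ ht0']
      have ha : (ι ω / ι ω') * ι ω' = ι ω := div_mul_cancel₀ _ hι0'
      rw [eq_div_iff hy0', sub_mul, div_mul_cancel₀ _ hy0']
      linear_combination ((τ N / τ' N) ^ P * τ' N ^ P) * ha + ι ω * hq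
    rw [e1, norm_div, div_lt_one hy'pos, hyn']
    refine norm_sub_lt' (by rw [← htt]; exact hl) ?_
    rw [norm_mul, norm_mul, norm_div, hι, hι', norm_pow, norm_div, htt,
      div_self (norm_pos_iff.mpr ht0').ne', one_pow, div_one, one_mul, one_mul]
    exact hl'
  have h3 : ‖(y / y') ^ e - ((ι ω / ι ω') * (τ N / τ' N) ^ P) ^ e‖ < 1 := by
    refine pow_close ?_ ?_ h2 _
    · rw [norm_div, hyn, hyn', htt, div_self]
      exact (pow_pos (norm_pos_iff.mpr ht0') _).ne'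
    · rw [norm_mul, norm_div, hι, hι', norm_pow, norm_div, htt,
        div_self (norm_pos_iff.mpr ht0').ne', one_pow, div_one, one_mul]
  have e2 : (ι ω / ι ω') ^ e * (τ N / τ' N) ^ (P * e) =
      ((ι ω / ι ω') * (τ N / τ' N) ^ P) ^ e := by
    rw [mul_pow, ← pow_mul]
  rw [e2]
  have e3 : gmul (F.map x) (p ^ N) (ψ (τ N)) / gmul (F.map x) (p ^ N) (ψ' (τ' N)) -
      ((ι ω / ι ω') * (τ N / τ' N) ^ P) ^ e =
      (gmul (F.map x) (p ^ N) (ψ (τ N)) / gmul (F.map x) (p ^ N) (ψ' (τ' N)) - (y / y') ^ e) +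
      ((y / y') ^ e - ((ι ω / ι ω') * (τ N / τ' N) ^ P) ^ e) := by ring
  rw [e3]
  exact norm_add_lt' h1 h3

theorem mainYO (A : ApiG) (hO : Spec3.OMEGA) : Spec3.YO := by
  classical
  intro p _ n h d r C _ _ _ _ _ Γ F ι w x i0 ρ T σ S c V₀ sys K m w' x' ψ mv τ V hV hτ hτV
  obtain ⟨N₁, hN₁⟩ := base A sys K m hV hτ hτV
  refine ⟨N₁, fun N hN => ?_⟩
  obtain ⟨ht0, ht1, htl, hσ, hb⟩ := hN₁ N hN
  have hppos : (0 : ℝ) < (p : ℝ) ^ (n * N) := by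
    have : 0 < p := (Fact.out : p.Prime).pos
    positivity
  have hPne : p ^ (m + n * K) ≠ 0 := pow_ne_zero _ (Fact.out : p.Prime).ne_zero
  have hy0 : -(τ N) ^ (p ^ (m + n * K)) ≠ 0 := neg_ne_zero.mpr (pow_ne_zero _ ht0)
  have hy1 : ‖-(τ N) ^ (p ^ (m + n * K))‖ < 1 := by
    rw [norm_neg, norm_pow]; exact pow_lt_one₀ (norm_nonneg _) ht1 hPne
  have hyl : lam (-(τ N) ^ (p ^ (m + n * K))) =
      (p : ℝ) ^ (m + n * K) * V / (p : ℝ) ^ (n * N) := by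
    unfold lam at htl ⊢
    rw [norm_neg, norm_pow, Real.log_pow]
    push_cast
    linear_combination (p : ℝ) ^ (m + n * K) * htl
  have hV1 : (p : ℝ) ^ (n * N) * lam (-(τ N) ^ (p ^ (m + n * K))) =
      (p : ℝ) ^ (m + n * K) * V := by
    rw [hyl]; field_simp
  have R := hO p n h d C (F.map x) (w i0) T σ S c V₀ sys.st.hn sys.ts sys.sc ι N
    (-(τ N) ^ (p ^ (m + n * K))) (fun ω => gsub (F.map x) (ψ ω (τ N)) (τ N)) hy0 hy1
    (by rw [hyl]; exact hσ) (by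
      intro ω hω
      have := (hb ω (w' ω) (x' ω) (ψ ω) hω (mv ω hω)).1
      rw [norm_neg, norm_pow]
      convert this using 2
      ring)
  rw [hV1] at R
  have hg : ∀ ω, ω ≠ 0 → gmul (F.map x) (p ^ N) (gsub (F.map x) (ψ ω (τ N)) (τ N)) =
      gmul (F.map x) (p ^ N) (ψ ω (τ N)) := fun ω hω =>
    (hb ω (w' ω) (x' ω) (ψ ω) hω (mv ω hω)).2
  refine ⟨?_, ?_⟩
  · obtain ⟨ω, hω, h1⟩ := R.1
    exact ⟨ω, hω, by rw [← hg ω hω]; exact h1⟩
  · intro B hB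
    refine R.2 B fun ω hω => ?_
    rw [hg ω hω, hg 1 one_ne_zero]
    exact hB ω hω

end Crest.Agent.LT3YR
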