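/- rid 227 (S0351), module YO: OMEGA applied to moves (proved in LT3YR). -/
import Crest.Agent.LT3YR

set_option autoImplicit false

namespace Crest.Agent.LT3YO
open LT3

theorem main (A : ApiG) (hO : Spec3.OMEGA) : Spec3.YO := LT3YR.mainYO A hO

end Crest.Agent.LT3YO
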