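/- rid 227 (S0351), module YY2 (helper25). -/
import Crest.Agent.LT3EE

set_option autoImplicit false
open Crest.LubinTate
open Crest Crest.GeometryTopology

namespace Crest.Agent.LT3YY2

open Crest.Agent.LT3

variable {C : Type} [NontriviallyNormedField C] [CompleteSpace C] [IsUltrametricDist C]

omit [CompleteSpace C] in
theorem norm_sub_eq_right {a b : C} (h : ‖a‖ < ‖b‖) : ‖a - b‖ = ‖b‖ := by
  have h2 := IsUltrametricDist.norm_add_eq_max_of_norm_ne_norm (x := a) (y := -b)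
    (by rw [norm_neg]; exact h.ne)
  rw [← sub_eq_add_neg, norm_neg] at h2
  rw [h2]; exact max_eq_right h.le

omit [CompleteSpace C] in
theorem norm_unit {u : C} (hu : ‖u - 1‖ < 1) : ‖u‖ = 1 := by
  by_contra hc
  have h2 := IsUltrametricDist.norm_add_eq_max_of_norm_ne_norm (x := u) (y := -1)
    (by rw [norm_neg, norm_one]; exact hc)
  rw [← sub_eq_add_neg, norm_neg, norm_one] at h2
  have : (1 : ℝ) ≤ ‖u - 1‖ := by rw [h2]; exact le_max_right _ _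
  linarith

omit [CompleteSpace C] [IsUltrametricDist C] in
theorem exists_mu (T : Finset C) : ∃ μ : ℝ, 0 < μ ∧ ∀ t ∈ T, t ≠ 0 → μ ≤ ‖t‖ := by
  classical
  by_cases hne : (T.erase 0).Nonempty
  · obtain ⟨t0, ht0, hmin⟩ := Finset.exists_min_image (T.erase 0) (fun t => ‖t‖) hne
    refine ⟨‖t0‖, norm_pos_iff.2 (Finset.ne_of_mem_erase ht0), ?_⟩
    intro t ht h0
    exact hmin t (Finset.mem_erase.2 ⟨h0, ht⟩)
  · refine ⟨1, one_pos, ?_⟩
    intro t ht h0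
    exact absurd ⟨t, Finset.mem_erase.2 ⟨h0, ht⟩⟩ hne

/-- size of `[p] y` near `0`. -/
theorem small_norm (Gi : ApiG) {p h d : ℕ} {G : FormalGroup C} {w0 : C} {T : ℕ → Finset C}
    (ts : TSys p h d G w0 T) {μ : ℝ} (hμ : ∀ t ∈ T 1, t ≠ 0 → μ ≤ ‖t‖) {y : C} (hy : ‖y‖ < 1)
    (hyμ : ‖y‖ < μ) : ‖gmul G p y‖ = ‖y‖ ^ (p ^ h) * ‖w0‖ := by
  classical
  obtain ⟨u, hu, he⟩ := ts.prod 1 y hy
  rw [pow_one, mul_one] at he
  have h0 : (0 : C) ∈ T 1 := (ts.mem 1 0).2 ⟨by simp, Gi.mul_zero ts.ig _⟩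
  rw [he, norm_mul, norm_unit hu, one_mul, norm_prod, ← Finset.mul_prod_erase _ _ h0, sub_zero,
    norm_pow, ts.w0_prod]
  congr 1
  apply Finset.prod_congr rfl
  intro t ht
  have h1 := hμ t (Finset.mem_of_mem_erase ht) (Finset.ne_of_mem_erase ht)
  rw [norm_pow, norm_sub_eq_right (lt_of_lt_of_le hyμ h1)]

theorem main (hE : ApiE) (hC : ApiC) (Gi : ApiG) (X : ApiX) (Y1 : LT3.Spec3.YY1) :
    LT3.Spec3.YY2 := by
  intro p _ n h d r C _ _ _ _ _ Γ F ι w x i0 ρ T σ S c V₀ hs τ hτ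
  have ts := hs.ts
  have hG : IG (F.map x) := ts.ig
  have hp2 : 2 ≤ p := (Fact.out (p := p.Prime)).two_le
  have hh := hs.st.hh
  have hb : ∀ N, ‖τ N‖ < 1 := fun N => ((ts.mem N _).1 (hτ.mem N)).1
  obtain ⟨μ, hμ0, hμ⟩ := exists_mu (T 1)
  have hρ0 : 0 ≤ ρ := (norm_nonneg _).trans (hs.hρ i0)
  have hlim1 := (tendsto_pow_atTop_nhds_zero_of_lt_one hρ0 hs.hρ1).eventually_lt_const hμ0
  have hlim2 := (tendsto_pow_atTop_nhds_zero_of_lt_one (norm_nonneg (τ 1)) (hb 1)).eventually_lt_const hμ0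
  obtain ⟨K₁, hK₁⟩ := Filter.eventually_atTop.1 (hlim1.and hlim2)
  have hw0 : 0 < ‖w i0‖ := norm_pos_iff.2 hs.hw0
  have hw01 : ‖w i0‖ < 1 := hs.isEv.hw i0
  refine ⟨‖w i0‖⁻¹, K₁, inv_pos.2 hw0, ?_⟩
  intro K m hK ω w' x' ψ hm N hN ε hε hw
  have hG' : IG (F.map x') := X.ig hm.isEv F hs.st.commF
  have hone : (1 : ℝ) ≤ ‖w i0‖⁻¹ := (one_le_inv₀ hw0).2 hw01.le
  -- the point `z = ψ (τ 1)`
  set z : C := ψ (τ 1) with hz
  have hzn : ‖z‖ < 1 := by rw [hz, hm.norm _ (hb 1)]; exact hb 1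
  have hcl : ‖z - τ 1‖ < μ := by
    refine lt_of_le_of_lt (hm.close _ (hb 1)) (max_lt ?_ ?_)
    · calc ρ ^ (K + 1) ≤ ρ ^ K := pow_le_pow_of_le_one hρ0 hs.hρ1.le (Nat.le_succ K)
        _ < μ := (hK₁ K hK).1
    · have hle : K ≤ p ^ (h * K) := by
        calc K ≤ h * K := Nat.le_mul_of_pos_left K hh
          _ ≤ p ^ (h * K) := (Nat.lt_pow_self (by omega)).le
      calc ‖τ 1‖ ^ (p ^ (h * K)) ≤ ‖τ 1‖ ^ K := pow_le_pow_of_le_one (norm_nonneg _) (hb 1).le hle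
        _ < μ := (hK₁ K hK).2
  have hG'z : gmul (F.map x') p z = 0 := by
    rw [hz, ← LT3YY1.psi_gmul Gi hG hG' hm.norm hm.hom p (hb 1)]
    have : gmul (F.map x) p (τ 1) = τ 0 := hτ.step 0
    rw [this, hτ.zero]
    have h0 := hm.norm 0 (by simp)
    rw [norm_zero] at h0
    exact norm_eq_zero.1 h0
  have hY1 : ‖gmul (F.map x) p z‖ ≤ ε := by
    have := X.mul_lip hs.isEv hm.isEv ε hε hw F hs.st.commF p z hzn
    rwa [hG'z, zero_sub, norm_neg] at this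
  have hy1n : ‖gsub (F.map x) z (τ 1)‖ = ‖z - τ 1‖ := Gi.sub_norm hG hzn (hb 1)
  have hy1lt : ‖gsub (F.map x) z (τ 1)‖ < 1 := by
    rw [hy1n]; exact lt_of_le_of_lt (LT3YY1.norm_sub_le_max_aux _ _) (max_lt hzn (hb 1))
  have hY1' : ‖gmul (F.map x) p z‖ = ‖z - τ 1‖ ^ (p ^ h) * ‖w i0‖ := by
    have e1 := small_norm Gi ts hμ hy1lt (by rw [hy1n]; exact hcl)
    rw [Gi.mul_sub hG p hzn (hb 1)] at e1
    have : gmul (F.map x) p (τ 1) = 0 := by rw [← hτ.zero]; exact hτ.step 0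
    rw [this] at e1
    have hbz : ‖gmul (F.map x) p z‖ < 1 := lt_of_le_of_lt (Gi.mul_norm_le hG p hzn) hzn
    rw [Gi.sub_norm hG hbz (by simp), sub_zero, hy1n] at e1
    exact e1
  have hpow : ‖z - τ 1‖ ^ (p ^ h) ≤ ‖w i0‖⁻¹ * ε := by
    rw [hY1'] at hY1
    rw [inv_mul_eq_div, le_div_iff₀ hw0]; exact hY1
  -- first order expansions
  have t1 : ‖gmul (F.map x) p z + ee p F x z (fun i => w' i - w i)‖ ≤ ε ^ 2 := by
    have := LT3EE.gmul_taylor hE hC X hs.isEv hm.isEv p F hε hw hzn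
    rw [hG'z] at this
    have e : -(gmul (F.map x) p z + ee p F x z (fun i => w' i - w i)) =
        0 - gmul (F.map x) p z - ee p F x z (fun i => w' i - w i) := by ring
    rw [← norm_neg, e]
    exact this
  have t2 : ‖ee p F x z (fun i => w' i - w i) - ee p F x (τ 1) (fun i => w' i - w i)‖ ≤
      ‖w i0‖⁻¹ * ε ^ 2 := by
    refine (LT3EE.ee_lip hE X hs.st hs.isEv _ hε hw hzn (hb 1)).trans ?_
    calc ‖z - τ 1‖ ^ (p ^ h) * ε ≤ (‖w i0‖⁻¹ * ε) * ε := mul_le_mul_of_nonneg_right hpow hε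
      _ = _ := by ring
  have t3 : ‖gmul (F.map x) (p ^ N) (ψ (τ N)) - gmul (F.map x) p z‖ ≤ ε ^ 2 := by
    by_cases hε1 : ε ≤ 1
    · have := Y1 p n h d r C Γ F ι w x i0 ρ T σ S c V₀ hs K m ω w' x' ψ hm τ hτ 1 N hN ε hε hw
      rw [pow_one, mul_one] at this
      refine this.trans ?_
      have : 2 ≤ p ^ h := le_trans hp2 (Nat.le_self_pow (by omega) p)
      exact pow_le_pow_of_le_one hε hε1 this
    · push Not at hε1
      have hbN : ‖ψ (τ N)‖ < 1 := by rw [hm.norm _ (hb N)]; exact hb N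
      have h1 : ‖gmul (F.map x) (p ^ N) (ψ (τ N))‖ < 1 :=
        lt_of_le_of_lt (Gi.mul_norm_le hG _ hbN) hbN
      have h2 : ‖gmul (F.map x) p z‖ < 1 := lt_of_le_of_lt (Gi.mul_norm_le hG _ hzn) hzn
      refine (LT3YY1.norm_sub_le_max_aux _ _).trans ((max_lt h1 h2).le.trans ?_)
      nlinarith
  have hε2 : ε ^ 2 ≤ ‖w i0‖⁻¹ * ε ^ 2 := by
    have : 0 ≤ ε ^ 2 := by positivity
    nlinarith
  have hdec : gmul (F.map x) (p ^ N) (ψ (τ N)) + ee p F x (τ 1) (fun i => w' i - w i) =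
      (gmul (F.map x) (p ^ N) (ψ (τ N)) - gmul (F.map x) p z) +
      ((gmul (F.map x) p z + ee p F x z (fun i => w' i - w i)) -
        (ee p F x z (fun i => w' i - w i) - ee p F x (τ 1) (fun i => w' i - w i))) := by ring
  rw [hdec]
  refine (IsUltrametricDist.norm_add_le_max _ _).trans (max_le (t3.trans hε2) ?_)
  exact (LT3YY1.norm_sub_le_max_aux _ _).trans (max_le (t1.trans hε2) t2)

end Crest.Agent.LT3YY2
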