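/- rid 227 (S0351): discharge of the modules of KEYp and KEY0. -/
import Crest.Agent.LT3ALLE
import Crest.Agent.LT3KEYP
import Crest.Agent.LT3KEY0
import Crest.Agent.LT3EVALa
import Crest.Agent.LT3EVALb
import Crest.Agent.LT3EVALc
import Crest.Agent.LT3GRP
import Crest.Agent.LT3PTX
import Crest.Agent.LT3MOORE
import Crest.Agent.LT3STRASS
import Crest.Agent.LT3MONO
import Crest.Agent.LT3WEI
import Crest.Agent.LT3TOR
import Crest.Agent.LT3COD
import Crest.Agent.LT3SCALE
import Crest.Agent.LT3BASIS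
import Crest.Agent.LT3TJ
import Crest.Agent.LT3LEMM
import Crest.Agent.LT3RATIO
import Crest.Agent.LT3OMEGA
import Crest.Agent.LT3ETA
import Crest.Agent.LT3MOVEAT
import Crest.Agent.LT3YY1
import Crest.Agent.LT3YY2
import Crest.Agent.LT3YR
import Crest.Agent.LT3YO
import Crest.Agent.LT3ASYM
import Crest.Agent.LT3REAL1
import Crest.Agent.LT3DUAL
import Crest.Agent.LT3DELTA
import Crest.Agent.LT3CLAIMA
import Crest.Agent.LT3LIN
import Crest.Agent.LT3FIN2
import Crest.Agent.LT3FIN3
import Crest.Agent.LT3DERIV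
import Crest.Agent.LT3PDER
import Crest.Agent.LT3XIa
import Crest.Agent.LT3XI
import Crest.Agent.LT3FININJ
import Crest.Agent.LT3LAUR
import Crest.Agent.LT3CLOSC
import Crest.Agent.LT3EMBa
import Crest.Agent.LT3EMB
import Crest.Agent.LT3DIM
import Crest.Agent.LT3GBA
import Crest.Agent.LT3PTW
import Crest.Agent.LT3LOG
import Crest.Agent.LT3LGB
import Crest.Agent.LT3PER
import Crest.Agent.LT3LNZ
import Crest.Agent.LT3CURVE
import Crest.Agent.LT3LOWER
import Crest.Agent.LT3RELAT
import Crest.Agent.LT3GAUSS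
import Crest.Agent.LT3ITER
import Crest.Agent.LT3ALG0
import Crest.Agent.LT3FININJ0
import Crest.Agent.LT3WFIELD
import Crest.Agent.LT3EMB0a
import Crest.Agent.LT3EMB0
import Crest.Agent.LT3FINAL0

set_option autoImplicit false
open Crest.LubinTate
open Crest Crest.GeometryTopology
open Crest.Agent.LT3

namespace Crest.Agent.LT3ALLF
open LT3ALLE

theorem aE1 : ApiE1 := LT3EVALa.main
theorem aE2 : ApiE2 := LT3EVALb.main aE1
theorem aE3 : ApiE3 := LT3EVALc.main aE1
theorem aE : ApiE := { aE1, aE2, aE3 with }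
theorem aG : ApiG := LT3GRP.main aA aB aC aE
theorem aX : ApiX := LT3PTX.main aE aA aC
theorem wei : Spec3.WEI := LT3WEI.main aB aC
theorem tor : Spec3.TOR := LT3TOR.main wei aE aG aB aC aX
theorem cod : Spec3.COD := LT3COD.main wei tor aG aX
theorem scale : Spec3.SCALE := LT3SCALE.main aG
theorem basis : Spec3.BASIS := LT3BASIS.main aG
theorem tj : Spec3.TJ := LT3TJ.main aG
theorem lemm : Spec3.LEMM := LT3LEMM.main aG LT3MOORE.main LT3MONO.main
theorem ratio : Spec3.RATIO := LT3RATIO.main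
theorem omega_ : Spec3.OMEGA := LT3OMEGA.main aG
theorem eta : Spec3.ETA := LT3ETA.main aE aC aG aX LT3STRASS.main
theorem moveat : Spec3.MOVEAT := LT3MOVEAT.main aA aB aC aE aG aX end_
theorem yy1 : Spec3.YY1 := LT3YY1.main aG aX
theorem yy2 : Spec3.YY2 := LT3YY2.main aE aC aG aX yy1
theorem yr : Spec3.YR := LT3YR.main aG ratio
theorem yo : Spec3.YO := LT3YO.main aG omega_
theorem asym : Spec3.ASYM := LT3ASYM.main
theorem real1 : Spec3.REAL1 := LT3REAL1.main
theorem dual : Spec3.DUAL := LT3DUAL.main eta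
theorem delta : Spec3.DELTA := LT3DELTA.main basis dual yy2 yr
theorem claima : Spec3.CLAIMA := LT3CLAIMA.main delta yy2 yr lemm asym aX
theorem xia : Spec3.XIa := LT3XIa.main LT3DERIV.main LT3PDER.main aX
theorem xi : Spec3.XI := LT3XI.main xia aX
theorem lin : Spec3.LIN := LT3LIN.main aX aG xi wei tor dual delta yy1 yy2 yr asym
theorem fin2 : Spec3.FIN2 := LT3FIN2.main lemm yr yo
theorem fin3 : Spec3.FIN3 := LT3FIN3.main aG lemm yr yy1 asym
theorem fininj : Spec3.FININJ := LT3FININJ.main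
theorem emba : Spec3.EMBa := LT3EMBa.main LT3LAUR.main LT3CLOSC.main
theorem emb : Spec3.EMB := LT3EMB.main aE emba
theorem dim : Spec3.DIM := LT3DIM.main

theorem keyp : Spec.KEYp := LT3KEYP.main fininj emb dim tor scale moveat basis cod claima dual tj
  lin fin2 fin3 real1

theorem aGB : ApiGB := LT3GBA.main
theorem aW : ApiW := LT3PTW.main aE
theorem log_ : Spec4.LOG := LT3LOG.main
theorem lgb : Spec4.LGB := LT3LGB.main
theorem per : Spec4.PER := LT3PER.main log_ aA aB aC aGB
theorem lnz : Spec4.LNZ := LT3LNZ.main log_ aA aB aC aE aG aW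
theorem curve : Spec4.CURVE := LT3CURVE.main aW log_ lgb
theorem lower : Spec4.LOWER := LT3LOWER.main curve
theorem relat : Spec4.RELAT := LT3RELAT.main aA aB aC aW log_ lgb
theorem gauss : Spec4.GAUSS := LT3GAUSS.main aW
theorem iter : Spec4.ITER := LT3ITER.main aA aB aC
theorem alg0 : Spec4.ALG0 := LT3ALG0.main ringe
theorem fininj0 : Spec4.FININJ0 := LT3FININJ0.main
theorem emb0a : Spec4.EMB0a := LT3EMB0a.main aE1 LT3WFIELD.main LT3CLOSC.main
theorem emb0 : Spec4.EMB0 := LT3EMB0.main aE1 emb0a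
theorem final0 : Spec4.FINAL0 := LT3FINAL0.main aA end_ aW aGB per lnz lower relat gauss iter

theorem key0 : Spec.KEY0 := LT3KEY0.main aC fininj0 emb0 final0 alg0

end Crest.Agent.LT3ALLF
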