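/- rid 227 (S0351): derivations of `k[[X_0..X_{d-1}]]` in characteristic `p`. -/
import Crest.Agent.LT3Spec3

set_option autoImplicit false

namespace Crest.Agent.LT3DERIV
open Crest.Agent.LT3

section

variable (p : ℕ) [hp : Fact p.Prime] {k : Type} [Field k] [CharP k p] [Finite k] {d : ℕ}

theorem exists_root (a : k) : ∃ c : k, c ^ p = a := by
  have : ExpChar k p := ExpChar.prime Fact.out
  have h1 : Function.Surjective (frobenius k p) :=
    Finite.surjective_of_injective (frobenius_inj k p)
  exact h1 a

/-- exponent vector attached to `e`. -/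
noncomputable def ex (e : Fin d → Fin p) : Fin d →₀ ℕ :=
  Finsupp.equivFunOnFinite.symm (fun i => (e i).val)

omit hp in
theorem ex_apply (e : Fin d → Fin p) (i : Fin d) : ex p e i = (e i).val := rfl

theorem decomp (f : MvPowerSeries (Fin d) k) :
    ∃ g : (Fin d → Fin p) → MvPowerSeries (Fin d) k,
      f = ∑ e, g e ^ p * MvPowerSeries.monomial (ex p e) 1 := by
  classical
  have : ExpChar k p := ExpChar.prime Fact.out
  choose r hr using exists_root p (k := k)
  obtain ⟨g, hg⟩ : ∃ g : (Fin d → Fin p) → MvPowerSeries (Fin d) k,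
      ∀ e m, MvPowerSeries.coeff m (g e) = r (MvPowerSeries.coeff (p • m + ex p e) f) :=
    ⟨fun e m => r (MvPowerSeries.coeff (p • m + ex p e) f), fun e m => rfl⟩
  refine ⟨g, ?_⟩
  have hp0 : p ≠ 0 := hp.out.ne_zero
  -- coefficients of `g e ^ p`
  have h1 : ∀ e m, MvPowerSeries.coeff (p • m) (g e ^ p) =
      MvPowerSeries.coeff (p • m + ex p e) f := by
    intro e m
    rw [← MvPowerSeries.map_frobenius_expand p hp0, MvPowerSeries.coeff_map,
      MvPowerSeries.coeff_expand_smul, hg, frobenius_def, hr]
  have h2 : ∀ e (m : Fin d →₀ ℕ) i, ¬ p ∣ m i → MvPowerSeries.coeff m (g e ^ p) = 0 := by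
    intro e m i hi
    rw [← MvPowerSeries.map_frobenius_expand p hp0, MvPowerSeries.coeff_map,
      MvPowerSeries.coeff_expand_of_not_dvd p hp0 _ hi, map_zero]
  ext M
  rw [map_sum]
  let e0 : Fin d → Fin p := fun i => ⟨M i % p, Nat.mod_lt _ hp.out.pos⟩
  rw [Finset.sum_eq_single e0]
  · rw [MvPowerSeries.coeff_mul_monomial]
    have hle : ex p e0 ≤ M := by
      intro i
      rw [ex_apply]
      exact Nat.mod_le _ _
    rw [if_pos hle, mul_one]
    let m : Fin d →₀ ℕ := Finsupp.equivFunOnFinite.symm (fun i => M i / p)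
    have hm : M - ex p e0 = p • m := by
      ext i
      rw [Finsupp.tsub_apply, ex_apply, Finsupp.smul_apply, smul_eq_mul]
      change M i - M i % p = p * (M i / p)
      have := Nat.div_add_mod (M i) p
      omega
    rw [hm, h1, ← hm, tsub_add_cancel_of_le hle]
  · intro e _ he
    rw [MvPowerSeries.coeff_mul_monomial]
    split_ifs with hle
    · have : ∃ i, (e i).val ≠ M i % p := by
        by_contra hcon
        push Not at hcon
        exact he (funext fun i => Fin.ext (hcon i))
      obtain ⟨i, hi⟩ := this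
      rw [h2 e _ i, zero_mul]
      intro hdvd
      rw [Finsupp.tsub_apply, ex_apply] at hdvd
      have hle' : (e i).val ≤ M i := hle i
      apply hi
      have h3 : M i = (e i).val + (M i - (e i).val) := by omega
      obtain ⟨c, hc⟩ := hdvd
      rw [h3, hc, Nat.add_mul_mod_self_left, Nat.mod_eq_of_lt (e i).isLt]
    · rfl
  · intro h; exact absurd (Finset.mem_univ _) h

variable {C : Type} [Field C] [CharP C p]

include p hp in
theorem vanish (x : MvPowerSeries (Fin d) k →+* C) (E : MvPowerSeries (Fin d) k → C)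
    (hadd : ∀ f g, E (f + g) = E f + E g) (hmul : ∀ f g, E (f * g) = x f * E g + x g * E f)
    (hX : ∀ i, E (MvPowerSeries.X i) = 0) (f : MvPowerSeries (Fin d) k) : E f = 0 := by
  classical
  have h0 : E 0 = 0 := by
    have := hadd 0 0
    rw [add_zero] at this
    exact left_eq_add.mp this
  have h1 : E 1 = 0 := by
    have := hmul 1 1
    rw [mul_one, map_one, one_mul] at this
    exact left_eq_add.mp this
  have hpow : ∀ (g : MvPowerSeries (Fin d) k) (j : ℕ), E (g ^ (j + 1)) = (j + 1 : ℕ) * x g ^ j * E g := by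
    intro g j
    induction j with
    | zero => simp
    | succ j ih =>
      rw [pow_succ, hmul, ih, map_pow]
      push_cast
      ring
  have hp' : ∀ g : MvPowerSeries (Fin d) k, E (g ^ p) = 0 := by
    intro g
    obtain ⟨j, hj⟩ : ∃ j, p = j + 1 := ⟨p - 1, by have := hp.out.pos; omega⟩
    have h := hpow g j
    rw [← hj, CharP.cast_eq_zero, zero_mul, zero_mul] at h
    exact h
  have hz : ∀ f g, E f = 0 → E g = 0 → E (f * g) = 0 := by
    intro f g hf hg
    rw [hmul, hf, hg, mul_zero, mul_zero, add_zero]
  have hXpow : ∀ (i : Fin d) (j : ℕ), E (MvPowerSeries.X i ^ j) = 0 := by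
    intro i j
    cases j with
    | zero => rw [pow_zero, h1]
    | succ j => rw [hpow, hX, mul_zero]
  have hmon : ∀ m : Fin d →₀ ℕ, E (MvPowerSeries.monomial m 1) = 0 := by
    intro m
    rw [MvPowerSeries.monomial_eq', map_one, one_mul]
    unfold Finsupp.prod
    exact Finset.prod_induction _ (fun f => E f = 0) hz h1 (fun i _ => hXpow i _)
  obtain ⟨g, hg⟩ := decomp p f
  rw [hg]
  exact Finset.sum_induction _ (fun f => E f = 0) (fun a b ha hb => by rw [hadd, ha, hb, add_zero])
    h0 (fun e _ => hz _ _ (hp' _) (hmon _))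

end

theorem main : Spec3.DERIV := by
  classical
  intro p hp n d hn C _ _ x D hadd hmul f
  have h := vanish p x (fun f => D f - ∑ i, x (MvPowerSeries.pderiv _ i f) * D (MvPowerSeries.X i))
    ?_ ?_ ?_ f
  · exact sub_eq_zero.mp h
  · intro f g
    simp only [map_add, hadd, add_mul, Finset.sum_add_distrib]
    ring
  · intro f g
    have h1 : ∀ i, x (MvPowerSeries.pderiv (GaloisField p n) i (f * g)) =
        x f * x (MvPowerSeries.pderiv (GaloisField p n) i g) +
        x g * x (MvPowerSeries.pderiv (GaloisField p n) i f) := by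
      intro i
      rw [Derivation.leibniz, map_add, smul_eq_mul, smul_eq_mul, map_mul, map_mul]
    simp only [hmul, h1, add_mul, Finset.sum_add_distrib, mul_sub, Finset.mul_sum, mul_assoc]
    ring
  · intro i
    simp only [MvPowerSeries.pderiv_X]
    rw [Finset.sum_eq_single i]
    · simp
    · intro j _ hj
      rw [Pi.single_apply, if_neg (Ne.symm hj), map_zero, zero_mul]
    · intro h; exact absurd (Finset.mem_univ _) h

end Crest.Agent.LT3DERIV
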