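/- rid 227 (S0351), module GAUSS: iterates of a small endomorphism (helper2). -/
import Crest.Agent.LT3Spec4
import Crest.Agent.LT3RINGE

set_option autoImplicit false
set_option linter.unusedSectionVars false
set_option linter.unusedVariables false
open Crest.LubinTate
open Crest Crest.GeometryTopology

namespace Crest.Agent.LT3GAUSS

open Crest.Agent.LT3

section gauss

variable {W : Type} [CommRing W] {d : ℕ} {C : Type} [NormedField C] [IsUltrametricDist C]
  (ι : W →+* C) (r : ℝ)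

/-- Gauss bound on `W[[X]]`. -/
def GE (ρ : ℝ) (f : MvPowerSeries (Fin d) W) : Prop :=
  ∀ e : Fin d →₀ ℕ, ‖ι (MvPowerSeries.coeff e f)‖ * r ^ e.degree ≤ ρ

variable {ι r} {ρ σ : ℝ} {f g : MvPowerSeries (Fin d) W}

theorem GE.mono (h : GE ι r ρ f) (h2 : ρ ≤ σ) : GE ι r σ f := fun e => (h e).trans h2

theorem GE.add (hr : 0 < r) (hf : GE ι r ρ f) (hg : GE ι r ρ g) : GE ι r ρ (f + g) := by
  intro e
  rw [map_add, map_add]
  have h1 := IsUltrametricDist.norm_add_le_max (ι (MvPowerSeries.coeff e f))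
    (ι (MvPowerSeries.coeff e g))
  have h3 : 0 ≤ r ^ e.degree := (pow_pos hr _).le
  rcases le_max_iff.1 h1 with h | h
  · exact (mul_le_mul_of_nonneg_right h h3).trans (hf e)
  · exact (mul_le_mul_of_nonneg_right h h3).trans (hg e)

theorem GE.neg (hf : GE ι r ρ f) : GE ι r ρ (-f) := by
  intro e
  rw [map_neg, map_neg, norm_neg]
  exact hf e

theorem GE.sub (hr : 0 < r) (hf : GE ι r ρ f) (hg : GE ι r ρ g) : GE ι r ρ (f - g) := by
  rw [sub_eq_add_neg]
  exact GE.add hr hf (GE.neg hg)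

theorem GE.zero (hρ : 0 ≤ ρ) : GE ι r ρ (0 : MvPowerSeries (Fin d) W) := by
  intro e
  simpa using hρ

theorem GE.sum (hr : 0 < r) (hρ : 0 ≤ ρ) {T : Type} (s : Finset T)
    (F : T → MvPowerSeries (Fin d) W) (h : ∀ t ∈ s, GE ι r ρ (F t)) :
    GE ι r ρ (∑ t ∈ s, F t) := by
  classical
  induction s using Finset.induction_on with
  | empty => simpa using GE.zero hρ
  | insert a s ha ih =>
    rw [Finset.sum_insert ha]
    exact GE.add hr (h a (Finset.mem_insert_self _ _))
      (ih fun t ht => h t (Finset.mem_insert_of_mem ht))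

theorem GE.mul (hr : 0 < r) (hρ : 0 ≤ ρ) (hσ : 0 ≤ σ) (hf : GE ι r ρ f) (hg : GE ι r σ g) :
    GE ι r (ρ * σ) (f * g) := by
  classical
  intro e
  rw [MvPowerSeries.coeff_mul, map_sum]
  have hp : 0 < r ^ e.degree := pow_pos hr _
  rw [← le_div_iff₀ hp]
  apply IsUltrametricDist.norm_sum_le_of_forall_le_of_nonneg (by positivity)
  intro x hx
  rw [le_div_iff₀ hp]
  have h1 : x.1 + x.2 = e := by simpa using hx
  have h2 : e.degree = x.1.degree + x.2.degree := by rw [← h1, map_add]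
  rw [map_mul, norm_mul, h2, pow_add]
  calc ‖ι (MvPowerSeries.coeff x.1 f)‖ * ‖ι (MvPowerSeries.coeff x.2 g)‖ *
        (r ^ x.1.degree * r ^ x.2.degree)
      = (‖ι (MvPowerSeries.coeff x.1 f)‖ * r ^ x.1.degree) *
        (‖ι (MvPowerSeries.coeff x.2 g)‖ * r ^ x.2.degree) := by ring
    _ ≤ ρ * σ := mul_le_mul (hf _) (hg _) (by positivity) hρ

theorem GE.one (hr : 0 < r) (hr1 : r ≤ 1) (hι : ∀ c, ‖ι c‖ ≤ 1) : GE ι r 1 f := by
  intro e
  calc _ ≤ 1 * 1 := mul_le_mul (hι _) (pow_le_one₀ hr.le hr1) (by positivity) zero_le_one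
    _ = 1 := one_mul 1

theorem GE_C (c : W) (hr : 0 < r) : GE ι r ‖ι c‖ (MvPowerSeries.C c : MvPowerSeries (Fin d) W) := by
  classical
  intro e
  rw [MvPowerSeries.coeff_C]
  split_ifs with h
  · subst h; simp
  · simp

theorem GE_mon (hr : 0 < r) (e : Fin d →₀ ℕ) :
    GE ι r (r ^ e.degree) (MvPowerSeries.monomial e (1 : W)) := by
  classical
  intro e'
  rw [MvPowerSeries.coeff_monomial]
  split_ifs with h
  · subst h
    simp
  · rw [map_zero, norm_zero, zero_mul]
    positivity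

/-- the deviation of a ring endomorphism on monomials -/
theorem dev_mon (hr : 0 < r) (hr1 : r ≤ 1) (hι : ∀ c, ‖ι c‖ ≤ 1) {κ : ℝ} (hκ : 0 ≤ κ)
    (hκ1 : κ ≤ 1) (φ : MvPowerSeries (Fin d) W →+* MvPowerSeries (Fin d) W)
    (h : ∀ i, GE ι r (κ * r) (φ (MvPowerSeries.X i) - MvPowerSeries.X i))
    (e : Fin d →₀ ℕ) :
    GE ι r (κ * r ^ e.degree)
      (φ (MvPowerSeries.monomial e (1 : W)) - MvPowerSeries.monomial e (1 : W)) := by
  classical
  have step : ∀ (a b : Fin d →₀ ℕ),
      GE ι r (κ * r ^ a.degree)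
        (φ (MvPowerSeries.monomial a (1 : W)) - MvPowerSeries.monomial a (1 : W)) →
      GE ι r (κ * r ^ b.degree)
        (φ (MvPowerSeries.monomial b (1 : W)) - MvPowerSeries.monomial b (1 : W)) →
      GE ι r (κ * r ^ (a + b).degree)
        (φ (MvPowerSeries.monomial (a + b) (1 : W)) - MvPowerSeries.monomial (a + b) (1 : W)) := by
    intro a b ha hb
    have h1 : (MvPowerSeries.monomial (a + b) (1 : W) : MvPowerSeries (Fin d) W) =
        MvPowerSeries.monomial a 1 * MvPowerSeries.monomial b 1 := by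
      rw [MvPowerSeries.monomial_mul_monomial, one_mul]
    rw [h1, map_mul]
    set u := (MvPowerSeries.monomial a (1 : W) : MvPowerSeries (Fin d) W)
    set v := (MvPowerSeries.monomial b (1 : W) : MvPowerSeries (Fin d) W)
    have h2 : φ u * φ v - u * v = (φ u - u) * (φ v - v) + ((φ u - u) * v + u * (φ v - v)) := by
      ring
    rw [h2, map_add, pow_add]
    have hu : GE ι r (r ^ a.degree) u := GE_mon hr a
    have hv : GE ι r (r ^ b.degree) v := GE_mon hr b
    have ra : 0 < r ^ a.degree := pow_pos hr _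
    have rb : 0 < r ^ b.degree := pow_pos hr _
    refine GE.add hr ?_ (GE.add hr ?_ ?_)
    · refine (GE.mul hr (by positivity) (by positivity) ha hb).mono ?_
      calc κ * r ^ a.degree * (κ * r ^ b.degree) = κ * (κ * (r ^ a.degree * r ^ b.degree)) := by
            ring
        _ ≤ κ * (1 * (r ^ a.degree * r ^ b.degree)) := by gcongr
        _ = _ := by ring
    · refine (GE.mul hr (by positivity) (by positivity) ha hv).mono (le_of_eq (by ring))
    · refine (GE.mul hr (by positivity) (by positivity) hu hb).mono (le_of_eq (by ring))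
  have h0 : GE ι r (κ * r ^ (0 : Fin d →₀ ℕ).degree)
        (φ (MvPowerSeries.monomial 0 (1 : W)) - MvPowerSeries.monomial 0 (1 : W)) := by
    have h1 : (MvPowerSeries.monomial (0 : Fin d →₀ ℕ) (1 : W) : MvPowerSeries (Fin d) W) = 1 :=
      MvPowerSeries.monomial_zero_one
    rw [h1, map_one, sub_self]
    exact GE.zero (by positivity)
  induction e using Finsupp.induction_linear with
  | zero => exact h0
  | add a b ha hb => exact step a b ha hb
  | single i m =>
    induction m with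
    | zero => rw [Finsupp.single_zero]; exact h0
    | succ m ih =>
      rw [Finsupp.single_add]
      refine step _ _ ih ?_
      have h1 : (Finsupp.single i 1 : Fin d →₀ ℕ).degree = 1 := by simp
      rw [h1, pow_one]
      exact h i

/-- value bound -/
theorem evm_le (hr : 0 < r) (hρ : 0 ≤ ρ) (w : Fin d → C) (hw : ∀ i, ‖w i‖ ≤ r)
    (hf : GE ι r ρ f) : ‖evm (MvPowerSeries.map ι f) w‖ ≤ ρ := by
  unfold evm
  apply IsUltrametricDist.norm_tsum_le_of_forall_le_of_nonneg hρ
  intro e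
  rw [MvPowerSeries.coeff_map, norm_mul, norm_prod]
  refine le_trans (mul_le_mul_of_nonneg_left ?_ (norm_nonneg _)) (hf e)
  rw [Finsupp.degree_eq_sum, ← Finset.prod_pow_eq_pow_sum]
  exact Finset.prod_le_prod (fun i _ => norm_nonneg _) fun i _ => by
    rw [norm_pow]
    exact pow_le_pow_left₀ (norm_nonneg _) (hw i) _

end gauss

section endo

variable {p : ℕ} [Fact p.Prime] {n : ℕ} {C : Type} [NormedField C] [IsUltrametricDist C]
  {ι : WittVector p (GaloisField p n) →+* C} {r ρ : ℝ}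

theorem GE_pow_mE (hr : 0 < r) (hr1 : r ≤ 1) (hι : ∀ c, ‖ι c‖ ≤ 1) (hp : ‖(p : C)‖ ≤ r)
    (N : ℕ) (f : LTRing p n) (hf : f ∈ mE p n ^ N) : GE ι r (r ^ N) f := by
  intro e
  rw [LT3RINGE.mE_eq, LT3RINGE.DD_eq_pow, LT3RINGE.mem_DD] at hf
  have h1 := hf e
  rw [Ideal.span_singleton_pow, Ideal.mem_span_singleton] at h1
  obtain ⟨c, hc⟩ := h1
  rw [hc, map_mul, map_pow, map_natCast, norm_mul, norm_pow]
  have h2 : ‖(p : C)‖ ^ (N - e.degree) * ‖ι c‖ ≤ r ^ (N - e.degree) * 1 :=
    mul_le_mul (pow_le_pow_left₀ (norm_nonneg _) hp _) (hι c) (norm_nonneg _) (by positivity)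
  calc ‖(p : C)‖ ^ (N - e.degree) * ‖ι c‖ * r ^ e.degree
      ≤ r ^ (N - e.degree) * 1 * r ^ e.degree := by gcongr
    _ = r ^ (N - e.degree + e.degree) := by rw [mul_one, pow_add]
    _ ≤ r ^ N := pow_le_pow_of_le_one hr.le hr1 (by omega)

/-- bounded operator -/
def Bd (ι : WittVector p (GaloisField p n) →+* C) (r ε : ℝ)
    (S : AddMonoid.End (LTRing p n)) : Prop :=
  ∀ ρ : ℝ, 0 < ρ → ∀ f, GE ι r ρ f → GE ι r (ε * ρ) (S f)

theorem Bd.mul {ε ε' : ℝ} (hε' : 0 < ε') {S S' : AddMonoid.End (LTRing p n)}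
    (hS : Bd ι r ε S) (hS' : Bd ι r ε' S') : Bd ι r (ε * ε') (S * S') := by
  intro ρ hρ f hf
  have h1 := hS' ρ hρ f hf
  have h2 := hS (ε' * ρ) (by positivity) _ h1
  rw [mul_assoc]
  exact h2

theorem Bd.pow {ε : ℝ} (hε : 0 < ε) {S : AddMonoid.End (LTRing p n)}
    (hS : Bd ι r ε S) (m : ℕ) : Bd ι r (ε ^ m) (S ^ m) := by
  induction m with
  | zero => intro ρ hρ f hf; rw [pow_zero, pow_zero, one_mul]; exact hf
  | succ m ih => rw [pow_succ, pow_succ]; exact Bd.mul hε ih hS

theorem Bd.mono (hr : 0 < r) {ε ε' : ℝ} (h : ε ≤ ε') {S : AddMonoid.End (LTRing p n)}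
    (hS : Bd ι r ε S) : Bd ι r ε' S := by
  intro ρ hρ f hf
  exact (hS ρ hρ f hf).mono (by gcongr)

theorem end_sum_apply {M T : Type} [AddCommGroup M] (s : Finset T) (F : T → AddMonoid.End M)
    (f : M) : (∑ t ∈ s, F t) f = ∑ t ∈ s, (F t) f := by
  classical
  induction s using Finset.induction_on with
  | empty => rfl
  | insert a s ha ih =>
    rw [Finset.sum_insert ha, Finset.sum_insert ha, ← ih]
    rfl

/-- the underlying additive endomorphism -/
noncomputable def toE (φ : LTRing p n →ₐ[WittVector p (GaloisField p n)] LTRing p n) :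
    AddMonoid.End (LTRing p n) := φ.toRingHom.toAddMonoidHom

/-- the initial estimate -/
theorem Bd_init (hn : 1 ≤ n) (hr : 0 < r) (hr1 : r < 1) (hι : ∀ c, ‖ι c‖ ≤ 1)
    (hp : ‖(p : C)‖ ≤ r) (K : ℕ) (φ : LTRing p n →ₐ[WittVector p (GaloisField p n)] LTRing p n)
    (hφ : ∀ f, φ f - f ∈ (mE p n) ^ (K + 1)) :
    Bd ι r (r ^ K) (toE φ - 1) := by
  classical
  intro ρ hρ f hf
  show GE ι r _ (φ f - f)
  -- choose N
  obtain ⟨N, hN⟩ := exists_pow_lt_of_lt_one (show 0 < r ^ K * ρ by positivity) hr1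
  -- truncate
  let S : Finset (Fin (n - 1) →₀ ℕ) :=
    (Finset.range N).biUnion fun k => Finset.finsuppAntidiag Finset.univ k
  have hS : ∀ e : Fin (n - 1) →₀ ℕ, e.degree < N → e ∈ S := by
    intro e he
    rw [Finset.mem_biUnion]
    refine ⟨e.degree, Finset.mem_range.2 he, ?_⟩
    rw [Finset.mem_finsuppAntidiag]
    refine ⟨?_, Finset.subset_univ _⟩
    rw [Finsupp.degree_eq_sum]
  let P : LTRing p n := ∑ e ∈ S, MvPowerSeries.C (MvPowerSeries.coeff e f) *
    MvPowerSeries.monomial e 1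
  have hmC : ∀ (e : Fin (n - 1) →₀ ℕ) (c : WittVector p (GaloisField p n)),
      (MvPowerSeries.C c * MvPowerSeries.monomial e 1 : LTRing p n) =
        MvPowerSeries.monomial e c := by
    intro e c
    rw [← MvPowerSeries.monomial_zero_eq_C_apply, MvPowerSeries.monomial_mul_monomial, zero_add,
      mul_one]
  have hP : f - P ∈ (mE p n) ^ N := by
    rw [LT3RINGE.mE_eq, LT3RINGE.DD_eq_pow, LT3RINGE.mem_DD]
    intro e
    by_cases he : e.degree < N
    · have h1 : MvPowerSeries.coeff e P = MvPowerSeries.coeff e f := by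
        rw [map_sum, Finset.sum_eq_single e]
        · rw [hmC, MvPowerSeries.coeff_monomial_same]
        · intro b _ hb
          rw [hmC, MvPowerSeries.coeff_monomial_ne hb.symm]
        · intro h; exact absurd (hS e he) h
      rw [map_sub, h1, sub_self]
      exact Ideal.zero_mem _
    · have h2 : N - e.degree = 0 := by omega
      rw [h2, pow_zero, Ideal.one_eq_top]
      exact Submodule.mem_top
  have hdev : ∀ i, GE ι r (r ^ K * r)
      (φ.toRingHom (MvPowerSeries.X i) - MvPowerSeries.X i) := by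
    intro i
    rw [← pow_succ]
    exact GE_pow_mE hr hr1.le hι hp (K + 1) _ (hφ _)
  have e1 : φ f - f = (φ P - P) + (φ (f - P) - (f - P)) := by rw [map_sub]; ring
  rw [e1]
  refine GE.add hr ?_ ?_
  · have e2 : φ P - P = ∑ e ∈ S, MvPowerSeries.C (MvPowerSeries.coeff e f) *
        (φ.toRingHom (MvPowerSeries.monomial e 1) - MvPowerSeries.monomial e 1) := by
      simp only [P]
      rw [map_sum, ← Finset.sum_sub_distrib]
      refine Finset.sum_congr rfl fun e _ => ?_
      rw [map_mul, mul_sub]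
      congr 2
      exact φ.commutes _
    rw [e2]
    refine GE.sum hr (by positivity) _ _ fun e _ => ?_
    have h3 := dev_mon hr hr1.le hι (by positivity : (0 : ℝ) ≤ r ^ K)
      (pow_le_one₀ hr.le hr1.le) φ.toRingHom hdev e
    refine (GE.mul hr (norm_nonneg _) (by positivity) (GE_C (MvPowerSeries.coeff e f) hr)
      h3).mono ?_
    calc ‖ι (MvPowerSeries.coeff e f)‖ * (r ^ K * r ^ e.degree)
        = r ^ K * (‖ι (MvPowerSeries.coeff e f)‖ * r ^ e.degree) := by ring
      _ ≤ r ^ K * ρ := by have := hf e; gcongr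
  · have h4 : φ (f - P) - (f - P) ∈ (mE p n) ^ N := by
      refine Ideal.sub_mem _ ?_ hP
      have h5 : (mE p n).map φ.toRingHom ≤ mE p n := by
        rw [Ideal.map_le_iff_le_comap]
        intro g hg
        have h6 : φ g - g ∈ mE p n := Ideal.pow_le_self (by omega) (hφ g)
        have h7 : φ g = (φ g - g) + g := by ring
        show φ g ∈ mE p n
        rw [h7]
        exact Ideal.add_mem _ h6 hg
      have h8 : ((mE p n) ^ N).map φ.toRingHom ≤ (mE p n) ^ N := by
        rw [Ideal.map_pow]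
        exact Ideal.pow_right_mono h5 N
      exact h8 (Ideal.mem_map_of_mem _ hP)
    exact (GE_pow_mE hr hr1.le hι hp N _ h4).mono hN.le

/-- one step of the iteration -/
theorem Bd_step (hr : 0 < r) (hr1 : r < 1) (hι : ∀ c, ‖ι c‖ ≤ 1) (hp0 : 0 < ‖(p : C)‖)
    (S : AddMonoid.End (LTRing p n)) (ε : ℝ) (hε : 0 < ε) (hεp : ε ^ (p - 1) ≤ ‖(p : C)‖)
    (hε1 : ε ≤ 1) (hS : Bd ι r ε S) : Bd ι r (‖(p : C)‖ * ε) ((S + 1) ^ p - 1) := by
  intro ρ hρ f hf
  have hpp : p.Prime := Fact.out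
  have h1 : (S + 1) ^ p = ∑ m ∈ Finset.range p, S ^ (m + 1) * ((p.choose (m + 1) : ℕ) :
      AddMonoid.End (LTRing p n)) + 1 := by
    rw [(Commute.one_right S).add_pow p, Finset.sum_range_succ']
    simp
  have h2 : ((S + 1) ^ p - 1) = ∑ m ∈ Finset.range p, S ^ (m + 1) * ((p.choose (m + 1) : ℕ) :
      AddMonoid.End (LTRing p n)) := by rw [h1, add_sub_cancel_right]
  rw [h2]
  have h3 : (∑ m ∈ Finset.range p, S ^ (m + 1) * ((p.choose (m + 1) : ℕ) :
      AddMonoid.End (LTRing p n))) f = ∑ m ∈ Finset.range p, (S ^ (m + 1)) (p.choose (m + 1) • f) := by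
    rw [end_sum_apply]
    refine Finset.sum_congr rfl fun m _ => ?_
    rfl
  rw [h3]
  refine GE.sum hr (by positivity) _ _ fun m hm => ?_
  have hm' : m < p := Finset.mem_range.1 hm
  rcases Nat.lt_or_ge (m + 1) p with h4 | h4
  · obtain ⟨c, hc⟩ := hpp.dvd_choose_self (Nat.succ_ne_zero m) h4
    have h5 : GE ι r (‖(p : C)‖ * ρ) (p.choose (m + 1) • f) := by
      have h6 : p.choose (m + 1) • f = (MvPowerSeries.C ((p : ℕ) : WittVector p (GaloisField p n))) *
          (c • f) := by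
        rw [hc, mul_smul, map_natCast, nsmul_eq_mul]
      rw [h6]
      refine (GE.mul hr (norm_nonneg _) hρ.le (GE_C _ hr) ?_).mono ?_
      · have h7 : c • f = (MvPowerSeries.C ((c : ℕ) : WittVector p (GaloisField p n))) * f := by
          rw [map_natCast, nsmul_eq_mul]
        rw [h7]
        refine (GE.mul hr (norm_nonneg _) hρ.le (GE_C _ hr) hf).mono ?_
        have := hι (c : WittVector p (GaloisField p n))
        calc _ ≤ 1 * ρ := by gcongr
          _ = ρ := one_mul _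
      · rw [map_natCast]
    have h8 := (Bd.pow hε hS (m + 1)) _ (by positivity) _ h5
    refine h8.mono ?_
    have h9 : ε ^ (m + 1) ≤ ε := pow_le_of_le_one hε.le hε1 (by omega)
    calc ε ^ (m + 1) * (‖(p : C)‖ * ρ) ≤ ε * (‖(p : C)‖ * ρ) := by gcongr
      _ = _ := by ring
  · have h5 : m + 1 = p := by omega
    rw [h5, Nat.choose_self, one_smul]
    refine ((Bd.pow hε hS p) ρ hρ f hf).mono ?_
    have h6 : ε ^ p = ε ^ (p - 1) * ε := by rw [← pow_succ]; congr 1; omega
    rw [h6]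
    gcongr

end endo

theorem main (Wt : ApiW) : Spec4.GAUSS := by
  intro p _ n C _ _ _ _ ι w x hn hx r hpr hr1 hw K hK hrK φ hφ j i
  have hpp : p.Prime := Fact.out
  have hp0 : 0 < ‖(p : C)‖ := by
    rw [norm_pos_iff]
    exact_mod_cast hpp.ne_zero
  have hr : 0 < r := lt_of_lt_of_le hp0 hpr
  let Φ : AddMonoid.End (LTRing p n) := toE φ
  have hΦ : ∀ (m : ℕ) (f : LTRing p n), (Φ ^ m) f = (φ ^ m) f := by
    intro m
    induction m with
    | zero => intro f; rfl
    | succ m ih =>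
      intro f
      rw [pow_succ, pow_succ]
      exact ih (φ f)
  have key : ∀ j : ℕ, Bd ι r (r ^ K * ‖(p : C)‖ ^ j) (Φ ^ (p ^ j) - 1) := by
    intro j
    induction j with
    | zero => rw [pow_zero, pow_zero, mul_one, pow_one]; exact Bd_init hn hr hr1 hx.hι hpr K φ hφ
    | succ j ih =>
      have h1 : r ^ K * ‖(p : C)‖ ^ j ≤ r ^ K * 1 := by
        gcongr
        exact pow_le_one₀ (norm_nonneg _) (hpr.trans hr1.le)
      have h2 := Bd_step hr hr1 hx.hι hp0 (Φ ^ (p ^ j) - 1) (r ^ K * ‖(p : C)‖ ^ j) (by positivity)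
        ?_ ?_ ih
      · rw [sub_add_cancel, ← pow_mul, ← pow_succ] at h2
        refine Bd.mono hr (le_of_eq ?_) h2
        ring
      · calc (r ^ K * ‖(p : C)‖ ^ j) ^ (p - 1) ≤ (r ^ K * 1) ^ (p - 1) := by gcongr
          _ = r ^ (K * (p - 1)) := by rw [mul_one, pow_mul]
          _ ≤ _ := hrK
      · calc _ ≤ r ^ K * 1 := h1
          _ = r ^ K := mul_one _
          _ ≤ 1 := pow_le_one₀ hr.le hr1.le
  have h1 : GE ι r r (MvPowerSeries.X i : LTRing p n) := by
    have h2 := GE_mon (ι := ι) hr (Finsupp.single i 1 : Fin (n - 1) →₀ ℕ)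
    have h3 : (Finsupp.single i 1 : Fin (n - 1) →₀ ℕ).degree = 1 := by simp
    rw [h3, pow_one] at h2
    exact h2
  have h2 := key j r hr _ h1
  have h3 : (Φ ^ (p ^ j) - 1 : AddMonoid.End (LTRing p n)) (MvPowerSeries.X i) =
      (φ ^ (p ^ j)) (MvPowerSeries.X i) - MvPowerSeries.X i := by
    rw [← hΦ]
    rfl
  rw [h3] at h2
  have h4 := evm_le hr (by positivity) w hw h2
  rw [← hx.hx, map_sub, Wt.x_X p n hx] at h4
  refine h4.trans ?_
  calc r ^ K * ‖(p : C)‖ ^ j * r ≤ 1 * ‖(p : C)‖ ^ j * 1 := by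
        gcongr
        exact pow_le_one₀ hr.le hr1.le
    _ = ‖(p : C)‖ ^ j := by ring

end Crest.Agent.LT3GAUSS
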