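import Crest.Agent.LT3Spec

set_option autoImplicit false
open Crest.LubinTate
open Crest Crest.GeometryTopology

namespace Crest.Agent.LT3MINPR

open Crest.Agent.LT3

theorem main (hR : LT3.Spec.RINGE) (hK : LT3.Spec.KRULL) (hS : LT3.Spec.STAB)
    (hC : LT3.Spec.CONT) : LT3.Spec.MINPR := by
  intro p _ n Γ H hset M J hJ
  obtain ⟨-, hNoeth, hLoc, hmax, -⟩ := hR p n hset.hn
  have hfin : J.minimalPrimes.Finite := Ideal.finite_minimalPrimes_of_isNoetherianRing _ J
  have hm := hmax hLoc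
  -- separation of two different minimal primes
  have hsep : ∀ P ∈ J.minimalPrimes, ∀ Q ∈ J.minimalPrimes, Q ≠ P →
      ∃ K : ℕ, ∃ f ∈ Q, f ∉ P ⊔ (mE p n) ^ K := by
    intro P hP Q hQ hne
    have hnle : ¬ Q ≤ P := by
      intro hle
      exact hne (le_antisymm hle (hP.2 ⟨hQ.1.1, hQ.1.2⟩ hle))
    obtain ⟨f, hfQ, hfP⟩ := Set.not_subset.1 hnle
    by_contra hcon
    push Not at hcon
    have hPm : P ≤ mE p n := by
      rw [← hm]
      exact IsLocalRing.le_maximalIdeal hP.1.1.ne_top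
    exact hfP (hK p n hset.hn P f (fun K => hcon K f hfQ) hPm)
  have hsep' : ∃ K : ℕ, ∀ P ∈ J.minimalPrimes, ∀ Q ∈ J.minimalPrimes, Q ≠ P →
      ∀ K', K ≤ K' → ∃ f ∈ Q, f ∉ P ⊔ (mE p n) ^ K' := by
    classical
    choose! k hk using hsep
    refine ⟨hfin.toFinset.sup (fun P => hfin.toFinset.sup (fun Q => k P Q)), ?_⟩
    intro P hP Q hQ hne K' hK'
    obtain ⟨f, hf, hfn⟩ := hk P hP Q hQ hne
    refine ⟨f, hf, fun hmem => hfn ?_⟩
    have h1 : k P Q ≤ K' := by
      refine le_trans ?_ hK'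
      refine le_trans ?_ (Finset.le_sup (f := fun P => hfin.toFinset.sup (fun Q => k P Q))
        (hfin.mem_toFinset.2 hP))
      exact Finset.le_sup (f := fun Q => k P Q) (hfin.mem_toFinset.2 hQ)
    exact (sup_le_sup_left (Ideal.pow_le_pow_right h1) P) hmem
  obtain ⟨K, hK0⟩ := hsep'
  refine ⟨max M (p ^ (n * (K + 1))), le_max_left _ _, ?_⟩
  intro P hP g φ hg hcoef hst
  have hJφ : Ideal.comap φ.toRingHom J = J :=
    hJ g φ hg (fun i hi => hcoef i (lt_of_lt_of_le hi (le_max_left _ _))) hst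
  have hcont := hC p n Γ H hset (K + 1) (Nat.le_add_left 1 K) g φ hg
    (fun i hi => hcoef i (lt_of_lt_of_le hi (le_max_right _ _))) hst
  have hbij := (hS p n Γ H hset).2.2.2 g hg φ hst
  have hsurj : Function.Surjective φ.toRingHom := hbij.2
  have hQ : Ideal.comap φ.toRingHom P ∈ J.minimalPrimes := by
    have h := Ideal.minimalPrimes_comap_of_surjective hsurj hP
    rwa [hJφ] at h
  by_contra hne
  obtain ⟨f, hf, hfn⟩ := hK0 P hP _ hQ hne (K + 1 + 1) (by omega)
  apply hfn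
  have h1 : φ f ∈ P := hf
  have h2 := hcont f
  have h3 : f = φ f - (φ f - f) := by ring
  rw [h3]
  exact Ideal.sub_mem _ (Ideal.mem_sup_left h1) (Ideal.mem_sup_right h2)

end Crest.Agent.LT3MINPR
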