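import Mathlib
import Crest.Prelude.Def_NonlocalGame
import Crest.Agent.H26OneShot

/-!
# rid 342 (S0536, S0537): specification of the modules

Parallel repetition (threshold form) for entangled two-player games.  Every module is a
`def Spec.NAME : Prop`; a module file proves `theorem Crest.Agent.PRNAME.main : Spec.NAME`
(possibly from other modules as hypotheses).
-/

set_option autoImplicit false

namespace Crest.Agent.PR

open scoped Kronecker ComplexOrder BigOperators Matrix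
open Crest.MathPhysics.NonlocalGame
open Crest.H26OneShot (bra val1)

/-! ### Basic vocabulary -/

/-- squared Euclidean norm of a complex vector -/
noncomputable def nsq {ι : Type} [Fintype ι] (v : ι → ℂ) : ℝ := ∑ i, ‖v i‖ ^ 2

/-- the vector `(K ⊗ L) ψ` -/
noncomputable def app {A B E F : Type} [Fintype A] [Fintype B]
    (K : Matrix E A ℂ) (L : Matrix F B ℂ) (ψ : A × B → ℂ) : E × F → ℂ := (K ⊗ₖ L).mulVec ψ

/-- an effect: `0 ≤ M ≤ 1` -/
def IsEff {A : Type} [Fintype A] [DecidableEq A] (M : Matrix A A ℂ) : Prop :=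
  M.PosSemidef ∧ (1 - M).PosSemidef

/-- a measurement (exact) -/
def IsPOVM {A O : Type} [Fintype A] [DecidableEq A] [Fintype O] (E : O → Matrix A A ℂ) : Prop :=
  (∀ a, (E a).PosSemidef) ∧ ∑ a, E a = 1

/-- `v` bounds the one-shot entangled value -/
def ValueLE (G : Game) (v : ℝ) : Prop :=
  ∀ (dA dB : ℕ) (S : Strategy G 1 dA dB), S.probWinsAtLeast 1 ≤ v

/-- winning functional of question-dependent vectors -/
noncomputable def winV (G : Game) {α β : Type} [Fintype α] [Fintype β]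
    (Φ : Fin G.nX → Fin G.nY → (α × β → ℂ))
    (QA : Fin G.nX → Fin G.nA → Matrix α α ℂ) (QB : Fin G.nY → Fin G.nB → Matrix β β ℂ) : ℝ :=
  ∑ x, ∑ y, G.prob x y *
    ∑ a, ∑ b, if G.accept x y a b = true then bra (Φ x y) (QA x a) (QB y b) else 0

/-! ### The one-coordinate interface -/

/-- one-coordinate interface: question dependent vectors of total weight `P`, close to vectors
depending on one question only, and of almost constant norm, with winning weight `Pi`. -/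
def Sys (G : Game) (P Pi D : ℝ) : Prop :=
  ∃ (hA hB : Type) (_ : Fintype hA) (_ : DecidableEq hA) (_ : Fintype hB) (_ : DecidableEq hB)
    (Φ : Fin G.nX → Fin G.nY → (hA × hB → ℂ))
    (ΦX : Fin G.nX → (hA × hB → ℂ)) (ΦY : Fin G.nY → (hA × hB → ℂ))
    (QA : Fin G.nX → Fin G.nA → Matrix hA hA ℂ) (QB : Fin G.nY → Fin G.nB → Matrix hB hB ℂ),
    (∀ x, IsPOVM (QA x)) ∧ (∀ y, IsPOVM (QB y)) ∧
    (∑ x, ∑ y, G.prob x y * nsq (Φ x y) = P) ∧
    (∑ x, ∑ y, G.prob x y * (nsq (Φ x y - ΦX x) + nsq (Φ x y - ΦY y)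
        + (Real.sqrt (nsq (Φ x y)) - Real.sqrt P) ^ 2) ≤ D) ∧
    winV G Φ QA QB = Pi

/-- the hypothesis of S0537 -/
def KappaHyp (G : Game) (κ : ℝ) : Prop :=
  ∀ z : Fin G.nX × Fin G.nY, 0 < G.prob z.1 z.2 → ∀ w ∈ G.supportComponent z,
      8 * ((G.supportComponent z).card - 1 : ℝ) * (∑ u ∈ G.supportComponent z, G.prob u.1 u.2)
        ≤ κ * G.prob w.1 w.2

/-- S0537, one round -/
def Spec.ROUND537 : Prop := ∀ (G : Game) (v κ : ℝ), ValueLE G v → KappaHyp G κ →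
  0 ≤ κ ∧ ∀ P Pi D : ℝ, Sys G P Pi D → Pi ≤ v * P + 8 * Real.sqrt (1 + κ) * Real.sqrt (P * D)

/-- S0536, one round -/
def Spec.ROUND536 : Prop := ∃ Λ : ℝ, 1 ≤ Λ ∧ ∀ (G : Game) (v : ℝ), ValueLE G v →
  ∀ P Pi D : ℝ, Sys G P Pi D → Pi ≤ v * P + Λ * (P ^ ((3:ℝ)/4) * D ^ ((1:ℝ)/4))

/-! ### ROUND537 pieces -/

/-- several shared states, one per component, in one strategy -/
def Spec.TENSOR : Prop := ∀ (G : Game) (v : ℝ), ValueLE G v →
  ∀ (hA hB : Type) [Fintype hA] [DecidableEq hA] [Fintype hB] [DecidableEq hB]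
    (QA : Fin G.nX → Fin G.nA → Matrix hA hA ℂ) (QB : Fin G.nY → Fin G.nB → Matrix hB hB ℂ),
    (∀ x, IsPOVM (QA x)) → (∀ y, IsPOVM (QB y)) →
  ∀ (m : ℕ) (cX : Fin G.nX → Fin m) (cY : Fin G.nY → Fin m) (B : Fin m → (hA × hB → ℂ)),
    (∀ c, nsq (B c) = 1) → (∀ x y, 0 < G.prob x y → cX x = cY y) →
    winV G (fun x _ => B (cX x)) QA QB ≤ v

/-! ### ROUND536 pieces -/

/-- repeated trials -/
def Spec.RETRY : Prop := ∀ (G : Game) (v : ℝ), ValueLE G v →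
  ∀ (α β : Type) [Fintype α] [DecidableEq α] [Fintype β] [DecidableEq β] (Ω : α × β → ℂ)
    (A : Fin G.nX → Fin G.nA → Matrix α α ℂ) (B : Fin G.nY → Fin G.nB → Matrix β β ℂ),
    (∀ x a, (A x a).PosSemidef) → (∀ y b, (B y b).PosSemidef) →
    (∀ x, (1 - ∑ a, A x a).PosSemidef) → (∀ y, (1 - ∑ b, B y b).PosSemidef) →
    ∑ x, ∑ y, G.prob x y *
      ((∑ a, ∑ b, if G.accept x y a b = true then bra Ω (A x a) (B y b) else 0) /
        (bra Ω (∑ a, A x a) 1 + bra Ω 1 (∑ b, B y b) - bra Ω (∑ a, A x a) (∑ b, B y b))) ≤ v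

/-- squared Frobenius norm of a real matrix -/
noncomputable def fsq {m n : Type} [Fintype m] [Fintype n] (M : Matrix m n ℝ) : ℝ :=
  ∑ i, ∑ j, (M i j) ^ 2

/-- the embezzlement-like gadget -/
def Spec.GADGET : Prop := ∃ C₀ : ℝ, 0 < C₀ ∧ ∀ w : ℝ, 0 < w → w ≤ 1/4 → ∀ ε : ℝ, 0 < ε →
  ∃ (n : ℕ) (γ : Matrix (Fin n) (Fin n) ℝ) (Sg : ℝ → Matrix (Fin n) (Fin n) ℝ),
    fsq γ = 1 ∧ (∀ σ, (1 - (Sg σ)ᵀ * Sg σ).PosSemidef) ∧
    (∀ σ, 0 ≤ σ → σ ≤ 1 → fsq (Sg σ * γ) ≤ (1 + 4 * w) * σ ^ 2 ∧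
      fsq (γ * (Sg σ)ᵀ) ≤ (1 + 4 * w) * σ ^ 2) ∧
    (∀ σ σ', 0 ≤ σ → σ ≤ 1 → 0 ≤ σ' → σ' ≤ 1 →
      fsq (Sg σ * γ * (Sg σ')ᵀ - σ • γ) ≤ (C₀ / w * |σ - σ'| + ε) ^ 2)

/-- coupling operators -/
def Spec.CPL : Prop := ∃ C₁ : ℝ, 0 < C₁ ∧ ∀ w : ℝ, 0 < w → w ≤ 1/4 → ∀ ε : ℝ, 0 < ε →
  ∀ (α β : Type) [Fintype α] [DecidableEq α] [Fintype β] [DecidableEq β],
  ∃ (n : ℕ) (γ : Fin n × Fin n → ℂ) (Γ : (β × Fin n) × (β × Fin n) → ℂ)
    (GA : (α × β → ℂ) → Matrix (α × Fin n) (β × Fin n) ℂ)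
    (HB : (α × β → ℂ) → Matrix (β × Fin n) (β × Fin n) ℂ),
    nsq γ = 1 ∧
    (∀ F, nsq F = 1 → (1 - (GA F)ᴴ * GA F).PosSemidef ∧ (1 - (HB F)ᴴ * HB F).PosSemidef ∧
      nsq (app (GA F) (1 : Matrix (β × Fin n) (β × Fin n) ℂ) Γ) ≤ 1 + 4 * w ∧
      nsq (app (1 : Matrix (β × Fin n) (β × Fin n) ℂ) (HB F) Γ) ≤ 1 + 4 * w) ∧
    (∀ F F', nsq F = 1 → nsq F' = 1 →
      nsq (app (GA F) (HB F') Γ - (fun p => F (p.1.1, p.2.1) * γ (p.1.2, p.2.2)))
        ≤ (C₁ / w * Real.sqrt (nsq (F - F')) + ε) ^ 2)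

/-- correlated sampling -/
def Spec.CORR : Prop := ∃ C₂ : ℝ, 0 < C₂ ∧ ∀ (G : Game) (v : ℝ), ValueLE G v →
  ∀ (hA hB : Type) [Fintype hA] [DecidableEq hA] [Fintype hB] [DecidableEq hB]
    (QA : Fin G.nX → Fin G.nA → Matrix hA hA ℂ) (QB : Fin G.nY → Fin G.nB → Matrix hB hB ℂ),
    (∀ x, IsPOVM (QA x)) → (∀ y, IsPOVM (QB y)) →
  ∀ (f : Fin G.nX → (hA × hB → ℂ)) (g : Fin G.nY → (hA × hB → ℂ)),
    (∀ x, nsq (f x) = 1) → (∀ y, nsq (g y) = 1) →
  ∀ w : ℝ, 0 < w → w ≤ 1/4 →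
    winV G (fun x _ => f x) QA QB
      ≤ v + C₂ * (w + (∑ x, ∑ y, G.prob x y * Real.sqrt (nsq (f x - g y))) / w)

/-! ### The gauge lemma -/

def Spec.GAUGE : Prop := ∀ (ε : ℝ), 0 < ε → ∀ (A : Type) [Fintype A] [DecidableEq A],
  ∃ (n : ℕ) (K : Matrix A A ℂ → Matrix (Fin n × A) A ℂ) (Θ : Matrix A A ℂ → Matrix A A ℂ),
    (∀ M, IsEff M → (K M)ᴴ * K M = M ∧ (Θ M).PosSemidef ∧
      ∀ t : ℝ, 0 < t → t ≤ 1 → ((Real.log (1 / t) - 1) • M + t • (1 : Matrix A A ℂ) - Θ M).PosSemidef) ∧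
    (∀ (X : Type) [Fintype X] (w : X → ℝ) (M : X → Matrix A A ℂ), (∀ x, 0 ≤ w x) → ∑ x, w x = 1 →
      (∀ x, IsEff (M x)) →
      (Θ (∑ x, w x • M x) - ∑ x, w x • Θ (M x) + ε • (1 : Matrix A A ℂ)
        - ∑ x, w x • ((K (M x) - K (∑ x, w x • M x))ᴴ * (K (M x) - K (∑ x, w x • M x)))).PosSemidef)

/-- Douglas-type factorisation: a decomposition of `KᴴK` lifts to a measurement -/
def Spec.DOUGLAS : Prop := ∀ (A E O : Type) [Fintype A] [DecidableEq A] [Fintype E] [DecidableEq E]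
  [Fintype O] [Nonempty O] (K : Matrix E A ℂ) (M : O → Matrix A A ℂ), (∀ a, (M a).PosSemidef) →
    ∑ a, M a = Kᴴ * K → ∃ Q : O → Matrix E E ℂ, IsPOVM Q ∧ ∀ a, Kᴴ * Q a * K = M a

/-! ### Conditional averages -/

section av
variable {X Y ι : Type} [Fintype X] [DecidableEq X] [Fintype Y] [DecidableEq Y]
  [Fintype ι] [DecidableEq ι]

/-- conditional probability of `x` given `y` -/
noncomputable def cnd (π : X → Y → ℝ) (y : Y) (x : X) : ℝ := π x y / ∑ x', π x' y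

/-- product weight -/
noncomputable def PP (π : X → Y → ℝ) (x : ι → X) (y : ι → Y) : ℝ := ∏ i, π (x i) (y i)

/-- average of `F` over the coordinates outside `S`, conditionally on `y` -/
noncomputable def av {V : Type} [AddCommGroup V] [Module ℝ V] (π : X → Y → ℝ) (S : Finset ι)
    (F : (ι → X) → V) (x : ι → X) (y : ι → Y) : V :=
  ∑ x' : ι → X, (∏ j, if j ∈ S then (if x' j = x j then (1:ℝ) else 0) else cnd π (y j) (x' j)) • F x'

/-- the swapped distribution -/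
def sw (π : X → Y → ℝ) : Y → X → ℝ := fun y x => π x y

/-- the set of coordinates revealed before `i` in the order given by `r` -/
def low (r : ι → ℕ) (C : Finset ι) (i : ι) : Finset ι := C ∪ Finset.univ.filter (fun j => r j < r i)

end av

/-- basic facts on `av` -/
def Spec.AVB : Prop := ∀ (X Y ι : Type) [Fintype X] [DecidableEq X] [Fintype Y] [DecidableEq Y]
  [Fintype ι] [DecidableEq ι] (V : Type) [AddCommGroup V] [Module ℝ V] (π : X → Y → ℝ)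
  (S : Finset ι) (F : (ι → X) → V),
  (∀ (i : ι) (x : ι → X) (y : ι → Y), i ∉ S →
    av π S F x y = ∑ x₀, cnd π (y i) x₀ • av π (insert i S) F (Function.update x i x₀) y) ∧
  (∀ (x x' : ι → X) (y y' : ι → Y), (∀ j ∈ S, x j = x' j) → (∀ j, j ∉ S → y j = y' j) →
    av π S F x y = av π S F x' y') ∧
  (∀ (x : ι → X) (y : ι → Y), av π Finset.univ F x y = F x) ∧
  (∀ (i : ι) (x₀ : X) (x : ι → X) (y : ι → Y), i ∈ S →
    av π S F (Function.update x i x₀) y = av π S (fun x' => F (Function.update x' i x₀)) x y)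

/-- `av` preserves effects and positivity -/
def Spec.AVEFF : Prop := ∀ (X Y ι : Type) [Fintype X] [DecidableEq X] [Fintype Y] [DecidableEq Y]
  [Fintype ι] [DecidableEq ι] (A : Type) [Fintype A] [DecidableEq A] (π : X → Y → ℝ),
  (∀ x y, 0 ≤ π x y) → ∀ (S : Finset ι) (F : (ι → X) → Matrix A A ℂ),
  ((∀ x, (F x).PosSemidef) → ∀ (x : ι → X) (y : ι → Y), (av π S F x y).PosSemidef) ∧
  ((∀ x, IsEff (F x)) → ∀ (x : ι → X) (y : ι → Y), IsEff (av π S F x y))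

/-- resampling identities -/
def Spec.RESAMP : Prop := ∀ (X Y ι : Type) [Fintype X] [DecidableEq X] [Fintype Y] [DecidableEq Y]
  [Fintype ι] [DecidableEq ι] (π : X → Y → ℝ), (∀ x y, 0 ≤ π x y) → ∀ (i : ι)
  (Φ : (ι → X) → (ι → Y) → ℝ),
  (∑ x, ∑ y, PP π x y * Φ x y
    = ∑ x, ∑ y, PP π x y * ∑ x₀, cnd π (y i) x₀ * Φ (Function.update x i x₀) y) ∧
  (∑ x, ∑ y, PP π x y * Φ x y
    = ∑ x, ∑ y, PP π x y * ∑ y₀, cnd (sw π) (x i) y₀ * Φ x (Function.update y i y₀)) ∧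
  ((∑ x, ∑ y, π x y = 1) → ∑ x, ∑ y, PP π x y * Φ x y
    = ∑ x, ∑ y, PP π x y * ∑ x₀, ∑ y₀, π x₀ y₀ * Φ (Function.update x i x₀) (Function.update y i y₀))

/-- removing a conditional average against a functional not depending on the averaged
coordinates -/
def Spec.AVG : Prop := ∀ (X Y ι : Type) [Fintype X] [DecidableEq X] [Fintype Y] [DecidableEq Y]
  [Fintype ι] [DecidableEq ι] (V : Type) [AddCommGroup V] [Module ℝ V] (π : X → Y → ℝ),
  (∀ x y, 0 ≤ π x y) → ∀ (S : Finset ι) (F : (ι → X) → V) (L : (ι → X) → (ι → Y) → (V →ₗ[ℝ] ℝ)),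
  (∀ (x x' : ι → X) (y : ι → Y), (∀ j ∈ S, x j = x' j) → L x y = L x' y) →
  ∑ x, ∑ y, PP π x y * L x y (av π S F x y) = ∑ x, ∑ y, PP π x y * L x y (F x)

/-- telescoping, abstract form -/
def Spec.TELE : Prop := ∀ (X Y ι : Type) [Fintype X] [DecidableEq X] [Fintype Y] [DecidableEq Y]
  [Fintype ι] [DecidableEq ι] (V W : Type) [AddCommGroup V] [Module ℝ V] (π : X → Y → ℝ),
  (∀ x y, 0 ≤ π x y) → ∀ (Eff : V → Prop)
  (_ : ∀ (w : X → ℝ) (M : X → V), (∀ x, 0 ≤ w x) → ∑ x, w x = 1 → (∀ x, Eff (M x)) →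
    Eff (∑ x, w x • M x))
  (T : V → W → ℝ) (Dd : V → V → W → ℝ) (e : W → ℝ) (GoodN : W → Prop)
  (_ : ∀ (n : W), GoodN n → ∀ (w : X → ℝ) (M : X → V), (∀ x, 0 ≤ w x) → ∑ x, w x = 1 →
    (∀ x, Eff (M x)) →
    ∑ x, w x * Dd (M x) (∑ x, w x • M x) n
      ≤ T (∑ x, w x • M x) n - ∑ x, w x * T (M x) n + e n)
  (r : ι → ℕ), Function.Injective r → ∀ (C : Finset ι) (wt : (ι → X) → (ι → Y) → ℝ),
  (∀ x y, 0 ≤ wt x y) →
  (∀ (x x' : ι → X) (y y' : ι → Y), (∀ j ∈ C, x j = x' j) → (∀ j ∈ C, y j = y' j) →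
    wt x y = wt x' y') →
  ∀ (M : (ι → X) → V) (N : (ι → Y) → W), (∀ x, Eff (M x)) → (∀ y, GoodN (N y)) →
  ∑ i ∈ Finset.univ \ C, ∑ x, ∑ y, PP π x y * (wt x y *
      Dd (av π (insert i (low r C i)) M x y) (av π (low r C i) M x y) (N y))
    ≤ ∑ x, ∑ y, PP π x y * (wt x y * (T (av π C M x y) (N y) - T (M x) (N y)))
      + (Finset.univ \ C).card * ∑ x, ∑ y, PP π x y * (wt x y * e (N y))

/-- the classical part -/
def Spec.CLASS : Prop := ∀ (Z ι : Type) [Fintype Z] [DecidableEq Z] [Fintype ι] [DecidableEq ι]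
  (π : Z → ℝ), (∀ z, 0 ≤ π z) → ∑ z, π z = 1 → ∀ (C : Finset ι) (h J : (ι → Z) → ℝ),
  (∀ z, 0 ≤ h z) → (∀ z, h z ≤ J z) → (∀ z z', (∀ j ∈ C, z j = z' j) → J z = J z') →
  ∀ t : ℝ, 0 < t →
  ∑ i ∈ Finset.univ \ C, ∑ z₀, π z₀ *
      (Real.sqrt (∑ z, (∏ j, π (z j)) * h (Function.update z i z₀))
        - Real.sqrt (∑ z, (∏ j, π (z j)) * h z)) ^ 2
    ≤ (Real.log (1 / t) - 1) * (∑ z, (∏ j, π (z j)) * h z) + t * ∑ z, (∏ j, π (z j)) * J z

/-! ### Quantities of a strategy -/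

section strat
variable {G : Game} {k dA dB : ℕ}

/-- probability of winning all coordinates of `C` -/
noncomputable def pC (S : Strategy G k dA dB) (C : Finset (Fin k)) : ℝ :=
  ∑ x : Fin k → Fin G.nX, ∑ y : Fin k → Fin G.nY, PP G.prob x y *
    ∑ a : Fin k → Fin G.nA, ∑ b : Fin k → Fin G.nB,
      if (∀ i ∈ C, G.accept (x i) (y i) (a i) (b i) = true) then S.answerProb x y a b else 0

/-- average number of accepted answer pairs -/
noncomputable def accS (G : Game) : ℝ :=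
  ∑ x, ∑ y, G.prob x y * ∑ a, ∑ b, (if G.accept x y a b = true then (1:ℝ) else 0)

/-- marginal of an operator family: answers on `C` equal to `α` -/
noncomputable def MC {A O : Type} [DecidableEq O] [Fintype O]
    (M : (Fin k → O) → Matrix A A ℂ) (C : Finset (Fin k)) (α : C → O) : Matrix A A ℂ :=
  ∑ a : Fin k → O, if (∀ j : C, a j = α j) then M a else 0

/-- marginal: answers on `C` equal to `α` and answer `o` at `i` -/
noncomputable def MCi {A O : Type} [DecidableEq O] [Fintype O]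
    (M : (Fin k → O) → Matrix A A ℂ) (C : Finset (Fin k)) (i : Fin k) (α : C → O) (o : O) :
    Matrix A A ℂ :=
  ∑ a : Fin k → O, if ((∀ j : C, a j = α j) ∧ a i = o) then M a else 0

/-- indicator that the answers `α`, `β` on `C` are accepted -/
noncomputable def iw (G : Game) {k : ℕ} (C : Finset (Fin k)) (x : Fin k → Fin G.nX)
    (y : Fin k → Fin G.nY) (α : C → Fin G.nA) (β : C → Fin G.nB) : ℝ :=
  if (∀ j : C, G.accept (x j) (y j) (α j) (β j) = true) then 1 else 0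

/-- Alice's order and Bob's order -/
def rA {k : ℕ} : Fin k → ℕ := fun j => j.val
def rB {k : ℕ} : Fin k → ℕ := fun j => k - j.val

/-- Alice's revealed marginal operator for the label `(x, y, α)`, question `x₀` at `i` -/
noncomputable def MA' (S : Strategy G k dA dB) (C : Finset (Fin k)) (i : Fin k)
    (α : C → Fin G.nA) (x : Fin k → Fin G.nX) (y : Fin k → Fin G.nY) (x₀ : Fin G.nX) :=
  av G.prob (insert i (low rA C i)) (fun x' => MC (S.M x') C α) (Function.update x i x₀) y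

/-- Alice's averaged marginal operator, question `y₀` at `i` for Bob -/
noncomputable def MA0 (S : Strategy G k dA dB) (C : Finset (Fin k)) (i : Fin k)
    (α : C → Fin G.nA) (x : Fin k → Fin G.nX) (y : Fin k → Fin G.nY) (y₀ : Fin G.nY) :=
  av G.prob (low rA C i) (fun x' => MC (S.M x') C α) x (Function.update y i y₀)

/-- Alice's measurement pieces -/
noncomputable def MAa (S : Strategy G k dA dB) (C : Finset (Fin k)) (i : Fin k)
    (α : C → Fin G.nA) (x : Fin k → Fin G.nX) (y : Fin k → Fin G.nY) (x₀ : Fin G.nX)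
    (a : Fin G.nA) :=
  av G.prob (insert i (low rA C i)) (fun x' => MCi (S.M x') C i α a) (Function.update x i x₀) y

noncomputable def NB' (S : Strategy G k dA dB) (C : Finset (Fin k)) (i : Fin k)
    (β : C → Fin G.nB) (x : Fin k → Fin G.nX) (y : Fin k → Fin G.nY) (y₀ : Fin G.nY) :=
  av (sw G.prob) (insert i (low rB C i)) (fun y' => MC (S.N y') C β) (Function.update y i y₀) x

noncomputable def NB0 (S : Strategy G k dA dB) (C : Finset (Fin k)) (i : Fin k)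
    (β : C → Fin G.nB) (x : Fin k → Fin G.nX) (y : Fin k → Fin G.nY) (x₀ : Fin G.nX) :=
  av (sw G.prob) (low rB C i) (fun y' => MC (S.N y') C β) y (Function.update x i x₀)

noncomputable def NBb (S : Strategy G k dA dB) (C : Finset (Fin k)) (i : Fin k)
    (β : C → Fin G.nB) (x : Fin k → Fin G.nX) (y : Fin k → Fin G.nY) (y₀ : Fin G.nY)
    (b : Fin G.nB) :=
  av (sw G.prob) (insert i (low rB C i)) (fun y' => MCi (S.N y') C i β b) (Function.update y i y₀) x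

/-- weight of the question pair `x₀, y₀` at `i` conditioned on winning `C` (unnormalised) -/
noncomputable def qi (S : Strategy G k dA dB) (C : Finset (Fin k)) (i : Fin k)
    (x₀ : Fin G.nX) (y₀ : Fin G.nY) : ℝ :=
  ∑ x, ∑ y, PP G.prob x y * ∑ α : C → Fin G.nA, ∑ β : C → Fin G.nB, iw G C x y α β *
    bra S.ψ (MC (S.M (Function.update x i x₀)) C α) (MC (S.N (Function.update y i y₀)) C β)

end strat

/-- direct sum of vectors with weights -/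
noncomputable def ds {E F Λ : Type} [DecidableEq Λ] (w : Λ → ℝ) (v : Λ → (E × F → ℂ)) :
    (E × Λ) × (F × Λ) → ℂ :=
  fun p => if p.1.2 = p.2.2 then (Real.sqrt (w p.1.2) : ℂ) * v p.1.2 (p.1.1, p.2.1) else 0

/-- facts on direct sums -/
def Spec.DSUM : Prop := ∀ (E F Λ : Type) [Fintype E] [DecidableEq E] [Fintype F] [DecidableEq F]
  [Fintype Λ] [DecidableEq Λ] (w : Λ → ℝ), (∀ l, 0 ≤ w l) → ∀ (v : Λ → (E × F → ℂ)),
  (nsq (ds w v) = ∑ l, w l * nsq (v l)) ∧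
  (∀ v' : Λ → (E × F → ℂ), ds w v - ds w v' = ds w (fun l => v l - v' l)) ∧
  (∀ (P : Λ → Matrix E E ℂ) (Q : Λ → Matrix F F ℂ),
    bra (ds w v) (Matrix.blockDiagonal P) (Matrix.blockDiagonal Q)
      = ∑ l, w l * bra (v l) (P l) (Q l)) ∧
  (∀ (O : Type) [Fintype O] (P : Λ → O → Matrix E E ℂ), (∀ l, IsPOVM (P l)) →
    IsPOVM (fun o => Matrix.blockDiagonal (fun l => P l o)))

/-- facts on `app` -/
def Spec.APP : Prop := ∀ (A B E F : Type) [Fintype A] [DecidableEq A] [Fintype B] [DecidableEq B]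
  [Fintype E] [DecidableEq E] [Fintype F] [DecidableEq F] (ψ : A × B → ℂ)
  (K K' : Matrix E A ℂ) (L L' : Matrix F B ℂ),
  (nsq (app K L ψ) = bra ψ (Kᴴ * K) (Lᴴ * L)) ∧
  (app K L ψ - app K' L ψ = app (K - K') L ψ) ∧
  (app K L ψ - app K L' ψ = app K (L - L') ψ) ∧
  (∀ (P : Matrix E E ℂ) (Q : Matrix F F ℂ),
    bra (app K L ψ) P Q = bra ψ (Kᴴ * P * K) (Lᴴ * Q * L))

/-- the winning functional is Lipschitz: with POVMs, for each question pair,
`|win Φ - win Φ'| ≤ ‖Φ - Φ'‖ (‖Φ‖ + ‖Φ'‖)` -/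
def Spec.WLIP : Prop := ∀ (hA hB OA OB : Type) [Fintype hA] [DecidableEq hA] [Fintype hB]
  [DecidableEq hB] [Fintype OA] [Fintype OB] (QA : OA → Matrix hA hA ℂ) (QB : OB → Matrix hB hB ℂ),
  IsPOVM QA → IsPOVM QB → ∀ (acc : OA → OB → Bool) (Φ Φ' : hA × hB → ℂ),
  (0 ≤ ∑ a, ∑ b, (if acc a b = true then bra Φ (QA a) (QB b) else 0)) ∧
  (∑ a, ∑ b, (if acc a b = true then bra Φ (QA a) (QB b) else 0) ≤ nsq Φ) ∧
  |∑ a, ∑ b, (if acc a b = true then bra Φ (QA a) (QB b) else 0)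
    - ∑ a, ∑ b, (if acc a b = true then bra Φ' (QA a) (QB b) else 0)|
    ≤ Real.sqrt (nsq (Φ - Φ')) * (Real.sqrt (nsq Φ) + Real.sqrt (nsq Φ'))

/-! ### System identities -/

/-- norms -/
def Spec.SYSQ : Prop := ∀ (G : Game) (k dA dB : ℕ) (S : Strategy G k dA dB) (C : Finset (Fin k))
  (i : Fin k), i ∉ C → ∀ (x₀ : Fin G.nX) (y₀ : Fin G.nY),
  (∑ x, ∑ y, PP G.prob x y * ∑ α : C → Fin G.nA, ∑ β : C → Fin G.nB, iw G C x y α β *
    bra S.ψ (MA' S C i α x y x₀) (NB' S C i β x y y₀)) = qi S C i x₀ y₀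

/-- total mass -/
def Spec.SYSP : Prop := ∀ (G : Game) (k dA dB : ℕ) (S : Strategy G k dA dB) (C : Finset (Fin k)),
  (∑ x, ∑ y, PP G.prob x y * ∑ α : C → Fin G.nA, ∑ β : C → Fin G.nB, iw G C x y α β *
    bra S.ψ (MC (S.M x) C α) (MC (S.N y) C β)) = pC S C ∧
  ∀ i, i ∉ C → ∑ x₀, ∑ y₀, G.prob x₀ y₀ * qi S C i x₀ y₀ = pC S C

/-- winning mass -/
def Spec.SYSW : Prop := ∀ (G : Game) (k dA dB : ℕ) (S : Strategy G k dA dB) (C : Finset (Fin k))
  (i : Fin k), i ∉ C →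
  (∑ x₀, ∑ y₀, G.prob x₀ y₀ * ∑ a, ∑ b, if G.accept x₀ y₀ a b = true then
    (∑ x, ∑ y, PP G.prob x y * ∑ α : C → Fin G.nA, ∑ β : C → Fin G.nB, iw G C x y α β *
      bra S.ψ (MAa S C i α x y x₀ a) (NBb S C i β x y y₀ b)) else 0) = pC S (insert i C)

/-- distances, Alice -/
def Spec.SYSDX : Prop := ∀ (G : Game) (k dA dB : ℕ) (S : Strategy G k dA dB) (C : Finset (Fin k))
  (i : Fin k), i ∉ C → ∀ (n : ℕ) (K : Matrix (Fin dA) (Fin dA) ℂ → Matrix (Fin n × Fin dA) (Fin dA) ℂ),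
  (∑ x₀, ∑ y₀, G.prob x₀ y₀ *
    ∑ x, ∑ y, PP G.prob x y * ∑ α : C → Fin G.nA, ∑ β : C → Fin G.nB, iw G C x y α β *
      bra S.ψ ((K (MA' S C i α x y x₀) - K (MA0 S C i α x y y₀))ᴴ *
        (K (MA' S C i α x y x₀) - K (MA0 S C i α x y y₀))) (NB' S C i β x y y₀))
  = ∑ x, ∑ y, PP G.prob x y * ∑ α : C → Fin G.nA, ∑ β : C → Fin G.nB, iw G C x y α β *
      bra S.ψ ((K (av G.prob (insert i (low rA C i)) (fun x' => MC (S.M x') C α) x y)
          - K (av G.prob (low rA C i) (fun x' => MC (S.M x') C α) x y))ᴴ *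
        (K (av G.prob (insert i (low rA C i)) (fun x' => MC (S.M x') C α) x y)
          - K (av G.prob (low rA C i) (fun x' => MC (S.M x') C α) x y)))
        (MC (S.N y) C β)

/-- distances, Bob -/
def Spec.SYSDY : Prop := ∀ (G : Game) (k dA dB : ℕ) (S : Strategy G k dA dB) (C : Finset (Fin k))
  (i : Fin k), i ∉ C → ∀ (n : ℕ) (K : Matrix (Fin dB) (Fin dB) ℂ → Matrix (Fin n × Fin dB) (Fin dB) ℂ),
  (∑ x₀, ∑ y₀, G.prob x₀ y₀ *
    ∑ x, ∑ y, PP G.prob x y * ∑ α : C → Fin G.nA, ∑ β : C → Fin G.nB, iw G C x y α β *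
      bra S.ψ (MA' S C i α x y x₀) ((K (NB' S C i β x y y₀) - K (NB0 S C i β x y x₀))ᴴ *
        (K (NB' S C i β x y y₀) - K (NB0 S C i β x y x₀))))
  = ∑ x, ∑ y, PP G.prob x y * ∑ α : C → Fin G.nA, ∑ β : C → Fin G.nB, iw G C x y α β *
      bra S.ψ (MC (S.M x) C α)
       ((K (av (sw G.prob) (insert i (low rB C i)) (fun y' => MC (S.N y') C β) y x)
          - K (av (sw G.prob) (low rB C i) (fun y' => MC (S.N y') C β) y x))ᴴ *
        (K (av (sw G.prob) (insert i (low rB C i)) (fun y' => MC (S.N y') C β) y x)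
          - K (av (sw G.prob) (low rB C i) (fun y' => MC (S.N y') C β) y x)))

/-- algebra of the marginals -/
def Spec.MARG : Prop := ∀ (G : Game) (k dA dB : ℕ) (S : Strategy G k dA dB) (C : Finset (Fin k)),
  (∀ x α, IsEff (MC (S.M x) C α)) ∧ (∀ y β, IsEff (MC (S.N y) C β)) ∧
  (∀ x i α a, (MCi (S.M x) C i α a).PosSemidef) ∧ (∀ y i β b, (MCi (S.N y) C i β b).PosSemidef) ∧
  (∀ x i α, ∑ a, MCi (S.M x) C i α a = MC (S.M x) C α) ∧
  (∀ y i β, ∑ b, MCi (S.N y) C i β b = MC (S.N y) C β) ∧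
  (∀ x, ∑ α, MC (S.M x) C α = 1) ∧ (∀ y, ∑ β, MC (S.N y) C β = 1)

/-- the number of accepted answers on `C` -/
def Spec.KC : Prop := ∀ (G : Game) (k dA dB : ℕ) (S : Strategy G k dA dB) (C : Finset (Fin k)),
  (∑ x, ∑ y, PP G.prob x y * ∑ α : C → Fin G.nA, ∑ β : C → Fin G.nB, iw G C x y α β
    = accS G ^ C.card) ∧
  (∑ x, ∑ y, PP G.prob x y * ∑ α : C → Fin G.nA, ∑ β : C → Fin G.nB, iw G C x y α β *
    bra S.ψ 1 (MC (S.N y) C β) ≤ accS G ^ C.card) ∧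
  (∑ x, ∑ y, PP G.prob x y * ∑ α : C → Fin G.nA, ∑ β : C → Fin G.nB, iw G C x y α β *
    bra S.ψ (MC (S.M x) C α) 1 ≤ accS G ^ C.card) ∧
  pC S C ≤ accS G ^ C.card

/-- uniformly random answers -/
def Spec.RAND : Prop := ∀ (G : Game) (v : ℝ), ValueLE G v → accS G ≤ (G.nA * G.nB : ℕ) * v

/-- the classical part for a strategy -/
def Spec.CLASSXY : Prop := ∀ (G : Game) (k dA dB : ℕ) (S : Strategy G k dA dB)
  (C : Finset (Fin k)) (t : ℝ), 0 < t →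
  ∑ i ∈ Finset.univ \ C, ∑ x₀, ∑ y₀, G.prob x₀ y₀ *
      (Real.sqrt (qi S C i x₀ y₀) - Real.sqrt (pC S C)) ^ 2
    ≤ (Real.log (1 / t) - 1) * pC S C + t * accS G ^ C.card

/-- the system -/
def Spec.SYSTEM : Prop := ∀ (G : Game) (k dA dB : ℕ) (S : Strategy G k dA dB)
  (C : Finset (Fin k)) (t ε : ℝ), 0 < t → t ≤ 1 → 0 < ε →
  ∃ D : Fin k → ℝ, (∀ i, i ∉ C → Sys G (pC S C) (pC S (insert i C)) (D i)) ∧
    ∑ i ∈ Finset.univ \ C, D i ≤ 3 * ((Real.log (1 / t) - 1) * pC S C + t * accS G ^ C.card) + ε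

/-- probabilistic bookkeeping: the strategy as a finite probability space -/
def Spec.COMB : Prop := ∀ (G : Game) (k dA dB : ℕ) (S : Strategy G k dA dB),
  ∃ (Ω : Type) (_ : Fintype Ω) (p : Ω → ℝ) (W : Ω → Finset (Fin k)),
    (∀ ω, 0 ≤ p ω) ∧ ∑ ω, p ω = 1 ∧
    (∀ C, pC S C = ∑ ω, if C ⊆ W ω then p ω else 0) ∧
    (∀ t : ℝ, S.probWinsAtLeast t = ∑ ω, if t ≤ ((W ω).card : ℝ) then p ω else 0)

/-- one step, S0537 -/
def Spec.STEP537 : Prop := ∀ (G : Game) (v κ : ℝ), ValueLE G v → KappaHyp G κ →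
  ∀ (k dA dB : ℕ) (S : Strategy G k dA dB) (C : Finset (Fin k)), C ≠ Finset.univ → 0 < pC S C →
  0 ≤ Real.log ((((G.nA * G.nB : ℕ) : ℝ) * v) ^ C.card / pC S C) ∧
  ∑ i ∈ Finset.univ \ C, pC S (insert i C) ≤ ((k : ℝ) - C.card) * pC S C *
    (v + Real.sqrt (192 * (1 + κ)) *
      Real.sqrt (Real.log ((((G.nA * G.nB : ℕ) : ℝ) * v) ^ C.card / pC S C) / ((k : ℝ) - C.card)))

/-- one step, S0536 -/
def Spec.STEP536 : Prop := ∃ Λ : ℝ, 1 ≤ Λ ∧ ∀ (G : Game) (v : ℝ), ValueLE G v →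
  ∀ (k dA dB : ℕ) (S : Strategy G k dA dB) (C : Finset (Fin k)), C ≠ Finset.univ → 0 < pC S C →
  0 ≤ Real.log ((((G.nA * G.nB : ℕ) : ℝ) * v) ^ C.card / pC S C) ∧
  ∑ i ∈ Finset.univ \ C, pC S (insert i C) ≤ ((k : ℝ) - C.card) * pC S C *
    (v + Λ * (Real.log ((((G.nA * G.nB : ℕ) : ℝ) * v) ^ C.card / pC S C) / ((k : ℝ) - C.card))
      ^ ((1:ℝ)/4))

end Crest.Agent.PR
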