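import Crest.Statements.S0010
import Crest.Agent.H1Steinberg
import Crest.Agent.H1Fields

set_option autoImplicit false
open Crest.NumberTheoryR.MilnorK
open Crest Crest.NumberTheoryR

namespace Crest.Agent.S0010

open Crest.Agent.H1PInsep IntermediateField

universe u v u' v'

theorem bot_iff_equiv {p : ℕ} [Fact p.Prime] {K : Type u} {L : Type u'} [Field K] [Field L]
    [CharP K p] [CharP L p] (β : K ≃+* L) (x : K) :
    β x ∈ (⊥ : IntermediateField (Fr L p) L) ↔ x ∈ (⊥ : IntermediateField (Fr K p) K) := by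
  rw [mem_bot_iff, mem_bot_iff]
  constructor
  · rintro ⟨b, hb⟩
    refine ⟨β.symm b, ?_⟩
    apply β.injective
    rw [map_pow, RingEquiv.apply_symm_apply, hb]
  · rintro ⟨b, hb⟩
    exact ⟨β b, by rw [← map_pow, hb]⟩

theorem unique_aux {p : ℕ} [Fact p.Prime] {K : Type u} {L : Type u'} [Field K] [Field L]
    [CharP K p] [CharP L p] {W : Type v'} [AddCommGroup W] [Module (ZMod p) W] (d : ClData p L W)
    (hbig : ∃ y : K, y ∉ (⊥ : IntermediateField (Fr K p) K)) (α β : K ≃+* L)
    (e : ZMod p) (he : e ≠ 0) (h : ∀ x : K, x ≠ 0 → d.cl (α x) = e • d.cl (β x)) : α = β := by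
  obtain ⟨w, hw⟩ := hbig
  have he1 : e = 1 := by
    have hwb : β w ∉ (⊥ : IntermediateField (Fr L p) L) := by rwa [bot_iff_equiv]
    have hw0 := ne_zero_of_not_bot hw
    have hw1 := add_ne_of_not_bot hw
    apply d.lin_unique hwb he one_ne_zero (η := d.cl (β (1 + w)))
    · refine ⟨α w, by simpa using hw0, ?_, h w hw0, ?_⟩
      · intro h0
        apply hw1
        apply α.injective
        rw [map_add, map_one, h0, map_zero]
      · have := h (1 + w) hw1
        rw [map_add, map_one] at this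
        exact this
    · rw [one_smul, one_smul]
      refine ⟨β w, by simpa using hw0, ?_, rfl, ?_⟩
      · intro h0
        apply hw1
        apply β.injective
        rw [map_add, map_one, h0, map_zero]
      · rw [map_add, map_one]
  subst he1
  have key : ∀ x : K, x ∉ (⊥ : IntermediateField (Fr K p) K) → α x = β x := by
    intro x hx
    have hx0 := ne_zero_of_not_bot hx
    have hx1 := add_ne_of_not_bot hx
    have hxb : β x ∉ (⊥ : IntermediateField (Fr L p) L) := by rwa [bot_iff_equiv]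
    have e1 := h x hx0
    have e2 := h (1 + x) hx1
    rw [one_smul] at e1 e2
    obtain ⟨a, ha, ha'⟩ := (d.eq_iff (by simpa using hx0) (by simpa using hx0)).1 e1.symm
    obtain ⟨b, hb, hb'⟩ := (d.eq_iff ((_root_.map_ne_zero β).2 hx1)
      ((_root_.map_ne_zero α).2 hx1)).1 e2.symm
    rw [map_add, map_add, map_one, map_one, ha'] at hb'
    have := coeff_eq hxb (a := 1) (b := a) (a' := b) (b' := b) (by
      rw [map_one]; linear_combination hb')
    rw [ha', this.2, ← this.1, map_one, one_mul]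
  ext x
  by_cases hx : x ∈ (⊥ : IntermediateField (Fr K p) K)
  · have e1 := key _ (not_bot_add hw hx)
    have e2 := key _ hw
    rw [map_add, map_add, e2] at e1
    exact add_left_cancel e1
  · exact key x hx

theorem map_mem {K : Type u} {L : Type u'} [Field K] [Field L] (k : Subfield K) (l : Subfield L)
    [IsAlgClosed k] [IsAlgClosed l] [Algebra.EssFiniteType l L] (α : K ≃+* L) {t : K} (ht : t ∈ k) :
    α t ∈ l := by
  by_contra hcon
  obtain ⟨q, hq, hq'⟩ := not_divisible l hcon
  obtain ⟨s, hs⟩ := IsAlgClosed.exists_pow_nat_eq (⟨t, ht⟩ : k) hq.pos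
  apply hq' (α (s : K))
  rw [← map_pow]
  congr 1
  have := congrArg (fun z : k => (z : K)) hs
  simpa using this

theorem result {p : ℕ} [Fact p.Prime]
    {K L : Type*} [Field K] [Field L] [CharP K p] [CharP L p] (k : Subfield K) (l : Subfield L)
    [IsAlgClosed k] [IsAlgClosed l]
    (hK : ∃ s : Finset K, Subfield.closure ((k : Set K) ∪ (s : Set K)) = ⊤)
    (hL : ∃ s : Finset L, Subfield.closure ((l : Set L) ∪ (s : Set L)) = ⊤)
    (hK2 : 2 ≤ Algebra.trdeg k K) (hL2 : 2 ≤ Algebra.trdeg l L)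
    (Θ : KOne K p ≃ₗ[ZMod p] KOne L p) (hΘ : IsCompatible Θ) :
    ∃! α : K ≃+* L, k.map α.toRingHom = l ∧
      ∃ c : ZMod p, c ≠ 0 ∧ ∀ u : Kˣ, Θ (cls K p u) = c • cls L p (Units.map α.toRingHom.toMonoidHom u) := by
  have hk : Algebra.EssFiniteType k K := essFinite_of k hK
  have hl : Algebra.EssFiniteType l L := essFinite_of l hL
  have bigK := big (p := p) k hK2
  have bigL := big (p := p) l hL2
  have pres1 : Pres (kdata p K) (kdata p L) Θ := pres_of_compatible Θ (le_of_eq hΘ)
  have pres2 : Pres (kdata p L) (kdata p K) Θ.symm := pres_of_compatible Θ.symm (compatible_symm Θ hΘ)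
  obtain ⟨n, hn, ψ, hψ, h1, h2⟩ := step3 pres1 pres2 bigK bigL
  have G : Good (kdata p K) (kdata p L) ψ := ⟨h1, h2, bigK⟩
  have hcl : ∀ x : K, x ≠ 0 → Θ ((kdata p K).cl x) = n⁻¹ • (kdata p L).cl (G.equiv x) := by
    intro x hx
    rw [G.equiv_cl hx, hψ, smul_smul, inv_mul_cancel₀ hn, one_smul]
  have hcls : ∀ (β : K ≃+* L) (u : Kˣ),
      cls L p (Units.map β.toRingHom.toMonoidHom u) = (kdata p L).cl (β (u : K)) := by
    intro β u
    rw [kdata_cl, kcl_of_ne (by simp)]
    congr 1
    ext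
    rfl
  have hclsK : ∀ (u : Kˣ), cls K p u = (kdata p K).cl (u : K) := by
    intro u
    rw [kdata_cl, kcl_unit]
  refine ⟨G.equiv, ⟨?_, n⁻¹, inv_ne_zero hn, ?_⟩, ?_⟩
  · ext t
    rw [Subfield.mem_map]
    constructor
    · rintro ⟨s, hs, rfl⟩
      exact map_mem k l G.equiv hs
    · intro ht
      refine ⟨G.equiv.symm t, map_mem l k G.equiv.symm ht, ?_⟩
      exact G.equiv.apply_symm_apply t
  · intro u
    rw [hcls, hclsK]
    exact hcl u u.ne_zero
  · rintro β ⟨-, c, hc, hβ⟩
    have hb : ∃ y : K, y ∉ (⊥ : IntermediateField (Fr K p) K) := by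
      obtain ⟨y, hy⟩ := bigK 0
      exact ⟨y, not_mem_bot_of hy⟩
    apply unique_aux (kdata p L) hb β G.equiv (c⁻¹ * n⁻¹) (mul_ne_zero (inv_ne_zero hc)
      (inv_ne_zero hn))
    intro x hx
    have e1 := hβ (Units.mk0 x hx)
    rw [hcls, hclsK] at e1
    simp only [Units.val_mk0] at e1
    rw [mul_smul, ← hcl x hx, e1, smul_smul, inv_mul_cancel₀ hc, one_smul]

end Crest.Agent.S0010
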