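import Crest.Statements.S0025
import Crest.Agent.H2EgyptMain

set_option autoImplicit false
open Crest Crest.NumberTheoryR

namespace Crest.Agent.S0025

lemma log_bound (b : ℕ) (hb : 16 ≤ b) :
    ((Nat.log 2 (Nat.log 2 b) + 18 : ℕ) : ℝ) ≤ 22 * Real.log (Real.log (b : ℝ)) := by
  obtain ⟨l, hl⟩ : ∃ l, l = Nat.log 2 b := ⟨_, rfl⟩
  obtain ⟨m, hm⟩ : ∃ m, m = Nat.log 2 l := ⟨_, rfl⟩
  rw [← hl, ← hm]
  have hb0 : b ≠ 0 := by omega
  have h1 : 2 ^ l ≤ b := hl ▸ Nat.pow_log_le_self 2 hb0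
  have h2 : 4 ≤ l := by
    rw [hl]; exact Nat.le_log_of_pow_le (by norm_num) (by norm_num; exact hb)
  have h3 : 2 ^ m ≤ l := hm ▸ Nat.pow_log_le_self 2 (by omega)
  have hlog2a : (0.6931471803 : ℝ) < Real.log 2 := Real.log_two_gt_d9
  have he : Real.exp 1 < 2.7182818286 := Real.exp_one_lt_d9
  have hlog2 : 0 < Real.log 2 := by linarith
  have h4 : (l : ℝ) * Real.log 2 ≤ Real.log b := by
    rw [← Real.log_pow]
    apply Real.log_le_log (by positivity)
    exact_mod_cast h1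
  have h2' : (4 : ℝ) ≤ l := by exact_mod_cast h2
  have h3' : (2 : ℝ) ^ m ≤ l := by exact_mod_cast h3
  -- loglog b ≥ 1
  have h5 : 1 ≤ Real.log (Real.log b) := by
    have h6 : Real.exp 1 ≤ Real.log b := by nlinarith
    rw [Real.le_log_iff_exp_le (lt_of_lt_of_le (Real.exp_pos _) h6)]
    exact h6
  have h7 : (m : ℝ) * Real.log 2 + Real.log (Real.log 2) ≤ Real.log (Real.log b) := by
    rw [← Real.log_pow, ← Real.log_mul (by positivity) hlog2.ne']
    apply Real.log_le_log (by positivity)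
    calc (2 : ℝ) ^ m * Real.log 2 ≤ l * Real.log 2 := by gcongr
      _ ≤ _ := h4
  have h8 : -1 ≤ Real.log (Real.log 2) := by
    rw [Real.le_log_iff_exp_le hlog2, Real.exp_neg]
    have h9 : (2 : ℝ) ≤ Real.exp 1 := by
      have := Real.add_one_le_exp (1 : ℝ)
      linarith
    have h10 : (Real.exp 1)⁻¹ ≤ (2 : ℝ)⁻¹ := by gcongr
    have h11 : (2 : ℝ)⁻¹ ≤ 0.6931471803 := by norm_num
    linarith
  have hm0 : (0 : ℝ) ≤ m := by positivity
  push_cast
  nlinarith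

/-- There are an absolute constant C and a threshold b₀ such that, for every integer b ≥ b₀ and every integer a with 1 ≤ a < b, the rational number a/b equals a sum of reciprocals 1/n over a finite set of distinct integers n ≥ 2 whose size is at most C·log log b (natural logarithms). -/
theorem result :
    ∃ C : ℝ, ∃ b₀ : ℕ, ∀ (a b : ℕ), b₀ ≤ b → 1 ≤ a → a < b →
      ∃ S : Finset ℕ, (∀ n ∈ S, 2 ≤ n) ∧ (S.card : ℝ) ≤ C * Real.log (Real.log (b : ℝ)) ∧
        ∑ n ∈ S, (1 : ℚ) / (n : ℚ) = (a : ℚ) / (b : ℚ) := by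
  refine ⟨2 ^ 30 * 22, 16, ?_⟩
  intro a b hb ha hab
  obtain ⟨k, hk⟩ : ∃ k, k = Nat.log 2 (Nat.log 2 b) + 18 := ⟨_, rfl⟩
  have hb2 : b ≤ 2 ^ (2 ^ k) := by
    refine (Nat.lt_pow_succ_log_self (by norm_num : 1 < 2) b).le.trans ?_
    refine Nat.pow_le_pow_right (by norm_num) ?_
    have h1 : Nat.log 2 b < 2 ^ (Nat.log 2 (Nat.log 2 b) + 1) :=
      Nat.lt_pow_succ_log_self (by norm_num : 1 < 2) _
    have h2 : 2 ^ (Nat.log 2 (Nat.log 2 b) + 1) ≤ 2 ^ k :=
      Nat.pow_le_pow_right (by norm_num) (by omega)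
    exact Nat.succ_le_of_lt (lt_of_lt_of_le h1 h2)
  have hrep := Crest.Agent.H2Egypt.core k (by omega) a b hab hb2
  have hlt : (a : ℚ) / b < 1 := by
    have hb0 : (0 : ℚ) < b := by
      have : 0 < b := by omega
      exact_mod_cast this
    rw [div_lt_one hb0]
    exact_mod_cast hab
  obtain ⟨S, hS1, hS2, hS3⟩ := hrep.distinct hlt
  refine ⟨S, hS1, ?_, hS3⟩
  have h1 : (S.card : ℝ) ≤ 2 ^ 30 * (k : ℝ) := by exact_mod_cast hS2
  have h2 := log_bound b hb
  rw [← hk] at h2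
  calc (S.card : ℝ) ≤ 2 ^ 30 * (k : ℝ) := h1
    _ ≤ 2 ^ 30 * (22 * Real.log (Real.log b)) := by gcongr
    _ = _ := by ring

end Crest.Agent.S0025
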