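import Crest.Statements.S0066

set_option autoImplicit false
open Crest Crest.CombinatoricsR

namespace Crest.Agent.S0066

/-! ### The pattern -/

/-- The pattern, as a relation on naturals below 66. -/
def HP (i j : ℕ) : Prop :=
  (32 ≤ i ∧ i < 64 ∧ 32 ≤ j ∧ j < 64 ∧ i ≠ j) ∨ (i = 32 ∧ j = 64) ∨ (i = 33 ∧ j = 65) ∨
    (i = 64 ∧ j = 32) ∨ (i = 65 ∧ j = 33) ∨ (i = 65 ∧ j = 65)

instance : DecidableRel HP := fun i j => by unfold HP; infer_instance

/-! ### Descriptors of rows and columns -/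

/-- A row (or column) is a pad, a gadget line or a special line. -/
inductive D : Type
  | pad : D
  | gad (g i : ℕ) : D
  | sp (m k x : ℕ) : D
  deriving DecidableEq

def famG (h g i : ℕ) : ℕ := 100 * h + 33 * g + i
def famS (h m k : ℕ) : ℕ := 384 * h + 2 * k + m

/-- Decoding the family number. -/
def dec (h f x : ℕ) : D :=
  if f < 100 * h then D.pad
  else if f < 384 * h then
    (if (f - 100 * h) / 33 ≤ 6 * h then D.gad ((f - 100 * h) / 33) ((f - 100 * h) % 33) else D.pad)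
  else D.sp ((f - 384 * h) % 2) ((f - 384 * h) / 2) x

def isV (h g : ℕ) : Prop := g = 6 * h ∨ (g < 6 * h ∧ g % 6 < 2)
def isH (h g : ℕ) : Prop := g < 6 * h ∧ 2 ≤ g % 6

def T1 (h g m k : ℕ) : Prop :=
  (g = 6 * h ∧ m = 0 ∧ k = 0) ∨ (g < 6 * h ∧ g % 6 = 0 ∧ m = 1 ∧ k = g / 6) ∨
    (g < 6 * h ∧ g % 6 = 1 ∧ m = 0 ∧ k = g / 6 + 1)

def T2 (h g m k b : ℕ) : Prop :=
  (g = 6 * h ∧ m = 1 ∧ k = 0) ∨ (g < 6 * h ∧ g % 6 = 0 ∧ m = 1 ∧ k = g / 6 + 1) ∨
    (g < 6 * h ∧ g % 6 = 1 ∧ m = 0 ∧ k = g / 6) ∨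
    (g < 6 * h ∧ g % 6 = 2 + b ∧ b < 2 ∧ m = 1 ∧ k = g / 6) ∨
    (g < 6 * h ∧ g % 6 = 4 + b ∧ b < 2 ∧ m = 0 ∧ k = g / 6)

def U1 (h g s k b : ℕ) : Prop :=
  (g < 6 * h ∧ g % 6 = 2 + b ∧ b < 2 ∧ k = g / 6 ∧ ((s = 1 ∧ 1 ≤ k) ∨ (s = 0 ∧ k = 0))) ∨
    (g < 6 * h ∧ 4 ≤ g % 6 ∧ s = 0 ∧ k = g / 6 + 1)

def U2 (h g s k b : ℕ) : Prop :=
  (g = 6 * h ∧ s = 0 ∧ k = 0) ∨ (g < 6 * h ∧ g % 6 = 0 ∧ s = 1 ∧ k = g / 6 + 1) ∨
    (g < 6 * h ∧ g % 6 = 1 ∧ s = 0 ∧ k = g / 6 + 1) ∨
    (g < 6 * h ∧ (g % 6 = 2 ∨ g % 6 = 3) ∧ s = 1 ∧ k = g / 6 + 1) ∨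
    (g < 6 * h ∧ g % 6 = 4 + b ∧ b < 2 ∧ s = 0 ∧ k = g / 6)

def SS (m k x s k' x' : ℕ) : Prop :=
  (k' = k ∨ k' = k + 1) ∧
    ((m = 1 ∧ ((s = 1 ∧ 1 ≤ k') ∨ (s = 0 ∧ k' = 0)) ∧ x / 2 ^ k' ≤ x' / 2 ^ k') ∨
      (m = 0 ∧ s = 0 ∧ x / 2 ^ k' < x' / 2 ^ k'))

/-- The matrix, on descriptors. -/
def MP (h : ℕ) : D → D → Prop
  | .gad g i, .gad g' j =>
      g = g' ∧ ((i < 32 ∧ j < 32 ∧ i ≠ j) ∨ (i = 32 ∧ j = 0 ∧ isH h g) ∨ (i = 0 ∧ j = 32 ∧ isV h g))
  | .gad g i, .sp s k x =>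
      (i = 0 ∧ U1 h g s k (x / 2 ^ k % 2)) ∨ (i = 1 ∧ U2 h g s k (x / 2 ^ k % 2))
  | .sp m k x, .gad g j =>
      (j = 0 ∧ T1 h g m k) ∨ (j = 1 ∧ T2 h g m k (x / 2 ^ k % 2))
  | .sp m k x, .sp s k' x' => SS m k x s k' x'
  | .pad, _ => False
  | _, .pad => False

noncomputable instance (h : ℕ) (a b : D) : Decidable (MP h a b) := Classical.propDecidable _

/-! ### Dyadic lemmas -/

def lft (x k : ℕ) : ℕ := x / 2 ^ k * 2 ^ k
def rgt (x k : ℕ) : ℕ := x / 2 ^ k * 2 ^ k + (2 ^ k - 1)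

lemma div_pow_succ (x k : ℕ) : x / 2 ^ (k + 1) = x / 2 ^ k / 2 := by
  rw [pow_succ, Nat.div_div_eq_div_mul]

lemma lft_div {x k j : ℕ} (hkj : k ≤ j) : lft x k / 2 ^ j = x / 2 ^ j := by
  obtain ⟨t, rfl⟩ := Nat.exists_eq_add_of_le hkj
  unfold lft
  rw [pow_add, ← Nat.div_div_eq_div_mul, ← Nat.div_div_eq_div_mul,
    Nat.mul_div_cancel _ (by positivity)]

lemma rgt_div_self (x k : ℕ) : rgt x k / 2 ^ k = x / 2 ^ k := by
  unfold rgt
  have h2 : 0 < 2 ^ k := by positivity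
  rw [mul_comm, Nat.mul_add_div h2]
  have : (2 ^ k - 1) / 2 ^ k = 0 := Nat.div_eq_of_lt (by omega)
  omega

lemma rgt_div {x k j : ℕ} (hkj : k ≤ j) : rgt x k / 2 ^ j = x / 2 ^ j := by
  obtain ⟨t, rfl⟩ := Nat.exists_eq_add_of_le hkj
  rw [pow_add, ← Nat.div_div_eq_div_mul, ← Nat.div_div_eq_div_mul, rgt_div_self]

lemma rgt_lt {x k h : ℕ} (hx : x < 2 ^ h) (hk : k ≤ h) : rgt x k < 2 ^ h := by
  obtain ⟨t, rfl⟩ := Nat.exists_eq_add_of_le hk
  have h1 : x / 2 ^ k < 2 ^ t := by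
    rw [Nat.div_lt_iff_lt_mul (by positivity)]
    rw [pow_add, mul_comm] at hx
    exact hx
  have h2 : 0 < 2 ^ k := by positivity
  have h3 : (x / 2 ^ k + 1) * 2 ^ k ≤ 2 ^ t * 2 ^ k := Nat.mul_le_mul_right _ h1
  unfold rgt
  rw [pow_add, mul_comm (2 ^ k) (2 ^ t)]
  rw [add_mul, one_mul] at h3
  omega

lemma lft_le_rgt (x k : ℕ) : lft x k ≤ rgt x k := by
  unfold lft rgt; omega

lemma lft_succ_le (x k : ℕ) : lft x (k + 1) ≤ lft x k := by
  unfold lft
  rw [div_pow_succ, pow_succ, ← mul_assoc, mul_right_comm]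
  exact Nat.mul_le_mul_right _ (Nat.div_mul_le_self _ _)

lemma rgt_le_succ (x k : ℕ) : rgt x k ≤ rgt x (k + 1) := by
  unfold rgt
  rw [div_pow_succ]
  have h2 : 0 < 2 ^ k := by positivity
  have h3 : x / 2 ^ k + 1 ≤ x / 2 ^ k / 2 * 2 + 2 := by omega
  have h4 : (x / 2 ^ k + 1) * 2 ^ k ≤ (x / 2 ^ k / 2 * 2 + 2) * 2 ^ k := Nat.mul_le_mul_right _ h3
  have h5 : x / 2 ^ k / 2 * 2 ^ (k + 1) = x / 2 ^ k / 2 * 2 * 2 ^ k := by rw [pow_succ]; ring
  have h6 : 2 ^ (k + 1) = 2 * 2 ^ k := by rw [pow_succ]; ring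
  rw [h5, h6]
  rw [add_mul, one_mul, add_mul] at h4
  omega

def mix (a b k : ℕ) : ℕ := a / 2 ^ k * 2 ^ k + b % 2 ^ k

lemma mix_div (a b k : ℕ) : mix a b k / 2 ^ k = a / 2 ^ k := by
  unfold mix
  have h2 : 0 < 2 ^ k := by positivity
  rw [mul_comm, Nat.mul_add_div h2, Nat.div_eq_of_lt (Nat.mod_lt _ h2), add_zero]

lemma mix_mod (a b k : ℕ) : mix a b k % 2 ^ k = b % 2 ^ k := by
  unfold mix
  rw [mul_comm, Nat.mul_add_mod, Nat.mod_mod]

lemma mix_lt {a b k h : ℕ} (ha : a < 2 ^ h) (hk : k ≤ h) : mix a b k < 2 ^ h := by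
  have h1 := rgt_lt ha hk
  have h2 : b % 2 ^ k < 2 ^ k := Nat.mod_lt _ (by positivity)
  unfold rgt at h1
  unfold mix
  omega

lemma mix_xor_inj {y z z' k : ℕ} (e : mix (y ^^^ z) z k = mix (y ^^^ z') z' k) : z = z' := by
  have h1 : (y ^^^ z) / 2 ^ k = (y ^^^ z') / 2 ^ k := by
    rw [← mix_div (y ^^^ z) z k, e, mix_div]
  have h2 : z % 2 ^ k = z' % 2 ^ k := by rw [← mix_mod (y ^^^ z) z k, e, mix_mod]
  rw [Nat.xor_div_two_pow, Nat.xor_div_two_pow] at h1
  have h3 : z / 2 ^ k = z' / 2 ^ k := Nat.xor_right_injective h1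
  rw [← Nat.div_add_mod z (2 ^ k), ← Nat.div_add_mod z' (2 ^ k), h2, h3]

lemma mix_xor_inj' {y y' z k : ℕ} (e : mix (y ^^^ z) y k = mix (y' ^^^ z) y' k) : y = y' := by
  rw [Nat.xor_comm y z, Nat.xor_comm y' z] at e
  exact mix_xor_inj e


/-! ### Rows and columns with their orders -/

structure Row (h : ℕ) where
  f : Fin (386 * h + 2)
  x : Fin (2 ^ h)

structure Col (h : ℕ) where
  f : Fin (386 * h + 2)
  x : Fin (2 ^ h)

def rowEquiv (h : ℕ) : Row h ≃ Fin (386 * h + 2) × Fin (2 ^ h) where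
  toFun r := (r.f, r.x)
  invFun p := ⟨p.1, p.2⟩
  left_inv _ := rfl
  right_inv _ := rfl

def colEquiv (h : ℕ) : Col h ≃ Fin (386 * h + 2) × Fin (2 ^ h) where
  toFun r := (r.f, r.x)
  invFun p := ⟨p.1, p.2⟩
  left_inv _ := rfl
  right_inv _ := rfl

noncomputable instance (h : ℕ) : Fintype (Row h) := Fintype.ofEquiv _ (rowEquiv h).symm
noncomputable instance (h : ℕ) : Fintype (Col h) := Fintype.ofEquiv _ (colEquiv h).symm

lemma card_row (h : ℕ) : Fintype.card (Row h) = (386 * h + 2) * 2 ^ h := by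
  rw [Fintype.card_congr (rowEquiv h)]; simp

lemma card_col (h : ℕ) : Fintype.card (Col h) = (386 * h + 2) * 2 ^ h := by
  rw [Fintype.card_congr (colEquiv h)]; simp

/-- second component of the order key -/
def key2 (h m k : ℕ) : ℕ := if m = 0 then h - k else h + 1 + k

def rk1 (h f x : ℕ) : ℕ :=
  if f < 384 * h then f
  else 384 * h + (if (f - 384 * h) % 2 = 0 then lft x ((f - 384 * h) / 2) else rgt x ((f - 384 * h) / 2))

def ck1 (h f x : ℕ) : ℕ :=
  if f < 384 * h then f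
  else 384 * h + (2 ^ h - 1 -
    (if (f - 384 * h) % 2 = 0 then rgt x ((f - 384 * h) / 2) else lft x ((f - 384 * h) / 2)))

def k2 (h f : ℕ) : ℕ :=
  if f < 384 * h then 0 else key2 h ((f - 384 * h) % 2) ((f - 384 * h) / 2)

def rkey (h : ℕ) (r : Row h) : ℕ ×ₗ (ℕ ×ₗ ℕ) :=
  toLex (rk1 h r.f r.x, toLex (k2 h r.f, (r.x : ℕ)))

def ckey (h : ℕ) (r : Col h) : ℕ ×ₗ (ℕ ×ₗ ℕ) :=
  toLex (ck1 h r.f r.x, toLex (k2 h r.f, (r.x : ℕ)))

lemma fam_inj {h f f' a a' : ℕ} (hf : f < 386 * h + 2) (hf' : f' < 386 * h + 2)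
    (h1 : (if f < 384 * h then f else 384 * h + a) = (if f' < 384 * h then f' else 384 * h + a'))
    (h2 : k2 h f = k2 h f') : f = f' := by
  unfold k2 key2 at h2
  split_ifs at h1 h2 <;> omega

lemma rkey_inj (h : ℕ) : Function.Injective (rkey h) := by
  rintro ⟨⟨f, hf⟩, ⟨x, hx⟩⟩ ⟨⟨f', hf'⟩, ⟨x', hx'⟩⟩ e
  simp only [rkey, toLex_inj, Prod.mk.injEq] at e
  obtain ⟨e1, e2, e3⟩ := e
  have : f = f' := fam_inj hf hf' e1 e2
  subst this
  subst e3
  rfl

lemma ckey_inj (h : ℕ) : Function.Injective (ckey h) := by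
  rintro ⟨⟨f, hf⟩, ⟨x, hx⟩⟩ ⟨⟨f', hf'⟩, ⟨x', hx'⟩⟩ e
  simp only [ckey, toLex_inj, Prod.mk.injEq] at e
  obtain ⟨e1, e2, e3⟩ := e
  have : f = f' := fam_inj hf hf' e1 e2
  subst this
  subst e3
  rfl

noncomputable instance (h : ℕ) : LinearOrder (Row h) := LinearOrder.lift' (rkey h) (rkey_inj h)
noncomputable instance (h : ℕ) : LinearOrder (Col h) := LinearOrder.lift' (ckey h) (ckey_inj h)

lemma row_lt_iff {h : ℕ} {r r' : Row h} : r < r' ↔ rkey h r < rkey h r' := Iff.rfl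
lemma col_lt_iff {h : ℕ} {r r' : Col h} : r < r' ↔ ckey h r < ckey h r' := Iff.rfl

lemma row_lt_fst {h : ℕ} {r r' : Row h} (hr : r < r') :
    rk1 h r.f r.x ≤ rk1 h r'.f r'.x := by
  rw [row_lt_iff, rkey, rkey, Prod.Lex.toLex_lt_toLex] at hr
  rcases hr with hr | hr
  · exact hr.le
  · exact hr.1.le

lemma col_lt_fst {h : ℕ} {r r' : Col h} (hr : r < r') :
    ck1 h r.f r.x ≤ ck1 h r'.f r'.x := by
  rw [col_lt_iff, ckey, ckey, Prod.Lex.toLex_lt_toLex] at hr
  rcases hr with hr | hr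
  · exact hr.le
  · exact hr.1.le

lemma row_lt_of {h : ℕ} {r r' : Row h} (h1 : rk1 h r.f r.x ≤ rk1 h r'.f r'.x)
    (h2 : rk1 h r.f r.x = rk1 h r'.f r'.x → k2 h r.f < k2 h r'.f) : r < r' := by
  rw [row_lt_iff, rkey, rkey, Prod.Lex.toLex_lt_toLex]
  rcases h1.lt_or_eq with h1 | h1
  · exact Or.inl h1
  · refine Or.inr ⟨h1, ?_⟩
    rw [Prod.Lex.toLex_lt_toLex]
    exact Or.inl (h2 h1)

lemma col_lt_of {h : ℕ} {r r' : Col h} (h1 : ck1 h r.f r.x ≤ ck1 h r'.f r'.x)
    (h2 : ck1 h r.f r.x = ck1 h r'.f r'.x → k2 h r.f < k2 h r'.f) : r < r' := by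
  rw [col_lt_iff, ckey, ckey, Prod.Lex.toLex_lt_toLex]
  rcases h1.lt_or_eq with h1 | h1
  · exact Or.inl h1
  · refine Or.inr ⟨h1, ?_⟩
    rw [Prod.Lex.toLex_lt_toLex]
    exact Or.inl (h2 h1)

/-- the decoded descriptor of a row -/
def Row.d {h : ℕ} (r : Row h) : D := dec h r.f r.x
def Col.d {h : ℕ} (r : Col h) : D := dec h r.f r.x

lemma dec_eq_gad {h f x g i : ℕ} (e : dec h f x = D.gad g i) :
    100 * h ≤ f ∧ f < 384 * h ∧ f = 100 * h + 33 * g + i ∧ i < 33 ∧ g ≤ 6 * h := by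
  unfold dec at e
  split_ifs at e
  injection e with e1 e2
  omega

lemma dec_eq_sp {h f x m k y : ℕ} (e : dec h f x = D.sp m k y) :
    384 * h ≤ f ∧ f = 384 * h + 2 * k + m ∧ m < 2 ∧ y = x ∧ (f - 384 * h) % 2 = m ∧
      (f - 384 * h) / 2 = k := by
  unfold dec at e
  split_ifs at e
  injection e with e1 e2 e3
  omega

lemma row_sp_order {h : ℕ} {r r' : Row h} (hr : r < r') {m k x m' k' x' : ℕ}
    (e : r.d = D.sp m k x) (e' : r'.d = D.sp m' k' x') {j : ℕ} (hk : k ≤ j) (hk' : k' ≤ j) :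
    x / 2 ^ j ≤ x' / 2 ^ j := by
  have h1 := row_lt_fst hr
  obtain ⟨a1, a2, a3, a4, a5, a6⟩ := dec_eq_sp e
  obtain ⟨b1, b2, b3, b4, b5, b6⟩ := dec_eq_sp e'
  unfold rk1 at h1
  rw [if_neg (show ¬ (r.f : ℕ) < 384 * h by omega), if_neg (show ¬ (r'.f : ℕ) < 384 * h by omega),
    a5, a6, b5, b6] at h1
  have key : ∀ (m k x : ℕ), k ≤ j → (if m = 0 then lft x k else rgt x k) / 2 ^ j = x / 2 ^ j := by
    intro m k x hk
    split_ifs
    · exact lft_div hk
    · exact rgt_div hk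
  have h2 := Nat.div_le_div_right (c := 2 ^ j) (Nat.le_of_add_le_add_left h1)
  rw [key _ _ _ hk, key _ _ _ hk'] at h2
  rw [a4, b4]
  exact h2

lemma col_sp_order {h : ℕ} {r r' : Col h} (hr : r < r') {m k x m' k' x' : ℕ}
    (e : r.d = D.sp m k x) (e' : r'.d = D.sp m' k' x') {j : ℕ} (hk : k ≤ j) (hk' : k' ≤ j) :
    x' / 2 ^ j ≤ x / 2 ^ j := by
  have h1 := col_lt_fst hr
  obtain ⟨a1, a2, a3, a4, a5, a6⟩ := dec_eq_sp e
  obtain ⟨b1, b2, b3, b4, b5, b6⟩ := dec_eq_sp e'
  unfold ck1 at h1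
  rw [if_neg (show ¬ (r.f : ℕ) < 384 * h by omega), if_neg (show ¬ (r'.f : ℕ) < 384 * h by omega),
    a5, a6, b5, b6] at h1
  have key : ∀ (m k x : ℕ), k ≤ j → (if m = 0 then rgt x k else lft x k) / 2 ^ j = x / 2 ^ j := by
    intro m k x hk
    split_ifs
    · exact rgt_div hk
    · exact lft_div hk
  have bd : ∀ (m k x : ℕ), x < 2 ^ h → k ≤ h → (if m = 0 then rgt x k else lft x k) < 2 ^ h := by
    intro m k x hx hk
    have := rgt_lt hx hk
    have := lft_le_rgt x k
    split_ifs <;> omega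
  have hf := r.f.2
  have hf' := r'.f.2
  have c1 := bd m k r.x r.x.2 (by omega)
  have c2 := bd m' k' r'.x r'.x.2 (by omega)
  have h3 : (if m' = 0 then rgt (r'.x : ℕ) k' else lft (r'.x : ℕ) k') ≤
      (if m = 0 then rgt (r.x : ℕ) k else lft (r.x : ℕ) k) := by omega
  have h2 := Nat.div_le_div_right (c := 2 ^ j) h3
  rw [key _ _ _ hk, key _ _ _ hk'] at h2
  rw [a4, b4]
  exact h2

lemma row_gad_order {h : ℕ} {r r' : Row h} (hr : r < r') {g i i' : ℕ}
    (e : r.d = D.gad g i) (e' : r'.d = D.gad g i') : i ≤ i' := by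
  have h1 := row_lt_fst hr
  have a := dec_eq_gad e
  have b := dec_eq_gad e'
  unfold rk1 at h1
  rw [if_pos (by omega), if_pos (by omega)] at h1
  omega

lemma col_gad_order {h : ℕ} {r r' : Col h} (hr : r < r') {g i i' : ℕ}
    (e : r.d = D.gad g i) (e' : r'.d = D.gad g i') : i ≤ i' := by
  have h1 := col_lt_fst hr
  have a := dec_eq_gad e
  have b := dec_eq_gad e'
  unfold ck1 at h1
  rw [if_pos (by omega), if_pos (by omega)] at h1
  omega

/-! ### Types -/

/-- The type of a line: forget the index except for its last relevant bit. -/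
def ty : D → D
  | .pad => .pad
  | .gad g i => .gad g i
  | .sp m k x => .sp m k (x / 2 ^ k % 2)

lemma claimV {h : ℕ} {r r' : Row h} (hr : r < r') (ht : ty r.d = ty r'.d) (c : D)
    (h1 : ¬ MP h r.d c) (h2 : MP h r'.d c) : False := by
  rcases e : r.d with _ | ⟨g, i⟩ | ⟨m, k, x⟩ <;> rcases e' : r'.d with _ | ⟨g', i'⟩ | ⟨m', k', x'⟩ <;>
    rw [e, e'] at ht <;> simp only [ty, reduceCtorEq, D.gad.injEq, D.sp.injEq] at ht
  · rw [e] at h1; rw [e'] at h2; exact h1 h2
  · rw [e] at h1; rw [e'] at h2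
    obtain ⟨rfl, rfl⟩ := ht
    exact h1 h2
  · rw [e] at h1; rw [e'] at h2
    obtain ⟨rfl, rfl, ht⟩ := ht
    rcases c with _ | ⟨g, i⟩ | ⟨s, k', y⟩
    · exact h2
    · simp only [MP, ht] at h1 h2
      exact h1 h2
    · simp only [MP, SS] at h1 h2
      obtain ⟨h3, h4⟩ := h2
      apply h1
      refine ⟨h3, ?_⟩
      have ho := row_sp_order hr e e' (j := k') (by omega) (by omega)
      rcases h4 with ⟨u1, u2, u3⟩ | ⟨u1, u2, u3⟩
      · exact Or.inl ⟨u1, u2, ho.trans u3⟩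
      · exact Or.inr ⟨u1, u2, lt_of_le_of_lt ho u3⟩

lemma claimH {h : ℕ} {c c' : Col h} (hr : c < c') (ht : ty c.d = ty c'.d) (r : D)
    (h1 : ¬ MP h r c.d) (h2 : MP h r c'.d) : False := by
  rcases e : c.d with _ | ⟨g, i⟩ | ⟨m, k, x⟩ <;> rcases e' : c'.d with _ | ⟨g', i'⟩ | ⟨m', k', x'⟩ <;>
    rw [e, e'] at ht <;> simp only [ty, reduceCtorEq, D.gad.injEq, D.sp.injEq] at ht
  · rw [e] at h1; rw [e'] at h2; exact h1 h2
  · rw [e] at h1; rw [e'] at h2
    obtain ⟨rfl, rfl⟩ := ht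
    exact h1 h2
  · rw [e] at h1; rw [e'] at h2
    obtain ⟨rfl, rfl, ht⟩ := ht
    rcases r with _ | ⟨g, i⟩ | ⟨s, k', y⟩
    · exact h2
    · simp only [MP, ht] at h1 h2
      exact h1 h2
    · simp only [MP, SS] at h1 h2
      obtain ⟨h3, h4⟩ := h2
      apply h1
      refine ⟨h3, ?_⟩
      have ho := col_sp_order hr e e' (j := k) le_rfl le_rfl
      rcases h4 with ⟨u1, u2, u3⟩ | ⟨u1, u2, u3⟩
      · exact Or.inl ⟨u1, u2, u3.trans ho⟩
      · exact Or.inr ⟨u1, u2, lt_of_lt_of_le u3 ho⟩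


/-! ### Codes and pigeonhole -/

def code (h : ℕ) : D → ℕ
  | .pad => 0
  | .gad g _ => if g = 6 * h then 12 else g % 12
  | .sp m k x => 13 + m * 4 + (k % 2) * 2 + (x / 2 ^ k % 2)

lemma code_lt_row {h : ℕ} (r : Row h) : code h r.d < 21 := by
  rcases e : r.d with _ | ⟨g, i⟩ | ⟨m, k, x⟩
  · simp [code]
  · simp only [code]; split_ifs <;> omega
  · have := dec_eq_sp e
    simp only [code]
    generalize x / 2 ^ k = y
    omega

lemma code_lt_col {h : ℕ} (r : Col h) : code h r.d < 21 := by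
  rcases e : r.d with _ | ⟨g, i⟩ | ⟨m, k, x⟩
  · simp [code]
  · simp only [code]; split_ifs <;> omega
  · have := dec_eq_sp e
    simp only [code]
    generalize x / 2 ^ k = y
    omega

lemma sp_row_code {h m k x : ℕ} (c c' : Col h) (h1 : MP h (.sp m k x) c.d)
    (h2 : MP h (.sp m k x) c'.d) (hcode : code h c.d = code h c'.d) : ty c.d = ty c'.d := by
  rcases e : c.d with _ | ⟨g, i⟩ | ⟨s, k1, y⟩ <;> rcases e' : c'.d with _ | ⟨g', i'⟩ | ⟨s', k1', y'⟩ <;>
    rw [e] at h1 hcode <;> rw [e'] at h2 hcode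
  · exact h1.elim
  · exact h1.elim
  · exact h2.elim
  · simp only [MP, T1, T2, code] at h1 h2 hcode
    simp only [ty, D.gad.injEq]
    generalize x / 2 ^ k % 2 = b at *
    split_ifs at hcode <;> omega
  · simp only [code] at hcode
    exfalso
    generalize y' / 2 ^ k1' % 2 = b at *
    split_ifs at hcode <;> omega
  · exact h2.elim
  · simp only [code] at hcode
    exfalso
    generalize y / 2 ^ k1 % 2 = b at *
    split_ifs at hcode <;> omega
  · have a := dec_eq_sp e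
    have a' := dec_eq_sp e'
    simp only [MP, SS, code] at h1 h2 hcode
    simp only [ty, D.sp.injEq]
    have b1 : k1 % 2 = k1' % 2 ∧ s = s' ∧ y / 2 ^ k1 % 2 = y' / 2 ^ k1' % 2 := by
      generalize y / 2 ^ k1 = u at *
      generalize y' / 2 ^ k1' = u' at *
      omega
    refine ⟨b1.2.1, ?_, b1.2.2⟩
    have := h1.1
    have := h2.1
    omega

lemma sp_col_code {h s k x : ℕ} (r r' : Row h) (h1 : MP h r.d (.sp s k x))
    (h2 : MP h r'.d (.sp s k x)) (hcode : code h r.d = code h r'.d) : ty r.d = ty r'.d := by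
  rcases e : r.d with _ | ⟨g, i⟩ | ⟨m, k1, y⟩ <;> rcases e' : r'.d with _ | ⟨g', i'⟩ | ⟨m', k1', y'⟩ <;>
    rw [e] at h1 hcode <;> rw [e'] at h2 hcode
  · exact h1.elim
  · exact h1.elim
  · exact h2.elim
  · simp only [MP, U1, U2, code] at h1 h2 hcode
    simp only [ty, D.gad.injEq]
    generalize x / 2 ^ k % 2 = b at *
    split_ifs at hcode <;> omega
  · simp only [code] at hcode
    exfalso
    generalize y' / 2 ^ k1' % 2 = b at *
    split_ifs at hcode <;> omega
  · exact h2.elim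
  · simp only [code] at hcode
    exfalso
    generalize y / 2 ^ k1 % 2 = b at *
    split_ifs at hcode <;> omega
  · have a := dec_eq_sp e
    have a' := dec_eq_sp e'
    simp only [MP, SS, code] at h1 h2 hcode
    simp only [ty, D.sp.injEq]
    have b1 : k1 % 2 = k1' % 2 ∧ m = m' ∧ y / 2 ^ k1 % 2 = y' / 2 ^ k1' % 2 := by
      generalize y / 2 ^ k1 = u at *
      generalize y' / 2 ^ k1' = u' at *
      omega
    refine ⟨b1.2.1, ?_, b1.2.2⟩
    have := h1.1
    have := h2.1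
    omega

lemma HP_core {i j : ℕ} (hi : 32 ≤ i ∧ i < 64) (hj : 32 ≤ j ∧ j < 64) : HP i j ↔ i ≠ j := by
  unfold HP; omega

def core : Finset (Fin 66) := Finset.univ.filter (fun i => 32 ≤ i.val ∧ i.val < 64)

lemma card_core (i : Fin 66) (hi : 32 ≤ i.val ∧ i.val < 64) : (core.erase i).card = 31 := by
  rw [Finset.card_erase_of_mem (by simp [core, hi])]
  have : core.card = 32 := by decide
  omega

lemma mem_core_erase {i j : Fin 66} : j ∈ core.erase i ↔ j ≠ i ∧ 32 ≤ j.val ∧ j.val < 64 := by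
  simp [core]

section soundness

variable {h : ℕ} (r : Fin 66 → Row h) (c : Fin 66 → Col h) (hr : StrictMono r) (hc : StrictMono c)
  (hM : ∀ i j : Fin 66, MP h (r i).d (c j).d ↔ HP i j)

include hr hM in
lemma row_ty_ne {i i' : Fin 66} (hi : 32 ≤ i.val ∧ i.val < 64) (hi' : 32 ≤ i'.val ∧ i'.val < 64)
    (hlt : i < i') : ty (r i).d ≠ ty (r i').d := by
  intro e
  have h1 : (i : ℕ) < i' := hlt
  refine claimV (hr hlt) e (c i).d ?_ ?_
  · rw [hM, HP_core hi hi]; simp
  · rw [hM, HP_core hi' hi]; omega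

include hc hM in
lemma col_ty_ne {i i' : Fin 66} (hi : 32 ≤ i.val ∧ i.val < 64) (hi' : 32 ≤ i'.val ∧ i'.val < 64)
    (hlt : i < i') : ty (c i).d ≠ ty (c i').d := by
  intro e
  have h1 : (i : ℕ) < i' := hlt
  refine claimH (hc hlt) e (r i).d ?_ ?_
  · rw [hM, HP_core hi hi]; simp
  · rw [hM, HP_core hi hi']; omega

include hr hM in
lemma row_ty_ne' {i i' : Fin 66} (hi : 32 ≤ i.val ∧ i.val < 64) (hi' : 32 ≤ i'.val ∧ i'.val < 64)
    (hne : i ≠ i') : ty (r i).d ≠ ty (r i').d := by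
  rcases lt_or_gt_of_ne hne with hlt | hlt
  · exact row_ty_ne r c hr hM hi hi' hlt
  · exact (row_ty_ne r c hr hM hi' hi hlt).symm

include hc hM in
lemma col_ty_ne' {i i' : Fin 66} (hi : 32 ≤ i.val ∧ i.val < 64) (hi' : 32 ≤ i'.val ∧ i'.val < 64)
    (hne : i ≠ i') : ty (c i).d ≠ ty (c i').d := by
  rcases lt_or_gt_of_ne hne with hlt | hlt
  · exact col_ty_ne r c hc hM hi hi' hlt
  · exact (col_ty_ne r c hc hM hi' hi hlt).symm

include hc hM in
lemma row_gad {i : Fin 66} (hi : 32 ≤ i.val ∧ i.val < 64) : ∃ g a, (r i).d = D.gad g a := by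
  rcases e : (r i).d with _ | ⟨g, a⟩ | ⟨m, k, x⟩
  · exfalso
    have hne : ∃ j ∈ core.erase i, True := by
      have : (core.erase i).Nonempty := by
        rw [← Finset.card_pos, card_core i hi]; norm_num
      obtain ⟨j, hj⟩ := this
      exact ⟨j, hj, trivial⟩
    obtain ⟨j, hj, -⟩ := hne
    rw [mem_core_erase] at hj
    have := (hM i j).2 ((HP_core hi hj.2).2 (fun e => hj.1 (Fin.ext e.symm)))
    rw [e] at this
    exact this
  · exact ⟨g, a, rfl⟩
  · exfalso
    obtain ⟨j, hj, j', hj', hne, he⟩ := Finset.exists_ne_map_eq_of_card_lt_of_maps_to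
      (s := core.erase i) (t := Finset.range 21) (f := fun j => code h (c j).d)
      (by rw [card_core i hi]; simp) (fun j _ => by simpa using code_lt_col (c j))
    rw [mem_core_erase] at hj hj'
    have h1 := (hM i j).2 ((HP_core hi hj.2).2 (fun e => hj.1 (Fin.ext e.symm)))
    have h2 := (hM i j').2 ((HP_core hi hj'.2).2 (fun e => hj'.1 (Fin.ext e.symm)))
    rw [e] at h1 h2
    exact col_ty_ne' r c hc hM hj.2 hj'.2 hne (sp_row_code _ _ h1 h2 he)

include hr hM in
lemma col_gad {i : Fin 66} (hi : 32 ≤ i.val ∧ i.val < 64) : ∃ g a, (c i).d = D.gad g a := by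
  rcases e : (c i).d with _ | ⟨g, a⟩ | ⟨m, k, x⟩
  · exfalso
    have hne : ∃ j ∈ core.erase i, True := by
      have : (core.erase i).Nonempty := by
        rw [← Finset.card_pos, card_core i hi]; norm_num
      obtain ⟨j, hj⟩ := this
      exact ⟨j, hj, trivial⟩
    obtain ⟨j, hj, -⟩ := hne
    rw [mem_core_erase] at hj
    have := (hM j i).2 ((HP_core hj.2 hi).2 (fun e => hj.1 (Fin.ext e)))
    rw [e] at this
    rcases e' : (r j).d with _ | ⟨g, a⟩ | ⟨m, k, x⟩ <;> rw [e'] at this <;> exact this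
  · exact ⟨g, a, rfl⟩
  · exfalso
    obtain ⟨j, hj, j', hj', hne, he⟩ := Finset.exists_ne_map_eq_of_card_lt_of_maps_to
      (s := core.erase i) (t := Finset.range 21) (f := fun j => code h (r j).d)
      (by rw [card_core i hi]; simp) (fun j _ => by simpa using code_lt_row (r j))
    rw [mem_core_erase] at hj hj'
    have h1 := (hM j i).2 ((HP_core hj.2 hi).2 (fun e => hj.1 (Fin.ext e)))
    have h2 := (hM j' i).2 ((HP_core hj'.2 hi).2 (fun e => hj'.1 (Fin.ext e)))
    rw [e] at h1 h2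
    exact row_ty_ne' r c hr hM hj.2 hj'.2 hne (sp_col_code _ _ h1 h2 he)


include hr hc hM in
lemma same_gadget : ∃ g, (∀ i : Fin 66, 32 ≤ i.val ∧ i.val < 64 → ∃ a, (r i).d = D.gad g a) ∧
    (∀ i : Fin 66, 32 ≤ i.val ∧ i.val < 64 → ∃ a, (c i).d = D.gad g a) := by
  have key : ∀ i j : Fin 66, (32 ≤ i.val ∧ i.val < 64) → (32 ≤ j.val ∧ j.val < 64) → i.val ≠ j.val →
      ∀ g a g' a', (r i).d = D.gad g a → (c j).d = D.gad g' a' → g = g' := by
    intro i j hi hj hne g a g' a' e e'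
    have h1 := (hM i j).2 ((HP_core hi hj).2 hne)
    rw [e, e'] at h1
    exact h1.1
  obtain ⟨g, a, e⟩ := row_gad r c hc hM (i := ⟨32, by norm_num⟩) ⟨le_rfl, by norm_num⟩
  have hcol : ∀ j : Fin 66, (32 ≤ j.val ∧ j.val < 64) → j.val ≠ 32 → ∃ a, (c j).d = D.gad g a := by
    intro j hj hne
    obtain ⟨g', a', e'⟩ := col_gad r c hr hM hj
    have := key ⟨32, by norm_num⟩ j ⟨le_rfl, by norm_num⟩ hj (Ne.symm hne) g a g' a' e e'
    subst this
    exact ⟨a', e'⟩
  have hrow : ∀ i : Fin 66, (32 ≤ i.val ∧ i.val < 64) → ∃ a, (r i).d = D.gad g a := by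
    intro i hi
    obtain ⟨g', a', e'⟩ := row_gad r c hc hM hi
    by_cases h33 : i.val = 33
    · obtain ⟨b, eb⟩ := hcol ⟨34, by norm_num⟩ ⟨by norm_num, by norm_num⟩ (by norm_num)
      have := key i ⟨34, by norm_num⟩ hi ⟨by norm_num, by norm_num⟩ (by simp [h33]) g' a' g b e' eb
      subst this
      exact ⟨a', e'⟩
    · obtain ⟨b, eb⟩ := hcol ⟨33, by norm_num⟩ ⟨by norm_num, by norm_num⟩ (by norm_num)
      have := key i ⟨33, by norm_num⟩ hi ⟨by norm_num, by norm_num⟩ (by simpa using h33) g' a' g b e' eb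
      subst this
      exact ⟨a', e'⟩
  refine ⟨g, hrow, ?_⟩
  intro j hj
  by_cases h32 : j.val = 32
  · obtain ⟨g', a', e'⟩ := col_gad r c hr hM hj
    obtain ⟨b, eb⟩ := hrow ⟨33, by norm_num⟩ ⟨by norm_num, by norm_num⟩
    have := key ⟨33, by norm_num⟩ j ⟨by norm_num, by norm_num⟩ hj (by simp [h32]) g b g' a' eb e'
    subst this
    exact ⟨a', e'⟩
  · exact hcol j hj h32

lemma mono_bound (K : Fin 32 → ℕ) (hK : ∀ s t : Fin 32, s < t → K s < K t) :
    ∀ (d : ℕ) (s t : Fin 32), t.val = s.val + d → K s + d ≤ K t := by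
  intro d
  induction d with
  | zero => intro s t hst; have : s = t := Fin.ext (by omega); subst this; omega
  | succ d ih =>
    intro s t hst
    have h1 := ih s ⟨s.val + d, by omega⟩ rfl
    have h2 := hK ⟨s.val + d, by omega⟩ t (by rw [Fin.lt_def]; simp only; omega)
    omega

lemma mono_id (K : Fin 32 → ℕ) (hK : ∀ s t : Fin 32, s < t → K s < K t) (hb : ∀ t, K t < 32)
    (t : Fin 32) : K t = t.val := by
  have h1 := mono_bound K hK t.val ⟨0, by norm_num⟩ t (by simp)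
  have h2 := mono_bound K hK (31 - t.val) t ⟨31, by norm_num⟩ (by simp only; omega)
  have h3 := hb ⟨31, by norm_num⟩
  omega

include hr hc hM in
lemma aligned : ∃ g, (∀ i : Fin 66, 32 ≤ i.val ∧ i.val < 64 → (r i).d = D.gad g (i.val - 32)) ∧
    (∀ i : Fin 66, 32 ≤ i.val ∧ i.val < 64 → (c i).d = D.gad g (i.val - 32)) := by
  obtain ⟨g, hR, hC⟩ := same_gadget r c hr hc hM
  refine ⟨g, ?_, ?_⟩
  · have h1 : ∀ t : Fin 32, ∃ a, (r ⟨32 + t.val, by omega⟩).d = D.gad g a :=
      fun t => hR _ ⟨by simp only; omega, by simp only; omega⟩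
    choose K hK using h1
    have hmono : ∀ s t : Fin 32, s < t → K s < K t := by
      intro s t hst
      have hst' : s.val < t.val := hst
      have hlt : (⟨32 + s.val, by omega⟩ : Fin 66) < ⟨32 + t.val, by omega⟩ := by
        rw [Fin.lt_def]; simp only; omega
      have h2 := row_gad_order (hr hlt) (hK s) (hK t)
      have h3 := row_ty_ne r c hr hM (i := ⟨32 + s.val, by omega⟩) (i' := ⟨32 + t.val, by omega⟩)
        ⟨by simp only; omega, by simp only; omega⟩ ⟨by simp only; omega, by simp only; omega⟩ hlt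
      rw [hK s, hK t] at h3
      rcases h2.lt_or_eq with h4 | h4
      · exact h4
      · rw [h4] at h3; exact absurd rfl h3
    have hb : ∀ t, K t < 32 := by
      intro t
      have h2 := dec_eq_gad (hK t)
      by_contra hcon
      have h3 : K t = 32 := by omega
      have hcard := card_core ⟨32 + t.val, by omega⟩ ⟨by simp only; omega, by simp only; omega⟩
      obtain ⟨j, hj, j', hj', hne⟩ := Finset.one_lt_card.1 (by rw [hcard]; norm_num)
      rw [mem_core_erase] at hj hj'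
      have aux : ∀ j : Fin 66, j ≠ ⟨32 + t.val, by omega⟩ ∧ 32 ≤ j.val ∧ j.val < 64 →
          (c j).d = D.gad g 0 := by
        intro j hj
        obtain ⟨b, eb⟩ := hC j hj.2
        have h4 := (hM ⟨32 + t.val, by omega⟩ j).2 ((HP_core ⟨by simp only; omega, by simp only; omega⟩
          hj.2).2 (fun e => hj.1 (Fin.ext e.symm)))
        rw [hK t, eb, h3] at h4
        obtain ⟨-, h5⟩ := h4
        rw [eb]
        have : b = 0 := by omega
        rw [this]
      exact col_ty_ne' r c hc hM hj.2 hj'.2 hne (by rw [aux j hj, aux j' hj'])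
    intro i hi
    have h2 := hK ⟨i.val - 32, by omega⟩
    rw [mono_id K hmono hb] at h2
    have h3 : (⟨32 + (i.val - 32), by omega⟩ : Fin 66) = i := Fin.ext (by simp only; omega)
    simp only [h3] at h2
    exact h2
  · have h1 : ∀ t : Fin 32, ∃ a, (c ⟨32 + t.val, by omega⟩).d = D.gad g a :=
      fun t => hC _ ⟨by simp only; omega, by simp only; omega⟩
    choose K hK using h1
    have hmono : ∀ s t : Fin 32, s < t → K s < K t := by
      intro s t hst
      have hst' : s.val < t.val := hst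
      have hlt : (⟨32 + s.val, by omega⟩ : Fin 66) < ⟨32 + t.val, by omega⟩ := by
        rw [Fin.lt_def]; simp only; omega
      have h2 := col_gad_order (hc hlt) (hK s) (hK t)
      have h3 := col_ty_ne r c hc hM (i := ⟨32 + s.val, by omega⟩) (i' := ⟨32 + t.val, by omega⟩)
        ⟨by simp only; omega, by simp only; omega⟩ ⟨by simp only; omega, by simp only; omega⟩ hlt
      rw [hK s, hK t] at h3
      rcases h2.lt_or_eq with h4 | h4
      · exact h4
      · rw [h4] at h3; exact absurd rfl h3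
    have hb : ∀ t, K t < 32 := by
      intro t
      have h2 := dec_eq_gad (hK t)
      by_contra hcon
      have h3 : K t = 32 := by omega
      have hcard := card_core ⟨32 + t.val, by omega⟩ ⟨by simp only; omega, by simp only; omega⟩
      obtain ⟨j, hj, j', hj', hne⟩ := Finset.one_lt_card.1 (by rw [hcard]; norm_num)
      rw [mem_core_erase] at hj hj'
      have aux : ∀ j : Fin 66, j ≠ ⟨32 + t.val, by omega⟩ ∧ 32 ≤ j.val ∧ j.val < 64 →
          (r j).d = D.gad g 0 := by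
        intro j hj
        obtain ⟨b, eb⟩ := hR j hj.2
        have h4 := (hM j ⟨32 + t.val, by omega⟩).2 ((HP_core hj.2 ⟨by simp only; omega, by simp only; omega⟩
          ).2 (fun e => hj.1 (Fin.ext e)))
        rw [hK t, eb, h3] at h4
        obtain ⟨-, h5⟩ := h4
        rw [eb]
        have : b = 0 := by omega
        rw [this]
      exact row_ty_ne' r c hr hM hj.2 hj'.2 hne (by rw [aux j hj, aux j' hj'])
    intro i hi
    have h2 := hK ⟨i.val - 32, by omega⟩
    rw [mono_id K hmono hb] at h2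
    have h3 : (⟨32 + (i.val - 32), by omega⟩ : Fin 66) = i := Fin.ext (by simp only; omega)
    simp only [h3] at h2
    exact h2

include hr hc hM in
lemma extras : ∃ g, (∃ m k x, (r 65).d = D.sp m k x ∧ T2 h g m k (x / 2 ^ k % 2)) ∧
    (∃ s k x, (c 65).d = D.sp s k x ∧ U2 h g s k (x / 2 ^ k % 2)) ∧
    ((∃ m k x, (r 64).d = D.sp m k x ∧ T1 h g m k) ∨ isH h g) ∧
    ((∃ s k x, (c 64).d = D.sp s k x ∧ U1 h g s k (x / 2 ^ k % 2)) ∨ isV h g) := by
  obtain ⟨g, hR, hC⟩ := aligned r c hr hc hM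
  have hc0 := hC ⟨32, by norm_num⟩ ⟨by norm_num, by norm_num⟩
  have hc1 := hC ⟨33, by norm_num⟩ ⟨by norm_num, by norm_num⟩
  have hc2 := hC ⟨34, by norm_num⟩ ⟨by norm_num, by norm_num⟩
  have hr0 := hR ⟨32, by norm_num⟩ ⟨by norm_num, by norm_num⟩
  have hr1 := hR ⟨33, by norm_num⟩ ⟨by norm_num, by norm_num⟩
  have hr2 := hR ⟨34, by norm_num⟩ ⟨by norm_num, by norm_num⟩
  norm_num at hc0 hc1 hc2 hr0 hr1 hr2
  refine ⟨g, ?_, ?_, ?_, ?_⟩
  · have a0 : ¬ MP h (r 65).d (D.gad g 0) := by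
      rw [← hc0, hM]; unfold HP; simp
    have a1 : MP h (r 65).d (D.gad g 1) := by
      rw [← hc1, hM]; unfold HP; simp
    have a2 : ¬ MP h (r 65).d (D.gad g 2) := by
      rw [← hc2, hM]; unfold HP; simp
    rcases e : (r 65).d with _ | ⟨g', i⟩ | ⟨m, k, x⟩ <;> rw [e] at a0 a1 a2
    · exact a1.elim
    · exfalso
      simp only [MP] at a0 a1 a2
      omega
    · simp only [MP] at a1
      refine ⟨m, k, x, rfl, ?_⟩
      rcases a1 with a1 | a1
      · omega
      · exact a1.2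
  · have a0 : ¬ MP h (D.gad g 0) (c 65).d := by
      rw [← hr0, hM]; unfold HP; simp
    have a1 : MP h (D.gad g 1) (c 65).d := by
      rw [← hr1, hM]; unfold HP; simp
    have a2 : ¬ MP h (D.gad g 2) (c 65).d := by
      rw [← hr2, hM]; unfold HP; simp
    rcases e : (c 65).d with _ | ⟨g', i⟩ | ⟨m, k, x⟩ <;> rw [e] at a0 a1 a2
    · exact a1.elim
    · exfalso
      simp only [MP] at a0 a1 a2
      omega
    · simp only [MP] at a1
      refine ⟨m, k, x, rfl, ?_⟩
      rcases a1 with a1 | a1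
      · omega
      · exact a1.2
  · have a0 : MP h (r 64).d (D.gad g 0) := by
      rw [← hc0, hM]; unfold HP; simp
    have a1 : ¬ MP h (r 64).d (D.gad g 1) := by
      rw [← hc1, hM]; unfold HP; simp
    have a2 : ¬ MP h (r 64).d (D.gad g 2) := by
      rw [← hc2, hM]; unfold HP; simp
    rcases e : (r 64).d with _ | ⟨g', i⟩ | ⟨m, k, x⟩ <;> rw [e] at a0 a1 a2
    · exact a0.elim
    · right
      simp only [MP] at a0 a1 a2
      obtain ⟨rfl, a0⟩ := a0
      rcases a0 with a0 | a0 | a0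
      · omega
      · exact a0.2.2
      · omega
    · simp only [MP] at a0
      left
      refine ⟨m, k, x, rfl, ?_⟩
      rcases a0 with a0 | a0
      · exact a0.2
      · omega
  · have a0 : MP h (D.gad g 0) (c 64).d := by
      rw [← hr0, hM]; unfold HP; simp
    have a1 : ¬ MP h (D.gad g 1) (c 64).d := by
      rw [← hr1, hM]; unfold HP; simp
    have a2 : ¬ MP h (D.gad g 2) (c 64).d := by
      rw [← hr2, hM]; unfold HP; simp
    rcases e : (c 64).d with _ | ⟨g', i⟩ | ⟨m, k, x⟩ <;> rw [e] at a0 a1 a2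
    · exact a0.elim
    · right
      simp only [MP] at a0 a1 a2
      obtain ⟨rfl, a0⟩ := a0
      rcases a0 with a0 | a0 | a0
      · omega
      · omega
      · exact a0.2.2
    · simp only [MP] at a0
      left
      refine ⟨m, k, x, rfl, ?_⟩
      rcases a0 with a0 | a0
      · exact a0.2
      · omega

include hr hc hM in
theorem sound : ∃ x, (r 65).d = D.sp 1 0 x ∧ (c 65).d = D.sp 0 0 x := by
  obtain ⟨g, ⟨m2, k2, x2, e2, t2⟩, ⟨s2, l2, y2, f2, u2⟩, h3, h4⟩ := extras r c hr hc hM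
  have q11 : MP h (r 65).d (c 65).d := by rw [hM]; unfold HP; simp
  have q01 : ¬ MP h (r 64).d (c 65).d := by rw [hM]; unfold HP; simp
  have q10 : ¬ MP h (r 65).d (c 64).d := by rw [hM]; unfold HP; simp
  have hrlt : r 64 < r 65 := hr (by decide)
  have hclt : c 64 < c 65 := hc (by decide)
  rw [e2, f2] at q11
  rw [f2] at q01
  rw [e2] at q10
  simp only [MP] at q11
  rcases h3 with ⟨m1, k1, x1, e1, t1⟩ | h3
  · -- vertical gadget
    rw [e1] at q01
    simp only [MP] at q01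
    clear q10 hclt h4
    unfold T1 at t1
    unfold T2 at t2
    unfold U2 at u2
    generalize x2 / 2 ^ k2 % 2 = b at t2
    generalize y2 / 2 ^ l2 % 2 = b' at u2
    rcases t1 with t1 | t1 | t1
    · -- final gadget
      have hk : k2 = 0 ∧ m2 = 1 ∧ l2 = 0 ∧ s2 = 0 ∧ m1 = 0 ∧ k1 = 0 := by omega
      clear t1 t2 u2
      obtain ⟨rfl, rfl, rfl, rfl, rfl, rfl⟩ := hk
      have ho := row_sp_order hrlt e1 e2 (j := 0) le_rfl le_rfl
      simp only [pow_zero, Nat.div_one] at ho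
      have n1 : y2 ≤ x1 := by
        by_contra hcon
        exact q01 ⟨Or.inl rfl, Or.inr ⟨rfl, rfl, by simp only [pow_zero, Nat.div_one]; omega⟩⟩
      have n2 : x2 ≤ y2 := by
        rcases q11.2 with q | q
        · simpa using q.2.2
        · exact absurd q.1 (by norm_num)
      refine ⟨x2, e2, ?_⟩
      have : y2 = x2 := by omega
      rw [f2, this]
    · exfalso
      have hk : k1 = g / 6 ∧ k2 = g / 6 + 1 ∧ l2 = g / 6 + 1 ∧ m1 = 1 ∧ m2 = 1 ∧ s2 = 1 := by omega
      clear t1 t2 u2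
      obtain ⟨rfl, rfl, rfl, rfl, rfl, rfl⟩ := hk
      have ho := row_sp_order hrlt e1 e2 (j := g / 6 + 1) (by omega) le_rfl
      have n1 : y2 / 2 ^ (g / 6 + 1) < x1 / 2 ^ (g / 6 + 1) := by
        by_contra hcon
        exact q01 ⟨Or.inr rfl, Or.inl ⟨rfl, Or.inl ⟨rfl, by omega⟩, by omega⟩⟩
      have n2 : x2 / 2 ^ (g / 6 + 1) ≤ y2 / 2 ^ (g / 6 + 1) := by
        rcases q11.2 with q | q
        · exact q.2.2
        · exact absurd q.1 (by norm_num)
      omega
    · exfalso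
      have hk : k2 = g / 6 ∧ k1 = g / 6 + 1 ∧ l2 = g / 6 + 1 ∧ m1 = 0 ∧ m2 = 0 ∧ s2 = 0 := by omega
      clear t1 t2 u2
      obtain ⟨rfl, rfl, rfl, rfl, rfl, rfl⟩ := hk
      have ho := row_sp_order hrlt e1 e2 (j := g / 6 + 1) le_rfl (by omega)
      have n1 : y2 / 2 ^ (g / 6 + 1) ≤ x1 / 2 ^ (g / 6 + 1) := by
        by_contra hcon
        exact q01 ⟨Or.inl rfl, Or.inr ⟨rfl, rfl, by omega⟩⟩
      have n2 : x2 / 2 ^ (g / 6 + 1) < y2 / 2 ^ (g / 6 + 1) := by
        rcases q11.2 with q | q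
        · exact absurd q.1 (by norm_num)
        · exact q.2.2
      omega
  · exfalso
    unfold isH at h3
    rcases h4 with ⟨s1, l1, y1, f1, u1⟩ | h4
    · rw [f1] at q10
      simp only [MP] at q10
      clear q01 hrlt
      unfold U1 at u1
      unfold T2 at t2
      unfold U2 at u2
      rcases u1 with u1 | u1
      · -- K3a
        have hk : k2 = g / 6 ∧ l1 = g / 6 ∧ l2 = g / 6 + 1 ∧ m2 = 1 ∧ s2 = 1 ∧
            x2 / 2 ^ k2 % 2 = y1 / 2 ^ l1 % 2 := by
          generalize x2 / 2 ^ k2 % 2 = b at *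
          generalize y1 / 2 ^ l1 % 2 = b' at *
          generalize y2 / 2 ^ l2 % 2 = b'' at *
          omega
        obtain ⟨-, -, -, -, hlam⟩ := u1
        clear t2 u2
        obtain ⟨rfl, rfl, rfl, rfl, rfl, hbit⟩ := hk
        have ho := col_sp_order hclt f1 f2 (j := g / 6 + 1) (by omega) le_rfl
        have n1 : y1 / 2 ^ (g / 6) < x2 / 2 ^ (g / 6) := by
          by_contra hcon
          exact q10 ⟨Or.inl rfl, Or.inl ⟨rfl, hlam, by omega⟩⟩
        have n2 : x2 / 2 ^ (g / 6 + 1) ≤ y2 / 2 ^ (g / 6 + 1) := by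
          rcases q11.2 with q | q
          · exact q.2.2
          · exact absurd q.1 (by norm_num)
        rw [div_pow_succ] at ho n2
        rw [div_pow_succ y1] at ho
        rw [div_pow_succ y2] at n2
        omega
      · have hk : k2 = g / 6 ∧ l1 = g / 6 + 1 ∧ l2 = g / 6 ∧ m2 = 0 ∧ s2 = 0 ∧ s1 = 0 ∧
            x2 / 2 ^ k2 % 2 = y2 / 2 ^ l2 % 2 := by
          generalize x2 / 2 ^ k2 % 2 = b at *
          generalize y2 / 2 ^ l2 % 2 = b'' at *
          omega
        clear t2 u2 u1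
        obtain ⟨rfl, rfl, rfl, rfl, rfl, rfl, hbit⟩ := hk
        have ho := col_sp_order hclt f1 f2 (j := g / 6 + 1) le_rfl (by omega)
        have n1 : y1 / 2 ^ (g / 6 + 1) ≤ x2 / 2 ^ (g / 6 + 1) := by
          by_contra hcon
          exact q10 ⟨Or.inr rfl, Or.inr ⟨rfl, rfl, by omega⟩⟩
        have n2 : x2 / 2 ^ (g / 6) < y2 / 2 ^ (g / 6) := by
          rcases q11.2 with q | q
          · exact absurd q.1 (by norm_num)
          · exact q.2.2
        rw [div_pow_succ y2] at ho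
        rw [div_pow_succ x2] at n1
        omega
    · unfold isV at h4
      omega

end soundness

/-! ### Placements -/

def idx (h x y f : ℕ) : ℕ := if f < 384 * h then y else mix x y ((f - 384 * h) / 2)

lemma idx_lt {h x y f : ℕ} (hf : f < 386 * h + 2) (hx : x < 2 ^ h) (hy : y < 2 ^ h) :
    idx h x y f < 2 ^ h := by
  unfold idx
  split_ifs
  · exact hy
  · exact mix_lt hx (by omega)

def rowAt (h : ℕ) (w : Fin (2 ^ h) × Fin (2 ^ h)) (f : Fin (386 * h + 2)) : Row h :=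
  ⟨f, ⟨idx h (w.1.val ^^^ w.2.val) w.1 f, idx_lt f.2 (Nat.xor_lt_two_pow w.1.2 w.2.2) w.1.2⟩⟩

def colAt (h : ℕ) (w : Fin (2 ^ h) × Fin (2 ^ h)) (f : Fin (386 * h + 2)) : Col h :=
  ⟨f, ⟨idx h (w.1.val ^^^ w.2.val) w.2 f, idx_lt f.2 (Nat.xor_lt_two_pow w.1.2 w.2.2) w.2.2⟩⟩

def allowed (h f f' : ℕ) : Prop :=
  f < 384 * h ∨ f' < 384 * h ∨ ((f - 384 * h) / 2 = h ∧ (f' - 384 * h) / 2 = h)

lemma mix_top {x y h : ℕ} (hx : x < 2 ^ h) (hy : y < 2 ^ h) : mix x y h = y := by
  unfold mix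
  rw [Nat.div_eq_of_lt hx, Nat.mod_eq_of_lt hy]; simp

lemma at_inj {h : ℕ} {w w' : Fin (2 ^ h) × Fin (2 ^ h)} {f f' f1 f1' : Fin (386 * h + 2)}
    (ha : allowed h f f') (e : rowAt h w f = rowAt h w' f1) (e' : colAt h w f' = colAt h w' f1') :
    w = w' := by
  simp only [rowAt, Row.mk.injEq, Fin.mk.injEq] at e
  simp only [colAt, Col.mk.injEq, Fin.mk.injEq] at e'
  obtain ⟨rfl, e⟩ := e
  obtain ⟨rfl, e'⟩ := e'
  obtain ⟨⟨y, hy⟩, ⟨z, hz⟩⟩ := w
  obtain ⟨⟨y', hy'⟩, ⟨z', hz'⟩⟩ := w'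
  simp only at e e'
  unfold idx at e e'
  suffices hh : y = y' ∧ z = z' by
    obtain ⟨rfl, rfl⟩ := hh; rfl
  by_cases c1 : (f : ℕ) < 384 * h
  · rw [if_pos c1, if_pos c1] at e
    subst e
    refine ⟨rfl, ?_⟩
    by_cases c2 : (f' : ℕ) < 384 * h
    · rw [if_pos c2, if_pos c2] at e'; exact e'
    · rw [if_neg c2, if_neg c2] at e'
      exact mix_xor_inj e'
  · rw [if_neg c1, if_neg c1] at e
    by_cases c2 : (f' : ℕ) < 384 * h
    · rw [if_pos c2, if_pos c2] at e'
      subst e'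
      exact ⟨mix_xor_inj' e, rfl⟩
    · rw [if_neg c2, if_neg c2] at e'
      rcases ha with ha | ha | ha
      · exact absurd ha c1
      · exact absurd ha c2
      · rw [ha.1, mix_top (Nat.xor_lt_two_pow hy hz) hy, mix_top (Nat.xor_lt_two_pow hy' hz') hy'] at e
        rw [ha.2, mix_top (Nat.xor_lt_two_pow hy hz) hz, mix_top (Nat.xor_lt_two_pow hy' hz') hz'] at e'
        exact ⟨e, e'⟩

def spF (h m k : ℕ) (hm : m < 2) (hk : k ≤ h) : Fin (386 * h + 2) := ⟨384 * h + 2 * k + m, by omega⟩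

lemma fam_facts (h m k : ℕ) (hm : m < 2) : ¬ (384 * h + 2 * k + m < 384 * h) ∧
    (384 * h + 2 * k + m - 384 * h) % 2 = m ∧ (384 * h + 2 * k + m - 384 * h) / 2 = k ∧
    ¬ (384 * h + 2 * k + m < 100 * h) := by
  omega

lemma dec_fam (h m k x : ℕ) (hm : m < 2) : dec h (384 * h + 2 * k + m) x = D.sp m k x := by
  obtain ⟨a1, a2, a3, a4⟩ := fam_facts h m k hm
  unfold dec
  rw [if_neg a4, if_neg a1, a2, a3]

lemma idx_fam (h m k x y : ℕ) (hm : m < 2) : idx h x y (384 * h + 2 * k + m) = mix x y k := by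
  obtain ⟨a1, a2, a3, a4⟩ := fam_facts h m k hm
  unfold idx
  rw [if_neg a1, a3]

lemma rk1_fam (h m k x : ℕ) (hm : m < 2) : rk1 h (384 * h + 2 * k + m) x =
    384 * h + (if m = 0 then lft x k else rgt x k) := by
  obtain ⟨a1, a2, a3, a4⟩ := fam_facts h m k hm
  unfold rk1
  rw [if_neg a1, a2, a3]

lemma ck1_fam (h m k x : ℕ) (hm : m < 2) : ck1 h (384 * h + 2 * k + m) x =
    384 * h + (2 ^ h - 1 - (if m = 0 then rgt x k else lft x k)) := by
  obtain ⟨a1, a2, a3, a4⟩ := fam_facts h m k hm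
  unfold ck1
  rw [if_neg a1, a2, a3]

lemma k2_fam (h m k : ℕ) (hm : m < 2) : k2 h (384 * h + 2 * k + m) = key2 h m k := by
  obtain ⟨a1, a2, a3, a4⟩ := fam_facts h m k hm
  unfold k2
  rw [if_neg a1, a2, a3]

lemma rowAt_sp_d (h : ℕ) (w : Fin (2 ^ h) × Fin (2 ^ h)) (m k : ℕ) (hm : m < 2) (hk : k ≤ h) :
    (rowAt h w (spF h m k hm hk)).d = D.sp m k (mix (w.1.val ^^^ w.2.val) w.1 k) := by
  change dec h (384 * h + 2 * k + m) (idx h _ _ (384 * h + 2 * k + m)) = _
  rw [idx_fam _ _ _ _ _ hm, dec_fam _ _ _ _ hm]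

lemma colAt_sp_d (h : ℕ) (w : Fin (2 ^ h) × Fin (2 ^ h)) (m k : ℕ) (hm : m < 2) (hk : k ≤ h) :
    (colAt h w (spF h m k hm hk)).d = D.sp m k (mix (w.1.val ^^^ w.2.val) w.2 k) := by
  change dec h (384 * h + 2 * k + m) (idx h _ _ (384 * h + 2 * k + m)) = _
  rw [idx_fam _ _ _ _ _ hm, dec_fam _ _ _ _ hm]

lemma lft_mix (a b k : ℕ) : lft (mix a b k) k = lft a k := by unfold lft; rw [mix_div]
lemma rgt_mix (a b k : ℕ) : rgt (mix a b k) k = rgt a k := by unfold rgt; rw [mix_div]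

lemma rowAt_sp_rk (h : ℕ) (w : Fin (2 ^ h) × Fin (2 ^ h)) (m k : ℕ) (hm : m < 2) (hk : k ≤ h) :
    rk1 h (rowAt h w (spF h m k hm hk)).f (rowAt h w (spF h m k hm hk)).x =
      384 * h + (if m = 0 then lft (w.1.val ^^^ w.2.val) k else rgt (w.1.val ^^^ w.2.val) k) := by
  change rk1 h (384 * h + 2 * k + m) (idx h _ _ (384 * h + 2 * k + m)) = _
  rw [idx_fam _ _ _ _ _ hm, rk1_fam _ _ _ _ hm, lft_mix, rgt_mix]

lemma colAt_sp_ck (h : ℕ) (w : Fin (2 ^ h) × Fin (2 ^ h)) (m k : ℕ) (hm : m < 2) (hk : k ≤ h) :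
    ck1 h (colAt h w (spF h m k hm hk)).f (colAt h w (spF h m k hm hk)).x =
      384 * h + (2 ^ h - 1 -
        (if m = 0 then rgt (w.1.val ^^^ w.2.val) k else lft (w.1.val ^^^ w.2.val) k)) := by
  change ck1 h (384 * h + 2 * k + m) (idx h _ _ (384 * h + 2 * k + m)) = _
  rw [idx_fam _ _ _ _ _ hm, ck1_fam _ _ _ _ hm, lft_mix, rgt_mix]

lemma rowR (h : ℕ) (w : Fin (2 ^ h) × Fin (2 ^ h)) (k : ℕ) (hk : k + 1 ≤ h) :
    rowAt h w (spF h 1 k (by norm_num) (by omega)) < rowAt h w (spF h 1 (k + 1) (by norm_num) hk) := by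
  apply row_lt_of
  · rw [rowAt_sp_rk, rowAt_sp_rk]
    have := rgt_le_succ (w.1.val ^^^ w.2.val) k
    simp; exact this
  · intro _
    change k2 h (384 * h + 2 * k + 1) < k2 h (384 * h + 2 * (k + 1) + 1)
    rw [k2_fam _ _ _ (by norm_num), k2_fam _ _ _ (by norm_num)]
    unfold key2
    simp

lemma rowL (h : ℕ) (w : Fin (2 ^ h) × Fin (2 ^ h)) (k : ℕ) (hk : k + 1 ≤ h) :
    rowAt h w (spF h 0 (k + 1) (by norm_num) hk) < rowAt h w (spF h 0 k (by norm_num) (by omega)) := by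
  apply row_lt_of
  · rw [rowAt_sp_rk, rowAt_sp_rk]
    have := lft_succ_le (w.1.val ^^^ w.2.val) k
    simp; exact this
  · intro _
    change k2 h (384 * h + 2 * (k + 1) + 0) < k2 h (384 * h + 2 * k + 0)
    rw [k2_fam _ _ _ (by norm_num), k2_fam _ _ _ (by norm_num)]
    unfold key2
    simp only [if_true]
    omega

lemma rowLR (h : ℕ) (w : Fin (2 ^ h) × Fin (2 ^ h)) :
    rowAt h w (spF h 0 0 (by norm_num) (by omega)) < rowAt h w (spF h 1 0 (by norm_num) (by omega)) := by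
  apply row_lt_of
  · rw [rowAt_sp_rk, rowAt_sp_rk]
    have := lft_le_rgt (w.1.val ^^^ w.2.val) 0
    simp; exact this
  · intro _
    change k2 h (384 * h + 2 * 0 + 0) < k2 h (384 * h + 2 * 0 + 1)
    rw [k2_fam _ _ _ (by norm_num), k2_fam _ _ _ (by norm_num)]
    unfold key2
    simp

lemma colRho (h : ℕ) (w : Fin (2 ^ h) × Fin (2 ^ h)) (k : ℕ) (hk : k + 1 ≤ h) :
    colAt h w (spF h 0 (k + 1) (by norm_num) hk) < colAt h w (spF h 0 k (by norm_num) (by omega)) := by
  apply col_lt_of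
  · rw [colAt_sp_ck, colAt_sp_ck]
    have := rgt_le_succ (w.1.val ^^^ w.2.val) k
    simp only [if_true]
    omega
  · intro _
    change k2 h (384 * h + 2 * (k + 1) + 0) < k2 h (384 * h + 2 * k + 0)
    rw [k2_fam _ _ _ (by norm_num), k2_fam _ _ _ (by norm_num)]
    unfold key2
    simp only [if_true]
    omega

/-- side of the lambda-like column at height `k`. -/
def ls (k : ℕ) : ℕ := if k = 0 then 0 else 1
lemma ls_lt (k : ℕ) : ls k < 2 := by unfold ls; split_ifs <;> norm_num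

lemma colLam (h : ℕ) (w : Fin (2 ^ h) × Fin (2 ^ h)) (k : ℕ) (hk : k + 1 ≤ h) :
    colAt h w (spF h (ls k) k (ls_lt k) (by omega)) < colAt h w (spF h 1 (k + 1) (by norm_num) hk) := by
  apply col_lt_of
  · rw [colAt_sp_ck, colAt_sp_ck]
    have h1 := lft_succ_le (w.1.val ^^^ w.2.val) k
    have h2 := lft_le_rgt (w.1.val ^^^ w.2.val) k
    by_cases h0 : k = 0
    · rw [if_pos (show ls k = 0 by simp [ls, h0]), if_neg (by norm_num)]
      omega
    · rw [if_neg (show ¬ ls k = 0 by simp [ls, h0]), if_neg (by norm_num)]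
      omega
  · intro _
    change k2 h (384 * h + 2 * k + ls k) < k2 h (384 * h + 2 * (k + 1) + 1)
    rw [k2_fam _ _ _ (ls_lt k), k2_fam _ _ _ (by norm_num)]
    unfold key2
    by_cases h0 : k = 0
    · rw [if_pos (show ls k = 0 by simp [ls, h0]), if_neg (by norm_num)]
      omega
    · rw [if_neg (show ¬ ls k = 0 by simp [ls, h0]), if_neg (by norm_num)]
      omega


/-! ### Copies of the pattern -/

def F2 (h g a b i : ℕ) : ℕ :=
  if i < 32 then i else if i < 64 then 100 * h + 33 * g + (i - 32) else if i = 64 then a else b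
def F1 (h g b i : ℕ) : ℕ :=
  if i < 32 then i else if i < 65 then 100 * h + 33 * g + (i - 32) else b

def D2 (g : ℕ) (a b : D) (i : ℕ) : D :=
  if i < 32 then D.pad else if i < 64 then D.gad g (i - 32) else if i = 64 then a else b
def D1 (g : ℕ) (b : D) (i : ℕ) : D :=
  if i < 32 then D.pad else if i < 65 then D.gad g (i - 32) else b

lemma F2_lt {h g a b i : ℕ} (hh : 1 ≤ h) (hg : g ≤ 6 * h) (ha : a < 386 * h + 2)
    (hb : b < 386 * h + 2) : F2 h g a b i < 386 * h + 2 := by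
  unfold F2; split_ifs <;> omega

lemma F1_lt {h g b i : ℕ} (hh : 1 ≤ h) (hg : g ≤ 6 * h)
    (hb : b < 386 * h + 2) : F1 h g b i < 386 * h + 2 := by
  unfold F1; split_ifs <;> omega

lemma dec_pad {h f x : ℕ} (hf : f < 100 * h) : dec h f x = D.pad := by
  unfold dec; rw [if_pos hf]

lemma dec_gad {h g i x : ℕ} (hh : 1 ≤ h) (hg : g ≤ 6 * h) (hi : i < 33) :
    dec h (100 * h + 33 * g + i) x = D.gad g i := by
  unfold dec
  have h1 : ¬ (100 * h + 33 * g + i < 100 * h) := by omega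
  have h2 : 100 * h + 33 * g + i < 384 * h := by omega
  have h3 : (100 * h + 33 * g + i - 100 * h) / 33 = g := by omega
  have h4 : (100 * h + 33 * g + i - 100 * h) % 33 = i := by omega
  rw [if_neg h1, if_pos h2, h3, h4, if_pos hg]

lemma dec_F2 {h g a b i : ℕ} (hh : 1 ≤ h) (hg : g ≤ 6 * h) (x : ℕ → ℕ) :
    dec h (F2 h g a b i) (x (F2 h g a b i)) = D2 g (dec h a (x a)) (dec h b (x b)) i := by
  unfold F2 D2
  split_ifs with h1 h2 h3
  · exact dec_pad (by omega)
  · exact dec_gad hh hg (by omega)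
  · rfl
  · rfl

lemma dec_F1 {h g b i : ℕ} (hh : 1 ≤ h) (hg : g ≤ 6 * h) (x : ℕ → ℕ) :
    dec h (F1 h g b i) (x (F1 h g b i)) = D1 g (dec h b (x b)) i := by
  unfold F1 D1
  split_ifs with h1 h2
  · exact dec_pad (by omega)
  · exact dec_gad hh hg (by omega)
  · rfl

lemma rowAt_plain_lt {h : ℕ} (w : Fin (2 ^ h) × Fin (2 ^ h)) {f f' : Fin (386 * h + 2)}
    (h1 : f.val < f'.val) (h2 : f.val < 384 * h) : rowAt h w f < rowAt h w f' := by
  have : rk1 h (rowAt h w f).f (rowAt h w f).x < rk1 h (rowAt h w f').f (rowAt h w f').x := by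
    change rk1 h f.val _ < rk1 h f'.val _
    unfold rk1
    rw [if_pos h2]
    split_ifs <;> omega
  exact row_lt_of this.le (fun e => absurd e this.ne)

lemma colAt_plain_lt {h : ℕ} (w : Fin (2 ^ h) × Fin (2 ^ h)) {f f' : Fin (386 * h + 2)}
    (h1 : f.val < f'.val) (h2 : f.val < 384 * h) : colAt h w f < colAt h w f' := by
  have : ck1 h (colAt h w f).f (colAt h w f).x < ck1 h (colAt h w f').f (colAt h w f').x := by
    change ck1 h f.val _ < ck1 h f'.val _
    unfold ck1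
    rw [if_pos h2]
    split_ifs <;> omega
  exact col_lt_of this.le (fun e => absurd e this.ne)

lemma F2_mono {h g a b : ℕ} (hh : 1 ≤ h) (hg : g ≤ 6 * h) (ha : 384 * h ≤ a) (hb : 384 * h ≤ b)
    {i j : ℕ} (hij : i < j) (hi : i < 64) : F2 h g a b i < F2 h g a b j ∧ F2 h g a b i < 384 * h := by
  unfold F2; split_ifs <;> omega

lemma F1_mono {h g b : ℕ} (hh : 1 ≤ h) (hg : g ≤ 6 * h) (hb : 384 * h ≤ b)
    {i j : ℕ} (hij : i < j) (hi : i < 65) : F1 h g b i < F1 h g b j ∧ F1 h g b i < 384 * h := by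
  unfold F1; split_ifs <;> omega

lemma MPV {h g m1 k1 x1 m2 k2 x2 s l x3 : ℕ} (hV : isV h g)
    (a1 : T1 h g m1 k1) (a2 : ¬ T2 h g m1 k1 (x1 / 2 ^ k1 % 2)) (b1 : ¬ T1 h g m2 k2)
    (b2 : T2 h g m2 k2 (x2 / 2 ^ k2 % 2)) (c1 : ¬ U1 h g s l (x3 / 2 ^ l % 2))
    (c2 : U2 h g s l (x3 / 2 ^ l % 2)) {i j : ℕ} (hi : i < 66) (hj : j < 66)
    (hn : ¬ (64 ≤ i ∧ j = 65)) :
    MP h (D2 g (D.sp m1 k1 x1) (D.sp m2 k2 x2) i) (D1 g (D.sp s l x3) j) ↔ HP i j := by
  unfold D2 D1 HP
  by_cases i1 : i < 32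
  · rw [if_pos i1]
    simp only [MP, false_iff]; omega
  · rw [if_neg i1]
    by_cases i2 : i < 64
    · rw [if_pos i2]
      by_cases j1 : j < 32
      · rw [if_pos j1]
        simp only [MP, false_iff]; omega
      · rw [if_neg j1]
        by_cases j2 : j < 65
        · rw [if_pos j2]
          have e1 : ¬ (i - 32 = 32) := by omega
          simp only [MP, hV, e1, false_and, and_true, true_and, false_or]
          omega
        · rw [if_neg j2]
          simp only [MP, c1, c2, and_false, and_true, false_or]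
          omega
    · rw [if_neg i2]
      by_cases i3 : i = 64
      · rw [if_pos i3]
        by_cases j1 : j < 32
        · rw [if_pos j1]
          simp only [MP, false_iff]; omega
        · rw [if_neg j1, if_pos (by omega)]
          simp only [MP, a1, a2, and_false, and_true, or_false]
          omega
      · rw [if_neg i3]
        by_cases j1 : j < 32
        · rw [if_pos j1]
          simp only [MP, false_iff]; omega
        · rw [if_neg j1, if_pos (by omega)]
          simp only [MP, b1, b2, and_false, and_true, false_or]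
          omega

lemma MPH {h g m k x s1 l1 y1 s2 l2 y2 : ℕ} (hH : isH h g)
    (a1 : ¬ T1 h g m k) (a2 : T2 h g m k (x / 2 ^ k % 2))
    (b1 : U1 h g s1 l1 (y1 / 2 ^ l1 % 2)) (b2 : ¬ U2 h g s1 l1 (y1 / 2 ^ l1 % 2))
    (c1 : ¬ U1 h g s2 l2 (y2 / 2 ^ l2 % 2)) (c2 : U2 h g s2 l2 (y2 / 2 ^ l2 % 2))
    {i j : ℕ} (hi : i < 66) (hj : j < 66) (hn : ¬ (i = 65 ∧ 64 ≤ j)) :
    MP h (D1 g (D.sp m k x) i) (D2 g (D.sp s1 l1 y1) (D.sp s2 l2 y2) j) ↔ HP i j := by
  unfold D2 D1 HP
  by_cases i1 : i < 32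
  · rw [if_pos i1]
    simp only [MP, false_iff]; omega
  · rw [if_neg i1]
    by_cases i2 : i < 65
    · rw [if_pos i2]
      by_cases j1 : j < 32
      · rw [if_pos j1]
        simp only [MP, false_iff]; omega
      · rw [if_neg j1]
        by_cases j2 : j < 64
        · rw [if_pos j2]
          have e1 : ¬ (j - 32 = 32) := by omega
          simp only [MP, hH, e1, false_and, and_false, and_true, true_and, or_false]
          omega
        · rw [if_neg j2]
          by_cases j3 : j = 64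
          · rw [if_pos j3]
            simp only [MP, b1, b2, and_false, and_true, or_false]
            omega
          · rw [if_neg j3]
            simp only [MP, c1, c2, and_false, and_true, false_or]
            omega
    · rw [if_neg i2]
      by_cases j1 : j < 32
      · rw [if_pos j1]
        simp only [MP, false_iff]; omega
      · rw [if_neg j1, if_pos (by omega)]
        simp only [MP, a1, a2, and_false, and_true, false_or]
        omega

section chain

variable {h : ℕ} (hh : 1 ≤ h) (w : Fin (2 ^ h) × Fin (2 ^ h)) (B : Row h → Col h → Bool)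
  (good : ∀ f f' : Fin (386 * h + 2), allowed h f f' →
    B (rowAt h w f) (colAt h w f') = decide (MP h (rowAt h w f).d (colAt h w f').d))
  (noCopy : ∀ (r : Fin 66 → Row h) (c : Fin 66 → Col h), StrictMono r → StrictMono c →
    ¬ ∀ i j : Fin 66, B (r i) (c j) = decide (HP i j))

include hh good noCopy

lemma copyV {g m1 k1 m2 k2 s l : ℕ} (hg : g ≤ 6 * h) (hV : isV h g)
    (hm1 : m1 < 2) (hk1 : k1 ≤ h) (hm2 : m2 < 2) (hk2 : k2 ≤ h) (hs : s < 2) (hl : l ≤ h)
    (a1 : T1 h g m1 k1) (a2 : ¬ T2 h g m1 k1 ((w.1.val ^^^ w.2.val) / 2 ^ k1 % 2))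
    (b1 : ¬ T1 h g m2 k2) (b2 : T2 h g m2 k2 ((w.1.val ^^^ w.2.val) / 2 ^ k2 % 2))
    (c1 : ¬ U1 h g s l ((w.1.val ^^^ w.2.val) / 2 ^ l % 2))
    (c2 : U2 h g s l ((w.1.val ^^^ w.2.val) / 2 ^ l % 2))
    (ho : rowAt h w (spF h m1 k1 hm1 hk1) < rowAt h w (spF h m2 k2 hm2 hk2))
    (v1 : B (rowAt h w (spF h m1 k1 hm1 hk1)) (colAt h w (spF h s l hs hl)) = false) :
    B (rowAt h w (spF h m2 k2 hm2 hk2)) (colAt h w (spF h s l hs hl)) = false := by
  by_contra v2
  rw [Bool.not_eq_false] at v2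
  have ba : 384 * h + 2 * k1 + m1 < 386 * h + 2 := by omega
  have bb : 384 * h + 2 * k2 + m2 < 386 * h + 2 := by omega
  have bc : 384 * h + 2 * l + s < 386 * h + 2 := by omega
  refine noCopy
    (fun i => rowAt h w ⟨F2 h g (384 * h + 2 * k1 + m1) (384 * h + 2 * k2 + m2) i, F2_lt hh hg ba bb⟩)
    (fun j => colAt h w ⟨F1 h g (384 * h + 2 * l + s) j, F1_lt hh hg bc⟩) ?_ ?_ ?_
  · intro i j hij
    have hij' : i.val < j.val := hij
    by_cases hi : i.val < 64
    · have := F2_mono hh hg (a := 384 * h + 2 * k1 + m1) (b := 384 * h + 2 * k2 + m2)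
        (by omega) (by omega) hij' hi
      exact rowAt_plain_lt w this.1 this.2
    · have hi' : i.val = 64 := by omega
      have hj' : j.val = 65 := by omega
      have e1 : (⟨F2 h g (384 * h + 2 * k1 + m1) (384 * h + 2 * k2 + m2) i, F2_lt hh hg ba bb⟩ :
          Fin (386 * h + 2)) = spF h m1 k1 hm1 hk1 := by
        apply Fin.ext; simp only [hi', F2, spF]; norm_num
      have e2 : (⟨F2 h g (384 * h + 2 * k1 + m1) (384 * h + 2 * k2 + m2) j, F2_lt hh hg ba bb⟩ :
          Fin (386 * h + 2)) = spF h m2 k2 hm2 hk2 := by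
        apply Fin.ext; simp only [hj', F2, spF]; norm_num
      simp only [e1, e2]
      exact ho
  · intro i j hij
    have hij' : i.val < j.val := hij
    have := F1_mono hh hg (b := 384 * h + 2 * l + s) (by omega) hij' (by omega)
    exact colAt_plain_lt w this.1 this.2
  · intro i j
    by_cases hn : 64 ≤ i.val ∧ j.val = 65
    · have e3 : (⟨F1 h g (384 * h + 2 * l + s) j, F1_lt hh hg bc⟩ :
          Fin (386 * h + 2)) = spF h s l hs hl := by
        apply Fin.ext; simp only [hn.2, F1, spF]; norm_num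
      by_cases hi' : i.val = 64
      · have e1 : (⟨F2 h g (384 * h + 2 * k1 + m1) (384 * h + 2 * k2 + m2) i, F2_lt hh hg ba bb⟩ :
            Fin (386 * h + 2)) = spF h m1 k1 hm1 hk1 := by
          apply Fin.ext; simp only [hi', F2, spF]; norm_num
        simp only [e1, e3, v1]
        symm
        rw [decide_eq_false_iff_not]
        unfold HP; omega
      · have hi'' : i.val = 65 := by omega
        have e1 : (⟨F2 h g (384 * h + 2 * k1 + m1) (384 * h + 2 * k2 + m2) i, F2_lt hh hg ba bb⟩ :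
            Fin (386 * h + 2)) = spF h m2 k2 hm2 hk2 := by
          apply Fin.ext; simp only [hi'', F2, spF]; norm_num
        simp only [e1, e3, v2]
        symm
        rw [decide_eq_true_iff]
        unfold HP; omega
    · rw [good]
      · have q1 := dec_F2 (h := h) (g := g) (a := 384 * h + 2 * k1 + m1) (b := 384 * h + 2 * k2 + m2)
          (i := i) hh hg (idx h (w.1.val ^^^ w.2.val) w.1)
        have q2 := dec_F1 (h := h) (g := g) (b := 384 * h + 2 * l + s)
          (i := j) hh hg (idx h (w.1.val ^^^ w.2.val) w.2)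
        rw [idx_fam _ _ _ _ _ hm1, idx_fam _ _ _ _ _ hm2, dec_fam _ _ _ _ hm1, dec_fam _ _ _ _ hm2] at q1
        rw [idx_fam _ _ _ _ _ hs, dec_fam _ _ _ _ hs] at q2
        rw [decide_eq_decide]
        change MP h (dec h (F2 h g (384 * h + 2 * k1 + m1) (384 * h + 2 * k2 + m2) i)
          (idx h (w.1.val ^^^ w.2.val) w.1 (F2 h g (384 * h + 2 * k1 + m1) (384 * h + 2 * k2 + m2) i)))
          (dec h (F1 h g (384 * h + 2 * l + s) j)
          (idx h (w.1.val ^^^ w.2.val) w.2 (F1 h g (384 * h + 2 * l + s) j))) ↔ _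
        rw [q1, q2]
        apply MPV hV a1 _ b1 _ _ _ i.2 j.2 hn
        · rw [mix_div]; exact a2
        · rw [mix_div]; exact b2
        · rw [mix_div]; exact c1
        · rw [mix_div]; exact c2
      · unfold allowed
        by_cases hi : i.val < 64
        · left
          have := F2_mono hh hg (a := 384 * h + 2 * k1 + m1) (b := 384 * h + 2 * k2 + m2)
            (by omega) (by omega) (Nat.lt_succ_self i.val) hi
          exact this.2
        · right; left
          have := F1_mono hh hg (b := 384 * h + 2 * l + s) (by omega) (Nat.lt_succ_self j.val)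
            (by have := j.2; omega)
          exact this.2

lemma copyH {g m k s1 l1 s2 l2 : ℕ} (hg : g ≤ 6 * h) (hH : isH h g)
    (hm : m < 2) (hk : k ≤ h) (hs1 : s1 < 2) (hl1 : l1 ≤ h) (hs2 : s2 < 2) (hl2 : l2 ≤ h)
    (a1 : ¬ T1 h g m k) (a2 : T2 h g m k ((w.1.val ^^^ w.2.val) / 2 ^ k % 2))
    (b1 : U1 h g s1 l1 ((w.1.val ^^^ w.2.val) / 2 ^ l1 % 2))
    (b2 : ¬ U2 h g s1 l1 ((w.1.val ^^^ w.2.val) / 2 ^ l1 % 2))
    (c1 : ¬ U1 h g s2 l2 ((w.1.val ^^^ w.2.val) / 2 ^ l2 % 2))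
    (c2 : U2 h g s2 l2 ((w.1.val ^^^ w.2.val) / 2 ^ l2 % 2))
    (ho : colAt h w (spF h s1 l1 hs1 hl1) < colAt h w (spF h s2 l2 hs2 hl2))
    (v1 : B (rowAt h w (spF h m k hm hk)) (colAt h w (spF h s1 l1 hs1 hl1)) = false) :
    B (rowAt h w (spF h m k hm hk)) (colAt h w (spF h s2 l2 hs2 hl2)) = false := by
  by_contra v2
  rw [Bool.not_eq_false] at v2
  have ba : 384 * h + 2 * l1 + s1 < 386 * h + 2 := by omega
  have bb : 384 * h + 2 * l2 + s2 < 386 * h + 2 := by omega
  have bc : 384 * h + 2 * k + m < 386 * h + 2 := by omega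
  refine noCopy
    (fun j => rowAt h w ⟨F1 h g (384 * h + 2 * k + m) j, F1_lt hh hg bc⟩)
    (fun i => colAt h w ⟨F2 h g (384 * h + 2 * l1 + s1) (384 * h + 2 * l2 + s2) i, F2_lt hh hg ba bb⟩)
    ?_ ?_ ?_
  · intro i j hij
    have hij' : i.val < j.val := hij
    have := F1_mono hh hg (b := 384 * h + 2 * k + m) (by omega) hij' (by omega)
    exact rowAt_plain_lt w this.1 this.2
  · intro i j hij
    have hij' : i.val < j.val := hij
    by_cases hi : i.val < 64
    · have := F2_mono hh hg (a := 384 * h + 2 * l1 + s1) (b := 384 * h + 2 * l2 + s2)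
        (by omega) (by omega) hij' hi
      exact colAt_plain_lt w this.1 this.2
    · have hi' : i.val = 64 := by omega
      have hj' : j.val = 65 := by omega
      have e1 : (⟨F2 h g (384 * h + 2 * l1 + s1) (384 * h + 2 * l2 + s2) i, F2_lt hh hg ba bb⟩ :
          Fin (386 * h + 2)) = spF h s1 l1 hs1 hl1 := by
        apply Fin.ext; simp only [hi', F2, spF]; norm_num
      have e2 : (⟨F2 h g (384 * h + 2 * l1 + s1) (384 * h + 2 * l2 + s2) j, F2_lt hh hg ba bb⟩ :
          Fin (386 * h + 2)) = spF h s2 l2 hs2 hl2 := by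
        apply Fin.ext; simp only [hj', F2, spF]; norm_num
      simp only [e1, e2]
      exact ho
  · intro i j
    by_cases hn : i.val = 65 ∧ 64 ≤ j.val
    · have e3 : (⟨F1 h g (384 * h + 2 * k + m) i, F1_lt hh hg bc⟩ :
          Fin (386 * h + 2)) = spF h m k hm hk := by
        apply Fin.ext; simp only [hn.1, F1, spF]; norm_num
      by_cases hi' : j.val = 64
      · have e1 : (⟨F2 h g (384 * h + 2 * l1 + s1) (384 * h + 2 * l2 + s2) j, F2_lt hh hg ba bb⟩ :
            Fin (386 * h + 2)) = spF h s1 l1 hs1 hl1 := by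
          apply Fin.ext; simp only [hi', F2, spF]; norm_num
        simp only [e1, e3, v1]
        symm
        rw [decide_eq_false_iff_not]
        unfold HP; omega
      · have hi'' : j.val = 65 := by omega
        have e1 : (⟨F2 h g (384 * h + 2 * l1 + s1) (384 * h + 2 * l2 + s2) j, F2_lt hh hg ba bb⟩ :
            Fin (386 * h + 2)) = spF h s2 l2 hs2 hl2 := by
          apply Fin.ext; simp only [hi'', F2, spF]; norm_num
        simp only [e1, e3, v2]
        symm
        rw [decide_eq_true_iff]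
        unfold HP; omega
    · rw [good]
      · have q1 := dec_F2 (h := h) (g := g) (a := 384 * h + 2 * l1 + s1) (b := 384 * h + 2 * l2 + s2)
          (i := j) hh hg (idx h (w.1.val ^^^ w.2.val) w.2)
        have q2 := dec_F1 (h := h) (g := g) (b := 384 * h + 2 * k + m)
          (i := i) hh hg (idx h (w.1.val ^^^ w.2.val) w.1)
        rw [idx_fam _ _ _ _ _ hs1, idx_fam _ _ _ _ _ hs2, dec_fam _ _ _ _ hs1, dec_fam _ _ _ _ hs2] at q1
        rw [idx_fam _ _ _ _ _ hm, dec_fam _ _ _ _ hm] at q2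
        rw [decide_eq_decide]
        change MP h (dec h (F1 h g (384 * h + 2 * k + m) i)
          (idx h (w.1.val ^^^ w.2.val) w.1 (F1 h g (384 * h + 2 * k + m) i)))
          (dec h (F2 h g (384 * h + 2 * l1 + s1) (384 * h + 2 * l2 + s2) j)
          (idx h (w.1.val ^^^ w.2.val) w.2 (F2 h g (384 * h + 2 * l1 + s1) (384 * h + 2 * l2 + s2) j))) ↔ _
        rw [q1, q2]
        apply MPH hH a1 _ _ _ _ _ i.2 j.2 hn
        · rw [mix_div]; exact a2
        · rw [mix_div]; exact b1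
        · rw [mix_div]; exact b2
        · rw [mix_div]; exact c1
        · rw [mix_div]; exact c2
      · unfold allowed
        by_cases hi : j.val < 64
        · right; left
          have := F2_mono hh hg (a := 384 * h + 2 * l1 + s1) (b := 384 * h + 2 * l2 + s2)
            (by omega) (by omega) (Nat.lt_succ_self j.val) hi
          exact this.2
        · left
          have := F1_mono hh hg (b := 384 * h + 2 * k + m) (by omega) (Nat.lt_succ_self i.val)
            (by have := i.2; omega)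
          exact this.2


lemma chain_step {k : ℕ} (hk : k + 1 ≤ h)
    (ha : B (rowAt h w (spF h 1 (k + 1) (by norm_num) hk))
      (colAt h w (spF h 1 (k + 1) (by norm_num) hk)) = true)
    (hd : B (rowAt h w (spF h 0 (k + 1) (by norm_num) hk))
      (colAt h w (spF h 0 (k + 1) (by norm_num) hk)) = false) :
    B (rowAt h w (spF h 1 k (by norm_num) (by omega)))
      (colAt h w (spF h (ls k) k (ls_lt k) (by omega))) = true ∧
    B (rowAt h w (spF h 0 k (by norm_num) (by omega)))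
      (colAt h w (spF h 0 k (by norm_num) (by omega))) = false := by
  have hls : (k = 0 ∧ ls k = 0) ∨ (1 ≤ k ∧ ls k = 1) := by
    unfold ls; split_ifs <;> omega
  constructor
  · by_contra hcon
    rw [Bool.not_eq_true] at hcon
    obtain ⟨b, hb, hb2⟩ : ∃ b, (w.1.val ^^^ w.2.val) / 2 ^ k % 2 = b ∧ b < 2 :=
      ⟨_, rfl, Nat.mod_lt _ (by norm_num)⟩
    have s1 := copyH hh w B good noCopy (g := 6 * k + 2 + b) (m := 1) (k := k) (s1 := ls k) (l1 := k)
      (s2 := 1) (l2 := k + 1) (by omega) (by unfold isH; omega) (by norm_num) (by omega) (ls_lt k)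
      (by omega) (by norm_num) hk (by unfold T1; omega) (by rw [hb]; unfold T2; omega)
      (by rw [hb]; unfold U1; omega) (by rw [hb]; unfold U2; omega)
      (by unfold U1; omega) (by unfold U2; omega) (colLam h w k hk) hcon
    have s2 := copyV hh w B good noCopy (g := 6 * k) (m1 := 1) (k1 := k) (m2 := 1) (k2 := k + 1)
      (s := 1) (l := k + 1) (by omega) (by unfold isV; omega) (by norm_num) (by omega) (by norm_num)
      hk (by norm_num) hk (by unfold T1; omega) (by unfold T2; omega) (by unfold T1; omega)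
      (by unfold T2; omega) (by unfold U1; omega) (by unfold U2; omega) (rowR h w k hk) s1
    rw [ha] at s2
    exact absurd s2 (by decide)
  · have s1 := copyV hh w B good noCopy (g := 6 * k + 1) (m1 := 0) (k1 := k + 1) (m2 := 0) (k2 := k)
      (s := 0) (l := k + 1) (by omega) (by unfold isV; omega) (by norm_num) hk (by norm_num)
      (by omega) (by norm_num) hk (by unfold T1; omega) (by unfold T2; omega) (by unfold T1; omega)
      (by unfold T2; omega) (by unfold U1; omega) (by unfold U2; omega) (rowL h w k hk) hd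
    obtain ⟨b, hb, hb2⟩ : ∃ b, (w.1.val ^^^ w.2.val) / 2 ^ k % 2 = b ∧ b < 2 :=
      ⟨_, rfl, Nat.mod_lt _ (by norm_num)⟩
    exact copyH hh w B good noCopy (g := 6 * k + 4 + b) (m := 0) (k := k) (s1 := 0) (l1 := k + 1)
      (s2 := 0) (l2 := k) (by omega) (by unfold isH; omega) (by norm_num) (by omega) (by norm_num)
      hk (by norm_num) (by omega) (by unfold T1; omega) (by rw [hb]; unfold T2; omega)
      (by unfold U1; omega) (by unfold U2; omega)
      (by rw [hb]; unfold U1; omega) (by rw [hb]; unfold U2; omega) (colRho h w k hk) s1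

lemma chain_all : ∀ (j k : ℕ) (hj : k + j = h),
    B (rowAt h w (spF h 1 k (by norm_num) (by omega)))
      (colAt h w (spF h (ls k) k (ls_lt k) (by omega))) = true ∧
    B (rowAt h w (spF h 0 k (by norm_num) (by omega)))
      (colAt h w (spF h 0 k (by norm_num) (by omega))) = false := by
  intro j
  induction j with
  | zero =>
    intro k hj
    have hk : k = h := by omega
    subst hk
    have hls : ls k = 1 := by unfold ls; rw [if_neg (by omega)]
    constructor
    · rw [good _ _ (by unfold allowed spF; simp only; have := ls_lt k; omega)]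
      rw [decide_eq_true_iff, rowAt_sp_d, colAt_sp_d]
      refine ⟨Or.inl rfl, Or.inl ⟨rfl, Or.inl ⟨hls, hh⟩, ?_⟩⟩
      rw [mix_div, mix_div]
    · rw [good _ _ (by unfold allowed spF; simp only; omega)]
      rw [decide_eq_false_iff_not, rowAt_sp_d, colAt_sp_d]
      rintro ⟨-, h1 | h1⟩
      · exact absurd h1.1 (by norm_num)
      · have := h1.2.2
        rw [mix_div, mix_div] at this
        exact lt_irrefl _ this
  | succ j ih =>
    intro k hj
    have := ih (k + 1) (by omega)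
    have hls : (spF h (ls (k + 1)) (k + 1) (ls_lt _) (by omega) : Fin (386 * h + 2)) =
        spF h 1 (k + 1) (by norm_num) (by omega) := by
      apply Fin.ext; simp [spF, ls]
    rw [hls] at this
    exact chain_step hh w B good noCopy (by omega) this.1 this.2

theorem chain_false : False := by
  obtain ⟨h1, h2⟩ := chain_all hh w B good noCopy h 0 (by omega)
  have hls : (spF h (ls 0) 0 (ls_lt _) (by omega) : Fin (386 * h + 2)) =
      spF h 0 0 (by norm_num) (by omega) := by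
    apply Fin.ext; simp [spF, ls]
  rw [hls] at h1
  have s := copyV hh w B good noCopy (g := 6 * h) (m1 := 0) (k1 := 0) (m2 := 1) (k2 := 0)
      (s := 0) (l := 0) le_rfl (by unfold isV; omega) (by norm_num) (by omega) (by norm_num)
      (by omega) (by norm_num) (by omega) (by unfold T1; omega) (by unfold T2; omega)
      (by unfold T1; omega)
      (by unfold T2; omega) (by unfold U1; omega) (by unfold U2; omega) (rowLR h w) h2
  rw [h1] at s
  exact absurd s (by decide)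

end chain

/-! ### Final assembly -/

noncomputable def er (h : ℕ) : Fin ((386 * h + 2) * 2 ^ h) ≃o Row h := monoEquivOfFin (Row h) (card_row h)
noncomputable def ec (h : ℕ) : Fin ((386 * h + 2) * 2 ^ h) ≃o Col h := monoEquivOfFin (Col h) (card_col h)

def HH : Fin 66 → Fin 66 → Bool := fun i j => decide (HP i j)

noncomputable def AA (h : ℕ) (i j : Fin ((386 * h + 2) * 2 ^ h)) : Bool :=
  decide (MP h (er h i).d (ec h j).d)

open Crest.CombinatoricsR.OrderedMatrix in
lemma far (h : ℕ) (hh : 1 ≤ h)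
    (B : Fin ((386 * h + 2) * 2 ^ h) → Fin ((386 * h + 2) * 2 ^ h) → Bool)
    (hB : orderedCopyCount HH B = 0) :
    4 ^ h ≤ (Finset.univ.filter (fun rc : Fin ((386 * h + 2) * 2 ^ h) × Fin ((386 * h + 2) * 2 ^ h) =>
                AA h rc.1 rc.2 ≠ B rc.1 rc.2)).card := by
  classical
  set B' : Row h → Col h → Bool := fun r c => B ((er h).symm r) ((ec h).symm c) with hB'
  by_cases hgood : ∃ w : Fin (2 ^ h) × Fin (2 ^ h), ∀ f f' : Fin (386 * h + 2), allowed h f f' →
    B' (rowAt h w f) (colAt h w f') = decide (MP h (rowAt h w f).d (colAt h w f').d)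
  · exfalso
    obtain ⟨w, hw⟩ := hgood
    refine chain_false hh w B' hw ?_
    intro r c hr hc hall
    unfold orderedCopyCount at hB
    rw [Fintype.card_eq_zero_iff] at hB
    refine hB.false ⟨(fun i => (er h).symm (r i), fun i => (ec h).symm (c i)), ?_, ?_, ?_⟩
    · intro i j hij
      exact (er h).symm.strictMono (hr hij)
    · intro i j hij
      exact (ec h).symm.strictMono (hc hij)
    · exact hall
  · push Not at hgood
    choose F F' hF hne using hgood
    have h4 : 4 ^ h = (Finset.univ : Finset (Fin (2 ^ h) × Fin (2 ^ h))).card := by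
      rw [Finset.card_univ, Fintype.card_prod, Fintype.card_fin, ← mul_pow]; norm_num
    rw [h4]
    refine Finset.card_le_card_of_injOn
      (fun w => ((er h).symm (rowAt h w (F w)), (ec h).symm (colAt h w (F' w)))) ?_ ?_
    · intro w _
      simp only [Finset.coe_filter, Finset.mem_univ, true_and]
      show AA h _ _ ≠ B _ _
      intro e
      apply hne w
      rw [hB']
      simp only
      rw [← e]
      simp [AA]
    · intro w _ w' _ e
      simp only [Prod.mk.injEq, EmbeddingLike.apply_eq_iff_eq] at e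
      exact at_inj (hF w) e.1 e.2

open Crest.CombinatoricsR.OrderedMatrix in
lemma count (h : ℕ) (hh : 1 ≤ h) :
    orderedCopyCount HH (AA h) ≤ 2 ^ h * ((386 * h + 2) * 2 ^ h) ^ 130 := by
  classical
  unfold orderedCopyCount
  have hcard : Fintype.card (Fin (2 ^ h) × (Fin 65 → Fin ((386 * h + 2) * 2 ^ h)) ×
      (Fin 65 → Fin ((386 * h + 2) * 2 ^ h))) = 2 ^ h * ((386 * h + 2) * 2 ^ h) ^ 130 := by
    rw [Fintype.card_prod, Fintype.card_prod, Fintype.card_fun, Fintype.card_fin, Fintype.card_fin,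
      Fintype.card_fin, ← pow_add]
  rw [← hcard]
  have key : ∀ rc : {rc : (Fin 66 → Fin ((386 * h + 2) * 2 ^ h)) × (Fin 66 → Fin ((386 * h + 2) * 2 ^ h)) //
      StrictMono rc.1 ∧ StrictMono rc.2 ∧ ∀ i j : Fin 66, AA h (rc.1 i) (rc.2 j) = HH i j},
      ∃ x, (er h (rc.1.1 65)).d = D.sp 1 0 x ∧ (ec h (rc.1.2 65)).d = D.sp 0 0 x := by
    rintro ⟨⟨a, b⟩, ha, hb, hab⟩
    refine sound (fun i => er h (a i)) (fun i => ec h (b i)) ?_ ?_ ?_
    · intro i j hij; exact (er h).strictMono (ha hij)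
    · intro i j hij; exact (ec h).strictMono (hb hij)
    · intro i j
      have := hab i j
      simp only [AA, HH, decide_eq_decide] at this
      exact this
  refine Fintype.card_le_of_injective
    (fun rc => ((er h (rc.1.1 65)).x, fun i => rc.1.1 (Fin.castSucc i), fun i => rc.1.2 (Fin.castSucc i))) ?_
  intro p q hpq
  simp only [Prod.mk.injEq] at hpq
  obtain ⟨e1, e2, e3⟩ := hpq
  obtain ⟨x, hx1, hx2⟩ := key p
  obtain ⟨x', hx1', hx2'⟩ := key q
  have a1 := dec_eq_sp hx1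
  have a2 := dec_eq_sp hx2
  have a1' := dec_eq_sp hx1'
  have a2' := dec_eq_sp hx2'
  have r1 : er h (p.1.1 65) = er h (q.1.1 65) := by
    have hf : (er h (p.1.1 65)).f = (er h (q.1.1 65)).f := Fin.ext (by omega)
    rcases hp : er h (p.1.1 65) with ⟨f, x⟩
    rcases hq : er h (q.1.1 65) with ⟨f', x'⟩
    rw [hp, hq] at hf e1
    simp only at hf e1
    rw [hf, e1]
  have r2 : ec h (p.1.2 65) = ec h (q.1.2 65) := by
    have hf : (ec h (p.1.2 65)).f = (ec h (q.1.2 65)).f := Fin.ext (by omega)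
    have hx : (ec h (p.1.2 65)).x = (ec h (q.1.2 65)).x := by
      apply Fin.ext
      have := congrArg Fin.val e1
      omega
    rcases hp : ec h (p.1.2 65) with ⟨f, x⟩
    rcases hq : ec h (q.1.2 65) with ⟨f', x'⟩
    rw [hp, hq] at hf hx
    simp only at hf hx
    rw [hf, hx]
  have r1' := (er h).injective r1
  have r2' := (ec h).injective r2
  apply Subtype.ext
  apply Prod.ext
  · funext i
    refine Fin.lastCases ?_ ?_ i
    · exact r1'
    · intro i; exact congrFun e2 i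
  · funext i
    refine Fin.lastCases ?_ ?_ i
    · exact r2'
    · intro i; exact congrFun e3 i

/-- There is a fixed 66 × 66 binary pattern H such that for every h ≥ 1, with n = (386h + 2) · 2^h and ε = (386h + 2)⁻², some n × n binary matrix A is ε-far from free of ordered copies of H (every n × n binary matrix without an ordered copy of H differs from A in at least ε · n² cells) while the number of ordered copies of H in A is at most ε · 2^(-h) · n^132. An ordered copy picks 66 rows and 66 columns in increasing order on which A coincides with H, zeros included. -/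
theorem result :
    ∃ H : Fin 66 → Fin 66 → Bool, ∀ h : ℕ, 1 ≤ h →
      ∃ A : Fin ((386 * h + 2) * 2 ^ h) → Fin ((386 * h + 2) * 2 ^ h) → Bool,
        (∀ B : Fin ((386 * h + 2) * 2 ^ h) → Fin ((386 * h + 2) * 2 ^ h) → Bool,
          Crest.CombinatoricsR.OrderedMatrix.orderedCopyCount H B = 0 →
            ((386 * (h : ℝ) + 2) ^ 2)⁻¹ * (((386 * h + 2) * 2 ^ h : ℕ) : ℝ) ^ 2 ≤
              ((Finset.univ.filter (fun rc : Fin ((386 * h + 2) * 2 ^ h) × Fin ((386 * h + 2) * 2 ^ h) =>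
                A rc.1 rc.2 ≠ B rc.1 rc.2)).card : ℝ)) ∧
        (Crest.CombinatoricsR.OrderedMatrix.orderedCopyCount H A : ℝ) /
            (((386 * h + 2) * 2 ^ h : ℕ) : ℝ) ^ 132 ≤
          ((386 * (h : ℝ) + 2) ^ 2)⁻¹ * (2 : ℝ)⁻¹ ^ h := by
  refine ⟨HH, fun h hh => ⟨AA h, ?_, ?_⟩⟩
  · intro B hB
    have h1 := far h hh B hB
    have h2 : ((4 ^ h : ℕ) : ℝ) ≤ ((Finset.univ.filter (fun rc : Fin ((386 * h + 2) * 2 ^ h) ×
        Fin ((386 * h + 2) * 2 ^ h) => AA h rc.1 rc.2 ≠ B rc.1 rc.2)).card : ℝ) := by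
      exact_mod_cast h1
    refine le_trans (le_of_eq ?_) h2
    push_cast
    have h3 : (386 * (h : ℝ) + 2) ≠ 0 := by positivity
    have h4 : (4 : ℝ) ^ h = (2 ^ h) ^ 2 := by
      rw [← pow_mul, mul_comm, pow_mul]; norm_num
    rw [h4]
    field_simp
  · have h1 := count h hh
    have h2 : (Crest.CombinatoricsR.OrderedMatrix.orderedCopyCount HH (AA h) : ℝ) ≤
        ((2 ^ h * ((386 * h + 2) * 2 ^ h) ^ 130 : ℕ) : ℝ) := by exact_mod_cast h1
    have h3 : (0 : ℝ) < 386 * (h : ℝ) + 2 := by positivity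
    have h5 : (0 : ℝ) < 2 ^ h := by positivity
    push_cast at h2 ⊢
    rw [div_le_iff₀ (by positivity)]
    refine h2.trans (le_of_eq ?_)
    rw [show (132 : ℕ) = 130 + 2 from rfl, pow_add]
    rw [inv_pow]
    field_simp

end Crest.Agent.S0066
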