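import Crest.Statements.S0077
import Crest.Agent.H6Glue
import Crest.Agent.H21Russo

set_option autoImplicit false
open Crest Crest.CombinatoricsR

namespace Crest.Agent.S0077

open Crest.CombinatoricsR.RandomGraph Crest.Agent.H6Defs Crest.Agent.H21Russo

lemma not_isDiag_map {n : ℕ} (σ : Equiv.Perm (Fin n)) {z : Sym2 (Fin n)} (h : ¬ z.IsDiag) :
    ¬ (z.map σ).IsDiag := by
  induction z using Sym2.ind with
  | _ a b =>
    simp only [Sym2.map_mk, Sym2.mk_isDiag_iff] at h ⊢
    exact fun h' => h (σ.injective h')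

/-- The action of a vertex permutation on the slots. -/
def act {n : ℕ} (σ : Equiv.Perm (Fin n)) : Equiv.Perm (EdgeSlot n) where
  toFun e := ⟨e.1.map σ, not_isDiag_map σ e.2⟩
  invFun e := ⟨e.1.map σ.symm, not_isDiag_map σ.symm e.2⟩
  left_inv := by
    intro e
    apply Subtype.ext
    simp [Sym2.map_map]
  right_inv := by
    intro e
    apply Subtype.ext
    simp [Sym2.map_map]

lemma map_graphOf {n : ℕ} (σ : Equiv.Perm (Fin n)) (x : EdgeSlot n → Bool) :
    (graphOf (fun e => x (act σ e))).map σ.toEmbedding = graphOf x := by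
  ext a b
  rw [SimpleGraph.map_adj]
  constructor
  · rintro ⟨u, v, huv, rfl, rfl⟩
    unfold graphOf at huv ⊢
    rw [SimpleGraph.fromEdgeSet_adj] at huv ⊢
    obtain ⟨⟨h, hx⟩, hne⟩ := huv
    refine ⟨⟨?_, ?_⟩, fun h' => hne (σ.injective h')⟩
    · exact not_isDiag_map σ h
    · exact hx
  · intro hab
    refine ⟨σ.symm a, σ.symm b, ?_, by simp, by simp⟩
    unfold graphOf at hab ⊢
    rw [SimpleGraph.fromEdgeSet_adj] at hab ⊢
    obtain ⟨⟨h, hx⟩, hne⟩ := hab
    refine ⟨⟨?_, ?_⟩, fun h' => hne (σ.symm.injective h')⟩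
    · exact not_isDiag_map σ.symm h
    · have : act σ ⟨s(σ.symm a, σ.symm b), not_isDiag_map σ.symm h⟩ = ⟨s(a, b), h⟩ := by
        apply Subtype.ext
        simp [act]
      rw [← hx]
      exact congrArg x this

/-- Let n ≥ 2 and let P be a family of simple graphs on n labelled vertices that is invariant under renaming vertices, closed under adding edges, non-empty and not everything; let 0 < ε < 1/2. If the binomial random graph with edge probability p ∈ [0, 1] lies in P with probability at least ε, then at every edge probability q ∈ [0, 1] with q ≥ p + 2^19 · log(1/(2ε)) / (log n)² it lies in P with probability at least 1 - ε: the threshold interval from ε to 1 - ε is at most that long. -/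
theorem result (n : ℕ) (hn : 2 ≤ n)
    (P : Set (SimpleGraph (Fin n)))
    (hsymm : ∀ σ : Equiv.Perm (Fin n), ∀ G : SimpleGraph (Fin n), G ∈ P → G.map σ.toEmbedding ∈ P)
    (hmono : ∀ G G' : SimpleGraph (Fin n), G ≤ G' → G ∈ P → G' ∈ P)
    (hne : P.Nonempty) (hnu : P ≠ Set.univ) (ε : ℝ) (hε0 : 0 < ε) (hε : ε < 1 / 2)
    (p q : ℝ) (hp0 : 0 ≤ p) (hp1 : p ≤ 1) (hq0 : 0 ≤ q) (hq1 : q ≤ 1)
    (hp : ε ≤ Crest.CombinatoricsR.RandomGraph.gnpProb n p P)
    (hq : p + 2 ^ 19 / Real.log n ^ 2 * Real.log (1 / (2 * ε)) ≤ q) :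
    1 - ε ≤ Crest.CombinatoricsR.RandomGraph.gnpProb n q P := by
  refine S0077_of_ineq n hn P hmono hne hnu ?_ ε hε0 hε p q hp0 hp1 hq0 hq1 hp hq
  intro p hp hp1
  have hL : 0 < Real.log n := Real.log_pos (by exact_mod_cast (by omega : 1 < n))
  refine H6Glue.influence (n := n) (r := 2) (fun e : EdgeSlot n => e.1.toFinset) ?_ ?_
    (by norm_num) act ?_ (fP P) ?_ hn hp hp1 _ (by positivity) le_rfl ?_ ?_
  · intro e
    exact Sym2.card_toFinset_of_not_isDiag _ e.2
  · intro e e' h
    apply Subtype.ext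
    have h : e.1.toFinset = e'.1.toFinset := h
    ext v
    have := Finset.ext_iff.mp h v
    simpa using this
  · intro σ e
    ext v
    simp only [Sym2.mem_toFinset, act, Equiv.coe_fn_mk, Finset.mem_map, Sym2.mem_map]
    rfl
  · intro σ x
    have h1 : fP P (fun e => x (act σ e)) = true ↔ fP P x = true := by
      rw [fP_true, fP_true]
      have h2 := map_graphOf σ x
      constructor
      · intro h
        have := hsymm σ _ h
        rwa [h2] at this
      · intro h
        have := hsymm σ.symm _ h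
        rw [← h2, SimpleGraph.map_map] at this
        have h3 : ((σ.symm.toEmbedding : Fin n → Fin n) ∘ (σ.toEmbedding : Fin n → Fin n)) = id := by
          funext a; simp
        rw [h3] at this
        simpa using this
    exact Bool.eq_iff_iff.mpr h1
  · intro h16
    have h2 : (32:ℝ) ^ 2 < Real.log n ^ 2 := by
      have : 16 < 4 * (Real.log n ^ 2 / 2 ^ 17) := h16
      rw [← mul_div_assoc, lt_div_iff₀ (by norm_num)] at this
      norm_num at this ⊢
      linarith
    have h4 : (32:ℝ) < Real.log n := lt_of_pow_lt_pow_left₀ 2 hL.le h2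
    have h5 := Real.add_one_le_exp (Real.log n / 32)
    push_cast
    linarith
  · intro B hB c D _ _ hD j hj1 hj
    have h1 : j < c / 4 := by
      have : c * j < c * (c / 4) := lt_of_lt_of_le hj hD
      exact lt_of_mul_lt_mul_left this (Nat.zero_le _)
    have h2 : 4 * j ≤ c := by omega
    have h3 : 2 * Nat.choose (2 * j) 2 = 2 * j * (2 * j - 1) := by
      rw [Nat.choose_two_right]
      exact Nat.mul_div_cancel' (Nat.even_mul_pred_self (2 * j)).two_dvd
    rw [h3]
    calc 2 * j * (2 * j - 1) ≤ 2 * j * (2 * j) := Nat.mul_le_mul_left _ (Nat.sub_le _ _)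
      _ = 4 * j * j := by ring
      _ ≤ c * j := Nat.mul_le_mul_right _ h2

end Crest.Agent.S0077
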