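import Crest.Statements.S0078
import Crest.Agent.H6Glue
import Crest.Agent.H6HD

set_option autoImplicit false
open Crest Crest.CombinatoricsR

namespace Crest.Agent.S0078

open Crest.CombinatoricsR.HypergraphCube in
/-- The action of a vertex permutation on the slots. -/
def act {n r : ℕ} (σ : Equiv.Perm (Fin n)) : Equiv.Perm (HyperedgeSlot n r) where
  toFun := relabelSlot σ
  invFun := relabelSlot σ.symm
  left_inv := by
    intro e
    apply Subtype.ext
    unfold relabelSlot
    ext a
    simp
  right_inv := by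
    intro e
    apply Subtype.ext
    unfold relabelSlot
    ext a
    simp

/-- For every r ≥ 3 there is a real constant C such that for all n ≥ r, all 0 < p < 1 and every Boolean function f of the simple r-uniform hypergraph on n labelled vertices that is invariant under renaming the vertices (no monotonicity assumed), the variance of f under independent edge-coins of bias p, namely P(f = true) · (1 - P(f = true)), is at most C · (log n)^(-r/(r-1)) times the total pivotal influence of f at bias p (natural logarithm). -/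
theorem result (r : ℕ) (hr : 3 ≤ r) :
    ∃ C : ℝ, ∀ n : ℕ, r ≤ n → ∀ p : ℝ, 0 < p → p < 1 →
      ∀ f : (Crest.CombinatoricsR.HypergraphCube.HyperedgeSlot n r → Bool) → Bool,
        Crest.CombinatoricsR.HypergraphCube.IsSymmetric f →
          Crest.CombinatoricsR.HypergraphCube.probTrue p f *
              (1 - Crest.CombinatoricsR.HypergraphCube.probTrue p f) ≤
            C / Real.log n ^ ((r : ℝ) / ((r : ℝ) - 1)) *
              Crest.CombinatoricsR.HypergraphCube.totalInfluence p f := by
  obtain ⟨κ0, hκ0, hgen⟩ := H6HD.hD_general r hr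
  have hr' : (3:ℝ) ≤ r := by exact_mod_cast hr
  set κ : ℝ := min κ0 (min (1 / 2 ^ 17) (1 / (256 * (r:ℝ) ^ 2))) with hκ
  have hκpos : 0 < κ := by
    rw [hκ]; refine lt_min hκ0 (lt_min (by norm_num) (by positivity))
  have hκ1 : κ ≤ κ0 := min_le_left _ _
  have hκ2 : κ ≤ 1 / 2 ^ 17 := (min_le_right _ _).trans (min_le_left _ _)
  have hκ3 : κ ≤ 1 / (256 * (r:ℝ) ^ 2) := (min_le_right _ _).trans (min_le_right _ _)
  refine ⟨1 / κ, ?_⟩
  intro n hn p hp hp1 f hf
  set α : ℝ := (r : ℝ) / ((r : ℝ) - 1) with hα
  have hr1 : (0:ℝ) < (r:ℝ) - 1 := by linarith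
  have hα2 : α ≤ 2 := by rw [hα, div_le_iff₀ hr1]; linarith
  have hL1 : 1 ≤ Real.log n := by
    have h3 : (3:ℝ) ≤ n := by exact_mod_cast hr.trans hn
    rw [Real.le_log_iff_exp_le (by linarith)]
    have := Real.exp_one_lt_d9
    linarith
  have hL0 : 0 < Real.log n := by linarith
  have hLα : 0 < Real.log n ^ α := Real.rpow_pos_of_pos hL0 _
  have hLα2 : Real.log n ^ α ≤ Real.log n ^ 2 := by
    have := Real.rpow_le_rpow_of_exponent_le hL1 hα2
    simpa using this
  have key : (κ * Real.log n ^ α) * (Crest.CombinatoricsR.HypergraphCube.probTrue p f *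
      (1 - Crest.CombinatoricsR.HypergraphCube.probTrue p f)) ≤
      Crest.CombinatoricsR.HypergraphCube.totalInfluence p f := by
    refine H6Glue.influence (n := n) (r := r) (fun e => e.1) (fun e => e.2) Subtype.val_injective
      (by omega) act (fun σ e => rfl) f (fun σ x => hf σ x) (by omega) hp hp1 _ (by positivity)
      ?_ ?_ ?_
    · calc κ * Real.log n ^ α ≤ (1 / 2 ^ 17) * Real.log n ^ 2 :=
            mul_le_mul hκ2 hLα2 hLα.le (by positivity)
        _ = Real.log n ^ 2 / 2 ^ 17 := by ring
    · intro h16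
      have h1 : 16 < 4 * (1 / (256 * (r:ℝ) ^ 2) * Real.log n ^ 2) := by
        refine h16.trans_le ?_
        refine mul_le_mul_of_nonneg_left ?_ (by norm_num)
        exact mul_le_mul hκ3 hLα2 hLα.le (by positivity)
      have h2 : (32 * (r:ℝ)) ^ 2 < Real.log n ^ 2 := by
        have h3 : 4 * (1 / (256 * (r:ℝ) ^ 2) * Real.log n ^ 2)
            = Real.log n ^ 2 / (64 * (r:ℝ) ^ 2) := by
          field_simp; norm_num
        rw [h3, lt_div_iff₀ (by positivity)] at h1
        nlinarith
      have h4 : 32 * (r:ℝ) < Real.log n := lt_of_pow_lt_pow_left₀ 2 hL0.le h2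
      have h5 := Real.add_one_le_exp (Real.log n / 32)
      linarith
    · intro B hB c D hc7 hD2 _
      exact hgen κ (Real.log n) B hκpos hκ1 hL1 hB c D hc7 hD2
  rw [div_mul_eq_mul_div, le_div_iff₀ hLα, one_div, inv_mul_eq_div, le_div_iff₀ hκpos]
  linarith

end Crest.Agent.S0078
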