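import Crest.Statements.S0085
import Crest.Agent.GSBase
import Crest.Agent.GSCltf
import Crest.Agent.GSDeg
import Crest.Agent.GSEnd
import Crest.Agent.GSExpr
import Crest.Agent.GSFour
import Crest.Agent.GSGadg
import Crest.Agent.GSGauss
import Crest.Agent.GSLln
import Crest.Agent.GSProd
import Crest.Agent.GSSecm
import Crest.Agent.GSSignc
import Crest.Agent.GSSignp
import Crest.Agent.GSStepLim
import Crest.Agent.GSVarc

set_option autoImplicit false
open Crest Crest.CombinatoricsR

namespace Crest.Agent.S0085

/-- For every real C > 0 there are a natural number n, a Boolean function f on the n-dimensional Boolean cube and a natural number d such that: f is non-constant; every Fourier–Walsh coefficient of f (values and inputs read as signs +1 for true and -1 for false, averaged over the uniform cube) indexed by a set of more than d coordinates vanishes, so f has degree at most d; and the sum of the n singleton Fourier–Walsh coefficients of f exceeds C times the square root of d. -/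
theorem result (C : ℝ) (hC : 0 < C) :
    ∃ n : ℕ, ∃ f : (Fin n → Bool) → Bool, ∃ d : ℕ,
      (∃ x y, f x ≠ f y) ∧
      (∀ S : Finset (Fin n), d < S.card →
        ∑ x : Fin n → Bool, ((if f x then (1 : ℝ) else -1) * ∏ i ∈ S, (if x i then (1 : ℝ) else -1)) = 0) ∧
      C * Real.sqrt d <
        ∑ i : Fin n, (∑ x : Fin n → Bool, ((if f x then (1 : ℝ) else -1) * (if x i then (1 : ℝ) else -1))) / 2 ^ n := by
  have hDEG : Crest.GS.Spec.DEG := Crest.Agent.GSDEG.main
  have hFOUR : Crest.GS.Spec.FOUR := Crest.Agent.GSFOUR.main
  have hEXPR : Crest.GS.Spec.EXPR := Crest.Agent.GSExpr.main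
  have hPROD : Crest.GS.Spec.PROD := Crest.Agent.GSProd.main hDEG hEXPR
  have hGADG : Crest.GS.Spec.GADG := Crest.Agent.GSGadg.main hDEG hEXPR
  have hSTEP : Crest.GS.Spec.STEP := Crest.GS.StepMain.main hPROD hGADG Crest.Agent.GSBase.main Crest.Agent.GSVARC.main
    Crest.Agent.GSSecm.main Crest.Agent.GSLln.main Crest.Agent.GSCLTF.main Crest.Agent.GSGauss.main
  exact Crest.Agent.GSEND.main Crest.Agent.GSBase.main hSTEP hPROD Crest.Agent.GSSignp.main
    (Crest.Agent.GSSIGNC.main hDEG hFOUR) C hC


end Crest.Agent.S0085
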