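import Crest.Statements.S0110
import Crest.Agent.H12OT

set_option autoImplicit false
open MeasureTheory
open scoped ENNReal NNReal
open Crest.AnalysisR.OT
open Crest Crest.AnalysisR Crest.AnalysisR.OT

namespace Crest.Agent.S0110

/-- The exponent one third is optimal, even on the cube with three-atom targets: for d ≥ 2, ρ the uniform probability measure on the cube of points of ℝᵈ with all coordinates in [-1, 1], every α > 1/3 and every C ≥ 0, there are three-atomic probability measures μ, ν on that cube, each admitting a quadratic optimal transport map from ρ, such that for all such optimal maps Tμ, Tν some coupling π of μ, ν has C · (∫ ‖y - z‖² dπ)^α < ∫ ‖Tμ - Tν‖² dρ. Hence ‖Tμ - Tν‖_{L²(ρ)} > √C · W₂(μ, ν)^α. -/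
theorem result
    (d : ℕ) (hd : 2 ≤ d) (α : ℝ) (hα : 1 / 3 < α) (C : ℝ≥0) :
    ∃ μ ν : Measure (EuclideanSpace ℝ (Fin d)),
      IsProbabilityOn {x : EuclideanSpace ℝ (Fin d) | ∀ i, |x i| ≤ 1} μ ∧
      IsProbabilityOn {x : EuclideanSpace ℝ (Fin d) | ∀ i, |x i| ≤ 1} ν ∧
      IsThreeAtomic μ ∧ IsThreeAtomic ν ∧
      (∃ T, IsOptimalMap (uniformProbOn {x : EuclideanSpace ℝ (Fin d) | ∀ i, |x i| ≤ 1}) μ T) ∧
      (∃ T, IsOptimalMap (uniformProbOn {x : EuclideanSpace ℝ (Fin d) | ∀ i, |x i| ≤ 1}) ν T) ∧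
      ∀ Tμ Tν : EuclideanSpace ℝ (Fin d) → EuclideanSpace ℝ (Fin d),
        IsOptimalMap (uniformProbOn {x : EuclideanSpace ℝ (Fin d) | ∀ i, |x i| ≤ 1}) μ Tμ →
        IsOptimalMap (uniformProbOn {x : EuclideanSpace ℝ (Fin d) | ∀ i, |x i| ≤ 1}) ν Tν →
        ∃ π : Measure (EuclideanSpace ℝ (Fin d) × EuclideanSpace ℝ (Fin d)), IsPairCoupling μ ν π ∧
          (C : ℝ≥0∞) * quadCost π ^ α < ∫⁻ x, ‖Tμ x - Tν x‖ₑ ^ 2 ∂(uniformProbOn {x : EuclideanSpace ℝ (Fin d) | ∀ i, |x i| ≤ 1}) := by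
  obtain ⟨δ, hδ0, hδ1, hδ⟩ := Crest.Agent.H12OT.exists_delta α (C : ℝ) hα (NNReal.coe_nonneg C)
  let i0 : Fin d := ⟨0, by omega⟩
  let i1 : Fin d := ⟨1, by omega⟩
  have hne : i0 ≠ i1 := by simp [i0, i1]
  refine ⟨Crest.Agent.H12OT.mu i0 i1 δ, Crest.Agent.H12OT.nu i0 i1 δ, Crest.Agent.H12OT.mu_on i0 i1 δ hδ0.le hδ1,
    Crest.Agent.H12OT.nu_on i0 i1 δ hδ0.le hδ1, Crest.Agent.H12OT.mu_threeAtomic i0 i1 δ hne hδ0 hδ1,
    Crest.Agent.H12OT.nu_threeAtomic i0 i1 δ hne hδ0 hδ1,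
    ⟨_, Crest.Agent.H12OT.T_optimal i0 i1 δ hδ0.le hδ1⟩, ⟨_, Crest.Agent.H12OT.T'_optimal i0 i1 δ hδ0.le hδ1⟩, ?_⟩
  intro Tμ Tν hμ hν
  refine ⟨Crest.Agent.H12OT.cpl i0 i1 δ, Crest.Agent.H12OT.cpl_coupling i0 i1 δ, ?_⟩
  refine lt_of_lt_of_le ?_ (Crest.Agent.H12OT.map_dist i0 i1 δ hne hδ0 hδ1 Tμ Tν hμ hν)
  refine lt_of_lt_of_le ?_ (Crest.Agent.H12OT.le_V i0 i1 δ hne hδ0 hδ1)
  rw [Crest.Agent.H12OT.cpl_cost i0 i1 δ hne hδ0.le]
  have hα0 : 0 ≤ α := by linarith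
  have h1 : ENNReal.ofReal (4 * δ ^ 2) * Crest.Agent.H12OT.rho d (Crest.Agent.H12OT.V i0 i1 δ) ≤
      ENNReal.ofReal (4 * δ ^ 3) := by
    calc _ ≤ ENNReal.ofReal (4 * δ ^ 2) * ENNReal.ofReal δ := by
          gcongr; exact Crest.Agent.H12OT.V_le i0 i1 δ hne hδ0 hδ1
      _ = ENNReal.ofReal (4 * δ ^ 3) := by
          rw [← ENNReal.ofReal_mul (by positivity)]; congr 1; ring
  calc (C : ℝ≥0∞) * (ENNReal.ofReal (4 * δ ^ 2) * Crest.Agent.H12OT.rho d (Crest.Agent.H12OT.V i0 i1 δ)) ^ α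
      ≤ (C : ℝ≥0∞) * (ENNReal.ofReal (4 * δ ^ 3)) ^ α := by gcongr
    _ = ENNReal.ofReal ((C : ℝ) * (4 * δ ^ 3) ^ α) := by
        rw [ENNReal.ofReal_rpow_of_nonneg (by positivity) hα0, ENNReal.ofReal_mul (NNReal.coe_nonneg C), ENNReal.ofReal_coe_nnreal]
    _ < ENNReal.ofReal (δ / 16) := by
        rw [ENNReal.ofReal_lt_ofReal_iff (by positivity)]
        exact hδ

end Crest.Agent.S0110
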