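import Crest.Statements.S0122
import Crest.Agent.H8PermF

set_option autoImplicit false
open Crest.AnalysisR.MassAction
open Crest Crest.AnalysisR Crest.AnalysisR.MassAction

namespace Crest.Agent.S0122

/-- For a finite reaction network on `d ≥ 1` species that is weakly reversible, with positive rate constants and mass-action kinetics, every positive stoichiometric class `P` contains a nonempty compact convex set `K` that is forward invariant and absorbing: from every point of `P` there is a solution defined for all forward time, it is unique, it stays coordinatewise positive, and it lies in `K` from some finite time on. -/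
theorem result
    (d : ℕ) (hd : 1 ≤ d) (R : Network d) (hR : IsWeaklyReversible R)
    (k : (Fin d → ℕ) × (Fin d → ℕ) → ℝ) (hk : ∀ r ∈ R, 0 < k r)
    (c : Fin d → ℝ) (hc : ∀ i, 0 < c i) :
    ∃ K : Set (Fin d → ℝ), K ⊆ positiveClass R c ∧ K.Nonempty ∧ IsCompact K ∧ Convex ℝ K ∧
      (∀ x : ℝ → (Fin d → ℝ), IsForwardSolution (field R k) x → x 0 ∈ K →
        ∀ t : ℝ, 0 ≤ t → x t ∈ K) ∧
      (∀ x₀ ∈ positiveClass R c,
        (∃ x : ℝ → (Fin d → ℝ), IsForwardSolution (field R k) x ∧ x 0 = x₀) ∧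
        (∀ x x' : ℝ → (Fin d → ℝ), IsForwardSolution (field R k) x →
          IsForwardSolution (field R k) x' → x 0 = x₀ → x' 0 = x₀ →
          ∀ t : ℝ, 0 ≤ t → x t = x' t) ∧
        (∀ x : ℝ → (Fin d → ℝ), IsForwardSolution (field R k) x → x 0 = x₀ →
          (∀ t : ℝ, 0 ≤ t → ∀ i, 0 < x t i) ∧
          ∃ T : ℝ, 0 ≤ T ∧ ∀ t : ℝ, T ≤ t → x t ∈ K)) := by
  classical
  obtain ⟨ι, hfin, f, h, N0', C, hN0', hC, hsmooth, hev, hbox', hstar', hpair, hfC⟩ :=
    Crest.Agent.H8PermC.geometry d (Crest.Agent.H8PermE.Dz R) hd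
  -- bounds for the rate constants
  obtain ⟨kmin, kmax, hkmin, hkb⟩ : ∃ kmin kmax : ℝ, 0 < kmin ∧ ∀ r ∈ R, kmin ≤ k r ∧ k r ≤ kmax := by
    refine ⟨(∑ r ∈ R, 1 / k r + 1)⁻¹, ∑ r ∈ R, k r, ?_, ?_⟩
    · have : 0 ≤ ∑ r ∈ R, 1 / k r := Finset.sum_nonneg fun r hr => (one_div_pos.2 (hk r hr)).le
      positivity
    · intro r hr
      constructor
      · have h1 : 1 / k r ≤ ∑ r ∈ R, 1 / k r :=
          Finset.single_le_sum (f := fun r => 1 / k r) (fun r hr => (one_div_pos.2 (hk r hr)).le) hr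
        have h2 : 0 < 1 / k r := one_div_pos.2 (hk r hr)
        have h3 : (∑ r ∈ R, 1 / k r + 1)⁻¹ ≤ (1 / k r)⁻¹ := inv_anti₀ h2 (by linarith)
        rwa [one_div, inv_inv] at h3
      · exact Finset.single_le_sum (f := fun r => k r) (fun r hr => (hk r hr).le) hr
  obtain ⟨Nc, hNc⟩ := hev c hc
  set A : ℝ := 2 * (R.card : ℝ) * kmax * (d * (Crest.Agent.H8PermE.Dz R * C)) with hA
  set N0 : ℝ := max N0' (max Nc (A / kmin)) with hN0def
  have hN0a : N0' ≤ N0 := le_max_left _ _
  have hN0b : Nc ≤ N0 := (le_max_left _ _).trans (le_max_right _ _)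
  have hN0c : A / kmin ≤ N0 := (le_max_right _ _).trans (le_max_right _ _)
  have hN0 : 0 ≤ N0 := hN0'.trans hN0a
  have hbox : ∀ N, N0 ≤ N → ∀ x : Fin d → ℝ, (∀ i, ∑ p, f i p * x p ≤ h i N) →
      ∀ p, Real.exp (-C * N) ≤ x p ∧ x p ≤ Real.exp (C * N) :=
    fun N hN => hbox' N (hN0a.trans hN)
  have hstar := fun N (hN : N0 ≤ N) => hstar' N (hN0a.trans hN)
  have hbig : ∀ N, N0 ≤ N → 2 * (R.card : ℝ) * kmax * (d * (Crest.Agent.H8PermE.Dz R * C)) ≤
      kmin * Real.exp N := by
    intro N hN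
    have h1 : A / kmin ≤ Real.exp N := by
      have := Real.add_one_le_exp N
      linarith
    rwa [div_le_iff₀ hkmin, mul_comm] at h1
  have hcN : ∀ N, N0 ≤ N → ∀ i, ∑ p, f i p * c p < h i N := fun N hN => hNc N (hN0b.trans hN)
  have hstay := fun {N1 : ℝ} (hN1 : N0 ≤ N1) => Crest.Agent.H8PermF.stay (c := c) hR hkmin hkb hN0
    hC hsmooth hbox hstar hpair hfC hbig hcN hN1
  set KK := Crest.Agent.H8PermF.KK R c f h with hKK
  have hKpos : ∀ N, N0 ≤ N → ∀ x ∈ KK N, ∀ p, 0 < x p := fun N hN x hx p =>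
    (Real.exp_pos _).trans_le (hbox N hN x hx.1 p).1
  have hKpc : ∀ N, N0 ≤ N → KK N ⊆ positiveClass R c := fun N hN x hx =>
    ⟨hKpos N hN x hx, hx.2⟩
  -- any solution of the field starting in `KK N1` stays in `KK N1`
  have hinv : ∀ N1, N0 ≤ N1 → ∀ w : (Fin d → ℝ) → (Fin d → ℝ), (∀ x, w x ∈ stoichSubspace R) →
      (∀ x, (∀ p, 0 ≤ x p ∧ x p ≤ Real.exp (C * N1)) → w x = field R k x) →
      ∀ x : ℝ → Fin d → ℝ, Crest.Agent.H8PermD.Sol w x → x 0 ∈ KK N1 →
      ∀ t, 0 ≤ t → x t ∈ KK N1 := by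
    intro N1 hN1 w hw1 hw2 x hx hx0 t ht
    obtain ⟨η0, hη0, hst⟩ := hstay hN1
    have := hst w hw1 hw2 x hx hx0 0 le_rfl hη0.le t (by linarith) t ⟨ht, le_rfl⟩
    simpa using this
  have hfieldS : ∀ x, field R k x ∈ stoichSubspace R := Crest.Agent.H8PermF.field_mem R k
  have hinvf : ∀ N1, N0 ≤ N1 → ∀ x : ℝ → Fin d → ℝ, IsForwardSolution (field R k) x →
      x 0 ∈ KK N1 → ∀ t, 0 ≤ t → x t ∈ KK N1 := fun N1 hN1 x hx hx0 =>
    hinv N1 hN1 (field R k) hfieldS (fun _ _ => rfl) x hx hx0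
  refine ⟨KK N0, hKpc N0 le_rfl, ⟨c, fun i => (hcN N0 le_rfl i).le, ?_⟩, ?_, ?_, ?_, ?_⟩
  · rw [sub_self]; exact Submodule.zero_mem _
  · -- compactness
    have hsub : KK N0 ⊆ Set.Icc (fun _ : Fin d => (0 : ℝ)) (fun _ => Real.exp (C * N0)) := by
      intro x hx
      exact ⟨fun p => (hKpos N0 le_rfl x hx p).le, fun p => (hbox N0 le_rfl x hx.1 p).2⟩
    refine isCompact_Icc.of_isClosed_subset ?_ hsub
    have h1 : IsClosed {x : Fin d → ℝ | ∀ i, ∑ p, f i p * x p ≤ h i N0} := by
      have : {x : Fin d → ℝ | ∀ i, ∑ p, f i p * x p ≤ h i N0} =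
          ⋂ i, {x : Fin d → ℝ | ∑ p, f i p * x p ≤ h i N0} := by
        ext x; simp
      rw [this]
      apply isClosed_iInter
      intro i
      apply isClosed_le _ continuous_const
      fun_prop
    have h2 : IsClosed {x : Fin d → ℝ | x - c ∈ stoichSubspace R} := by
      have h3 : IsClosed ((stoichSubspace R : Submodule ℝ (Fin d → ℝ)) : Set (Fin d → ℝ)) :=
        Submodule.closed_of_finiteDimensional _
      exact h3.preimage (continuous_id.sub continuous_const)
    exact h1.inter h2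
  · -- convexity
    intro x hx y hy a b ha hb hab
    refine ⟨fun i => ?_, ?_⟩
    · have h1 : ∑ p, f i p * (a • x + b • y) p =
          a * ∑ p, f i p * x p + b * ∑ p, f i p * y p := by
        rw [Finset.mul_sum, Finset.mul_sum, ← Finset.sum_add_distrib]
        refine Finset.sum_congr rfl fun p _ => ?_
        simp only [Pi.add_apply, Pi.smul_apply, smul_eq_mul]
        ring
      rw [h1]
      have h2 := mul_le_mul_of_nonneg_left (hx.1 i) ha
      have h3 := mul_le_mul_of_nonneg_left (hy.1 i) hb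
      have h4 : a * h i N0 + b * h i N0 = h i N0 := by rw [← add_mul, hab, one_mul]
      linarith
    · have h1 : a • x + b • y - c = a • (x - c) + b • (y - c) := by
        rw [smul_sub, smul_sub]
        have : c = a • c + b • c := by rw [← add_smul, hab, one_smul]
        nth_rewrite 1 [this]
        abel
      rw [h1]
      exact Submodule.add_mem _ (Submodule.smul_mem _ _ hx.2) (Submodule.smul_mem _ _ hy.2)
  · intro x hx hx0
    exact hinvf N0 le_rfl x hx hx0
  · intro x₀ hx₀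
    obtain ⟨M1, hM1⟩ := hev x₀ hx₀.1
    set N1 : ℝ := max N0 M1 with hN1def
    have hN1 : N0 ≤ N1 := le_max_left _ _
    have hx₀K : x₀ ∈ KK N1 := ⟨fun i => (hM1 N1 (le_max_right _ _) i).le, hx₀.2⟩
    obtain ⟨w, Kw, Mw, hwL, hwM, hwS, hwf⟩ :=
      Crest.Agent.H8PermF.exists_modification R k (Real.exp_pos (C * N1)).le
    have hKK_w : ∀ x ∈ KK N1, w x = field R k x := by
      intro x hx
      apply hwf
      intro p
      exact ⟨(hKpos N1 hN1 x hx p).le, (hbox N1 hN1 x hx.1 p).2⟩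
    refine ⟨?_, ?_, ?_⟩
    · obtain ⟨x, hx, hx0⟩ := Crest.Agent.H8PermD.exists_global hwL hwM x₀
      refine ⟨x, ?_, hx0⟩
      have hin := hinv N1 hN1 w hwS hwf x hx (by rw [hx0]; exact hx₀K)
      intro t ht
      have h1 := hx t ht
      rw [hKK_w _ (hin t ht)] at h1
      exact h1
    · intro x x' hx hx' hx0 hx0' t ht
      have hin := hinvf N1 hN1 x hx (by rw [hx0]; exact hx₀K)
      have hin' := hinvf N1 hN1 x' hx' (by rw [hx0']; exact hx₀K)
      have hs : Crest.Agent.H8PermD.Sol w x := by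
        intro s hs
        rw [hKK_w _ (hin s hs)]
        exact hx s hs
      have hs' : Crest.Agent.H8PermD.Sol w x' := by
        intro s hs
        rw [hKK_w _ (hin' s hs)]
        exact hx' s hs
      exact Crest.Agent.H8PermD.Sol.unique hwL hs hs' (by rw [hx0, hx0']) ht
    · intro x hx hx0
      have hin := hinvf N1 hN1 x hx (by rw [hx0]; exact hx₀K)
      refine ⟨fun t ht i => hKpos N1 hN1 _ (hin t ht) i, ?_⟩
      obtain ⟨η0, hη0, hst⟩ := hstay hN1
      refine ⟨(N1 - N0) / η0, div_nonneg (by linarith) hη0.le, ?_⟩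
      intro t ht
      set T := (N1 - N0) / η0 with hT
      have hT0 : 0 ≤ T := div_nonneg (by linarith) hη0.le
      have hηT : η0 * T = N1 - N0 := by rw [hT]; field_simp
      have h1 := hst (field R k) hfieldS (fun _ _ => rfl) x hx (by rw [hx0]; exact hx₀K) η0
        hη0.le le_rfl T hηT.le T ⟨hT0, le_rfl⟩
      rw [hηT, show N1 - (N1 - N0) = N0 by ring] at h1
      have hshift := Crest.Agent.H8PermF.Sol.shift (w := field R k) hx hT0
      have h2 := hinvf N0 le_rfl (fun s => x (s + T)) hshift (by simpa using h1) (t - T)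
        (by linarith)
      simpa using h2

end Crest.Agent.S0122
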