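import Crest.Statements.S0166
-- import your own Crest.Agent.* helpers here
import Crest.Agent.H26Fin
import Crest.Agent.H26Diamond

set_option autoImplicit false
open Crest Crest.AnalysisR

namespace Crest.Agent.S0166

/-- There is a real Banach space (RealBanach record) that is separable, infinite-dimensional and reflexive, whose given norm has at every t > 0 averaged midpoint asymptotic modulus at least √(1 + t²/12) - 1 and at least (√(1 + t²/4) - 1)/2 and maximum-based midpoint modulus at least √(1 + t²/4) - 1, on which no equivalent norm is asymptotically uniformly convex, and in which for every k every map of the depth-k countably branching diamond graph of distortion at most D has 1 + k/4 ≤ D². -/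
theorem result :
    ∃ E : Crest.AnalysisR.RealBanach, E.IsSeparableInfiniteDim ∧ E.IsReflexive ∧
      (∀ t : ℝ, 0 < t → E.MidpointModulusGE E.norm t (Real.sqrt (1 + t ^ 2 / 12) - 1) ∧
        E.MidpointModulusGE E.norm t ((Real.sqrt (1 + t ^ 2 / 4) - 1) / 2) ∧
        E.MaxMidpointModulusGE E.norm t (Real.sqrt (1 + t ^ 2 / 4) - 1)) ∧
      (∀ N : E.X → ℝ, E.IsEquivNorm N → ¬ E.IsAUC N) ∧
      ∀ (k : ℕ) (f : Crest.AnalysisR.DiamondVertex k → E.X) (D : ℝ),
        E.HasDistortionLE k f D → 1 + (k : ℝ) / 4 ≤ D ^ 2 := by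
  have hK : H26Abs.KK (lp H26Comp.C 2) := H26Sum.hKK .global H26Comp.C H26Comp.J
  have hR : H26Reflexive.Refl (lp H26Comp.C 2) := H26Reflexive.lp_refl _ H26Comp.C_refl
  have hS : TopologicalSpace.SeparableSpace (lp H26Comp.C 2) :=
    H26Fin.separable H26Comp.C fun k => inferInstance
  refine ⟨⟨lp H26Comp.C 2, inferInstance, inferInstance, inferInstance⟩, ⟨hS, ?_⟩, hR, ?_, ?_, ?_⟩
  · exact H26Fin.infinite H26Comp.C H26Comp.J H26Comp.J_surj
  · intro t ht
    exact H26Abs.moduli (lp H26Comp.C 2) hK t ht
  · intro N hN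
    exact H26Fin.notAUC H26Comp.C H26Comp.J H26Comp.J_surj N hN
  · intro k f D hf
    exact H26Diamond.distortion (lp H26Comp.C 2)
      (fun x y z c hc hbd hsep ε hε => H26Abs.hX hR hK x y z c hc hbd hsep ε hε) k f D hf

end Crest.Agent.S0166
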