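import Crest.Statements.S0168
import Crest.Agent.H11AUC
import Crest.Agent.H11Tree

set_option autoImplicit false
open Crest Crest.AnalysisR

namespace Crest.Agent.S0168

open Crest.AnalysisR.TreePotential Crest.Agent.H11Tree

theorem inf_dim (m : PotentialModel) : ¬ FiniteDimensional ℝ (modelSpace m) :=
  H11AUC.not_finiteDimensional (fun n => e m (n :: [])) 1 1 one_pos
    (fun s c => child_bound m [] s c) (fun n => norm_e m _ (fun _ => List.cons_ne_nil _ _))

theorem separable (m : PotentialModel) : TopologicalSpace.SeparableSpace (modelSpace m) := by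
  have h1 : TopologicalSpace.IsSeparable (modelSpace m :
      Set (lp (fun _ : PotentialTest m => ℝ) ⊤)) := by
    have h2 : TopologicalSpace.IsSeparable (Set.range (coordVector m)) :=
      (Set.countable_range _).isSeparable
    have h3 := h2.span (R := ℝ)
    exact h3.closure
  exact h1.separableSpace

theorem arith (t η η' R F G P Q P' Q' : ℝ) (ht : 0 < t) (hη : 0 < η) (hRpos : 0 < R)
    (hR2 : R ^ 2 = 1 + t ^ 2 / 4) (hη' : η' = η / (2 + t)) (hF : 1 - η / 4 - η' ≤ F)
    (hG : 1 - η' ≤ G) (key : 2 * (1 / R) * F + t * (t / 2 / R) * G ≤ P' + Q')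
    (n1 : P' ≤ P + η / 4) (n2 : Q' ≤ Q + η / 4) : R - 1 - η ≤ (P + Q) / 2 - 1 := by
  have hη'pos : 0 < η' := by rw [hη']; positivity
  have hα1 : 1 / R ≤ 1 := by
    rw [div_le_one hRpos]
    nlinarith [sq_nonneg t]
  have hβ1 : t / 2 / R ≤ 1 := by
    rw [div_le_one hRpos]
    nlinarith [sq_nonneg t]
  have hα0 : 0 ≤ 1 / R := by positivity
  have hβ0 : 0 ≤ t / 2 / R := by positivity
  have e1 : 2 * (1 / R) * (1 - η / 4 - η') ≤ 2 * (1 / R) * F :=
    mul_le_mul_of_nonneg_left hF (by positivity)
  have e2 : t * (t / 2 / R) * (1 - η') ≤ t * (t / 2 / R) * G :=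
    mul_le_mul_of_nonneg_left hG (by positivity)
  have e3 : 2 * (1 / R) + t * (t / 2 / R) = 2 * R := by
    field_simp
    nlinarith
  have e4 : (1 / R) * (2 * (η / 4 + η')) ≤ 1 * (2 * (η / 4 + η')) :=
    mul_le_mul_of_nonneg_right hα1 (by positivity)
  have e5 : (t / 2 / R) * (t * η') ≤ 1 * (t * η') :=
    mul_le_mul_of_nonneg_right hβ1 (by positivity)
  have e6 : (2 + t) * η' = η := by
    rw [hη']; field_simp
  nlinarith

theorem midpoint' (m : PotentialModel) (t : ℝ) (ht : 0 < t) (x : modelSpace m) (hx1 : ‖x‖ = 1)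
    (η : ℝ) (hη : 0 < η) : ∃ V : Submodule ℝ (modelSpace m), IsClosed (V : Set (modelSpace m)) ∧
      FiniteDimensional ℝ (modelSpace m ⧸ V) ∧ ∀ y ∈ V, ‖y‖ = 1 →
        (Real.sqrt (1 + t ^ 2 / 4) - 1) - η ≤ (‖x + t • y‖ + ‖x - t • y‖) / 2 - 1 := by
  obtain ⟨c, hc⟩ := span_dense m x (min (η / 4) (1 / 2)) (by positivity)
  set x' := c.sum fun s a => a • e m s with hx'
  have hc1 : ‖x - x'‖ ≤ η / 4 := hc.le.trans (min_le_left _ _)
  have hc2 : ‖x - x'‖ ≤ 1 / 2 := hc.le.trans (min_le_right _ _)
  refine ⟨H11AUC.cker (fun s : sc c => D m s), H11AUC.isClosed_cker _,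
    H11AUC.finite_quot_cker _, ?_⟩
  intro y hy hy1'
  have hyD : ∀ s ∈ sc c, D m s y = 0 := by
    intro s hs
    exact (H11AUC.mem_cker _ _).1 hy ⟨s, hs⟩
  set R := Real.sqrt (1 + t ^ 2 / 4) with hR
  have hRpos : 0 < R := Real.sqrt_pos.mpr (by positivity)
  have hR2 : R ^ 2 = 1 + t ^ 2 / 4 := Real.sq_sqrt (by positivity)
  set η' := η / (2 + t) with hη'
  have hη'pos : 0 < η' := by positivity
  have hx'norm : 1 - η / 4 ≤ ‖x'‖ := by
    have : ‖x‖ ≤ ‖x - x'‖ + ‖x'‖ := by
      have := norm_add_le (x - x') x'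
      simpa using this
    linarith
  have hx'pos : 0 < ‖x'‖ := by
    have : ‖x‖ ≤ ‖x - x'‖ + ‖x'‖ := by
      have := norm_add_le (x - x') x'
      simpa using this
    linarith
  obtain ⟨f, hf⟩ := exists_norming m x' η' hη'pos hx'pos
  obtain ⟨g, hg⟩ := exists_norming m y η' hη'pos (by rw [hy1']; exact one_pos)
  rw [hy1'] at hg
  have key := key_ineq m c y hyD f g (1 / R) (t / 2 / R) t (by positivity) (by positivity) (by
    rw [div_pow, div_pow, div_pow, one_pow, hR2]
    have : (0:ℝ) < 1 + t ^ 2 / 4 := by positivity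
    rw [← add_div, div_le_one this]
    linarith)
  have n1 : ‖x' + t • y‖ ≤ ‖x + t • y‖ + η / 4 := by
    have h1 : x' + t • y = (x + t • y) - (x - x') := by abel
    rw [h1]
    exact (norm_sub_le _ _).trans (by linarith)
  have n2 : ‖x' - t • y‖ ≤ ‖x - t • y‖ + η / 4 := by
    have h1 : x' - t • y = (x - t • y) - (x - x') := by abel
    rw [h1]
    exact (norm_sub_le _ _).trans (by linarith)
  exact arith t η η' R _ _ _ _ _ _ ht hη hRpos hR2 hη' (by linarith) hg.le key n1 n2

theorem midpoint (m : PotentialModel) (t : ℝ) (ht : 0 < t) :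
    (modelBanach m).MidpointModulusGE (modelBanach m).norm t (Real.sqrt (1 + t ^ 2 / 4) - 1) := by
  intro x hx η hη
  obtain ⟨V, h1, h2, h3⟩ := midpoint' m t ht x hx η hη
  exact ⟨(V : Set (modelSpace m)), ⟨V, rfl, h1, h2⟩, h3⟩

theorem not_auc (m : PotentialModel) (N : (modelBanach m).X → ℝ)
    (hN : (modelBanach m).IsEquivNorm N) : ¬ (modelBanach m).IsAUC N := by
  refine @H11AUC.not_isAUC (modelSpace m) _ _
    ((Submodule.isClosed_topologicalClosure _).completeSpace_coe) N hN 2 1 one_pos
    (fun _ _ => Set.range (pathVec m)) ?_ ?_ ?_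
  · intro K
    refine ⟨pathVec m [0], ⟨_, rfl⟩, ?_⟩
    have : pathVec m [0] = e m [0] := by simp [pathVec]
    rw [this]
    exact norm_e m _ (fun _ => List.cons_ne_nil _ _)
  · rintro K j x _ ⟨s, rfl⟩
    exact norm_pathVec m s
  · rintro K j x _ ⟨s, rfl⟩ V hcl hfd ε hε
    obtain ⟨n, y, hy, hn⟩ := (H11AUC.near_of_l2_bound (fun n => e m (n :: s)) 1
      (fun A c => child_bound m s A c) V hcl hfd ε hε).exists
    exact ⟨e m (n :: s), ⟨n :: s, rfl⟩, norm_e m _ (fun _ => List.cons_ne_nil _ _), y, hy, hn⟩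

/-- For each of the four bounded-potential coordinate models on the countably branching tree (rootless sibling, rooted sibling, antichain, global), the generated space, namely the closure of the span of the coordinate vectors in the supremum norm over the model's tests, is separable and infinite-dimensional, its norm has at every unit centre and every 0 < t < 1 averaged midpoint asymptotic quantity at least √(1 + t²/4) - 1, and no equivalent norm on it is asymptotically uniformly convex. -/
theorem result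
    (m : Crest.AnalysisR.TreePotential.PotentialModel) :
    (Crest.AnalysisR.TreePotential.modelBanach m).IsSeparableInfiniteDim ∧
      (∀ t : ℝ, 0 < t → t < 1 →
        (Crest.AnalysisR.TreePotential.modelBanach m).MidpointModulusGE
          (Crest.AnalysisR.TreePotential.modelBanach m).norm t (Real.sqrt (1 + t ^ 2 / 4) - 1)) ∧
      ∀ N : (Crest.AnalysisR.TreePotential.modelBanach m).X → ℝ,
        (Crest.AnalysisR.TreePotential.modelBanach m).IsEquivNorm N →
          ¬ (Crest.AnalysisR.TreePotential.modelBanach m).IsAUC N := by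
  refine ⟨⟨separable m, inf_dim m⟩, fun t ht _ => midpoint m t ht, fun N hN => not_auc m N hN⟩

end Crest.Agent.S0168
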