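import Crest.Statements.S0169
import Crest.Agent.H11AUC

set_option autoImplicit false
set_option linter.unusedSectionVars false
open MeasureTheory ProbabilityTheory
open Crest Crest.AnalysisR

namespace Crest.Agent.S0169

open Crest.AnalysisR.TreeProduct

section

variable {Ω : Type} [MeasurableSpace Ω]

/-- `f` is a measurable function of the variables with index in `S`. -/
def Dep (W : List ℕ → Ω → ℝ) (S : Finset (List ℕ)) (f : Ω → ℝ) : Prop :=
  ∃ φ : (S → ℝ) → ℝ, Measurable φ ∧ ∀ ω, f ω = φ (fun j => W j ω)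

theorem Dep.mono {W : List ℕ → Ω → ℝ} {S T : Finset (List ℕ)} (h : S ⊆ T) {f : Ω → ℝ}
    (hf : Dep W S f) : Dep W T f := by
  obtain ⟨φ, hφ, h1⟩ := hf
  refine ⟨fun x => φ (fun j => x ⟨j.1, h j.2⟩), ?_, h1⟩
  exact hφ.comp (measurable_pi_lambda _ fun j => measurable_pi_apply _)

theorem Dep.mul {W : List ℕ → Ω → ℝ} {S : Finset (List ℕ)} {f g : Ω → ℝ}
    (hf : Dep W S f) (hg : Dep W S g) : Dep W S (fun ω => f ω * g ω) := by
  obtain ⟨φ, hφ, h1⟩ := hf
  obtain ⟨ψ, hψ, h2⟩ := hg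
  exact ⟨fun x => φ x * ψ x, hφ.mul hψ, fun ω => by simp only [h1, h2]⟩

theorem Dep.comp {W : List ℕ → Ω → ℝ} {S : Finset (List ℕ)} {f : Ω → ℝ}
    (hf : Dep W S f) {g : ℝ → ℝ} (hg : Measurable g) : Dep W S (fun ω => g (f ω)) := by
  obtain ⟨φ, hφ, h1⟩ := hf
  exact ⟨fun x => g (φ x), hg.comp hφ, fun ω => by simp only [h1]⟩

theorem Dep.single {W : List ℕ → Ω → ℝ} {S : Finset (List ℕ)} {i : List ℕ} (hi : i ∈ S) :
    Dep W S (W i) :=
  ⟨fun x => x ⟨i, hi⟩, measurable_pi_apply _, fun _ => rfl⟩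

theorem Dep.const {W : List ℕ → Ω → ℝ} {S : Finset (List ℕ)} (c : ℝ) :
    Dep W S (fun _ => c) :=
  ⟨fun _ => c, measurable_const, fun _ => rfl⟩

theorem Dep.measurable {W : List ℕ → Ω → ℝ} (hW : ∀ v, Measurable (W v))
    {S : Finset (List ℕ)} {f : Ω → ℝ} (hf : Dep W S f) : Measurable f := by
  obtain ⟨φ, hφ, h1⟩ := hf
  have : f = fun ω => φ (fun j => W j ω) := funext h1
  rw [this]
  exact hφ.comp (measurable_pi_lambda _ fun j => hW _)

theorem Dep.indep {μ : Measure Ω} {W : List ℕ → Ω → ℝ} (hW : ∀ v, Measurable (W v))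
    (hind : iIndepFun W μ) {S : Finset (List ℕ)} {f : Ω → ℝ} (hf : Dep W S f) {i : List ℕ}
    (hi : i ∉ S) {g : ℝ → ℝ} (hg : Measurable g) :
    IndepFun f (fun ω => g (W i ω)) μ := by
  obtain ⟨φ, hφ, h1⟩ := hf
  have h2 := hind.indepFun_finset S {i} (by simpa using hi) hW
  have h3 := h2.comp hφ (ψ := fun x : (({i} : Finset (List ℕ)) → ℝ) =>
    g (x ⟨i, Finset.mem_singleton_self i⟩)) (hg.comp (measurable_pi_apply _))
  have h4 : f = φ ∘ (fun a (j : S) => W j a) := funext h1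
  rw [h4]
  exact h3

/-- indices on the root path -/
def tl (v : List ℕ) : Finset (List ℕ) := v.tails.toFinset

theorem tl_cons (a : ℕ) (v : List ℕ) : tl v ⊆ tl (a :: v) := by
  intro s hs
  unfold tl at *
  rw [List.mem_toFinset, List.mem_tails] at *
  exact hs.trans (List.suffix_cons a v)

theorem mem_tl (v : List ℕ) : v ∈ tl v := by
  unfold tl
  rw [List.mem_toFinset, List.mem_tails]

theorem cons_notMem (a : ℕ) (v : List ℕ) : a :: v ∉ tl v := by
  unfold tl
  rw [List.mem_toFinset, List.mem_tails]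
  rintro ⟨t, ht⟩
  have := congrArg List.length ht
  simp at this
  omega

theorem dep_path (W : List ℕ → Ω → ℝ) (v : List ℕ) : Dep W (tl v) (pathProduct W v) := by
  induction v with
  | nil => exact Dep.const 1
  | cons a v ih => exact (ih.mono (tl_cons a v)).mul (Dep.single (mem_tl _))

end

section

variable {ν : Measure ℝ} [IsProbabilityMeasure ν] {Ω : Type} [MeasurableSpace Ω]
  {μ : Measure Ω} [IsProbabilityMeasure μ] {W : List ℕ → Ω → ℝ}

theorem int_comp (hW : IsRealization ν μ W) {v : List ℕ} (hv : v ≠ []) {g : ℝ → ℝ}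
    (hg : Measurable g) : ∫ ω, g (W v ω) ∂μ = ∫ x, g x ∂ν := by
  have h := hW.2.2 v hv
  rw [← h]
  exact (integral_map (hW.1 v).aemeasurable hg.aestronglyMeasurable).symm

theorem integrable_comp (hW : IsRealization ν μ W) {v : List ℕ} (hv : v ≠ []) {g : ℝ → ℝ}
    (hg : Integrable g ν) : Integrable (fun ω => g (W v ω)) μ := by
  have h := hW.2.2 v hv
  rw [← h] at hg
  exact hg.comp_aemeasurable (hW.1 v).aemeasurable

theorem int_id (hm2 : Integrable (fun x : ℝ => x ^ 2) ν) : Integrable (fun x : ℝ => x) ν := by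
  refine Integrable.mono' ((integrable_const (1:ℝ)).add hm2) measurable_id.aestronglyMeasurable ?_
  filter_upwards with x
  simp only [Pi.add_apply, Real.norm_eq_abs]
  rw [abs_le]
  constructor <;> nlinarith [sq_nonneg (x - 1), sq_nonneg (x + 1)]

theorem int_sub_sq (hm2 : Integrable (fun x : ℝ => x ^ 2) ν) :
    Integrable (fun x : ℝ => (x - 1) ^ 2) ν := by
  have h1 := (hm2.sub ((int_id hm2).const_mul 2)).add (integrable_const (1:ℝ))
  refine h1.congr ?_
  filter_upwards with x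
  simp only [Pi.add_apply, Pi.sub_apply]; ring

/-- independence product formula -/
theorem prod_formula (hW : IsRealization ν μ W) {S : Finset (List ℕ)} {f : Ω → ℝ}
    (hf : Dep W S f) {i : List ℕ} (hi : i ∉ S) (hi0 : i ≠ []) {g : ℝ → ℝ} (hg : Measurable g) :
    ∫ ω, f ω * g (W i ω) ∂μ = (∫ ω, f ω ∂μ) * ∫ x, g x ∂ν := by
  have h1 := (hf.indep hW.1 hW.2.1 hi hg).integral_fun_mul_eq_mul_integral
    (hf.measurable hW.1).aestronglyMeasurable (hg.comp (hW.1 i)).aestronglyMeasurable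
  rw [h1, int_comp hW hi0 hg]

theorem prod_integrable (hW : IsRealization ν μ W) {S : Finset (List ℕ)} {f : Ω → ℝ}
    (hf : Dep W S f) (hfi : Integrable f μ) {i : List ℕ} (hi : i ∉ S) (hi0 : i ≠ []) {g : ℝ → ℝ}
    (hg : Measurable g) (hgi : Integrable g ν) : Integrable (fun ω => f ω * g (W i ω)) μ :=
  (hf.indep hW.1 hW.2.1 hi hg).integrable_mul hfi (integrable_comp hW hi0 hgi)

theorem path_integrable (hm2 : Integrable (fun x : ℝ => x ^ 2) ν) (hW : IsRealization ν μ W)
    (v : List ℕ) : Integrable (pathProduct W v) μ := by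
  induction v with
  | nil => exact integrable_const (1:ℝ)
  | cons a v ih =>
    exact prod_integrable hW (dep_path W v) ih (cons_notMem a v) (List.cons_ne_nil _ _)
      measurable_id (int_id hm2)

theorem path_sq_integrable (hm2 : Integrable (fun x : ℝ => x ^ 2) ν) (hW : IsRealization ν μ W)
    (v : List ℕ) : Integrable (fun ω => pathProduct W v ω ^ 2) μ := by
  induction v with
  | nil => simpa [pathProduct] using integrable_const (1:ℝ)
  | cons a v ih =>
    have h1 := prod_integrable hW ((dep_path W v).comp (measurable_id.pow_const 2)) ih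
      (cons_notMem a v) (List.cons_ne_nil _ _) (measurable_id.pow_const 2) hm2
    refine h1.congr ?_
    filter_upwards with ω
    simp only [pathProduct, id]; ring

theorem path_abs (hpos : ν (Set.Ioi 0) = 1) (hmean : ∫ x, x ∂ν = 1)
    (hW : IsRealization ν μ W) (v : List ℕ) : ∫ ω, |pathProduct W v ω| ∂μ = 1 := by
  induction v with
  | nil => simp [pathProduct]
  | cons a v ih =>
    have h1 := prod_formula hW ((dep_path W v).comp (measurable_norm)) (cons_notMem a v)
      (List.cons_ne_nil _ _) (g := fun x => ‖x‖) measurable_norm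
    have h2 : ∫ x, ‖x‖ ∂ν = 1 := by
      rw [← hmean]
      refine integral_congr_ae ?_
      have : ∀ᵐ x ∂ν, x ∈ Set.Ioi (0:ℝ) := by
        rw [ae_iff]
        have := (prob_compl_eq_zero_iff (μ := ν) (measurableSet_Ioi (a := (0:ℝ)))).mpr hpos
        exact this
      filter_upwards [this] with x hx
      rw [Real.norm_eq_abs, abs_of_pos hx]
    rw [h2, mul_one] at h1
    have h3 : ∫ ω, |pathProduct W (a :: v) ω| ∂μ =
        ∫ ω, ‖pathProduct W v ω‖ * ‖W (a :: v) ω‖ ∂μ := by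
      refine integral_congr_ae ?_
      filter_upwards with ω
      simp only [pathProduct, abs_mul, Real.norm_eq_abs]
    rw [h3, h1]
    simpa using ih

/-- The increments. -/
def inc (W : List ℕ → Ω → ℝ) (v : List ℕ) (n : ℕ) (ω : Ω) : ℝ :=
  pathProduct W (n :: v) ω - pathProduct W v ω

theorem inc_eq (W : List ℕ → Ω → ℝ) (v : List ℕ) (n : ℕ) (ω : Ω) :
    inc W v n ω = pathProduct W v ω * (W (n :: v) ω - 1) := by
  simp only [inc, pathProduct]; ring

theorem inc_integrable (hm2 : Integrable (fun x : ℝ => x ^ 2) ν) (hW : IsRealization ν μ W)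
    (v : List ℕ) (n : ℕ) : Integrable (inc W v n) μ :=
  (path_integrable hm2 hW _).sub (path_integrable hm2 hW _)

theorem dep_inc (W : List ℕ → Ω → ℝ) (v : List ℕ) (n : ℕ) : Dep W (tl (n :: v)) (inc W v n) := by
  have h1 : Dep W (tl (n :: v)) (fun ω => W (n :: v) ω - 1) :=
    (Dep.single (mem_tl (n :: v))).comp (g := fun x => x - 1) (measurable_id.sub_const 1)
  have h2 := ((dep_path W v).mono (tl_cons n v)).mul h1
  have h3 : inc W v n = fun ω => pathProduct W v ω * (W (n :: v) ω - 1) :=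
    funext fun ω => inc_eq W v n ω
  rw [h3]
  exact h2

theorem notMem_tl_cons (v : List ℕ) (n k : ℕ) (hnk : n ≠ k) : k :: v ∉ tl (n :: v) := by
  unfold tl
  rw [List.mem_toFinset, List.mem_tails, List.suffix_cons_iff]
  rintro (h | h)
  · simp only [List.cons.injEq, and_true] at h
    exact hnk h.symm
  · obtain ⟨t, ht⟩ := h
    have := congrArg List.length ht
    simp at this
    omega

theorem inc_ortho (hm2 : Integrable (fun x : ℝ => x ^ 2) ν) (hmean : ∫ x, x ∂ν = 1)
    (hW : IsRealization ν μ W) (v : List ℕ) (n k : ℕ) (hnk : n ≠ k) :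
    Integrable (fun ω => inc W v n ω * inc W v k ω) μ ∧
    ∫ ω, inc W v n ω * inc W v k ω ∂μ = 0 := by
  have hd : Dep W (tl (n :: v)) (fun ω => inc W v n ω * pathProduct W v ω) :=
    (dep_inc W v n).mul ((dep_path W v).mono (tl_cons n v))
  have hi : Integrable (fun ω => inc W v n ω * pathProduct W v ω) μ := by
    have h1 := prod_integrable hW ((dep_path W v).comp (measurable_id.pow_const 2))
      (path_sq_integrable hm2 hW v)
      (cons_notMem n v) (List.cons_ne_nil _ _) (g := fun x => x - 1) (measurable_id.sub_const 1)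
      ((int_id hm2).sub (integrable_const 1))
    refine h1.congr ?_
    filter_upwards with ω
    rw [inc_eq]
    simp only [id]; ring
  have heq : (fun ω => inc W v n ω * inc W v k ω) =
      fun ω => (inc W v n ω * pathProduct W v ω) * (W (k :: v) ω - 1) := by
    funext ω
    rw [inc_eq W v k]; ring
  rw [heq]
  constructor
  · exact prod_integrable hW hd hi (notMem_tl_cons v n k hnk) (List.cons_ne_nil _ _)
      (g := fun x => x - 1) (measurable_id.sub_const 1) ((int_id hm2).sub (integrable_const 1))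
  · rw [prod_formula hW hd (notMem_tl_cons v n k hnk) (List.cons_ne_nil _ _)
      (g := fun x => x - 1) (measurable_id.sub_const 1)]
    rw [integral_sub (int_id hm2) (integrable_const 1), hmean]
    simp

/-- variance constant at a vertex -/
noncomputable def KV (ν : Measure ℝ) (μ : Measure Ω) (W : List ℕ → Ω → ℝ) (v : List ℕ) : ℝ :=
  (∫ ω, pathProduct W v ω ^ 2 ∂μ) * ∫ x, (x - 1) ^ 2 ∂ν

theorem KV_nonneg (v : List ℕ) : 0 ≤ KV ν μ W v :=
  mul_nonneg (integral_nonneg fun _ => sq_nonneg _) (integral_nonneg fun _ => sq_nonneg _)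

theorem inc_sq (hm2 : Integrable (fun x : ℝ => x ^ 2) ν)
    (hW : IsRealization ν μ W) (v : List ℕ) (n : ℕ) :
    Integrable (fun ω => inc W v n ω * inc W v n ω) μ ∧
    ∫ ω, inc W v n ω * inc W v n ω ∂μ = KV ν μ W v := by
  have heq : (fun ω => inc W v n ω * inc W v n ω) =
      fun ω => (pathProduct W v ω ^ 2) * (W (n :: v) ω - 1) ^ 2 := by
    funext ω
    rw [inc_eq W v n]; ring
  have hd : Dep W (tl v) (fun ω => pathProduct W v ω ^ 2) :=
    (dep_path W v).comp (g := fun x => x ^ 2) (measurable_id.pow_const 2)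
  rw [heq]
  constructor
  · exact prod_integrable hW hd (path_sq_integrable hm2 hW v) (cons_notMem n v)
      (List.cons_ne_nil _ _) (g := fun x => (x - 1) ^ 2) ((measurable_id.sub_const 1).pow_const 2)
      (int_sub_sq hm2)
  · exact prod_formula hW hd (cons_notMem n v) (List.cons_ne_nil _ _)
      (g := fun x => (x - 1) ^ 2) ((measurable_id.sub_const 1).pow_const 2)

theorem inc_abs (hpos : ν (Set.Ioi 0) = 1) (hmean : ∫ x, x ∂ν = 1)
    (hW : IsRealization ν μ W) (v : List ℕ) (n : ℕ) :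
    ∫ ω, |inc W v n ω| ∂μ = ∫ x, |x - 1| ∂ν := by
  have h1 := prod_formula hW ((dep_path W v).comp (measurable_norm)) (cons_notMem n v)
      (List.cons_ne_nil _ _) (g := fun x => ‖x - 1‖) (measurable_norm.comp (measurable_id.sub_const 1))
  have h2 := path_abs hpos hmean hW v
  have h3 : ∫ ω, |inc W v n ω| ∂μ = ∫ ω, ‖pathProduct W v ω‖ * ‖W (n :: v) ω - 1‖ ∂μ := by
    refine integral_congr_ae ?_
    filter_upwards with ω
    rw [inc_eq, abs_mul]
    rfl
  rw [h3, h1]
  have h4 : ∫ ω, ‖pathProduct W v ω‖ ∂μ = 1 := h2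
  rw [h4, one_mul]
  rfl

/-- `(∫ |g|)^2 ≤ ∫ g^2` on a probability space. -/
theorem abs_sq_le {g : Ω → ℝ} (hg : Integrable g μ) (hg2 : Integrable (fun ω => g ω ^ 2) μ) :
    (∫ ω, |g ω| ∂μ) ^ 2 ≤ ∫ ω, g ω ^ 2 ∂μ := by
  set m := ∫ ω, |g ω| ∂μ with hm
  have h0 : 0 ≤ ∫ ω, (|g ω| - m) ^ 2 ∂μ := integral_nonneg fun _ => sq_nonneg _
  have h1 : ∫ ω, (|g ω| - m) ^ 2 ∂μ = ∫ ω, g ω ^ 2 ∂μ - 2 * m * m + m ^ 2 := by
    have e : (fun ω => (|g ω| - m) ^ 2) = fun ω => (g ω ^ 2 - (2 * m) * |g ω|) + m ^ 2 := by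
      funext ω
      rw [sub_sq, sq_abs]; ring
    have i1 : Integrable (fun ω => g ω ^ 2 - (2 * m) * |g ω|) μ := hg2.sub (hg.abs.const_mul (2 * m))
    rw [e, integral_add i1 (integrable_const _),
      integral_sub hg2 (hg.abs.const_mul (2 * m)), integral_const_mul, ← hm]
    simp
  nlinarith

theorem sum_bound (hm2 : Integrable (fun x : ℝ => x ^ 2) ν) (hmean : ∫ x, x ∂ν = 1)
    (hW : IsRealization ν μ W) (v : List ℕ) (s : Finset ℕ) (c : ℕ → ℝ) :
    ∫ ω, |∑ n ∈ s, c n * inc W v n ω| ∂μ ≤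
      Real.sqrt (KV ν μ W v) * Real.sqrt (∑ n ∈ s, c n ^ 2) := by
  have hint : ∀ n k, Integrable (fun ω => c n * c k * (inc W v n ω * inc W v k ω)) μ := by
    intro n k
    by_cases h : n = k
    · subst h; exact (inc_sq hm2 hW v n).1.const_mul _
    · exact (inc_ortho hm2 hmean hW v n k h).1.const_mul _
  have hexp : (fun ω => (∑ n ∈ s, c n * inc W v n ω) ^ 2) =
      fun ω => ∑ n ∈ s, ∑ k ∈ s, c n * c k * (inc W v n ω * inc W v k ω) := by
    funext ω
    rw [sq, Finset.sum_mul_sum]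
    refine Finset.sum_congr rfl fun n _ => Finset.sum_congr rfl fun k _ => ?_
    ring
  have hg : Integrable (fun ω => ∑ n ∈ s, c n * inc W v n ω) μ :=
    integrable_finsetSum _ fun n _ => (inc_integrable hm2 hW v n).const_mul _
  have hg2 : Integrable (fun ω => (∑ n ∈ s, c n * inc W v n ω) ^ 2) μ := by
    rw [hexp]
    exact integrable_finsetSum _ fun n _ => integrable_finsetSum _ fun k _ => hint n k
  have h1 := abs_sq_le hg hg2
  have h2 : ∫ ω, (∑ n ∈ s, c n * inc W v n ω) ^ 2 ∂μ = KV ν μ W v * ∑ n ∈ s, c n ^ 2 := by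
    rw [hexp, integral_finsetSum _ fun n _ => integrable_finsetSum _ fun k _ => hint n k,
      Finset.mul_sum]
    refine Finset.sum_congr rfl fun n hn => ?_
    rw [integral_finsetSum _ fun k _ => hint n k, Finset.sum_eq_single n]
    · rw [integral_const_mul, (inc_sq hm2 hW v n).2]; ring
    · intro k _ hk
      rw [integral_const_mul, (inc_ortho hm2 hmean hW v n k (Ne.symm hk)).2, mul_zero]
    · intro h; exact absurd hn h
  rw [h2] at h1
  rw [← Real.sqrt_mul (KV_nonneg v)]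
  exact Real.le_sqrt_of_sq_le h1

/-- The path products as elements of the span. -/
noncomputable def X (hm2 : Integrable (fun x : ℝ => x ^ 2) ν) (hW : IsRealization ν μ W)
    (v : List ℕ) : productSpan μ W :=
  ⟨(path_integrable hm2 hW v).toL1 _, Submodule.le_topologicalClosure _
    (Submodule.subset_span ⟨v, (path_integrable hm2 hW v).coeFn_toL1⟩)⟩

theorem norm_eq (x : productSpan μ W) {f : Ω → ℝ}
    (h : ((x : Lp ℝ 1 μ) : Ω → ℝ) =ᵐ[μ] f) : ‖x‖ = ∫ ω, |f ω| ∂μ := by
  have h1 : ‖x‖ = ‖(x : Lp ℝ 1 μ)‖ := rfl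
  rw [h1, L1.norm_eq_integral_norm]
  refine integral_congr_ae ?_
  filter_upwards [h] with ω hω
  rw [hω, Real.norm_eq_abs]

theorem X_ae (hm2 : Integrable (fun x : ℝ => x ^ 2) ν) (hW : IsRealization ν μ W) (v : List ℕ) :
    ((X hm2 hW v : Lp ℝ 1 μ) : Ω → ℝ) =ᵐ[μ] pathProduct W v :=
  (path_integrable hm2 hW v).coeFn_toL1

theorem inc_ae (hm2 : Integrable (fun x : ℝ => x ^ 2) ν) (hW : IsRealization ν μ W) (v : List ℕ)
    (n : ℕ) : (((X hm2 hW (n :: v) - X hm2 hW v : productSpan μ W) : Lp ℝ 1 μ) : Ω → ℝ)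
      =ᵐ[μ] inc W v n := by
  have h1 : ((X hm2 hW (n :: v) - X hm2 hW v : productSpan μ W) : Lp ℝ 1 μ) =
    (X hm2 hW (n :: v) : Lp ℝ 1 μ) - (X hm2 hW v : Lp ℝ 1 μ) := rfl
  rw [h1]
  refine (Lp.coeFn_sub _ _).trans ?_
  filter_upwards [X_ae hm2 hW (n :: v), X_ae hm2 hW v] with ω h2 h3
  rw [Pi.sub_apply, h2, h3]
  rfl

theorem sum_ae (hm2 : Integrable (fun x : ℝ => x ^ 2) ν) (hW : IsRealization ν μ W) (v : List ℕ)
    (s : Finset ℕ) (c : ℕ → ℝ) :
    (((∑ n ∈ s, c n • (X hm2 hW (n :: v) - X hm2 hW v) : productSpan μ W) : Lp ℝ 1 μ) : Ω → ℝ)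
      =ᵐ[μ] fun ω => ∑ n ∈ s, c n * inc W v n ω := by
  classical
  induction s using Finset.induction_on with
  | empty =>
    simp only [Finset.sum_empty]
    exact Lp.coeFn_zero _ _ _
  | insert a s ha ih =>
    rw [Finset.sum_insert ha]
    have h1 : ((c a • (X hm2 hW (a :: v) - X hm2 hW v) +
        ∑ n ∈ s, c n • (X hm2 hW (n :: v) - X hm2 hW v) : productSpan μ W) : Lp ℝ 1 μ) =
        c a • ((X hm2 hW (a :: v) - X hm2 hW v : productSpan μ W) : Lp ℝ 1 μ) +
        ((∑ n ∈ s, c n • (X hm2 hW (n :: v) - X hm2 hW v) : productSpan μ W) : Lp ℝ 1 μ) := rfl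
    rw [h1]
    refine (Lp.coeFn_add _ _).trans ?_
    filter_upwards [ih, Lp.coeFn_smul (c a)
      ((X hm2 hW (a :: v) - X hm2 hW v : productSpan μ W) : Lp ℝ 1 μ),
      inc_ae hm2 hW v a] with ω h2 h3 h4
    rw [Pi.add_apply, h2, h3, Finset.sum_insert ha, Pi.smul_apply, h4, smul_eq_mul]

theorem l2b (hm2 : Integrable (fun x : ℝ => x ^ 2) ν) (hmean : ∫ x, x ∂ν = 1)
    (hW : IsRealization ν μ W) (v : List ℕ) (s : Finset ℕ) (c : ℕ → ℝ) :
    ‖∑ n ∈ s, c n • (X hm2 hW (n :: v) - X hm2 hW v)‖ ≤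
      Real.sqrt (KV ν μ W v) * Real.sqrt (∑ n ∈ s, c n ^ 2) := by
  rw [norm_eq _ (sum_ae hm2 hW v s c)]
  exact sum_bound hm2 hmean hW v s c

theorem norm_X (hpos : ν (Set.Ioi 0) = 1) (hmean : ∫ x, x ∂ν = 1)
    (hm2 : Integrable (fun x : ℝ => x ^ 2) ν) (hW : IsRealization ν μ W) (v : List ℕ) :
    ‖X hm2 hW v‖ = 1 := by
  rw [norm_eq _ (X_ae hm2 hW v)]
  exact path_abs hpos hmean hW v

theorem norm_inc (hpos : ν (Set.Ioi 0) = 1) (hmean : ∫ x, x ∂ν = 1)
    (hm2 : Integrable (fun x : ℝ => x ^ 2) ν) (hW : IsRealization ν μ W) (v : List ℕ) (n : ℕ) :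
    ‖X hm2 hW (n :: v) - X hm2 hW v‖ = ∫ x, |x - 1| ∂ν := by
  rw [norm_eq _ (inc_ae hm2 hW v n)]
  exact inc_abs hpos hmean hW v n

theorem delta_pos (hnc : ∀ c : ℝ, ν ≠ Measure.dirac c)
    (hm2 : Integrable (fun x : ℝ => x ^ 2) ν) : 0 < ∫ x, |x - 1| ∂ν := by
  have h0 : 0 ≤ ∫ x, |x - 1| ∂ν := integral_nonneg fun _ => abs_nonneg _
  refine lt_of_le_of_ne h0 fun h => ?_
  have hi : Integrable (fun x : ℝ => |x - 1|) ν := ((int_id hm2).sub (integrable_const 1)).abs
  have h1 := (integral_eq_zero_iff_of_nonneg (fun x => abs_nonneg _) hi).mp h.symm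
  apply hnc 1
  have h2 : ∀ᵐ x ∂ν, x = 1 := by
    filter_upwards [h1] with x hx
    have : |x - 1| = 0 := hx
    linarith [abs_eq_zero.mp this]
  have h3 : ν = ν.map (fun _ => (1:ℝ)) := by
    have : (id : ℝ → ℝ) =ᵐ[ν] fun _ => (1:ℝ) := h2
    rw [← Measure.map_congr this, Measure.map_id]
  rw [h3, Measure.map_const]
  simp

end

/-- Let ν be a Borel probability law on ℝ carried by (0,∞), not a point mass, with mean 1 and finite second moment, and W an independent family of real random variables on a probability space indexed by the vertices of the countably branching tree (finite lists of naturals; root [], parent of a :: v is v), each non-root one with law ν. Then the closed linear span in L¹ of the path products ∏_{root ≺ u ≼ v} W_u is infinite-dimensional and has no equivalent asymptotically uniformly convex norm. -/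
theorem result (ν : Measure ℝ) [IsProbabilityMeasure ν] (hpos : ν (Set.Ioi 0) = 1)
    (hnc : ∀ c : ℝ, ν ≠ Measure.dirac c) (hmean : ∫ x, x ∂ν = 1)
    (hm2 : Integrable (fun x : ℝ => x ^ 2) ν)
    (Ω : Type) [MeasurableSpace Ω] (μ : Measure Ω) [IsProbabilityMeasure μ]
    (W : List ℕ → Ω → ℝ) (hW : Crest.AnalysisR.TreeProduct.IsRealization ν μ W) :
    ¬ FiniteDimensional ℝ (Crest.AnalysisR.TreeProduct.productSpan μ W) ∧
      ∀ N : (Crest.AnalysisR.TreeProduct.spanBanach μ W).X → ℝ,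
        (Crest.AnalysisR.TreeProduct.spanBanach μ W).IsEquivNorm N →
          ¬ (Crest.AnalysisR.TreeProduct.spanBanach μ W).IsAUC N := by
  have hδ := delta_pos hnc hm2
  have hδ' : 0 < min (∫ x, |x - 1| ∂ν) 1 := lt_min hδ one_pos
  refine ⟨H11AUC.not_finiteDimensional (fun n => X hm2 hW (n :: []) - X hm2 hW [])
    (Real.sqrt (KV ν μ W [])) _ hδ (fun s c => l2b hm2 hmean hW [] s c)
    (fun n => (norm_inc hpos hmean hm2 hW [] n).ge), ?_⟩
  intro N hN
  refine @H11AUC.not_isAUC (productSpan μ W) _ _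
    ((Submodule.isClosed_topologicalClosure _).completeSpace_coe) N hN 1
    (min (∫ x, |x - 1| ∂ν) 1) hδ'
    (fun _ _ => Set.range (X hm2 hW)) ?_ ?_ ?_
  · intro K
    exact ⟨X hm2 hW [], ⟨_, rfl⟩, by rw [norm_X hpos hmean hm2 hW]; exact min_le_right _ _⟩
  · rintro K j x _ ⟨v, rfl⟩
    exact (norm_X hpos hmean hm2 hW v).le
  · rintro K j x _ ⟨v, rfl⟩ V hcl hfd ε hε
    obtain ⟨n, y, hy, hn⟩ := (H11AUC.near_of_l2_bound
      (fun n => X hm2 hW (n :: v) - X hm2 hW v) (Real.sqrt (KV ν μ W v))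
      (fun s c => l2b hm2 hmean hW v s c) V hcl hfd ε hε).exists
    refine ⟨X hm2 hW (n :: v) - X hm2 hW v, ⟨n :: v, by abel⟩, ?_, y, hy, hn⟩
    rw [norm_inc hpos hmean hm2 hW]
    exact min_le_left _ _

end Crest.Agent.S0169
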