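import Mathlib
import Crest.Agent.ThpDefs

/-!
rid 155: shared library. Averages, transition matrices.
-/

namespace Crest.Agent.Thp
open Finset

/-! ### averages -/

section av
variable {α β : Type*} [Fintype α] [Fintype β]

lemma av_def (f : α → ℝ) : av f = (∑ a, f a) / (Fintype.card α : ℝ) := rfl

lemma av_congr {f g : α → ℝ} (h : ∀ a, f a = g a) : av f = av g := by
  have : f = g := funext h
  rw [this]

lemma av_nonneg {f : α → ℝ} (h : ∀ a, 0 ≤ f a) : 0 ≤ av f :=
  div_nonneg (Finset.sum_nonneg fun a _ => h a) (Nat.cast_nonneg _)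

lemma av_mono {f g : α → ℝ} (h : ∀ a, f a ≤ g a) : av f ≤ av g :=
  div_le_div_of_nonneg_right (Finset.sum_le_sum fun a _ => h a) (Nat.cast_nonneg _)

lemma av_const [Nonempty α] (c : ℝ) : av (fun _ : α => c) = c := by
  have : (Fintype.card α : ℝ) ≠ 0 := by exact_mod_cast Fintype.card_ne_zero
  simp [av, Finset.sum_const, Finset.card_univ]

lemma av_zero : av (fun _ : α => (0 : ℝ)) = 0 := by simp [av]

lemma av_add (f g : α → ℝ) : av (fun a => f a + g a) = av f + av g := by
  simp [av, Finset.sum_add_distrib, add_div]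

lemma av_sub (f g : α → ℝ) : av (fun a => f a - g a) = av f - av g := by
  simp [av, Finset.sum_sub_distrib, sub_div]

lemma av_mul_left (c : ℝ) (f : α → ℝ) : av (fun a => c * f a) = c * av f := by
  simp [av, ← Finset.mul_sum, mul_div_assoc]

lemma av_mul_right (c : ℝ) (f : α → ℝ) : av (fun a => f a * c) = av f * c := by
  simp only [mul_comm _ c]; exact av_mul_left c f

lemma av_sum {ι : Type*} (s : Finset ι) (f : ι → α → ℝ) :
    av (fun a => ∑ i ∈ s, f i a) = ∑ i ∈ s, av (f i) := by
  simp only [av]
  rw [Finset.sum_comm, Finset.sum_div]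

lemma av_comm (f : α → β → ℝ) : av (fun a => av (f a)) = av (fun b => av (fun a => f a b)) := by
  simp only [av]
  rw [← Finset.sum_div, ← Finset.sum_div, Finset.sum_comm, div_div, div_div, mul_comm]

lemma av_prod (f : α × β → ℝ) : av f = av (fun a => av (fun b => f (a, b))) := by
  simp only [av]
  rw [← Finset.sum_div, Fintype.sum_prod_type, Fintype.card_prod, Nat.cast_mul, div_div, mul_comm]

lemma av_equiv (e : α ≃ β) (f : β → ℝ) : av (fun a => f (e a)) = av f := by
  simp only [av]
  rw [Equiv.sum_comp e f, Fintype.card_congr e]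

lemma le_av_of_le [Nonempty α] {f : α → ℝ} {c : ℝ} (h : ∀ a, c ≤ f a) : c ≤ av f := by
  calc c = av (fun _ : α => c) := (av_const c).symm
    _ ≤ av f := av_mono h

lemma av_le_of_le [Nonempty α] {f : α → ℝ} {c : ℝ} (h : ∀ a, f a ≤ c) : av f ≤ c := by
  calc av f ≤ av (fun _ : α => c) := av_mono h
    _ = c := av_const c

lemma card_mul_av (f : α → ℝ) [Nonempty α] : (Fintype.card α : ℝ) * av f = ∑ a, f a := by
  have : (Fintype.card α : ℝ) ≠ 0 := by exact_mod_cast Fintype.card_ne_zero
  rw [av]; field_simp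

/-- power mean inequality for natural exponents -/
lemma av_pow_le [Nonempty α] {f : α → ℝ} (h : ∀ a, 0 ≤ f a) (n : ℕ) :
    (av f) ^ (n + 1) ≤ av (fun a => f a ^ (n + 1)) := by
  have h0 : (0 : ℝ) < (Fintype.card α : ℝ) := by exact_mod_cast Fintype.card_pos
  have := Real.pow_arith_mean_le_arith_mean_pow (s := (univ : Finset α))
    (w := fun _ => 1 / (Fintype.card α : ℝ)) (z := f)
    (fun _ _ => by positivity)
    (by simp [Finset.sum_const, Finset.card_univ, h0.ne'])
    (fun a _ => h a) (n + 1)
  simpa [av, ← Finset.mul_sum, div_eq_inv_mul] using this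

/-- resampling one coordinate -/
lemma av_update {ι : Type*} [Fintype ι] [DecidableEq ι] [Nonempty α] (i : ι) (f : (ι → α) → ℝ) :
    av (fun C : ι → α => av (fun c : α => f (Function.update C i c))) = av f := by
  classical
  have h0 : (Fintype.card α : ℝ) ≠ 0 := by exact_mod_cast Fintype.card_ne_zero
  have key : ∑ C : ι → α, ∑ c : α, f (Function.update C i c) =
      (Fintype.card α : ℝ) * ∑ C : ι → α, f C := by
    have e : ∀ c : α, ∑ C : ι → α, f (Function.update C i c) =
        (Fintype.card α : ℝ) * ∑ C ∈ univ.filter (fun C : ι → α => C i = c), f C := by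
      intro c
      have : ∀ C' ∈ univ.filter (fun C : ι → α => C i = c),
          ((univ.filter (fun C : ι → α => Function.update C i c = C')).card : ℝ)
            = Fintype.card α := by
        intro C' hC'
        have hc : C' i = c := by simpa using hC'
        have : (univ.filter (fun C : ι → α => Function.update C i c = C')) =
            univ.image (fun a : α => Function.update C' i a) := by
          ext C
          simp only [mem_filter, mem_univ, true_and, mem_image]
          constructor
          · intro h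
            refine ⟨C i, ?_⟩
            rw [← h]; simp
          · rintro ⟨a, rfl⟩
            simp [← hc]
        rw [this, Finset.card_image_of_injective]
        · simp
        · intro a b hab
          have := congrFun hab i
          simpa using this
      calc ∑ C : ι → α, f (Function.update C i c)
          = ∑ C' ∈ univ.filter (fun C : ι → α => C i = c),
              ∑ C ∈ univ.filter (fun C : ι → α => Function.update C i c = C'),
                f (Function.update C i c) := by
            rw [Finset.sum_fiberwise_of_maps_to]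
            intro C _; simp
        _ = ∑ C' ∈ univ.filter (fun C : ι → α => C i = c),
              (Fintype.card α : ℝ) * f C' := by
            refine Finset.sum_congr rfl fun C' hC' => ?_
            rw [← this C' hC', ← nsmul_eq_mul, ← Finset.sum_const]
            refine Finset.sum_congr rfl fun C hC => ?_
            rw [(mem_filter.mp hC).2]
        _ = _ := by rw [Finset.mul_sum]
    rw [Finset.sum_comm]
    simp_rw [e]
    rw [← Finset.mul_sum]
    congr 1
    exact Finset.sum_fiberwise univ (fun C : ι → α => C i) f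
  simp only [av]
  rw [← Finset.sum_div, key]
  field_simp

end av

/-! ### action -/

@[simp] lemma act_one {k D : ℕ} (x : Om k D) : act (1 : Equiv.Perm (X D)) x = x := by
  ext i; rfl

lemma act_mul {k D : ℕ} (g h : Equiv.Perm (X D)) (x : Om k D) : act (g * h) x = act g (act h x) := by
  ext i; rfl

@[simp] lemma act_inv_act {k D : ℕ} (g : Equiv.Perm (X D)) (x : Om k D) :
    act g⁻¹ (act g x) = x := by
  rw [← act_mul]; simp

@[simp] lemma act_act_inv {k D : ℕ} (g : Equiv.Perm (X D)) (x : Om k D) :
    act g (act g⁻¹ x) = x := by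
  rw [← act_mul]; simp

lemma act_eq_iff {k D : ℕ} (g : Equiv.Perm (X D)) (x y : Om k D) :
    act g x = y ↔ x = act g⁻¹ y := by
  constructor
  · rintro rfl; simp
  · rintro rfl; simp

/-- the action as a permutation of the states -/
def actE {k D : ℕ} (g : Equiv.Perm (X D)) : Om k D ≃ Om k D where
  toFun := act g
  invFun := act g⁻¹
  left_inv x := by simp
  right_inv x := by simp

@[simp] lemma sw_mul_self {D : ℕ} (s : Fin D) (c : Col D) : sw s c * sw s c = 1 := by
  ext z : 1
  exact swf_invol s c z

@[simp] lemma sw_inv {D : ℕ} (s : Fin D) (c : Col D) : (sw s c)⁻¹ = sw s c :=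
  inv_eq_of_mul_eq_one_left (sw_mul_self s c)

lemma act_trans {k k' D : ℕ} (g : Equiv.Perm (X D)) (e : Fin k ↪ Fin k') (x : Om k' D) :
    e.trans (act g x) = act g (e.trans x) := by
  ext i; rfl

/-! ### matrices -/

section matrices
variable {D k : ℕ}

lemma Rm_mulVec (g : Equiv.Perm (X D)) (f : Om k D → ℝ) (x : Om k D) :
    (Rm k g).mulVec f x = f (act g x) := by
  simp [Matrix.mulVec, dotProduct, Rm]

lemma Pm_mulVec (s : Fin D) (f : Om k D → ℝ) (x : Om k D) :
    (Pm D k s).mulVec f x = av (fun c : Col D => f (act (sw s c) x)) := by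
  simp only [Matrix.mulVec, dotProduct, Pm]
  simp_rw [← av_mul_right]
  rw [← av_sum]
  refine av_congr fun c => ?_
  simp

lemma Pm_nonneg (s : Fin D) (x y : Om k D) : 0 ≤ Pm D k s x y :=
  av_nonneg fun c => by split_ifs <;> norm_num

lemma Pm_symm (s : Fin D) (x y : Om k D) : Pm D k s x y = Pm D k s y x := by
  refine av_congr fun c => ?_
  have : act (sw s c) x = y ↔ act (sw s c) y = x := by
    rw [act_eq_iff, sw_inv, eq_comm]
  simp [this]

@[simp] lemma Pm_transpose (s : Fin D) : (Pm D k s).transpose = Pm D k s := by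
  ext x y; exact Pm_symm s y x

lemma Pm_row (s : Fin D) (x : Om k D) : ∑ y, Pm D k s x y = 1 := by
  have := Pm_mulVec s (fun _ : Om k D => (1 : ℝ)) x
  simp only [Matrix.mulVec, dotProduct, mul_one] at this
  rw [this, av_const]

lemma TmN_nonneg (s : ℕ) (x y : Om k D) : 0 ≤ TmN D k s x y := by
  induction s generalizing x y with
  | zero => simp only [TmN, Matrix.one_apply]; split_ifs <;> norm_num
  | succ s ih =>
    simp only [TmN]
    rw [Matrix.mul_apply]
    refine Finset.sum_nonneg fun z _ => mul_nonneg ?_ (ih z y)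
    split_ifs with h
    · exact Pm_nonneg _ _ _
    · simp only [Matrix.one_apply]; split_ifs <;> norm_num

lemma row_mul {ι : Type*} [Fintype ι] {M N : Matrix ι ι ℝ} (hM : ∀ x, ∑ y, M x y = 1)
    (hN : ∀ x, ∑ y, N x y = 1) (x : ι) : ∑ y, (M * N) x y = 1 := by
  simp only [Matrix.mul_apply]
  rw [Finset.sum_comm]
  simp_rw [← Finset.mul_sum, hN, mul_one, hM]

lemma row_one {ι : Type*} [Fintype ι] [DecidableEq ι] (x : ι) :
    ∑ y, (1 : Matrix ι ι ℝ) x y = 1 := by
  simp [Matrix.one_apply]

lemma TmN_row (s : ℕ) (x : Om k D) : ∑ y, TmN D k s x y = 1 := by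
  induction s generalizing x with
  | zero => simpa only [TmN] using row_one x
  | succ s ih =>
    simp only [TmN]
    refine row_mul ?_ ih x
    intro x
    split_ifs with h
    · exact Pm_row _ _
    · exact row_one x

lemma TmN_col (s : ℕ) (x : Om k D) : ∑ y, (TmN D k s).transpose x y = 1 := by
  induction s generalizing x with
  | zero =>
    simp only [TmN, Matrix.transpose_one]
    exact row_one x
  | succ s ih =>
    simp only [TmN, Matrix.transpose_mul]
    refine row_mul ih ?_ x
    intro x
    split_ifs with h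
    · rw [Pm_transpose]; exact Pm_row _ _
    · simp only [Matrix.transpose_one]; exact row_one x

lemma Tm_nonneg (x y : Om k D) : 0 ≤ Tm D k x y := TmN_nonneg _ _ _
lemma Tm_row (x : Om k D) : ∑ y, Tm D k x y = 1 := TmN_row _ _
lemma Tm_col (x : Om k D) : ∑ y, (Tm D k).transpose x y = 1 := TmN_col _ _

lemma Bm_nonneg (x y : Om k D) : 0 ≤ Bm D k x y := by
  simp only [Bm, Matrix.mul_apply, Matrix.transpose_apply]
  exact Finset.sum_nonneg fun z _ => mul_nonneg (Tm_nonneg _ _) (Tm_nonneg _ _)

@[simp] lemma Bm_transpose : (Bm D k).transpose = Bm D k := by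
  simp [Bm, Matrix.transpose_mul]

lemma Bm_symm (x y : Om k D) : Bm D k x y = Bm D k y x := by
  conv_lhs => rw [← Bm_transpose]
  rfl

lemma Bm_row (x : Om k D) : ∑ y, Bm D k x y = 1 := row_mul Tm_row Tm_col x

lemma Bm_posSemidef : (Bm D k).PosSemidef := by
  have := Matrix.posSemidef_self_mul_conjTranspose (Tm D k)
  simpa [Bm, Matrix.conjTranspose_eq_transpose_of_trivial] using this

lemma Bm_pow_posSemidef (j : ℕ) : ((Bm D k) ^ j).PosSemidef := Bm_posSemidef.pow j

lemma Bm_pow_trace_nonneg (j : ℕ) : 0 ≤ ((Bm D k) ^ j).trace :=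
  (Bm_pow_posSemidef j).trace_nonneg

/-- forgetting cards commutes with `Pm` -/
lemma Pm_forget {k' : ℕ} (s : Fin D) (e : Fin k ↪ Fin k') (f : Om k D → ℝ) :
    (Pm D k' s).mulVec (fun x => f (e.trans x)) = fun x => (Pm D k s).mulVec f (e.trans x) := by
  funext x
  rw [Pm_mulVec, Pm_mulVec]
  refine av_congr fun c => ?_
  rw [act_trans]

lemma TmN_forget {k' : ℕ} (s : ℕ) (e : Fin k ↪ Fin k') (f : Om k D → ℝ) :
    (TmN D k' s).mulVec (fun x => f (e.trans x)) = fun x => (TmN D k s).mulVec f (e.trans x) := by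
  induction s with
  | zero => simp [TmN]
  | succ s ih =>
    simp only [TmN]
    rw [← Matrix.mulVec_mulVec, ih]
    by_cases h : s < D
    · simp only [h, dif_pos]
      rw [Pm_forget]
      funext x
      rw [Matrix.mulVec_mulVec]
    · simp [h]

lemma TmN_transpose_forget {k' : ℕ} (s : ℕ) (e : Fin k ↪ Fin k') (f : Om k D → ℝ) :
    (TmN D k' s).transpose.mulVec (fun x => f (e.trans x)) =
      fun x => (TmN D k s).transpose.mulVec f (e.trans x) := by
  induction s generalizing f with
  | zero => simp [TmN]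
  | succ s ih =>
    simp only [TmN, Matrix.transpose_mul]
    rw [← Matrix.mulVec_mulVec]
    by_cases h : s < D
    · simp only [h, dif_pos, Pm_transpose]
      rw [Pm_forget, ih]
      funext x
      rw [Matrix.mulVec_mulVec]
    · simp only [h, dif_neg, not_false_eq_true, Matrix.transpose_one, Matrix.one_mulVec, ih]
      funext x
      rw [Matrix.mul_one]

lemma Tm_forget {k' : ℕ} (e : Fin k ↪ Fin k') (f : Om k D → ℝ) :
    (Tm D k').mulVec (fun x => f (e.trans x)) = fun x => (Tm D k).mulVec f (e.trans x) :=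
  TmN_forget _ e f

lemma Tm_transpose_forget {k' : ℕ} (e : Fin k ↪ Fin k') (f : Om k D → ℝ) :
    (Tm D k').transpose.mulVec (fun x => f (e.trans x)) =
      fun x => (Tm D k).transpose.mulVec f (e.trans x) :=
  TmN_transpose_forget _ e f

/-- forgetting (or relabelling) cards commutes with the Beneš matrix -/
lemma Bm_forget {k' : ℕ} (e : Fin k ↪ Fin k') (f : Om k D → ℝ) :
    (Bm D k').mulVec (fun x => f (e.trans x)) = fun x => (Bm D k).mulVec f (e.trans x) := by
  simp only [Bm]
  rw [← Matrix.mulVec_mulVec, Tm_transpose_forget, Tm_forget]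
  funext x
  rw [Matrix.mulVec_mulVec]

end matrices

/-! ### cardinalities -/

lemma card_X (D : ℕ) : Fintype.card (X D) = 2 ^ D := by simp [X]

lemma card_Om (k D : ℕ) : Fintype.card (Om k D) = (2 ^ D).descFactorial k := by
  simp [Om, Fintype.card_embedding_eq]

lemma card_Om_le (k D : ℕ) : (Fintype.card (Om k D) : ℝ) ≤ ((2 : ℝ) ^ D) ^ k := by
  rw [card_Om]
  exact_mod_cast Nat.descFactorial_le_pow (2 ^ D) k

lemma nonempty_Om {k D : ℕ} (h : k ≤ 2 ^ D) : Nonempty (Om k D) := by
  have : 0 < Fintype.card (Om k D) := by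
    rw [card_Om]; exact Nat.descFactorial_pos.mpr h
  exact Fintype.card_pos_iff.mp this

lemma card_Om_full (D : ℕ) : Fintype.card (Om (2 ^ D) D) = (2 ^ D).factorial := by
  rw [card_Om, Nat.descFactorial_self]

/-! ### harmonic functions -/

lemma Harm.comp_act {k D : ℕ} {f : Om k D → ℝ} (hf : Harm f) (g : Equiv.Perm (X D)) :
    Harm (fun x => f (act g x)) := by
  intro i x
  rw [← hf i (act g x)]
  refine Finset.sum_bij' (fun y _ => act g y) (fun y _ => act g⁻¹ y) ?_ ?_ ?_ ?_ ?_
  · intro y hy
    simp only [mem_filter, mem_univ, true_and] at hy ⊢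
    intro j hj
    simp [hy j hj]
  · intro y hy
    simp only [mem_filter, mem_univ, true_and] at hy ⊢
    intro j hj
    simp [hy j hj]
  · intro y _; simp
  · intro y _; simp
  · intro y _; rfl

lemma Harm.add {k D : ℕ} {f g : Om k D → ℝ} (hf : Harm f) (hg : Harm g) :
    Harm (fun x => f x + g x) := by
  intro i x
  rw [Finset.sum_add_distrib, hf i x, hg i x, add_zero]

lemma Harm.smul {k D : ℕ} {f : Om k D → ℝ} (hf : Harm f) (c : ℝ) :
    Harm (fun x => c * f x) := by
  intro i x
  rw [← Finset.mul_sum, hf i x, mul_zero]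

lemma Harm.zero {k D : ℕ} : Harm (fun _ : Om k D => (0 : ℝ)) := by
  intro i x; simp

lemma Harm.av {α : Type*} [Fintype α] {k D : ℕ} {F : α → Om k D → ℝ} (h : ∀ a, Harm (F a)) :
    Harm (fun x => av (fun a => F a x)) := by
  intro i x
  rw [← av_sum]
  have : (fun a => ∑ y ∈ univ.filter (fun y : Om k D => ∀ j, j ≠ i → y j = x j), F a y)
      = fun _ => 0 := by
    funext a; exact h a i x
  rw [this, av_zero]

/-- the space of harmonic functions -/
def harmS (k D : ℕ) : Submodule ℝ (Om k D → ℝ) where
  carrier := {f | Harm f}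
  add_mem' hf hg := hf.add hg
  zero_mem' := Harm.zero
  smul_mem' c f hf := hf.smul c

@[simp] lemma mem_harmS {k D : ℕ} {f : Om k D → ℝ} : f ∈ harmS k D ↔ Harm f := Iff.rfl

lemma Harm.Pm {k D : ℕ} {f : Om k D → ℝ} (hf : Harm f) (s : Fin D) :
    Harm ((Thp.Pm D k s).mulVec f) := by
  have : (Thp.Pm D k s).mulVec f = fun x => Thp.av (fun c : Col D => f (act (sw s c) x)) := by
    funext x; exact Pm_mulVec s f x
  rw [this]
  exact Harm.av fun c => hf.comp_act _

lemma Harm.TmN {k D : ℕ} {f : Om k D → ℝ} (hf : Harm f) (s : ℕ) :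
    Harm ((Thp.TmN D k s).mulVec f) := by
  induction s with
  | zero => simpa [Thp.TmN] using hf
  | succ s ih =>
    simp only [Thp.TmN]
    rw [← Matrix.mulVec_mulVec]
    by_cases h : s < D
    · simp only [h, dif_pos]; exact ih.Pm _
    · simpa [h] using ih

lemma Harm.TmN_transpose {k D : ℕ} {f : Om k D → ℝ} (hf : Harm f) (s : ℕ) :
    Harm ((Thp.TmN D k s).transpose.mulVec f) := by
  induction s generalizing f with
  | zero => simpa [Thp.TmN] using hf
  | succ s ih =>
    simp only [Thp.TmN, Matrix.transpose_mul]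
    rw [← Matrix.mulVec_mulVec]
    by_cases h : s < D
    · simp only [h, dif_pos, Pm_transpose]; exact ih (hf.Pm _)
    · simpa [h] using ih hf

lemma Harm.Bm {k D : ℕ} {f : Om k D → ℝ} (hf : Harm f) : Harm ((Thp.Bm D k).mulVec f) := by
  simp only [Thp.Bm]
  rw [← Matrix.mulVec_mulVec]
  exact (hf.TmN_transpose D).TmN D

lemma Harm.Lm {k D : ℕ} {f : Om k D → ℝ} (hf : Harm f) : Harm ((Thp.Lm D k).mulVec f) := by
  have : (Thp.Lm D k).mulVec f = fun x => (1 / (2 * (2 : ℝ) ^ D)) *
      ∑ z : X D, ∑ z' : X D, (f x + (-1) * f (act (Equiv.swap z z') x)) := by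
    funext x
    simp only [Thp.Lm, Matrix.smul_mulVec, Matrix.sum_mulVec, Matrix.sub_mulVec,
      Matrix.one_mulVec, Pi.smul_apply, Finset.sum_apply, Pi.sub_apply, Rm_mulVec, smul_eq_mul]
    congr 1
    refine Finset.sum_congr rfl fun z _ => Finset.sum_congr rfl fun z' _ => ?_
    ring
  rw [this]
  refine Harm.smul ?_ _
  intro i x
  rw [Finset.sum_comm]
  refine Finset.sum_eq_zero fun z _ => ?_
  rw [Finset.sum_comm]
  refine Finset.sum_eq_zero fun z' _ => ?_
  exact (hf.add ((hf.comp_act (Equiv.swap z z')).smul (-1))) i x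

end Crest.Agent.Thp
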