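import Mathlib
import Crest.Agent.ThpLib
import Crest.Agent.ThpSpec
set_option autoImplicit false

namespace Crest.Agent.Thp
open Finset

namespace AlphaA

lemma fl_fl {D : ℕ} (s : Fin D) (z : X D) : fl s (fl s z) = z := by
  funext i
  by_cases hi : i = s
  · subst hi; simp [fl]
  · simp [fl, Function.update_of_ne hi]

lemma fl_self {D : ℕ} (s : Fin D) (z : X D) : fl s z s = !(z s) := by simp [fl]

lemma fl_inj {D : ℕ} (s : Fin D) {z z' : X D} (h : fl s z = fl s z') : z = z' := by
  rw [← fl_fl s z, h, fl_fl]

/-- closed sets are unions of input pairs -/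
lemma cl_le_prs {k D : ℕ} (s : Fin D) (u v : Fin k → X D) (hu : Function.Injective u) :
    cl s u v ≤ 2 ^ prs s u := by
  classical
  unfold cl prs
  rw [← Finset.card_powerset]
  apply Finset.card_le_card_of_injOn (fun Z => Z.filter (fun i => u i s = false))
  · intro Z hZ
    simp only [Finset.coe_filter, Finset.mem_univ, true_and, Set.mem_ofPred_eq] at hZ
    simp only [Finset.coe_powerset, Set.mem_preimage, Set.mem_powerset_iff, Finset.coe_subset]
    intro i hi
    rw [Finset.mem_filter] at hi ⊢
    obtain ⟨j, _, hj⟩ := (hZ i hi.1).1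
    exact ⟨Finset.mem_univ _, hi.2, j, hj⟩
  · intro Z hZ Z' hZ' h
    simp only [Finset.coe_filter, Finset.mem_univ, true_and, Set.mem_ofPred_eq] at hZ hZ'
    simp only at h
    have key : ∀ (A B : Finset (Fin k)), (∀ i ∈ A, ∃ j ∈ A, u j = fl s (u i)) →
        (∀ i ∈ B, ∃ j ∈ B, u j = fl s (u i)) →
        A.filter (fun i => u i s = false) = B.filter (fun i => u i s = false) → A ⊆ B := by
      intro A B hA hB hAB i hi
      by_cases hs : u i s = false
      · have : i ∈ A.filter (fun i => u i s = false) := by simp [hi, hs]
        rw [hAB] at this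
        exact (Finset.mem_filter.1 this).1
      · simp only [Bool.not_eq_false] at hs
        obtain ⟨j, hj, hju⟩ := hA i hi
        have hjs : u j s = false := by rw [hju, fl_self, hs]; rfl
        have : j ∈ A.filter (fun i => u i s = false) := by simp [hj, hjs]
        rw [hAB] at this
        obtain ⟨i', hi', hiu'⟩ := hB j (Finset.mem_filter.1 this).1
        rw [hju, fl_fl] at hiu'
        rw [← hu hiu']
        exact hi'
    apply Finset.Subset.antisymm
    · exact key Z Z' (fun i hi => (hZ i hi).1) (fun i hi => (hZ' i hi).1) h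
    · exact key Z' Z (fun i hi => (hZ' i hi).1) (fun i hi => (hZ i hi).1) h.symm

lemma cl_pos {k D : ℕ} (s : Fin D) (u v : Fin k → X D) : 0 < cl s u v := by
  classical
  unfold cl
  apply Finset.card_pos.2
  exact ⟨∅, by simp⟩

lemma two_prs_le {k D : ℕ} (s : Fin D) (u : Fin k → X D) (hu : Function.Injective u) :
    2 * prs s u ≤ k := by
  classical
  unfold prs
  set P := univ.filter (fun i : Fin k => u i s = false ∧ ∃ j, u j = fl s (u i)) with hP
  set P' := univ.filter (fun i : Fin k => u i s = true) with hP'
  have h1 : P.card ≤ P'.card := by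
    have hch : ∀ i : Fin k, ∃ j : Fin k, (∃ j, u j = fl s (u i)) → u j = fl s (u i) := by
      intro i
      by_cases h : ∃ j, u j = fl s (u i)
      · obtain ⟨j, hj⟩ := h
        exact ⟨j, fun _ => hj⟩
      · exact ⟨i, fun hc => absurd hc h⟩
    choose p hp using hch
    apply Finset.card_le_card_of_injOn p
    · intro i hi
      simp only [hP, Finset.coe_filter, Finset.mem_univ, true_and, Set.mem_ofPred_eq] at hi
      simp only [hP', Finset.coe_filter, Finset.mem_univ, true_and, Set.mem_ofPred_eq]
      rw [hp i hi.2, fl_self, hi.1]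
      rfl
    · intro i hi i' hi' h
      simp only [hP, Finset.coe_filter, Finset.mem_univ, true_and, Set.mem_ofPred_eq] at hi hi'
      have e1 := hp i hi.2
      have e2 := hp i' hi'.2
      rw [h] at e1
      rw [e1] at e2
      exact hu (fl_inj s e2)
  have h2 : Disjoint P P' := by
    rw [Finset.disjoint_left]
    intro i hi hi'
    simp only [hP, hP', Finset.mem_filter, Finset.mem_univ, true_and] at hi hi'
    rw [hi.1] at hi'
    exact absurd hi' (by decide)
  have h3 : (P ∪ P').card ≤ k := by
    have := Finset.card_le_univ (P ∪ P')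
    simpa using this
  rw [Finset.card_union_of_disjoint h2] at h3
  omega

/-! ### composition structure -/

variable {D : ℕ}

/-- the list of coordinates `a, a+1, …, a+n-1` -/
def wl (D a : ℕ) : ℕ → List (Fin D)
  | 0 => []
  | n + 1 => wl D a n ++ (if h : a + n < D then [⟨a + n, h⟩] else [])

lemma pw_append (O : Fin D → Col D) (W W' : List (Fin D)) : pw O (W ++ W') = pw O W' * pw O W := by
  induction W with
  | nil => simp [pw]
  | cons s W ih => simp [pw, ih, mul_assoc]

lemma out_add (O : Fin D → Col D) (a n : ℕ) : out O (a + n) = pw O (wl D a n) * out O a := by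
  induction n with
  | zero => simp [pw, wl]
  | succ n ih =>
    rw [← add_assoc, out, ih, wl, pw_append, mul_assoc]
    congr 1
    unfold swN
    split_ifs <;> simp [pw]

lemma wl_mem (a n : ℕ) (i : Fin D) : i ∈ wl D a n ↔ a ≤ i.val ∧ i.val < a + n := by
  induction n with
  | zero => simp [wl]
  | succ n ih =>
    rw [wl, List.mem_append, ih]
    split_ifs with h
    · rw [List.mem_singleton, Fin.ext_iff]
      simp only
      omega
    · simp only [List.not_mem_nil, or_false]
      have := i.isLt
      omega

lemma wl_nodup (a n : ℕ) : (wl D a n).Nodup := by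
  induction n with
  | zero => simp [wl]
  | succ n ih =>
    rw [wl]
    split_ifs with h
    · rw [List.nodup_append]
      refine ⟨ih, by simp, ?_⟩
      intro x hx y hy
      rw [List.mem_singleton] at hy
      rw [wl_mem] at hx
      intro hc
      rw [hy] at hc
      rw [hc] at hx
      simp only at hx
      omega
    · simpa using ih

lemma wl_length (a n : ℕ) (h : a + n ≤ D) : (wl D a n).length = n := by
  induction n with
  | zero => simp [wl]
  | succ n ih =>
    rw [wl, dif_pos (by omega), List.length_append, ih (by omega)]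
    simp

lemma pw_congr (O O' : Fin D → Col D) (W : List (Fin D)) (h : ∀ i ∈ W, O i = O' i) :
    pw O W = pw O' W := by
  induction W with
  | nil => simp [pw]
  | cons s W ih =>
    rw [pw, pw, h s (by simp), ih (fun i hi => h i (by simp [hi]))]

lemma out_congr (O O' : Fin D → Col D) (s : ℕ) (h : ∀ i : Fin D, i.val < s → O i = O' i) :
    out O s = out O' s := by
  induction s with
  | zero => simp [out]
  | succ s ih =>
    rw [out, out, ih (fun i hi => h i (by omega))]
    congr 1
    unfold swN
    split_ifs with hs
    · rw [h ⟨s, hs⟩ (by simp)]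
    · rfl

lemma sw_other (s c : Fin D) (hs : s ≠ c) (b : Col D) (z : X D) : (sw s b z) c = z c := by
  simp [swf, Function.update_of_ne (Ne.symm hs)]

lemma out_bit (O : Fin D → Col D) (c : Fin D) (s : ℕ) (hs : s ≤ c.val) (z : X D) :
    (out O s z) c = z c := by
  induction s with
  | zero => simp [out]
  | succ s ih =>
    rw [out, Equiv.Perm.mul_apply]
    unfold swN
    split_ifs with h
    · rw [sw_other _ _ (by intro hc; rw [← hc] at hs; simp at hs), ih (by omega)]
    · rw [Equiv.Perm.one_apply, ih (by omega)]

lemma mid_bit (O : Fin D → Col D) (c : Fin D) (s : ℕ) (hs : s ≤ c.val) (z : X D) :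
    (mid O s z) c = z c := by
  induction s generalizing z with
  | zero => simp [mid]
  | succ s ih =>
    rw [mid, Equiv.Perm.mul_apply, ih (by omega)]
    unfold swN
    split_ifs with h
    · rw [sw_other _ _ (by intro hc; rw [← hc] at hs; simp at hs)]
    · rfl

/-- the permutation between the input pairs and the window -/
lemma flip_bit (I O : Fin D → Col D) (c : Fin D) (z : X D) :
    ((out O (c.val / 2) * mid I (c.val + 1)) (fl c z)) c =
      !((out O (c.val / 2) * mid I (c.val + 1)) z) c := by
  rw [Equiv.Perm.mul_apply, Equiv.Perm.mul_apply, out_bit O c _ (Nat.div_le_self _ _),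
    out_bit O c _ (Nat.div_le_self _ _), mid, Equiv.Perm.mul_apply, Equiv.Perm.mul_apply,
    mid_bit I c _ le_rfl, mid_bit I c _ le_rfl]
  unfold swN
  rw [dif_pos c.isLt]
  simp [swf, fl_self]

end AlphaA

end Crest.Agent.Thp
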