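import Mathlib
import Crest.Agent.ThpAlphaA
set_option autoImplicit false

namespace Crest.Agent.Thp
open Finset

namespace AlphaB
open AlphaA

/-- right side of `Cyc` for the coordinate `c` -/
noncomputable def RH (k c : ℕ) : ℝ :=
  2 * (2 : ℝ) ^ ((((c : ℝ) + 1) / 15) * ((k : ℝ) / 2) / ((2 ^ ((c + 1) / 16) : ℕ) : ℝ)) *
    (1 + ((2 : ℝ) ^ (((c : ℝ) + 1) / 15) - 1) *
      ∑ l ∈ Icc (1 : ℕ) (2 ^ ((c + 1) / 16)), Real.sqrt ((l : ℝ) / 2 ^ (c - c / 2))) ^ ((k : ℝ) / 2)

noncomputable def KK (k c : ℕ) : ℝ := (RH k c) ^ (1 / ((c : ℝ) + 1))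

lemma RH_pos (k c : ℕ) : 0 < RH k c := by
  unfold RH
  have h1 : (1 : ℝ) ≤ (2 : ℝ) ^ (((c : ℝ) + 1) / 15) :=
    Real.one_le_rpow (by norm_num) (by positivity)
  have h2 : 0 ≤ ∑ l ∈ Icc (1 : ℕ) (2 ^ ((c + 1) / 16)), Real.sqrt ((l : ℝ) / 2 ^ (c - c / 2)) :=
    Finset.sum_nonneg (fun _ _ => Real.sqrt_nonneg _)
  have h3 : 0 ≤ ((2 : ℝ) ^ (((c : ℝ) + 1) / 15) - 1) *
      ∑ l ∈ Icc (1 : ℕ) (2 ^ ((c + 1) / 16)), Real.sqrt ((l : ℝ) / 2 ^ (c - c / 2)) :=
    mul_nonneg (by linarith) h2
  positivity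

lemma KK_nonneg (k c : ℕ) : 0 ≤ KK k c := Real.rpow_nonneg (RH_pos k c).le _

lemma KK_pow (k c : ℕ) : KK k c ^ (c + 1) = RH k c := by
  unfold KK
  rw [← Real.rpow_natCast, ← Real.rpow_mul (RH_pos k c).le]
  push_cast
  rw [one_div, inv_mul_cancel₀ (by positivity), Real.rpow_one]

variable {D k : ℕ}

/-- the factor of the coordinate `c` -/
noncomputable def FF (I : Fin D → Col D) (x : Om k D) (c : ℕ) (O : Fin D → Col D) : ℝ :=
  if h : c < D then
    (cl ⟨c, h⟩ (fun i => inn I c (x i)) (fun i => out O c (mid I D (x i))) : ℝ) ^ ((1 : ℝ) / 15)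
  else 1

lemma FF_nonneg (I : Fin D → Col D) (x : Om k D) (c : ℕ) (O : Fin D → Col D) : 0 ≤ FF I x c O := by
  unfold FF
  split_ifs
  · positivity
  · norm_num

lemma hold_app (hC : Spec.Cyc) (hH : Spec.Hold) (I : Fin D → Col D) (x : Om k D) (c0 : ℕ) :
    av (fun O : Fin D → Col D => ∏ c ∈ Ico c0 D, FF I x c O) ≤ ∏ c ∈ Ico c0 D, KK k c := by
  apply hH D (Col D) (FF I x) (KK k) c0 (FF_nonneg I x) (KK_nonneg k)
  · intro c O O' h
    unfold FF
    split_ifs with hc
    · rw [out_congr O O' c h]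
    · rfl
  · intro c _ hcD O
    rw [KK_pow]
    have hlen : (wl D (c / 2) (c - c / 2)).length = c - c / 2 := by
      apply wl_length
      have := Nat.div_le_self c 2
      omega
    have hadd : c / 2 + (c - c / 2) = c := by
      have := Nat.div_le_self c 2
      omega
    have key := hC D ⟨c, hcD⟩ (wl D (c / 2) (c - c / 2)) (wl_nodup _ _)
      (by rw [wl_mem]; simp only; omega) (out O (c / 2) * mid I (c + 1)) (flip_bit I O ⟨c, hcD⟩)
      k (act (inn I c) x) (2 ^ ((c + 1) / 16)) (((c : ℝ) + 1) / 15) (Nat.one_le_two_pow) (by positivity)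
    rw [hlen] at key
    refine le_trans (le_of_eq ?_) key
    apply av_congr
    intro O'
    unfold FF
    rw [dif_pos hcD]
    have h1 : (fun i => out (fun i : Fin D => if c / 2 ≤ i.val ∧ i.val < c then O' i else O i) c
        (mid I D (x i))) = fun i => pw O' (wl D (c / 2) (c - c / 2))
          ((out O (c / 2) * mid I (c + 1)) ((act (inn I c) x) i)) := by
      funext i
      set O2 : Fin D → Col D := fun i : Fin D => if c / 2 ≤ i.val ∧ i.val < c then O' i else O i with hO2
      have e1 : out O2 c = pw O2 (wl D (c / 2) (c - c / 2)) * out O2 (c / 2) := by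
        have := out_add O2 (c / 2) (c - c / 2)
        rwa [hadd] at this
      have e2 : pw O2 (wl D (c / 2) (c - c / 2)) = pw O' (wl D (c / 2) (c - c / 2)) := by
        apply pw_congr
        intro i hi
        rw [wl_mem] at hi
        rw [hO2]
        simp only
        rw [if_pos (by omega)]
      have e3 : out O2 (c / 2) = out O (c / 2) := by
        apply out_congr
        intro i hi
        rw [hO2]
        simp only
        rw [if_neg (by omega)]
      rw [e1, e2, e3, Equiv.Perm.mul_apply, Equiv.Perm.mul_apply, act_apply]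
      congr 2
      unfold inn
      simp
    rw [h1]
    have h2 : (fun i => inn I c (x i)) = fun i => (act (inn I c) x) i := by
      funext i; rfl
    rw [h2, ← Real.rpow_natCast, ← Real.rpow_mul (by positivity)]
    congr 1
    push_cast
    ring

/-- the product over all coordinates, split at `c0` -/
lemma split (I : Fin D → Col D) (x : Om k D) (c0 : ℕ) (O : Fin D → Col D) :
    ∏ s : Fin D, (cl s (fun i => inn I s (x i)) (fun i => out O s (mid I D (x i))) : ℝ) ^ ((1 : ℝ) / 15) ≤
      (∏ c ∈ univ.filter (fun c : Fin D => c.val < c0), (2 : ℝ) ^ (prs c (fun i => inn I c (x i)))) ^ ((1 : ℝ) / 15)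
        * ∏ c ∈ Ico c0 D, FF I x c O := by
  rw [← Finset.prod_filter_mul_prod_filter_not univ (fun c : Fin D => c.val < c0)]
  apply mul_le_mul
  · rw [← Real.finsetProd_rpow _ _ (fun _ _ => by positivity)]
    apply Finset.prod_le_prod
    · intro s _; positivity
    · intro s _
      apply Real.rpow_le_rpow (by positivity) _ (by norm_num)
      have hu : Function.Injective (fun i => inn I s (x i)) := by
        intro i j hij
        exact x.injective ((inn I s).injective hij)
      exact_mod_cast cl_le_prs s (fun i => inn I s (x i)) (fun i => out O s (mid I D (x i))) hu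
  · apply le_of_eq
    apply Finset.prod_bij (fun (s : Fin D) _ => s.val)
    · intro s hs
      rw [Finset.mem_filter] at hs
      rw [Finset.mem_Ico]
      exact ⟨not_lt.1 hs.2, s.isLt⟩
    · intro s _ s' _ h
      exact Fin.ext h
    · intro c hc
      rw [Finset.mem_Ico] at hc
      exact ⟨⟨c, hc.2⟩, by simp [hc.1], rfl⟩
    · intro s _
      unfold FF
      rw [dif_pos s.isLt]
  · apply Finset.prod_nonneg
    intro s _; positivity
  · positivity

/-- the trace bound before estimating -/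
lemma trace_le (hT : Spec.TrLoop) (hC : Spec.Cyc) (hH : Spec.Hold) (hk : k ≤ 2 ^ D) (c0 : ℕ) (B : ℝ)
    (hB : ∀ I : Fin D → Col D, (1 / (Fintype.card (Om k D) : ℝ)) * ∑ x : Om k D,
      ∏ c ∈ univ.filter (fun c : Fin D => c.val < c0), (2 : ℝ) ^ (prs c (fun i => inn I c (x i))) ≤ B) :
    ((Bm D k) ^ 16).trace ≤ (∏ c ∈ Ico c0 D, KK k c ^ 15) * B := by
  set P := ∏ c ∈ Ico c0 D, KK k c with hP
  have hP0 : 0 ≤ P := Finset.prod_nonneg (fun _ _ => KK_nonneg _ _)
  set G : (Fin D → Col D) → Om k D → ℝ := fun I x =>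
    ∏ c ∈ univ.filter (fun c : Fin D => c.val < c0), (2 : ℝ) ^ (prs c (fun i => inn I c (x i))) with hG
  have hG0 : ∀ I x, 0 ≤ G I x := fun I x => Finset.prod_nonneg (fun _ _ => by positivity)
  have h1 : ∀ x : Om k D, av (fun C : (Fin D → Col D) × (Fin D → Col D) =>
      ∏ s : Fin D, (cl s (fun i => inn C.1 s (x i))
        (fun i => out C.2 s (mid C.1 D (x i))) : ℝ) ^ ((1 : ℝ) / 15)) ≤
      av (fun I : Fin D → Col D => (G I x) ^ ((1 : ℝ) / 15)) * P := by
    intro x
    rw [av_prod, ← av_mul_right]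
    apply av_mono
    intro I
    calc av (fun O : Fin D → Col D => ∏ s : Fin D, (cl s (fun i => inn I s (x i))
          (fun i => out O s (mid I D (x i))) : ℝ) ^ ((1 : ℝ) / 15))
        ≤ av (fun O : Fin D → Col D => (G I x) ^ ((1 : ℝ) / 15) * ∏ c ∈ Ico c0 D, FF I x c O) :=
          av_mono (fun O => split I x c0 O)
      _ = (G I x) ^ ((1 : ℝ) / 15) * av (fun O : Fin D → Col D => ∏ c ∈ Ico c0 D, FF I x c O) :=
          av_mul_left _ _
      _ ≤ (G I x) ^ ((1 : ℝ) / 15) * P := by
          apply mul_le_mul_of_nonneg_left (hold_app hC hH I x c0)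
          exact Real.rpow_nonneg (hG0 I x) _
  have h2 : ∀ x : Om k D, (av (fun C : (Fin D → Col D) × (Fin D → Col D) =>
      ∏ s : Fin D, (cl s (fun i => inn C.1 s (x i))
        (fun i => out C.2 s (mid C.1 D (x i))) : ℝ) ^ ((1 : ℝ) / 15))) ^ 15 ≤
      av (fun I : Fin D → Col D => G I x) * P ^ 15 := by
    intro x
    calc _ ≤ (av (fun I : Fin D → Col D => (G I x) ^ ((1 : ℝ) / 15)) * P) ^ 15 := by
          apply pow_le_pow_left₀ _ (h1 x)
          apply av_nonneg
          intro C
          apply Finset.prod_nonneg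
          intro s _; positivity
      _ = (av (fun I : Fin D → Col D => (G I x) ^ ((1 : ℝ) / 15))) ^ (14 + 1) * P ^ 15 := by
          rw [mul_pow]
      _ ≤ av (fun I : Fin D → Col D => ((G I x) ^ ((1 : ℝ) / 15)) ^ (14 + 1)) * P ^ 15 := by
          apply mul_le_mul_of_nonneg_right _ (by positivity)
          exact av_pow_le (fun I => Real.rpow_nonneg (hG0 I x) _) 14
      _ = av (fun I : Fin D → Col D => G I x) * P ^ 15 := by
          congr 1
          apply av_congr
          intro I
          rw [← Real.rpow_natCast, ← Real.rpow_mul (hG0 I x)]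
          norm_num
  have h3 := hT D k hk
  refine le_trans h3 ?_
  calc (1 / (Fintype.card (Om k D) : ℝ)) * ∑ x : Om k D, _
      ≤ (1 / (Fintype.card (Om k D) : ℝ)) * ∑ x : Om k D, av (fun I : Fin D → Col D => G I x) * P ^ 15 := by
        apply mul_le_mul_of_nonneg_left _ (by positivity)
        exact Finset.sum_le_sum (fun x _ => h2 x)
    _ = av (fun I : Fin D → Col D => (1 / (Fintype.card (Om k D) : ℝ)) * ∑ x : Om k D, G I x) * P ^ 15 := by
        rw [← Finset.sum_mul, ← mul_assoc]
        congr 1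
        rw [av_mul_left, av_sum]
    _ ≤ B * P ^ 15 := by
        apply mul_le_mul_of_nonneg_right _ (by positivity)
        exact av_le_of_le (fun I => hB I)
    _ = (∏ c ∈ Ico c0 D, KK k c ^ 15) * B := by
        rw [hP, ← Finset.prod_pow, mul_comm]

end AlphaB

end Crest.Agent.Thp
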