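import Mathlib
import Crest.Agent.ThpAlphaB
set_option autoImplicit false

namespace Crest.Agent.ThpAlpha
open Finset Crest.Agent.Thp Crest.Agent.Thp.AlphaA Crest.Agent.Thp.AlphaB

/-- potential -/
noncomputable def Ph (s : ℕ) : ℝ :=
  7 / 10 * (32 - ((s % 16 : ℕ) : ℝ)) / 2 ^ (s / 16) + 23 * (2 : ℝ) ^ (-(s : ℝ) / 12)

lemma Ph_nonneg (s : ℕ) : 0 ≤ Ph s := by
  unfold Ph
  have : ((s % 16 : ℕ) : ℝ) ≤ 16 := by
    have := Nat.mod_lt s (show 16 > 0 by norm_num)
    exact_mod_cast this.le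
  have h1 : 0 ≤ 7 / 10 * (32 - ((s % 16 : ℕ) : ℝ)) := by linarith
  positivity

lemma Ph_start (j : ℕ) : Ph (16 * j) ≤ 46 / 2 ^ j := by
  unfold Ph
  have h1 : 16 * j % 16 = 0 := by omega
  have h2 : 16 * j / 16 = j := by omega
  rw [h1, h2]
  have h3 : (2 : ℝ) ^ (-((16 * j : ℕ) : ℝ) / 12) ≤ 1 / 2 ^ j := by
    rw [one_div, ← Real.rpow_natCast, ← Real.rpow_neg (by norm_num)]
    apply Real.rpow_le_rpow_of_exponent_le (by norm_num)
    push_cast
    have : (0 : ℝ) ≤ j := by positivity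
    linarith
  have h4 : (0 : ℝ) < 1 / 2 ^ j := by positivity
  have e1 : 7 / 10 * (32 - ((0 : ℕ) : ℝ)) / 2 ^ j = 22.4 * (1 / 2 ^ j) := by norm_num; ring
  have e2 : (46 : ℝ) / 2 ^ j = 46 * (1 / 2 ^ j) := by ring
  rw [e1, e2]
  nlinarith

lemma Ph_step1 (s : ℕ) : 7 / 10 * (32 - ((s % 16 : ℕ) : ℝ)) / 2 ^ (s / 16) -
    7 / 10 * (32 - (((s + 1) % 16 : ℕ) : ℝ)) / 2 ^ ((s + 1) / 16) = 7 / 10 / 2 ^ (s / 16) := by
  rcases Nat.lt_or_ge (s % 16) 15 with h | h
  · have h1 : (s + 1) % 16 = s % 16 + 1 := by omega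
    have h2 : (s + 1) / 16 = s / 16 := by omega
    rw [h1, h2]
    push_cast
    ring
  · have h0 : s % 16 = 15 := by omega
    have h1 : (s + 1) % 16 = 0 := by omega
    have h2 : (s + 1) / 16 = s / 16 + 1 := by omega
    rw [h0, h1, h2, pow_succ]
    field_simp
    norm_num

lemma num1 : (2 : ℝ) ^ (-(1 : ℝ) / 12) ≤ 95 / 100 := by
  have h1 : ((2 : ℝ) ^ (-(1 : ℝ) / 12)) ^ 12 ≤ (95 / 100) ^ 12 := by
    rw [← Real.rpow_natCast, ← Real.rpow_mul (by norm_num)]
    norm_num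
  exact le_of_pow_le_pow_left₀ (by norm_num) (by norm_num) h1

lemma num2 : (2 : ℝ) ^ ((1 : ℝ) / 4) ≤ 122 / 100 := by
  have h1 : ((2 : ℝ) ^ ((1 : ℝ) / 4)) ^ 4 ≤ (122 / 100) ^ 4 := by
    rw [← Real.rpow_natCast, ← Real.rpow_mul (by norm_num)]
    norm_num
  exact le_of_pow_le_pow_left₀ (by norm_num) (by norm_num) h1

lemma Ph_step2 (s : ℕ) : 115 / 100 * (2 : ℝ) ^ (-(s : ℝ) / 12) ≤
    23 * (2 : ℝ) ^ (-(s : ℝ) / 12) - 23 * (2 : ℝ) ^ (-((s + 1 : ℕ) : ℝ) / 12) := by
  have h1 : (2 : ℝ) ^ (-((s + 1 : ℕ) : ℝ) / 12) = (2 : ℝ) ^ (-(s : ℝ) / 12) * (2 : ℝ) ^ (-(1 : ℝ) / 12) := by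
    rw [← Real.rpow_add (by norm_num)]
    congr 1
    push_cast
    ring
  rw [h1]
  have h2 : (0 : ℝ) < (2 : ℝ) ^ (-(s : ℝ) / 12) := by positivity
  nlinarith [num1]

/-- bound of the sum in `RH` -/
lemma S_le (c : ℕ) : ∑ l ∈ Icc (1 : ℕ) (2 ^ ((c + 1) / 16)), Real.sqrt ((l : ℝ) / 2 ^ (c - c / 2)) ≤
    (2 : ℝ) ^ ((1 : ℝ) / 4 - 5 * ((c : ℝ) + 1) / 32) := by
  set j := (c + 1) / 16 with hj
  have hjr : (j : ℝ) ≤ ((c : ℝ) + 1) / 16 := by
    rw [hj]
    have := Nat.cast_div_le (m := c + 1) (n := 16) (α := ℝ)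
    push_cast at this
    exact this
  have hw : (c : ℝ) / 2 ≤ ((c - c / 2 : ℕ) : ℝ) := by
    have h1 : c ≤ 2 * (c - c / 2) := by omega
    have h2 : (c : ℝ) ≤ 2 * ((c - c / 2 : ℕ) : ℝ) := by exact_mod_cast h1
    linarith
  have h1 : ∀ l ∈ Icc (1 : ℕ) (2 ^ j), Real.sqrt ((l : ℝ) / 2 ^ (c - c / 2)) ≤
      (2 : ℝ) ^ ((j : ℝ) / 2 - (c : ℝ) / 4) := by
    intro l hl
    rw [Finset.mem_Icc] at hl
    have h2 : (l : ℝ) ≤ 2 ^ j := by exact_mod_cast hl.2
    have h3 : (2 : ℝ) ^ ((j : ℝ) / 2 - (c : ℝ) / 4) = Real.sqrt ((2 : ℝ) ^ ((j : ℝ) - (c : ℝ) / 2)) := by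
      rw [Real.sqrt_eq_rpow, ← Real.rpow_mul (by norm_num)]
      congr 1
      ring
    rw [h3]
    apply Real.sqrt_le_sqrt
    rw [Real.rpow_sub (by norm_num), Real.rpow_natCast]
    apply div_le_div₀ (by positivity) h2 (by positivity)
    rw [← Real.rpow_natCast]
    exact Real.rpow_le_rpow_of_exponent_le (by norm_num) hw
  calc _ ≤ ∑ _l ∈ Icc (1 : ℕ) (2 ^ j), (2 : ℝ) ^ ((j : ℝ) / 2 - (c : ℝ) / 4) := Finset.sum_le_sum h1
    _ = (2 : ℝ) ^ ((j : ℝ) + ((j : ℝ) / 2 - (c : ℝ) / 4)) := by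
        rw [Finset.sum_const, Nat.card_Icc, nsmul_eq_mul, Real.rpow_add (by norm_num), Real.rpow_natCast]
        push_cast
        norm_num
    _ ≤ (2 : ℝ) ^ ((1 : ℝ) / 4 - 5 * ((c : ℝ) + 1) / 32) := by
        apply Real.rpow_le_rpow_of_exponent_le (by norm_num)
        linarith

lemma KK_pow15 (k c : ℕ) (hc : 15 ≤ c) : KK k c ^ 15 ≤
    (((c : ℝ) + 1) / c) ^ 11 * Real.exp ((k : ℝ) / 2 * (Ph (c + 1) - Ph (c + 2))) := by
  have hcr : (15 : ℝ) ≤ c := by exact_mod_cast hc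
  have hc0 : (0 : ℝ) < c := by linarith
  have hRH := RH_pos k c
  -- exponent form
  have h1 : KK k c ^ 15 = Real.exp (15 / ((c : ℝ) + 1) * Real.log (RH k c)) := by
    unfold KK
    rw [← Real.rpow_natCast, ← Real.rpow_mul hRH.le, Real.rpow_def_of_pos hRH]
    congr 1
    push_cast
    ring
  have hlog2 : Real.log 2 ≤ 7 / 10 := by linarith [Real.log_two_lt_d9]
  have hlog20 : 0 < Real.log 2 := Real.log_pos (by norm_num)
  set S := ∑ l ∈ Icc (1 : ℕ) (2 ^ ((c + 1) / 16)), Real.sqrt ((l : ℝ) / 2 ^ (c - c / 2)) with hS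
  have hS0 : 0 ≤ S := Finset.sum_nonneg (fun _ _ => Real.sqrt_nonneg _)
  have hSle := S_le c
  rw [← hS] at hSle
  set t := (2 : ℝ) ^ (((c : ℝ) + 1) / 15) with ht
  have ht1 : 1 ≤ t := Real.one_le_rpow (by norm_num) (by positivity)
  have hts0 : 0 ≤ (t - 1) * S := mul_nonneg (by linarith) hS0
  set L : ℝ := ((2 ^ ((c + 1) / 16) : ℕ) : ℝ) with hL
  have hL0 : 0 < L := by rw [hL]; positivity
  have h2 : Real.log (RH k c) = Real.log 2 + (((c : ℝ) + 1) / 15) * ((k : ℝ) / 2) / L * Real.log 2 +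
      (k : ℝ) / 2 * Real.log (1 + (t - 1) * S) := by
    unfold RH
    rw [Real.log_mul (by positivity) (by positivity), Real.log_mul (by norm_num) (by positivity),
      Real.log_rpow (by norm_num), Real.log_rpow (by positivity)]
  have h3 : Real.log (1 + (t - 1) * S) ≤ t * S := by
    have := Real.log_le_sub_one_of_pos (show 0 < 1 + (t - 1) * S by positivity)
    nlinarith
  have h4 : 15 / ((c : ℝ) + 1) * (t * S) ≤ 115 / 100 * (2 : ℝ) ^ (-((c + 1 : ℕ) : ℝ) / 12) := by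
    have h5 : t * S ≤ (2 : ℝ) ^ ((1 : ℝ) / 4) * (2 : ℝ) ^ (-((c + 1 : ℕ) : ℝ) / 12) := by
      calc t * S ≤ t * (2 : ℝ) ^ ((1 : ℝ) / 4 - 5 * ((c : ℝ) + 1) / 32) :=
            mul_le_mul_of_nonneg_left hSle (by linarith)
        _ = (2 : ℝ) ^ (((c : ℝ) + 1) / 15 + ((1 : ℝ) / 4 - 5 * ((c : ℝ) + 1) / 32)) := by
            rw [ht, ← Real.rpow_add (by norm_num)]
        _ ≤ (2 : ℝ) ^ ((1 : ℝ) / 4 + -((c + 1 : ℕ) : ℝ) / 12) := by
            apply Real.rpow_le_rpow_of_exponent_le (by norm_num)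
            push_cast
            linarith
        _ = _ := by rw [Real.rpow_add (by norm_num)]
    have h6 : 15 / ((c : ℝ) + 1) ≤ 15 / 16 := by
      apply div_le_div_of_nonneg_left (by norm_num) (by norm_num)
      linarith
    have h7 : (0:ℝ) ≤ t * S := mul_nonneg (by linarith) hS0
    have h8 : (0:ℝ) < (2 : ℝ) ^ (-((c + 1 : ℕ) : ℝ) / 12) := by positivity
    calc 15 / ((c : ℝ) + 1) * (t * S) ≤ 15 / 16 * (t * S) := mul_le_mul_of_nonneg_right h6 h7
      _ ≤ 15 / 16 * ((2 : ℝ) ^ ((1 : ℝ) / 4) * (2 : ℝ) ^ (-((c + 1 : ℕ) : ℝ) / 12)) := by gcongr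
      _ ≤ 15 / 16 * (122 / 100 * (2 : ℝ) ^ (-((c + 1 : ℕ) : ℝ) / 12)) := by
          gcongr
          exact num2
      _ ≤ _ := by nlinarith
  have h9 : 11 / ((c : ℝ) + 1) ≤ 11 * Real.log (((c : ℝ) + 1) / c) := by
    have := Real.log_le_sub_one_of_pos (show 0 < (c : ℝ) / ((c : ℝ) + 1) by positivity)
    have h10 : Real.log (((c : ℝ) + 1) / c) = - Real.log ((c : ℝ) / ((c : ℝ) + 1)) := by
      rw [← Real.log_inv, inv_div]
    rw [h10]
    have h11 : (c : ℝ) / ((c : ℝ) + 1) - 1 = - (1 / ((c : ℝ) + 1)) := by field_simp; ring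
    rw [h11] at this
    have h12 : 11 / ((c : ℝ) + 1) = 11 * (1 / ((c : ℝ) + 1)) := by ring
    rw [h12]
    linarith
  have h13 : (((c : ℝ) + 1) / c) ^ 11 = Real.exp (11 * Real.log (((c : ℝ) + 1) / c)) := by
    rw [mul_comm, Real.exp_mul, Real.exp_log (by positivity)]
    norm_cast
  rw [h1, h13, ← Real.exp_add]
  apply Real.exp_le_exp.2
  rw [h2]
  have h14 := Ph_step1 (c + 1)
  have h15 := Ph_step2 (c + 1)
  have hPd : 7 / 10 / 2 ^ ((c + 1) / 16) + 115 / 100 * (2 : ℝ) ^ (-((c + 1 : ℕ) : ℝ) / 12) ≤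
      Ph (c + 1) - Ph (c + 2) := by
    unfold Ph
    have e : c + 1 + 1 = c + 2 := rfl
    rw [e] at h14 h15
    linarith
  have hLe : L = 2 ^ ((c + 1) / 16) := by rw [hL]; push_cast; rfl
  have hk0 : (0 : ℝ) ≤ k / 2 := by positivity
  have e1 : 15 / ((c : ℝ) + 1) * (Real.log 2 + (((c : ℝ) + 1) / 15) * ((k : ℝ) / 2) / L * Real.log 2 +
      (k : ℝ) / 2 * Real.log (1 + (t - 1) * S)) = 15 * Real.log 2 / ((c : ℝ) + 1) +
      (k : ℝ) / 2 * (Real.log 2 / L + 15 / ((c : ℝ) + 1) * Real.log (1 + (t - 1) * S)) := by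
    field_simp
    ring
  rw [e1]
  have h16 : 15 * Real.log 2 / ((c : ℝ) + 1) ≤ 11 / ((c : ℝ) + 1) := by
    apply div_le_div_of_nonneg_right _ (by positivity)
    linarith
  have h17 : Real.log 2 / L + 15 / ((c : ℝ) + 1) * Real.log (1 + (t - 1) * S) ≤ Ph (c + 1) - Ph (c + 2) := by
    refine le_trans ?_ hPd
    apply add_le_add
    · rw [← hLe]
      exact div_le_div_of_nonneg_right hlog2 hL0.le
    · refine le_trans ?_ h4
      exact mul_le_mul_of_nonneg_left h3 (by positivity)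
  have h18 := mul_le_mul_of_nonneg_left h17 hk0
  linarith

lemma prod_le (k c0 : ℕ) (hc0 : 15 ≤ c0) (D : ℕ) (hD : c0 ≤ D) :
    ∏ c ∈ Ico c0 D, KK k c ^ 15 ≤ ((D : ℝ) / c0) ^ 11 * Real.exp ((k : ℝ) / 2 * (Ph (c0 + 1) - Ph (D + 1))) := by
  induction D, hD using Nat.le_induction with
  | base =>
    have : (c0 : ℝ) ≠ 0 := by
      have : (15 : ℝ) ≤ c0 := by exact_mod_cast hc0
      linarith
    simp [this]
  | succ D hD ih =>
    rw [Finset.prod_Ico_succ_top hD]
    have h1 := KK_pow15 k D (by omega)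
    have hD0 : (0 : ℝ) < D := by
      have : (15 : ℝ) ≤ D := by exact_mod_cast (by omega : 15 ≤ D)
      linarith
    calc _ ≤ (((D : ℝ) / c0) ^ 11 * Real.exp ((k : ℝ) / 2 * (Ph (c0 + 1) - Ph (D + 1)))) *
          ((((D : ℝ) + 1) / D) ^ 11 * Real.exp ((k : ℝ) / 2 * (Ph (D + 1) - Ph (D + 2)))) := by
          apply mul_le_mul ih h1 (pow_nonneg (KK_nonneg _ _) _) (by positivity)
      _ = (((D : ℝ) / c0) ^ 11 * (((D : ℝ) + 1) / D) ^ 11) *
          (Real.exp ((k : ℝ) / 2 * (Ph (c0 + 1) - Ph (D + 1))) * Real.exp ((k : ℝ) / 2 * (Ph (D + 1) - Ph (D + 2)))) := by ring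
      _ = _ := by
          rw [← mul_pow, ← Real.exp_add]
          congr 2
          · field_simp
            push_cast
            ring
          · rw [← mul_add]
            congr 1
            have : D + 1 + 1 = D + 2 := rfl
            rw [this]
            ring

lemma prod_bound (k D j : ℕ) (hj : 1 ≤ j) (hD : 1 ≤ D) :
    ∏ c ∈ Ico (16 * j - 1) D, KK k c ^ 15 ≤ (D : ℝ) ^ 11 * Real.exp ((k : ℝ) * (23 / 2 ^ j)) := by
  have hDr : (1 : ℝ) ≤ D := by exact_mod_cast hD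
  rcases le_or_gt (16 * j - 1) D with h | h
  · refine le_trans (prod_le k (16 * j - 1) (by omega) D h) ?_
    have e : 16 * j - 1 + 1 = 16 * j := by omega
    rw [e]
    apply mul_le_mul _ _ (by positivity) (by positivity)
    · apply pow_le_pow_left₀ (by positivity)
      have h1 : (1 : ℝ) ≤ ((16 * j - 1 : ℕ) : ℝ) := by exact_mod_cast (by omega : 1 ≤ 16 * j - 1)
      exact div_le_self (by positivity) h1
    · apply Real.exp_le_exp.2
      have h2 := Ph_start j
      have h3 := Ph_nonneg (D + 1)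
      have h4 : (k : ℝ) * (23 / 2 ^ j) = (k : ℝ) / 2 * (46 / 2 ^ j) := by ring
      rw [h4]
      apply mul_le_mul_of_nonneg_left _ (by positivity)
      linarith
  · rw [Finset.Ico_eq_empty (by omega), Finset.prod_empty]
    have h1 : (1 : ℝ) ≤ (D : ℝ) ^ 11 := one_le_pow₀ hDr
    have h2 : (1 : ℝ) ≤ Real.exp ((k : ℝ) * (23 / 2 ^ j)) := Real.one_le_exp (by positivity)
    nlinarith

theorem main (hT : Spec.TrLoop) (hC : Spec.Cyc) (hH : Spec.Hold) (hS : Spec.Small) : Spec.Alpha := by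
  intro D k hD hk1 hk
  have hDr : (1 : ℝ) ≤ D := by exact_mod_cast hD
  have hD11 : (1 : ℝ) ≤ (D : ℝ) ^ 11 := one_le_pow₀ hDr
  constructor
  · intro j hj
    have h1 := trace_le hT hC hH hk (16 * j - 1) _ (fun I => hS D k hk I (16 * j - 1) (by omega))
    refine le_trans h1 ?_
    have h2 := prod_bound k D j hj hD
    have e1 : (2 : ℝ) ^ (16 * j - 1) / 2 = 2 ^ (16 * j - 2) := by
      have : 16 * j - 1 = (16 * j - 2) + 1 := by omega
      rw [this, pow_succ]
      ring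
    rw [e1]
    calc _ ≤ ((D : ℝ) ^ 11 * Real.exp ((k : ℝ) * (23 / 2 ^ j))) * Real.exp (2 ^ (16 * j - 2) * k * (k / 2 ^ D)) :=
          mul_le_mul_of_nonneg_right h2 (Real.exp_pos _).le
      _ = (D : ℝ) ^ 11 * Real.exp (k * (23 / 2 ^ j + 2 ^ (16 * j - 2) * (k / 2 ^ D))) := by
          rw [mul_assoc, ← Real.exp_add]
          congr 2
          ring
      _ ≤ 2 ^ 15 * (D : ℝ) ^ 11 * Real.exp (k * (23 / 2 ^ j + 2 ^ (16 * j - 2) * (k / 2 ^ D))) := by
          apply mul_le_mul_of_nonneg_right _ (Real.exp_pos _).le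
          nlinarith
  · have hne := nonempty_Om (k := k) (D := D) hk
    have hcard : (0 : ℝ) < (Fintype.card (Om k D) : ℝ) := by
      exact_mod_cast Fintype.card_pos
    have h1 := trace_le hT hC hH hk (16 * 1 - 1) (Real.exp (525 / 100 * k)) (fun I => by
      have h2 : ∀ x : Om k D, ∏ c ∈ univ.filter (fun c : Fin D => c.val < 16 * 1 - 1),
          (2 : ℝ) ^ (prs c (fun i => inn I c (x i))) ≤ Real.exp (525 / 100 * k) := by
        intro x
        have h3 : ∀ c ∈ univ.filter (fun c : Fin D => c.val < 16 * 1 - 1),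
            (2 : ℝ) ^ (prs c (fun i => inn I c (x i))) ≤ Real.exp (35 / 100 * k) := by
          intro c _
          have hu : Function.Injective (fun i => inn I c (x i)) := by
            intro i j hij
            exact x.injective ((inn I c).injective hij)
          have h4 := two_prs_le c (fun i => inn I c (x i)) hu
          have h5 : 2 * (prs c (fun i => inn I c (x i)) : ℝ) ≤ k := by exact_mod_cast h4
          have h6 : (2 : ℝ) ^ (prs c (fun i => inn I c (x i))) =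
              Real.exp (prs c (fun i => inn I c (x i)) * Real.log 2) := by
            rw [mul_comm, Real.exp_mul, Real.exp_log (by norm_num), Real.rpow_natCast]
          rw [h6]
          apply Real.exp_le_exp.2
          have hlog2 : Real.log 2 ≤ 7 / 10 := by linarith [Real.log_two_lt_d9]
          have hlog20 : 0 < Real.log 2 := Real.log_pos (by norm_num)
          have h7 : (0 : ℝ) ≤ (prs c (fun i => inn I c (x i)) : ℝ) := by positivity
          nlinarith
        calc _ ≤ ∏ _c ∈ univ.filter (fun c : Fin D => c.val < 16 * 1 - 1), Real.exp (35 / 100 * k) :=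
              Finset.prod_le_prod (fun _ _ => by positivity) h3
          _ = Real.exp (35 / 100 * k) ^ (univ.filter (fun c : Fin D => c.val < 16 * 1 - 1)).card := by
              rw [Finset.prod_const]
          _ ≤ Real.exp (35 / 100 * k) ^ 15 := by
              apply pow_le_pow_right₀ (Real.one_le_exp (by positivity))
              have : (univ.filter (fun c : Fin D => c.val < 16 * 1 - 1)).card ≤ (range 15).card := by
                apply Finset.card_le_card_of_injOn (fun c => c.val)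
                · intro c hc
                  simp only [Finset.coe_filter, Finset.mem_univ, true_and, Set.mem_ofPred_eq] at hc
                  simp only [Finset.coe_range, Set.mem_Iio]
                  omega
                · intro a _ b _ h
                  exact Fin.ext h
              simpa using this
          _ = Real.exp (525 / 100 * k) := by
              rw [← Real.exp_nat_mul]
              congr 1
              push_cast
              ring
      calc (1 / (Fintype.card (Om k D) : ℝ)) * ∑ x : Om k D, _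
          ≤ (1 / (Fintype.card (Om k D) : ℝ)) * ∑ _x : Om k D, Real.exp (525 / 100 * k) := by
            apply mul_le_mul_of_nonneg_left _ (by positivity)
            exact Finset.sum_le_sum (fun x _ => h2 x)
        _ = Real.exp (525 / 100 * k) := by
            rw [Finset.sum_const, Finset.card_univ, nsmul_eq_mul]
            field_simp)
    refine le_trans h1 ?_
    have h2 := prod_bound k D 1 le_rfl hD
    calc _ ≤ ((D : ℝ) ^ 11 * Real.exp ((k : ℝ) * (23 / 2 ^ 1))) * Real.exp (525 / 100 * k) :=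
          mul_le_mul_of_nonneg_right h2 (Real.exp_pos _).le
      _ = (D : ℝ) ^ 11 * Real.exp (1675 / 100 * k) := by
          rw [mul_assoc, ← Real.exp_add]
          congr 2
          ring
      _ ≤ 2 ^ 15 * (D : ℝ) ^ 11 * Real.exp (17 * k) := by
          apply mul_le_mul
          · nlinarith
          · apply Real.exp_le_exp.2
            have : (0 : ℝ) ≤ k := by positivity
            nlinarith
          · positivity
          · positivity

end Crest.Agent.ThpAlpha
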