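import Mathlib
import Crest.Agent.ThpDefs
import Crest.Agent.ThpSpec
import Crest.Agent.ThpLib

/-! rid 155 (S0222): module LOWL, `L ≥ k/2` on harmonic functions of `k` cards. -/

namespace Crest.Agent.ThpLowL
open Finset Crest.Agent.Thp

section general
variable {ι : Type*} [Fintype ι] [DecidableEq ι]

/-- the subspace of the Euclidean space -/
noncomputable def euS (S : Submodule ℝ (ι → ℝ)) : Submodule ℝ (EuclideanSpace ℝ ι) :=
  S.comap (WithLp.linearEquiv 2 ℝ (ι → ℝ)).toLinearMap

lemma mem_euS (S : Submodule ℝ (ι → ℝ)) (v : EuclideanSpace ℝ ι) :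
    v ∈ euS S ↔ (WithLp.ofLp v) ∈ S := Iff.rfl

variable (M : Matrix ι ι ℝ) (hM : M.IsHermitian) (S : Submodule ℝ (ι → ℝ))
  (hS : ∀ f ∈ S, M.mulVec f ∈ S)

lemma inv_euS (hS : ∀ f ∈ S, M.mulVec f ∈ S) : ∀ v ∈ euS S, Matrix.toEuclideanLin M v ∈ euS S := by
  intro v hv
  rw [mem_euS] at hv ⊢
  exact hS _ hv

/-- the restricted operator -/
noncomputable def opS (hS : ∀ f ∈ S, M.mulVec f ∈ S) : euS S →ₗ[ℝ] euS S :=
  (Matrix.toEuclideanLin M).restrict (inv_euS M S hS)

lemma opS_symm (hM : M.IsHermitian) (hS : ∀ f ∈ S, M.mulVec f ∈ S) :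
    (opS M S hS).IsSymmetric :=
  LinearMap.IsSymmetric.restrict_invariant (Matrix.isHermitian_iff_isSymmetric.1 hM)
    (inv_euS M S hS)

include hM in
/-- an invariant subspace `≠ 0` contains an eigenvector -/
lemma exists_eig (hS : ∀ f ∈ S, M.mulVec f ∈ S) {f : ι → ℝ} (hf : f ∈ S) (hf0 : f ≠ 0) :
    ∃ g ∈ S, g ≠ 0 ∧ ∃ l : ℝ, M.mulVec g = l • g := by
  have hsym := opS_symm M S hM hS
  have hne : Nontrivial (euS S) := by
    refine ⟨⟨⟨WithLp.toLp 2 f, (mem_euS S _).2 hf⟩, 0, fun h => hf0 ?_⟩⟩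
    have := congrArg (fun v : euS S => WithLp.ofLp (v : EuclideanSpace ℝ ι)) h
    simpa using this
  have hpos : 0 < Module.finrank ℝ (euS S) := Module.finrank_pos
  have hb := hsym.hasEigenvector_eigenvectorBasis rfl ⟨0, hpos⟩
  set v := hsym.eigenvectorBasis rfl ⟨0, hpos⟩ with hv
  refine ⟨WithLp.ofLp (v : EuclideanSpace ℝ ι), (mem_euS S _).1 v.2, ?_,
    hsym.eigenvalues rfl ⟨0, hpos⟩, ?_⟩
  · intro h
    apply hb.2
    apply Subtype.ext
    apply (WithLp.ofLp_injective 2)
    simpa using h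
  · have h1 := hb.apply_eq_smul
    have h2 := congrArg (fun v : euS S => WithLp.ofLp (v : EuclideanSpace ℝ ι)) h1
    exact h2

include hM in
/-- lower bound of the quadratic form on an invariant subspace by the eigenvalues -/
lemma quad_ge (hS : ∀ f ∈ S, M.mulVec f ∈ S) (c : ℝ)
    (hc : ∀ g ∈ S, g ≠ 0 → ∀ l : ℝ, M.mulVec g = l • g → c ≤ l) {f : ι → ℝ} (hf : f ∈ S) :
    c * ∑ x, f x ^ 2 ≤ ∑ x, f x * M.mulVec f x := by
  have hsym := opS_symm M S hM hS
  set b := hsym.eigenvectorBasis rfl with hb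
  set v : euS S := ⟨WithLp.toLp 2 f, (mem_euS S _).2 hf⟩ with hv
  have hnorm : ∑ x, f x ^ 2 = ∑ i, (b.repr v i) ^ 2 := by
    have h1 : ‖v‖ ^ 2 = ∑ x, f x ^ 2 := by
      have : ‖v‖ = ‖(WithLp.toLp 2 f : EuclideanSpace ℝ ι)‖ := rfl
      rw [this, EuclideanSpace.norm_sq_eq]
      simp
    have h2 : ‖v‖ ^ 2 = ∑ i, (b.repr v i) ^ 2 := by
      rw [← b.repr.norm_map v, EuclideanSpace.norm_sq_eq]
      simp
    rw [← h1, h2]
  have hin : ∑ x, f x * M.mulVec f x = ∑ i, hsym.eigenvalues rfl i * (b.repr v i) ^ 2 := by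
    have h1 : inner ℝ v (opS M S hS v) = ∑ x, f x * M.mulVec f x := by
      have : inner ℝ v (opS M S hS v) = inner ℝ (WithLp.toLp 2 f : EuclideanSpace ℝ ι)
        (WithLp.toLp 2 (M.mulVec f)) := rfl
      rw [this, PiLp.inner_apply]
      simp [mul_comm]
    have h2 : inner ℝ v (opS M S hS v) = ∑ i, hsym.eigenvalues rfl i * (b.repr v i) ^ 2 := by
      rw [← b.repr.inner_map_map, PiLp.inner_apply]
      refine Finset.sum_congr rfl fun i _ => ?_
      have h3 := hsym.eigenvectorBasis_apply_self_apply rfl v i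
      rw [← hb] at h3
      rw [h3]
      simp
      ring
    rw [← h1, h2]
  rw [hnorm, hin, Finset.mul_sum]
  refine Finset.sum_le_sum fun i _ => ?_
  refine mul_le_mul_of_nonneg_right ?_ (sq_nonneg _)
  have hbv := hsym.hasEigenvector_eigenvectorBasis rfl i
  refine hc (WithLp.ofLp ((hsym.eigenvectorBasis rfl i : euS S) : EuclideanSpace ℝ ι))
    ((mem_euS S _).1 (hsym.eigenvectorBasis rfl i).2) ?_ _ ?_
  · intro h
    apply hbv.2
    apply Subtype.ext
    apply (WithLp.ofLp_injective 2)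
    simpa using h
  · have h1 := hbv.apply_eq_smul
    have h2 := congrArg (fun v : euS S => WithLp.ofLp (v : EuclideanSpace ℝ ι)) h1
    exact h2

end general

variable {D k : ℕ}

lemma Rm_transpose (g : Equiv.Perm (X D)) : (Rm k g).transpose = Rm k g⁻¹ := by
  ext x y
  simp only [Matrix.transpose_apply, Rm]
  have : act g y = x ↔ act g⁻¹ x = y := by
    rw [act_eq_iff, eq_comm]
  simp [this]

lemma Lm_symm : (Lm D k).transpose = Lm D k := by
  unfold Lm
  rw [Matrix.transpose_smul, Matrix.transpose_sum]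
  congr 1
  refine Finset.sum_congr rfl fun z _ => ?_
  rw [Matrix.transpose_sum]
  refine Finset.sum_congr rfl fun z' _ => ?_
  rw [Matrix.transpose_sub, Matrix.transpose_one, Rm_transpose, Equiv.swap_inv]

lemma Lm_herm : (Lm D k).IsHermitian := by
  unfold Matrix.IsHermitian
  rw [Matrix.conjTranspose_eq_transpose_of_trivial, Lm_symm]

lemma Lm_mulVec (f : Om k D → ℝ) (x : Om k D) : (Lm D k).mulVec f x =
    (1 / (2 * (2 : ℝ) ^ D)) * (((2 : ℝ) ^ D) ^ 2 * f x -
      ∑ z : X D, ∑ z' : X D, f (act (Equiv.swap z z') x)) := by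
  simp only [Thp.Lm, Matrix.smul_mulVec, Matrix.sum_mulVec, Matrix.sub_mulVec,
      Matrix.one_mulVec, Pi.smul_apply, Finset.sum_apply, Pi.sub_apply, Rm_mulVec, smul_eq_mul]
  congr 1
  simp only [Finset.sum_sub_distrib, Finset.sum_const, Finset.card_univ, card_X, nsmul_eq_mul]
  push_cast
  ring

/-- the representation of the position permutations on functions of `k` cards -/
def rep (D k : ℕ) : Equiv.Perm (X D) →* ((Om k D → ℝ) →ₗ[ℝ] (Om k D → ℝ)) where
  toFun g :=
    { toFun := fun f x => f (act g⁻¹ x)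
      map_add' := fun _ _ => rfl
      map_smul' := fun _ _ => rfl }
  map_one' := by
    refine LinearMap.ext fun f => funext fun x => ?_
    simp
  map_mul' g h := by
    refine LinearMap.ext fun f => funext fun x => ?_
    simp [act_mul]

@[simp] lemma rep_apply (g : Equiv.Perm (X D)) (f : Om k D → ℝ) (x : Om k D) :
    rep D k g f x = f (act g⁻¹ x) := rfl

lemma eig_ge (hC : Spec.Content) (hK : Spec.Kill) {f : Om k D → ℝ} (hf : Harm f) (hf0 : f ≠ 0)
    (l : ℝ) (hl : (Lm D k).mulVec f = l • f) : (k / 2 : ℝ) ≤ l := by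
  classical
  obtain ⟨x0, hx0⟩ : ∃ x, f x ≠ 0 := by
    by_contra h
    push Not at h
    exact hf0 (funext h)
  have hkn : k ≤ 2 ^ D := by
    have := Fintype.card_le_of_injective x0 x0.injective
    rwa [Fintype.card_fin, card_X] at this
  have hkn' : k < 2 ^ D := by
    by_contra hge
    have hk : k = 2 ^ D := by omega
    obtain ⟨z⟩ : Nonempty (X D) := inferInstance
    have h := hK D k f hf {z} (by simp; omega) x0
    have hset : univ.filter (fun σ : Equiv.Perm (X D) => ∀ w, w ∉ ({z} : Finset (X D)) → σ w = w)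
        = {1} := by
      ext σ
      simp only [Finset.mem_filter, Finset.mem_univ, true_and, Finset.mem_singleton]
      constructor
      · intro h
        ext w : 1
        by_cases hw : w = z
        · by_contra hne
          have h1 : σ (σ w) = σ w := h (σ w) (fun h2 => hne (by rw [h2, hw]; rfl))
          exact hne (σ.injective h1)
        · simpa using h w hw
      · rintro rfl w _
        rfl
    rw [hset] at h
    simp only [Finset.sum_singleton, act_one] at h
    exact hx0 h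
  set q := 2 ^ D - k with hq
  have hmain := hC (X D) (Om k D → ℝ) (rep D k) q (((2 : ℝ) ^ D) ^ 2 - 2 * (2 : ℝ) ^ D * l) f
    (by omega) hf0 ?_ ?_
  · rw [card_X, hq, Nat.cast_sub hkn] at hmain
    push_cast at hmain
    have h2 : (0 : ℝ) < 2 ^ D := by positivity
    have h3 : ((2 : ℝ) ^ D) * k ≤ (2 : ℝ) ^ D * (2 * l) := by nlinarith
    have := le_of_mul_le_mul_left h3 h2
    linarith
  · funext x
    have h1 := congrFun hl x
    rw [Lm_mulVec] at h1
    simp only [Pi.smul_apply, smul_eq_mul, Finset.sum_apply, rep_apply, Equiv.swap_inv] at h1 ⊢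
    have h2 : (0 : ℝ) < 2 ^ D := by positivity
    field_simp at h1
    linarith
  · intro R hR h
    funext x
    simp only [Finset.sum_apply, rep_apply, Pi.zero_apply]
    have hk := hK D k (fun y => f (act h⁻¹ y)) (hf.comp_act h⁻¹) R (by omega) x
    rw [← hk]
    refine Finset.sum_bij' (fun σ _ => σ⁻¹) (fun σ _ => σ⁻¹) ?_ ?_ ?_ ?_ ?_
    · intro σ hσ
      simp only [Finset.mem_filter, Finset.mem_univ, true_and] at hσ ⊢
      intro z hz
      rw [Equiv.Perm.inv_eq_iff_eq]
      exact (hσ z hz).symm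
    · intro σ hσ
      simp only [Finset.mem_filter, Finset.mem_univ, true_and] at hσ ⊢
      intro z hz
      rw [Equiv.Perm.inv_eq_iff_eq]
      exact (hσ z hz).symm
    · intro σ _; simp
    · intro σ _; simp
    · intro σ _; rfl

theorem main (hC : Spec.Content) (hK : Spec.Kill) : Spec.LowL := by
  intro D k f hf
  exact quad_ge (Lm D k) Lm_herm (harmS k D) (fun g hg => Harm.Lm hg) (k / 2 : ℝ)
    (fun g hg hg0 l hl => eig_ge hC hK hg hg0 l hl) (f := f) hf

end Crest.Agent.ThpLowL
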