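import Mathlib
import Crest.Agent.ThpDefs
import Crest.Agent.ThpSpec
import Crest.Agent.ThpLib
import Crest.Agent.ThpLowL

/-! rid 155 (S0222): module BETA, contraction of the Beneš operator on harmonic functions. -/

namespace Crest.Agent.ThpBeta
open Finset Crest.Agent.Thp Crest.Agent.ThpLowL

variable {D k : ℕ}

lemma Rm_mul (g h : Equiv.Perm (X D)) : Rm k g * Rm k h = Rm k (h * g) := by
  ext x y
  rw [Matrix.mul_apply]
  simp only [Rm]
  rw [Finset.sum_eq_single (act g x)]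
  · simp [act_mul]
  · intro b _ hb
    rw [if_neg (fun h => hb h.symm), zero_mul]
  · intro h; exact absurd (Finset.mem_univ _) h

lemma Lm_comm_Rm (g : Equiv.Perm (X D)) : Lm D k * Rm k g = Rm k g * Lm D k := by
  have key : ∀ F : X D → X D → Matrix (Om k D) (Om k D) ℝ,
      ∑ z, ∑ z', F (g z) (g z') = ∑ z, ∑ z', F z z' := by
    intro F
    rw [← Equiv.sum_comp g (fun z => ∑ z', F z z')]
    refine Finset.sum_congr rfl fun z _ => ?_
    exact Equiv.sum_comp g (F (g z))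
  unfold Lm
  rw [Matrix.smul_mul, Matrix.mul_smul]
  congr 1
  rw [Finset.sum_mul, Finset.mul_sum]
  simp only [Finset.sum_mul, Finset.mul_sum]
  rw [← key (fun z z' => Rm k g * (1 - Rm k (Equiv.swap z z')))]
  refine Finset.sum_congr rfl fun z _ => Finset.sum_congr rfl fun z' _ => ?_
  rw [sub_mul, mul_sub, one_mul, mul_one, Rm_mul, Rm_mul, Equiv.mul_swap_eq_swap_mul]

lemma Pm_eq (s : Fin D) : Pm D k s =
    (1 / (Fintype.card (Col D) : ℝ)) • ∑ c : Col D, Rm k (sw s c) := by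
  ext x y
  rw [Matrix.smul_apply, Matrix.sum_apply]
  simp only [Pm, Rm, av, smul_eq_mul]
  ring

lemma Lm_comm_Pm (s : Fin D) : Lm D k * Pm D k s = Pm D k s * Lm D k := by
  rw [Pm_eq, Matrix.mul_smul, Matrix.smul_mul, Finset.mul_sum, Finset.sum_mul]
  congr 1
  exact Finset.sum_congr rfl fun c _ => Lm_comm_Rm _

lemma Lm_comm_TmN (s : ℕ) : Lm D k * TmN D k s = TmN D k s * Lm D k := by
  induction s with
  | zero => simp [TmN]
  | succ s ih =>
    simp only [TmN]
    by_cases h : s < D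
    · simp only [h, dif_pos]
      rw [← mul_assoc, Lm_comm_Pm, mul_assoc, ih, mul_assoc]
    · simpa [h] using ih

lemma Lm_comm_Bm : Lm D k * Bm D k = Bm D k * Lm D k := by
  have h1 : Lm D k * Tm D k = Tm D k * Lm D k := Lm_comm_TmN D
  have h2 : Lm D k * (Tm D k).transpose = (Tm D k).transpose * Lm D k := by
    have := congrArg Matrix.transpose h1
    rw [Matrix.transpose_mul, Matrix.transpose_mul, Lm_symm] at this
    exact this.symm
  unfold Bm
  rw [← mul_assoc, h1, mul_assoc, h2, mul_assoc]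

theorem main (hO : Spec.Op) (hL : Spec.LowL) : Spec.Beta := by
  intro D k hk1 hk2 β f hf0 hf hβ
  -- the invariant subspace
  let S : Submodule ℝ (Om k D → ℝ) :=
    { carrier := {g | Harm g ∧ (Bm D k).mulVec g = β • g}
      add_mem' := by
        rintro g g' ⟨h1, h2⟩ ⟨h3, h4⟩
        exact ⟨h1.add h3, by rw [Matrix.mulVec_add, h2, h4, smul_add]⟩
      zero_mem' := ⟨Harm.zero, by simp⟩
      smul_mem' := by
        rintro c g ⟨h1, h2⟩
        exact ⟨h1.smul c, by rw [Matrix.mulVec_smul, h2, smul_comm]⟩ }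
  have hS : ∀ g ∈ S, (Lm D k).mulVec g ∈ S := by
    rintro g ⟨h1, h2⟩
    refine ⟨h1.Lm, ?_⟩
    rw [Matrix.mulVec_mulVec, ← Lm_comm_Bm, ← Matrix.mulVec_mulVec, h2, Matrix.mulVec_smul]
  obtain ⟨g, hg, hg0, l, hl⟩ := exists_eig (Lm D k) Lm_herm S hS (f := f) ⟨hf, hβ⟩ hf0
  obtain ⟨hgH, hgB⟩ := hg
  have h1 := hO D k β l g hg0 hgB hl
  have h2 := hL D k g hgH
  have hpos : 0 < ∑ x, g x ^ 2 := by
    obtain ⟨x0, hx0⟩ : ∃ x, g x ≠ 0 := by
      by_contra h
      push Not at h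
      exact hg0 (funext h)
    refine Finset.sum_pos' (fun _ _ => sq_nonneg _) ⟨x0, Finset.mem_univ _, ?_⟩
    positivity
  have h3 : ∑ x, g x * (Lm D k).mulVec g x = l * ∑ x, g x ^ 2 := by
    rw [hl, Finset.mul_sum]
    refine Finset.sum_congr rfl fun x _ => ?_
    simp only [Pi.smul_apply, smul_eq_mul]
    ring
  rw [h3] at h2
  have h4 : (k / 2 : ℝ) ≤ l := le_of_mul_le_mul_right h2 hpos
  refine h1.trans (Real.exp_le_exp.2 ?_)
  linarith

end Crest.Agent.ThpBeta
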