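import Mathlib
import Crest.Agent.ThpDefs
import Crest.Agent.ThpSpec

/-! rid 155 (S0222): module ONE, exploration of the cycles of `π⁻¹ g`. -/

namespace Crest.Agent.ThpOne
open Finset Crest.Agent.Thp

variable {D : ℕ}

lemma perm_ai (e : Equiv.Perm (X D)) (z : X D) : e (e⁻¹ z) = z := by
  rw [← Equiv.Perm.mul_apply, mul_inv_cancel]; rfl

lemma perm_ia (e : Equiv.Perm (X D)) (z : X D) : e⁻¹ (e z) = z := by
  rw [← Equiv.Perm.mul_apply, inv_mul_cancel]; rfl

/-- columns not touching coordinate `s` preserve it -/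
lemma pw_coord (O : Fin D → Col D) (s : Fin D) : ∀ (W : List (Fin D)), s ∉ W → ∀ z : X D,
    pw O W z s = z s
  | [], _, z => by simp [pw]
  | t :: W, h, z => by
    have h1 : s ≠ t := fun h' => h (by simp [h'])
    have h2 : s ∉ W := fun h' => h (by simp [h'])
    simp only [pw, Equiv.Perm.mul_apply]
    rw [pw_coord O s W h2]
    simp [swf, h1]

/-- the first step is determined by the endpoint -/
lemma first_step (O : Fin D → Col D) (s : Fin D) (W : List (Fin D)) (h : s ∉ W) (z : X D) :
    sw s (O s) z = Function.update z s (pw O (s :: W) z s) := by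
  have : pw O (s :: W) z s = (sw s (O s) z) s := by
    simp only [pw, Equiv.Perm.mul_apply]
    rw [pw_coord O s W h]
  rw [this]
  simp [swf]

/-- `sh` depends on `O` only through the endpoints -/
lemma sh_dep (O O' : Fin D → Col D) : ∀ (W : List (Fin D)), W.Nodup → ∀ (Q : Finset (X D))
    (a : X D), (∀ b ∈ Q, pw O W b = pw O' W b) → pw O W a = pw O' W a →
    sh O W Q a = sh O' W Q a
  | [], _, Q, a, _, _ => by simp [sh]
  | s :: W, hW, Q, a, hQ, ha => by
    have hs : s ∉ W := (List.nodup_cons.1 hW).1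
    have hW' : W.Nodup := (List.nodup_cons.1 hW).2
    have h1 : ∀ z, pw O (s :: W) z = pw O' (s :: W) z → sw s (O s) z = sw s (O' s) z := by
      intro z hz
      rw [first_step O s W hs, first_step O' s W hs, hz]
    have himg : Q.image (sw s (O s)) = Q.image (sw s (O' s)) :=
      Finset.image_congr (fun b hb => h1 b (hQ b hb))
    have h2 : ∀ z, pw O (s :: W) z = pw O' (s :: W) z →
        pw O W (sw s (O s) z) = pw O' W (sw s (O s) z) := by
      intro z hz
      have e1 : pw O W (sw s (O s) z) = pw O (s :: W) z := by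
        simp only [pw, Equiv.Perm.mul_apply]
      have e2 : pw O' W (sw s (O' s) z) = pw O' (s :: W) z := by
        simp only [pw, Equiv.Perm.mul_apply]
      rw [e1, h1 z hz, e2, hz]
    have ih := sh_dep O O' W hW' (Q.image (sw s (O s))) (sw s (O s) a) ?_ (h2 a ha)
    · simp only [sh]
      rw [ih, himg, h1 a ha]
    · intro b hb
      obtain ⟨z, hz, rfl⟩ := Finset.mem_image.1 hb
      exact h2 z (hQ z hz)

/-! ### orbits -/

lemma mem_orb {φ : Equiv.Perm (X D)} {a b : X D} : b ∈ orb φ a ↔ φ.SameCycle a b := by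
  simp [orb]

lemma self_mem_orb (φ : Equiv.Perm (X D)) (a : X D) : a ∈ orb φ a :=
  mem_orb.2 (Equiv.Perm.SameCycle.refl _ _)

lemma per_pos (φ : Equiv.Perm (X D)) (a : X D) : 0 < Function.minimalPeriod φ a := by
  refine Function.IsPeriodicPt.minimalPeriod_pos (orderOf_pos φ) ?_
  unfold Function.IsPeriodicPt Function.IsFixedPt
  rw [← Equiv.Perm.coe_pow, pow_orderOf_eq_one]
  rfl

lemma orb_eq (φ : Equiv.Perm (X D)) (a : X D) :
    orb φ a = (Finset.range (Function.minimalPeriod φ a)).image (fun t => (φ ^ t) a) := by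
  ext b
  rw [mem_orb, Finset.mem_image]
  constructor
  · intro h
    obtain ⟨i, hi⟩ := h.exists_nat_pow_eq
    refine ⟨i % Function.minimalPeriod φ a, Finset.mem_range.2 (Nat.mod_lt _ (per_pos φ a)), ?_⟩
    rw [← hi, Equiv.Perm.coe_pow, Equiv.Perm.coe_pow]
    exact Function.iterate_mod_minimalPeriod_eq
  · rintro ⟨i, -, hi⟩
    exact ⟨i, by simpa using hi⟩

lemma card_orb (φ : Equiv.Perm (X D)) (a : X D) :
    (orb φ a).card = Function.minimalPeriod φ a := by
  rw [orb_eq, Finset.card_image_of_injOn, Finset.card_range]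
  intro i hi j hj hij
  simp only [Finset.coe_range, Set.mem_Iio] at hi hj
  simp only [Equiv.Perm.coe_pow] at hij
  exact Function.iterate_injOn_Iio_minimalPeriod hi hj hij

lemma pow_card (φ : Equiv.Perm (X D)) (a : X D) : (φ ^ (orb φ a).card) a = a := by
  rw [card_orb, Equiv.Perm.coe_pow]
  exact Function.iterate_minimalPeriod

lemma pow_ne (φ : Equiv.Perm (X D)) (a : X D) {t : ℕ} (h0 : t ≠ 0) (ht : t < (orb φ a).card) :
    (φ ^ t) a ≠ a := by
  rw [card_orb] at ht
  rw [Equiv.Perm.coe_pow]
  exact Function.not_isPeriodicPt_of_pos_of_lt_minimalPeriod h0 ht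

lemma mem_orb_iff (φ : Equiv.Perm (X D)) (a b : X D) :
    b ∈ orb φ a ↔ ∃ t < (orb φ a).card, (φ ^ t) a = b := by
  rw [card_orb]
  conv_lhs => rw [orb_eq]
  simp

lemma pow_mem (φ : Equiv.Perm (X D)) (a : X D) (t : ℕ) : (φ ^ t) a ∈ orb φ a :=
  mem_orb.2 ⟨t, by simp⟩

lemma orb_disj {φ : Equiv.Perm (X D)} {a a' : X D} (h : a' ∉ orb φ a) :
    ∀ b ∈ orb φ a, b ∉ orb φ a' := by
  intro b hb hb'
  exact h (mem_orb.2 ((mem_orb.1 hb).trans (mem_orb.1 hb').symm))

/-- the exploration inequality with an already explored set `B` -/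
theorem gen (hP : Spec.Path) (W : List (Fin D)) (hW : W.Nodup) (g : Equiv.Perm (X D)) :
    ∀ (m : ℕ) (a : Fin m → X D) (l : Fin m → ℕ) (B : Finset (X D)) (τ : X D → X D),
  ∑ O ∈ univ.filter (fun O : Fin D → Col D => (∀ b ∈ B, pw O W b = τ b) ∧
        (∀ i, ∀ b ∈ B, b ∉ orb ((pw O W)⁻¹ * g) (a i)) ∧
        (∀ i, (orb ((pw O W)⁻¹ * g) (a i)).card = l i) ∧
        (∀ i j, i ≠ j → a j ∉ orb ((pw O W)⁻¹ * g) (a i))),
      (2 : ℝ) ^ (∑ i : Fin m, (W.length -
        sh O W (B ∪ univ.filter (fun b => (∃ j, j < i ∧ b ∈ orb ((pw O W)⁻¹ * g) (a j)) ∨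
          (b ∈ orb ((pw O W)⁻¹ * g) (a i) ∧ b ≠ a i))) (a i)))
    ≤ ((univ.filter (fun O : Fin D → Col D => ∀ b ∈ B, pw O W b = τ b)).card : ℝ) := by
  intro m
  induction m with
  | zero =>
    intro a l B τ
    simp
  | succ m ih =>
    intro a l B τ
    classical
    -- the key: the sequence `φ^t (a 0)`
    set key : (Fin D → Col D) → (Fin (l 0) → X D) :=
      fun O t => (((pw O W)⁻¹ * g) ^ (t : ℕ)) (a 0) with hkey
    set S := univ.filter (fun O : Fin D → Col D => (∀ b ∈ B, pw O W b = τ b) ∧
        (∀ i, ∀ b ∈ B, b ∉ orb ((pw O W)⁻¹ * g) (a i)) ∧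
        (∀ i, (orb ((pw O W)⁻¹ * g) (a i)).card = l i) ∧
        (∀ i j, i ≠ j → a j ∉ orb ((pw O W)⁻¹ * g) (a i))) with hS
    rw [← Finset.sum_fiberwise S key]
    have hcard : ((univ.filter (fun O : Fin D → Col D => ∀ b ∈ B, pw O W b = τ b)).card : ℝ) =
        ∑ y : Fin (l 0) → X D, (((univ.filter (fun O : Fin D → Col D =>
          ∀ b ∈ B, pw O W b = τ b)).filter (fun O => key O = y)).card : ℝ) := by
      rw [Finset.card_eq_sum_card_fiberwise (f := key) (t := univ) (fun _ _ => by simp)]
      push_cast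
      rfl
    rw [hcard]
    refine Finset.sum_le_sum fun y _ => ?_
    by_cases hne : (S.filter (fun O => key O = y)).Nonempty
    swap
    · rw [Finset.not_nonempty_iff_eq_empty.1 hne]
      simp
    obtain ⟨P, hPm⟩ := hne
    rw [Finset.mem_filter] at hPm
    obtain ⟨hPS, hPy⟩ := hPm
    rw [hS, Finset.mem_filter] at hPS
    obtain ⟨-, hP1, hP2, hP3, hP4⟩ := hPS
    set φ := (pw P W)⁻¹ * g with hφ
    set Y := orb φ (a 0) with hY
    -- facts on an element of the fibre
    have fib : ∀ O ∈ S.filter (fun O => key O = y),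
        orb ((pw O W)⁻¹ * g) (a 0) = Y ∧ ∀ b ∈ B ∪ Y, pw O W b = pw P W b := by
      intro O hO
      rw [Finset.mem_filter] at hO
      obtain ⟨hOS, hOy⟩ := hO
      rw [hS, Finset.mem_filter] at hOS
      obtain ⟨-, hO1, hO2, hO3, hO4⟩ := hOS
      have hk : ∀ t < l 0, (((pw O W)⁻¹ * g) ^ t) (a 0) = (φ ^ t) (a 0) := by
        intro t ht
        have := congrFun (hOy.trans hPy.symm) ⟨t, ht⟩
        simpa [hkey] using this
      have horb : orb ((pw O W)⁻¹ * g) (a 0) = Y := by
        ext b
        rw [mem_orb_iff, hY, mem_orb_iff, hO3 0, hP3 0]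
        constructor
        · rintro ⟨t, ht, h⟩; exact ⟨t, ht, (hk t ht).symm.trans h⟩
        · rintro ⟨t, ht, h⟩; exact ⟨t, ht, (hk t ht).trans h⟩
      refine ⟨horb, ?_⟩
      intro b hb
      rcases Finset.mem_union.1 hb with hb | hb
      · rw [hO1 b hb, hP1 b hb]
      · -- `b = φ^t (a 0)`
        rw [hY, mem_orb_iff, hP3 0] at hb
        obtain ⟨t, ht, rfl⟩ := hb
        -- predecessor
        have hpred : ∃ t' < l 0, (φ ^ (t' + 1)) (a 0) = (φ ^ t) (a 0) ∧
            (((pw O W)⁻¹ * g) ^ (t' + 1)) (a 0) = (φ ^ t) (a 0) := by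
          rcases Nat.eq_zero_or_pos t with h0 | h0
          · refine ⟨l 0 - 1, by omega, ?_, ?_⟩
            · have : l 0 - 1 + 1 = l 0 := by omega
              rw [this, h0, ← hP3 0, pow_card]
              simp
            · have : l 0 - 1 + 1 = l 0 := by omega
              rw [this, h0, ← hO3 0, pow_card]
              simp
          · refine ⟨t - 1, by omega, ?_, ?_⟩
            · rw [show t - 1 + 1 = t by omega]
            · rw [show t - 1 + 1 = t by omega]
              exact hk t ht
        obtain ⟨t', ht', e1, e2⟩ := hpred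
        have f1 : pw O W ((φ ^ t) (a 0)) = g ((φ ^ t') (a 0)) := by
          rw [← e2, pow_succ', Equiv.Perm.mul_apply, Equiv.Perm.mul_apply,
            perm_ai, hk t' ht']
        have f2 : pw P W ((φ ^ t) (a 0)) = g ((φ ^ t') (a 0)) := by
          conv_lhs => rw [← e1]
          rw [pow_succ', Equiv.Perm.mul_apply]
          conv_lhs => rw [hφ]
          rw [Equiv.Perm.mul_apply, perm_ai]
        rw [f1, f2]
    set B' := B ∪ Y with hB'
    set Q := B ∪ Y.erase (a 0) with hQ
    have ha0Y : a 0 ∈ Y := self_mem_orb φ (a 0)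
    have ha0B : a 0 ∉ B := fun h => hP2 0 (a 0) h ha0Y
    have ha0Q : a 0 ∉ Q := by
      rw [hQ, Finset.mem_union]
      rintro (h | h)
      · exact ha0B h
      · exact (Finset.notMem_erase _ _) h
    have hB'Q : ∀ b, b ∈ B' ↔ b ∈ Q ∨ b = a 0 := by
      intro b
      rw [hB', hQ]
      simp only [Finset.mem_union, Finset.mem_erase]
      constructor
      · rintro (h | h)
        · exact Or.inl (Or.inl h)
        · by_cases hb : b = a 0
          · exact Or.inr hb
          · exact Or.inl (Or.inr ⟨hb, h⟩)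
      · rintro ((h | ⟨_, h⟩) | h)
        · exact Or.inl h
        · exact Or.inr h
        · exact Or.inr (h ▸ ha0Y)
    -- Path
    have path := hP D W hW Q (a 0) (fun b => pw P W b) ha0Q
    -- the constraint set on `Q` lies in the fibre of the key
    have hsub : univ.filter (fun O : Fin D → Col D => ∀ b ∈ Q, pw O W b = pw P W b) ⊆
        (univ.filter (fun O : Fin D → Col D =>
          ∀ b ∈ B, pw O W b = τ b)).filter (fun O => key O = y) := by
      intro O hO
      rw [Finset.mem_filter] at hO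
      have hO := hO.2
      rw [Finset.mem_filter, Finset.mem_filter]
      refine ⟨⟨Finset.mem_univ _, fun b hb => ?_⟩, ?_⟩
      · rw [hO b (by rw [hQ]; exact Finset.mem_union_left _ hb), hP1 b hb]
      · rw [← hPy]
        have hind : ∀ t, t < l 0 → (((pw O W)⁻¹ * g) ^ t) (a 0) = (φ ^ t) (a 0) := by
          intro t
          induction t with
          | zero => intro _; simp
          | succ t iht =>
            intro ht
            rw [pow_succ', Equiv.Perm.mul_apply, iht (by omega)]
            have hmem : (φ ^ (t + 1)) (a 0) ∈ Q := by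
              rw [hQ]
              refine Finset.mem_union_right _ (Finset.mem_erase.2 ⟨?_, pow_mem _ _ _⟩)
              exact pow_ne φ (a 0) (by omega) (by rw [hP3 0]; exact ht)
            have h1 := hO _ hmem
            have h2 : pw P W ((φ ^ (t + 1)) (a 0)) = g ((φ ^ t) (a 0)) := by
              rw [pow_succ', Equiv.Perm.mul_apply]
              conv_lhs => rw [hφ]
              rw [Equiv.Perm.mul_apply, perm_ai]
            rw [h2] at h1
            rw [Equiv.Perm.mul_apply, ← h1, perm_ia]
        funext t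
        simp only [hkey]
        exact hind t t.2
    refine le_trans ?_ (le_trans path (by exact_mod_cast Finset.card_le_card hsub))
    -- rewrite the exponent
    set e0 := W.length - sh P W Q (a 0) with he0
    have ih' := ih (fun i => a i.succ) (fun i => l i.succ) B' (fun b => pw P W b)
    have hN : ∑ O ∈ univ.filter (fun O : Fin D → Col D => (∀ b ∈ Q, pw O W b = pw P W b) ∧
        pw O W (a 0) = pw P W (a 0)), (2 : ℝ) ^ (W.length - sh O W Q (a 0)) =
        2 ^ e0 * ((univ.filter (fun O : Fin D → Col D => ∀ b ∈ B', pw O W b = pw P W b)).card : ℝ) := by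
      have hset : univ.filter (fun O : Fin D → Col D => (∀ b ∈ Q, pw O W b = pw P W b) ∧
        pw O W (a 0) = pw P W (a 0)) =
        univ.filter (fun O : Fin D → Col D => ∀ b ∈ B', pw O W b = pw P W b) := by
        ext O
        simp only [Finset.mem_filter, Finset.mem_univ, true_and]
        constructor
        · rintro ⟨h1, h2⟩ b hb
          rcases (hB'Q b).1 hb with h | h
          · exact h1 b h
          · rw [h]; exact h2
        · intro h
          exact ⟨fun b hb => h b ((hB'Q b).2 (Or.inl hb)), h _ ((hB'Q _).2 (Or.inr rfl))⟩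
      rw [hset, Finset.sum_congr rfl (g := fun _ => (2 : ℝ) ^ e0)]
      · rw [Finset.sum_const, nsmul_eq_mul, mul_comm]
      · intro O hO
        rw [Finset.mem_filter] at hO
        have hO := hO.2
        rw [he0, sh_dep O P W hW Q (a 0) (fun b hb => hO b ((hB'Q b).2 (Or.inl hb)))
          (hO _ ((hB'Q _).2 (Or.inr rfl)))]
    rw [hN]
    refine le_trans ?_ (mul_le_mul_of_nonneg_left ih' (by positivity))
    rw [Finset.mul_sum]
    -- compare termwise over the fibre
    have hinc : S.filter (fun O => key O = y) ⊆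
        univ.filter (fun O : Fin D → Col D => (∀ b ∈ B', pw O W b = pw P W b) ∧
        (∀ i : Fin m, ∀ b ∈ B', b ∉ orb ((pw O W)⁻¹ * g) (a i.succ)) ∧
        (∀ i : Fin m, (orb ((pw O W)⁻¹ * g) (a i.succ)).card = l i.succ) ∧
        (∀ i j : Fin m, i ≠ j → a j.succ ∉ orb ((pw O W)⁻¹ * g) (a i.succ))) := by
      intro O hO
      obtain ⟨f1, f2⟩ := fib O hO
      rw [Finset.mem_filter] at hO
      obtain ⟨hOS, hOy⟩ := hO
      rw [hS, Finset.mem_filter] at hOS
      obtain ⟨-, hO1, hO2, hO3, hO4⟩ := hOS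
      rw [Finset.mem_filter]
      refine ⟨Finset.mem_univ _, f2, ?_, fun i => hO3 i.succ, ?_⟩
      · intro i b hb
        rcases Finset.mem_union.1 hb with h | h
        · exact hO2 i.succ b h
        · rw [← f1] at h
          exact orb_disj (hO4 0 i.succ (Fin.succ_ne_zero i).symm) b h
      · intro i j hij
        exact hO4 i.succ j.succ (fun h => hij (Fin.succ_injective _ h))
    refine le_trans (le_of_eq ?_) (Finset.sum_le_sum_of_subset_of_nonneg hinc
      (fun O _ _ => by positivity))
    refine Finset.sum_congr rfl fun O hO => ?_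
    obtain ⟨f1, f2⟩ := fib O hO
    rw [Fin.sum_univ_succ, pow_add]
    congr 1
    · congr 1
      rw [he0]
      congr 1
      have hQeq : B ∪ univ.filter (fun b => (∃ j : Fin (m + 1), j < 0 ∧
          b ∈ orb ((pw O W)⁻¹ * g) (a j)) ∨ (b ∈ orb ((pw O W)⁻¹ * g) (a 0) ∧ b ≠ a 0)) = Q := by
        rw [hQ]
        congr 1
        ext b
        simp only [Finset.mem_filter, Finset.mem_univ, true_and, Finset.mem_erase, f1]
        constructor
        · rintro (⟨j, hj, -⟩ | ⟨h1, h2⟩)
          · exact absurd hj (Fin.not_lt_zero j)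
          · exact ⟨h2, h1⟩
        · rintro ⟨h1, h2⟩
          exact Or.inr ⟨h2, h1⟩
      rw [hQeq]
      exact sh_dep O P W hW Q (a 0) (fun b hb => f2 b ((hB'Q b).2 (Or.inl hb)))
          (f2 _ ((hB'Q _).2 (Or.inr rfl)))
    · congr 1
      refine Finset.sum_congr rfl fun i _ => ?_
      congr 2
      ext b
      simp only [hB', Finset.mem_union, Finset.mem_filter, Finset.mem_univ, true_and]
      constructor
      · rintro (h | ⟨j, hj, h⟩ | h)
        · exact Or.inl (Or.inl h)
        · rcases Fin.eq_zero_or_eq_succ j with h0 | ⟨j', rfl⟩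
          · rw [h0, f1] at h
            exact Or.inl (Or.inr h)
          · exact Or.inr (Or.inl ⟨j', Fin.succ_lt_succ_iff.1 hj, h⟩)
        · exact Or.inr (Or.inr h)
      · rintro ((h | h) | ⟨j, hj, h⟩ | h)
        · exact Or.inl h
        · exact Or.inr (Or.inl ⟨0, Fin.succ_pos i, by rw [f1]; exact h⟩)
        · exact Or.inr (Or.inl ⟨j.succ, Fin.succ_lt_succ_iff.2 hj, h⟩)
        · exact Or.inr (Or.inr h)

theorem main (hP : Spec.Path) : Spec.One := by
  intro D W hW g m a l
  have := gen hP W hW g m a l ∅ (fun b => b)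
  simpa using this

end Crest.Agent.ThpOne
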