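import Mathlib
import Crest.Agent.ThpDefs
import Crest.Agent.ThpSpec
import Crest.Agent.ThpOne

/-! rid 155 (S0222): module TWO, exploration in two orders. -/

namespace Crest.Agent.ThpTwo
open Finset Crest.Agent.Thp Crest.Agent.ThpOne

variable {D : ℕ}

lemma sh_le (O : Fin D → Col D) : ∀ (W : List (Fin D)) (Q : Finset (X D)) (a : X D),
    sh O W Q a ≤ W.length
  | [], _, _ => by simp [sh]
  | s :: W, Q, a => by
    simp only [sh, List.length_cons]
    have := sh_le O W (Q.image (sw s (O s))) (sw s (O s) a)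
    split_ifs <;> omega

lemma sh_mono (O : Fin D → Col D) : ∀ (W : List (Fin D)) (Q Q' : Finset (X D)) (a : X D),
    Q ⊆ Q' → sh O W Q a ≤ sh O W Q' a
  | [], _, _, _, _ => by simp [sh]
  | s :: W, Q, Q', a, h => by
    simp only [sh]
    have := sh_mono O W (Q.image (sw s (O s))) (Q'.image (sw s (O s))) (sw s (O s) a)
      (Finset.image_subset_image h)
    split_ifs with h1 h2 h3
    · omega
    · exact absurd (h h1) h2
    · omega
    · omega

lemma sh_add (O : Fin D → Col D) : ∀ (W : List (Fin D)) (Q Q' : Finset (X D)) (a : X D),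
    sh O W Q a + sh O W Q' a ≤ W.length + sh O W (Q ∩ Q') a
  | [], _, _, _ => by simp [sh]
  | s :: W, Q, Q', a => by
    simp only [sh, List.length_cons]
    have := sh_add O W (Q.image (sw s (O s))) (Q'.image (sw s (O s))) (sw s (O s) a)
    rw [← Finset.image_inter _ _ (sw s (O s)).injective] at this
    by_cases h1 : fl s a ∈ Q <;> by_cases h2 : fl s a ∈ Q' <;>
      simp only [h1, h2, Finset.mem_inter, if_true, if_false, and_true, and_false, true_and,
        false_and] <;> omega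

theorem main (hO : Spec.One) : Spec.Two := by
  intro D W hW g m a l hl
  classical
  set N : ℝ := (Fintype.card (Fin D → Col D) : ℝ) with hN
  set w := W.length with hw
  set E := univ.filter (fun O : Fin D → Col D =>
        (∀ i, (orb ((pw O W)⁻¹ * g) (a i)).card = l i) ∧
        (∀ i j, i ≠ j → a j ∉ orb ((pw O W)⁻¹ * g) (a i)) ∧
        (∀ i, (sh O W (orb ((pw O W)⁻¹ * g) (a i)) (a i) : ℝ) ≤ Real.logb 2 (l i))) with hE
  set E1 := univ.filter (fun O : Fin D → Col D =>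
        (∀ i, (orb ((pw O W)⁻¹ * g) (a i)).card = l i) ∧
        (∀ i j, i ≠ j → a j ∉ orb ((pw O W)⁻¹ * g) (a i))) with hE1
  have hEE : E ⊆ E1 := by
    intro O hO
    rw [hE, Finset.mem_filter] at hO
    rw [hE1, Finset.mem_filter]
    exact ⟨hO.1, hO.2.1, hO.2.2.1⟩
  -- the two exponents
  set f1 : (Fin D → Col D) → Fin m → ℕ := fun O i => w -
        sh O W (univ.filter (fun b => (∃ j, j < i ∧ b ∈ orb ((pw O W)⁻¹ * g) (a j)) ∨
          (b ∈ orb ((pw O W)⁻¹ * g) (a i) ∧ b ≠ a i))) (a i) with hf1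
  set f2 : (Fin D → Col D) → Fin m → ℕ := fun O i => w -
        sh O W (univ.filter (fun b => (∃ j, i < j ∧ b ∈ orb ((pw O W)⁻¹ * g) (a j)) ∨
          (b ∈ orb ((pw O W)⁻¹ * g) (a i) ∧ b ≠ a i))) (a i) with hf2
  have b1 : ∑ O ∈ E1, (2 : ℝ) ^ (∑ i, f1 O i) ≤ N := hO D W hW g m a l
  have b2 : ∑ O ∈ E1, (2 : ℝ) ^ (∑ i, f2 O i) ≤ N := by
    have h := hO D W hW g m (fun i => a i.rev) (fun i => l i.rev)
    refine le_trans (le_of_eq ?_) h
    have hset : univ.filter (fun O : Fin D → Col D =>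
        (∀ i : Fin m, (orb ((pw O W)⁻¹ * g) (a i.rev)).card = l i.rev) ∧
        (∀ i j : Fin m, i ≠ j → a j.rev ∉ orb ((pw O W)⁻¹ * g) (a i.rev))) = E1 := by
      rw [hE1]
      ext O
      simp only [Finset.mem_filter, Finset.mem_univ, true_and]
      constructor
      · rintro ⟨h1, h2⟩
        refine ⟨fun i => by simpa using h1 i.rev, fun i j hij => ?_⟩
        have := h2 i.rev j.rev (fun h => hij (Fin.rev_injective h))
        simpa using this
      · rintro ⟨h1, h2⟩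
        exact ⟨fun i => h1 i.rev, fun i j hij => h2 _ _ (fun h => hij (Fin.rev_injective h))⟩
    rw [hset]
    refine Finset.sum_congr rfl fun O _ => ?_
    congr 1
    rw [← Equiv.sum_comp Fin.revPerm]
    refine Finset.sum_congr rfl fun i _ => ?_
    simp only [hf2, Fin.revPerm_apply]
    congr 2
    ext b
    simp only [Finset.mem_filter, Finset.mem_univ, true_and]
    constructor
    · rintro (⟨j, hj, h⟩ | h)
      · refine Or.inl ⟨j.rev, ?_, by simpa using h⟩
        rw [← Fin.rev_lt_rev]; simpa using hj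
      · exact Or.inr h
    · rintro (⟨j, hj, h⟩ | h)
      · exact Or.inl ⟨j.rev, Fin.rev_lt_rev.2 hj, h⟩
      · exact Or.inr h
  have hlpos : ∀ i, (0 : ℝ) < l i := fun i => by exact_mod_cast hl i
  set R : ℝ := ∏ i, Real.sqrt (l i / 2 ^ w) with hR
  have hRpos : 0 < R := Finset.prod_pos fun i _ => Real.sqrt_pos.2 (by have := hlpos i; positivity)
  have hRsq : R ^ 2 = ∏ i, ((l i : ℝ) / 2 ^ w) := by
    rw [hR, ← Finset.prod_pow]
    refine Finset.prod_congr rfl fun i _ => ?_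
    exact Real.sq_sqrt (by have := hlpos i; positivity)
  -- pointwise bound
  have key : ∀ O ∈ E, 2 / R ≤ (2 : ℝ) ^ (∑ i, f1 O i) + (2 : ℝ) ^ (∑ i, f2 O i) := by
    intro O hOE
    rw [hE, Finset.mem_filter] at hOE
    obtain ⟨-, h1, h2, h3⟩ := hOE
    have hi : ∀ i, w ≤ f1 O i + f2 O i + sh O W (orb ((pw O W)⁻¹ * g) (a i)) (a i) := by
      intro i
      have s1 := sh_le O W (univ.filter (fun b => (∃ j, j < i ∧ b ∈ orb ((pw O W)⁻¹ * g) (a j)) ∨
          (b ∈ orb ((pw O W)⁻¹ * g) (a i) ∧ b ≠ a i))) (a i)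
      have s2 := sh_le O W (univ.filter (fun b => (∃ j, i < j ∧ b ∈ orb ((pw O W)⁻¹ * g) (a j)) ∨
          (b ∈ orb ((pw O W)⁻¹ * g) (a i) ∧ b ≠ a i))) (a i)
      have s3 := sh_add O W (univ.filter (fun b => (∃ j, j < i ∧ b ∈ orb ((pw O W)⁻¹ * g) (a j)) ∨
          (b ∈ orb ((pw O W)⁻¹ * g) (a i) ∧ b ≠ a i)))
          (univ.filter (fun b => (∃ j, i < j ∧ b ∈ orb ((pw O W)⁻¹ * g) (a j)) ∨
          (b ∈ orb ((pw O W)⁻¹ * g) (a i) ∧ b ≠ a i))) (a i)
      have s4 := sh_mono O W ((univ.filter (fun b => (∃ j, j < i ∧ b ∈ orb ((pw O W)⁻¹ * g) (a j)) ∨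
          (b ∈ orb ((pw O W)⁻¹ * g) (a i) ∧ b ≠ a i))) ∩
          (univ.filter (fun b => (∃ j, i < j ∧ b ∈ orb ((pw O W)⁻¹ * g) (a j)) ∨
          (b ∈ orb ((pw O W)⁻¹ * g) (a i) ∧ b ≠ a i)))) (orb ((pw O W)⁻¹ * g) (a i)) (a i) (by
          intro b hb
          simp only [Finset.mem_inter, Finset.mem_filter, Finset.mem_univ, true_and] at hb
          obtain ⟨c1 | c1, c2 | c2⟩ := hb
          · obtain ⟨j, hj, hbj⟩ := c1
            obtain ⟨j', hj', hbj'⟩ := c2
            exfalso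
            exact orb_disj (h2 j j' (by omega)) b hbj hbj'
          · exact c2.1
          · exact c1.1
          · exact c1.1)
      simp only [hf1, hf2]
      omega
    have hprod : 1 / R ^ 2 ≤ (2 : ℝ) ^ (∑ i, f1 O i) * (2 : ℝ) ^ (∑ i, f2 O i) := by
      rw [hRsq, ← pow_add, ← Finset.sum_add_distrib, ← Finset.prod_pow_eq_pow_sum, one_div,
        ← Finset.prod_inv_distrib]
      refine Finset.prod_le_prod (fun i _ => by have := hlpos i; positivity) fun i _ => ?_
      rw [inv_div, div_le_iff₀ (hlpos i)]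
      have hs : (2 : ℝ) ^ (sh O W (orb ((pw O W)⁻¹ * g) (a i)) (a i)) ≤ l i := by
        have := h3 i
        rw [Real.le_logb_iff_rpow_le (by norm_num) (hlpos i), Real.rpow_natCast] at this
        exact this
      calc (2 : ℝ) ^ w ≤ 2 ^ (f1 O i + f2 O i + sh O W (orb ((pw O W)⁻¹ * g) (a i)) (a i)) :=
            pow_le_pow_right₀ (by norm_num) (hi i)
        _ = 2 ^ (f1 O i + f2 O i) * 2 ^ (sh O W (orb ((pw O W)⁻¹ * g) (a i)) (a i)) := pow_add _ _ _
        _ ≤ 2 ^ (f1 O i + f2 O i) * l i := mul_le_mul_of_nonneg_left hs (by positivity)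
    set x : ℝ := (2 : ℝ) ^ (∑ i, f1 O i)
    set y : ℝ := (2 : ℝ) ^ (∑ i, f2 O i)
    have hx : 0 < x := by positivity
    have hy : 0 < y := by positivity
    have h4 : (2 / R) ^ 2 ≤ (x + y) ^ 2 := by
      have : (2 / R) ^ 2 = 4 * (1 / R ^ 2) := by field_simp; ring
      rw [this]
      nlinarith [sq_nonneg (x - y)]
    exact le_of_sq_le_sq h4 (by positivity)
  have hsum : (E.card : ℝ) * (2 / R) ≤ 2 * N := by
    calc (E.card : ℝ) * (2 / R) = ∑ O ∈ E, 2 / R := by rw [Finset.sum_const, nsmul_eq_mul]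
      _ ≤ ∑ O ∈ E, ((2 : ℝ) ^ (∑ i, f1 O i) + (2 : ℝ) ^ (∑ i, f2 O i)) := Finset.sum_le_sum key
      _ ≤ ∑ O ∈ E1, ((2 : ℝ) ^ (∑ i, f1 O i) + (2 : ℝ) ^ (∑ i, f2 O i)) :=
          Finset.sum_le_sum_of_subset_of_nonneg hEE (fun _ _ _ => by positivity)
      _ ≤ 2 * N := by rw [Finset.sum_add_distrib]; linarith
  have hNn : 0 ≤ N := by positivity
  have : (E.card : ℝ) ≤ R * N := by
    have h5 : (E.card : ℝ) * (2 / R) * (R / 2) ≤ 2 * N * (R / 2) :=
      mul_le_mul_of_nonneg_right hsum (by positivity)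
    have h6 : (E.card : ℝ) * (2 / R) * (R / 2) = E.card := by field_simp
    rw [h6] at h5
    linarith
  nlinarith [mul_nonneg hRpos.le hNn]

end Crest.Agent.ThpTwo
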