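import Mathlib
import Crest.Agent.ThpDefs
import Crest.Agent.ThpSpec
import Crest.Agent.ThpOne
import Crest.Agent.ThpTwo

/-! rid 155 (S0222): module CORE, exponential moment of the number of cycles. -/

namespace Crest.Agent.ThpCore
open Finset Crest.Agent.Thp Crest.Agent.ThpOne

variable {D : ℕ}

lemma orb_eq_of_mem {φ : Equiv.Perm (X D)} {a b : X D} (h : b ∈ orb φ a) : orb φ b = orb φ a := by
  ext c
  rw [mem_orb, mem_orb]
  exact ⟨fun hc => (mem_orb.1 h).trans hc, fun hc => (mem_orb.1 h).symm.trans hc⟩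

/-- an invariant set contains the orbits of its elements -/
lemma orb_sub {φ : Equiv.Perm (X D)} {Z : Finset (X D)} (hZ : Z.image φ = Z) {b : X D}
    (hb : b ∈ Z) : orb φ b ⊆ Z := by
  have h : ∀ t : ℕ, (φ ^ t) b ∈ Z := by
    intro t
    induction t with
    | zero => simpa using hb
    | succ t ih =>
      rw [pow_succ', Equiv.Perm.mul_apply, ← hZ]
      exact Finset.mem_image_of_mem _ ih
  intro c hc
  obtain ⟨t, -, rfl⟩ := (mem_orb_iff φ b c).1 hc
  exact h t

/-- the orbits inside `A` -/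
noncomputable def orbs (φ : Equiv.Perm (X D)) (A : Finset (X D)) : Finset (Finset (X D)) := by
  classical
  exact (A.filter (fun b => orb φ b ⊆ A)).image (orb φ)

lemma mem_orbs {φ : Equiv.Perm (X D)} {A C : Finset (X D)} :
    C ∈ orbs φ A ↔ ∃ b ∈ A, orb φ b ⊆ A ∧ orb φ b = C := by
  classical
  unfold orbs
  simp only [Finset.mem_image, Finset.mem_filter]
  constructor
  · rintro ⟨b, ⟨h1, h2⟩, h3⟩; exact ⟨b, h1, h2, h3⟩
  · rintro ⟨b, h1, h2, h3⟩; exact ⟨b, ⟨h1, h2⟩, h3⟩

lemma inv_le (φ : Equiv.Perm (X D)) (A : Finset (X D)) : inv φ A ≤ 2 ^ (orbs φ A).card := by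
  classical
  rw [← Finset.card_powerset]
  unfold inv
  refine Finset.card_le_card_of_injOn (fun Z => (orbs φ A).filter (fun C => C ⊆ Z)) ?_ ?_
  · intro Z _
    simp only [Finset.coe_powerset, Set.mem_preimage, Set.mem_powerset_iff, Finset.coe_subset]
    exact Finset.filter_subset _ _
  · intro Z hZ Z' hZ' h
    simp only [Finset.coe_filter, Finset.mem_powerset, Set.mem_setOf_eq] at hZ hZ'
    have aux : ∀ Z Z' : Finset (X D), (Z ⊆ A ∧ Z.image φ = Z) → (Z' ⊆ A ∧ Z'.image φ = Z') →
        (orbs φ A).filter (fun C => C ⊆ Z) = (orbs φ A).filter (fun C => C ⊆ Z') → Z ⊆ Z' := by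
      intro Z Z' hZ hZ' h b hb
      have h1 : orb φ b ∈ (orbs φ A).filter (fun C => C ⊆ Z) := by
        rw [Finset.mem_filter]
        exact ⟨mem_orbs.2 ⟨b, hZ.1 hb, (orb_sub hZ.2 hb).trans hZ.1, rfl⟩, orb_sub hZ.2 hb⟩
      rw [h, Finset.mem_filter] at h1
      exact h1.2 (self_mem_orb φ b)
    exact Finset.Subset.antisymm (aux Z Z' hZ hZ' h) (aux Z' Z hZ' hZ h.symm)

lemma long_card (φ : Equiv.Perm (X D)) (A : Finset (X D)) (L : ℕ) :
    ((orbs φ A).filter (fun C => L < C.card)).card * L ≤ A.card := by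
  classical
  have hd : Set.PairwiseDisjoint (↑((orbs φ A).filter (fun C => L < C.card)) : Set (Finset (X D)))
      (id : Finset (X D) → Finset (X D)) := by
    intro C hC C' hC' hne
    simp only [Finset.coe_filter, Set.mem_setOf_eq] at hC hC'
    obtain ⟨b, -, -, rfl⟩ := mem_orbs.1 hC.1
    obtain ⟨b', -, -, rfl⟩ := mem_orbs.1 hC'.1
    simp only [Function.onFun, id]
    rw [Finset.disjoint_left]
    intro c hc hc'
    exact hne ((orb_eq_of_mem hc).symm.trans (orb_eq_of_mem hc'))
  have h1 := Finset.card_biUnion hd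
  have h2 : (((orbs φ A).filter (fun C => L < C.card)).biUnion id).card ≤ A.card := by
    refine Finset.card_le_card ?_
    intro c hc
    simp only [Finset.mem_biUnion, id] at hc
    obtain ⟨C, hC, hc⟩ := hc
    rw [Finset.mem_filter] at hC
    obtain ⟨b, -, hb, rfl⟩ := mem_orbs.1 hC.1
    exact hb hc
  rw [h1] at h2
  refine le_trans ?_ h2
  rw [← smul_eq_mul, ← Finset.sum_const]
  refine Finset.sum_le_sum fun C hC => ?_
  rw [Finset.mem_filter] at hC
  simp only [id]
  exact hC.2.le

/-- the event that the points of `M` are good points of different short cycles -/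
def ev (O : Fin D → Col D) (W : List (Fin D)) (g : Equiv.Perm (X D)) (L : ℕ)
    (M : Finset (X D)) : Prop :=
  (∀ b ∈ M, (orb ((pw O W)⁻¹ * g) b).card ≤ L ∧
    (sh O W (orb ((pw O W)⁻¹ * g) b) b : ℝ) ≤ Real.logb 2 (orb ((pw O W)⁻¹ * g) b).card) ∧
  (∀ b ∈ M, ∀ b' ∈ M, b ≠ b' → b' ∉ orb ((pw O W)⁻¹ * g) b)

open Classical in
/-- pointwise bound -/
lemma pointwise (hI : Spec.Iso) (W : List (Fin D)) (hW : W.Nodup) (g : Equiv.Perm (X D))
    (A : Finset (X D)) (L : ℕ) (a : ℝ) (hL : 1 ≤ L) (ha : 0 ≤ a) (O : Fin D → Col D) :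
    (inv ((pw O W)⁻¹ * g) A : ℝ) ^ a ≤ (2 : ℝ) ^ (a * A.card / L) *
      ∑ M ∈ A.powerset, ((2 : ℝ) ^ a - 1) ^ M.card * (if ev O W g L M then 1 else 0) := by
  set φ := (pw O W)⁻¹ * g with hφ
  set q : ℝ := (2 : ℝ) ^ a with hq
  have hq1 : 1 ≤ q := Real.one_le_rpow (by norm_num) ha
  set SL := (orbs φ A).filter (fun C => L < C.card) with hSL
  set SS := (orbs φ A).filter (fun C => ¬ L < C.card) with hSS
  have hcard : SL.card + SS.card = (orbs φ A).card := Finset.card_filter_add_card_filter_not _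
  -- representatives
  have hrep : ∀ C : Finset (X D), ∃ b : X D, C ∈ SS → (b ∈ C ∧ orb φ b = C ∧ b ∈ A ∧
      (sh O W C b : ℝ) ≤ Real.logb 2 C.card) := by
    intro C
    by_cases hC : C ∈ SS
    · rw [hSS, Finset.mem_filter] at hC
      obtain ⟨b, hb, hbA, hbC⟩ := mem_orbs.1 hC.1
      have hne : C.Nonempty := ⟨b, hbC ▸ self_mem_orb φ b⟩
      have h1 := hI D W hW O C
      have h2 : (∑ b ∈ C, (sh O W C b : ℝ)) ≤ ∑ b ∈ C, Real.logb 2 C.card := by
        rw [Finset.sum_const, nsmul_eq_mul]; exact h1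
      obtain ⟨c, hc, hle⟩ := Finset.exists_le_of_sum_le hne h2
      refine ⟨c, fun _ => ⟨hc, ?_, ?_, hle⟩⟩
      · rw [← hbC]; exact orb_eq_of_mem (hbC ▸ hc)
      · exact hbA (hbC ▸ hc)
    · exact ⟨fun _ => false, fun h => absurd h hC⟩
  choose ρ hρ using hrep
  set T := SS.image ρ with hT
  have hTcard : T.card = SS.card := by
    rw [hT]
    refine Finset.card_image_of_injOn ?_
    intro C hC C' hC' h
    rw [← (hρ C hC).2.1, ← (hρ C' hC').2.1, h]
  have hTA : T ⊆ A := by
    intro b hb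
    rw [hT, Finset.mem_image] at hb
    obtain ⟨C, hC, rfl⟩ := hb
    exact (hρ C hC).2.2.1
  have hTev : ∀ M, M ⊆ T → ev O W g L M := by
    intro M hM
    refine ⟨fun b hb => ?_, fun b hb b' hb' hne => ?_⟩
    · have := hM hb
      rw [hT, Finset.mem_image] at this
      obtain ⟨C, hC, rfl⟩ := this
      rw [← hφ, (hρ C hC).2.1]
      refine ⟨?_, (hρ C hC).2.2.2⟩
      rw [hSS, Finset.mem_filter] at hC
      exact not_lt.1 hC.2
    · have h1 := hM hb
      have h2 := hM hb'
      rw [hT, Finset.mem_image] at h1 h2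
      obtain ⟨C, hC, rfl⟩ := h1
      obtain ⟨C', hC', rfl⟩ := h2
      rw [← hφ, (hρ C hC).2.1]
      intro h
      have e1 : orb φ (ρ C') = C := by
        have := orb_eq_of_mem (φ := φ) (a := ρ C) (b := ρ C') (by rw [(hρ C hC).2.1]; exact h)
        rw [this, (hρ C hC).2.1]
      rw [(hρ C' hC').2.1] at e1
      exact hne (by rw [e1])
  have hqT : q ^ T.card = ∑ M ∈ T.powerset, (q - 1) ^ M.card := by
    have := Finset.sum_pow_mul_eq_add_pow (q - 1) 1 T
    simp only [one_pow, mul_one, sub_add_cancel] at this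
    exact this.symm
  have hsum : q ^ T.card ≤
      ∑ M ∈ A.powerset, (q - 1) ^ M.card * (if ev O W g L M then 1 else 0) := by
    rw [hqT]
    calc ∑ M ∈ T.powerset, (q - 1) ^ M.card
        = ∑ M ∈ T.powerset, (q - 1) ^ M.card * (if ev O W g L M then 1 else 0) := by
          refine Finset.sum_congr rfl fun M hM => ?_
          rw [if_pos (hTev M (Finset.mem_powerset.1 hM)), mul_one]
      _ ≤ _ := by
          refine Finset.sum_le_sum_of_subset_of_nonneg (Finset.powerset_mono.2 hTA) ?_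
          intro M _ _
          have : 0 ≤ q - 1 := by linarith
          split_ifs <;> positivity
  have hLpos : (0 : ℝ) < L := by exact_mod_cast hL
  calc (inv φ A : ℝ) ^ a ≤ ((2 : ℝ) ^ ((orbs φ A).card : ℕ)) ^ a := by
        refine Real.rpow_le_rpow (by positivity) ?_ ha
        exact_mod_cast inv_le φ A
    _ = (2 : ℝ) ^ (a * SL.card) * q ^ T.card := by
        rw [hTcard, hq, ← Real.rpow_natCast, ← Real.rpow_mul (by norm_num), ← Real.rpow_natCast,
          ← Real.rpow_mul (by norm_num), ← Real.rpow_add (by norm_num), ← hcard]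
        congr 1
        push_cast
        ring
    _ ≤ (2 : ℝ) ^ (a * A.card / L) * q ^ T.card := by
        refine mul_le_mul_of_nonneg_right ?_ (by positivity)
        refine Real.rpow_le_rpow_of_exponent_le (by norm_num) ?_
        rw [le_div_iff₀ hLpos]
        have h := long_card φ A L
        have h' : (SL.card : ℝ) * L ≤ A.card := by exact_mod_cast h
        nlinarith
    _ ≤ _ := mul_le_mul_of_nonneg_left hsum (by positivity)

open Classical in
lemma count_ev (hT : Spec.Two) (W : List (Fin D)) (hW : W.Nodup) (g : Equiv.Perm (X D))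
    (M : Finset (X D)) (L : ℕ) :
    ((univ.filter (fun O : Fin D → Col D => ev O W g L M)).card : ℝ) ≤
      2 * (∑ l ∈ Icc 1 L, Real.sqrt (l / 2 ^ W.length)) ^ M.card *
        (Fintype.card (Fin D → Col D) : ℝ) := by
  set m := M.card with hm
  set e := M.equivFin.symm with he
  set a : Fin m → X D := fun i => (e i : X D) with ha
  have haM : ∀ i, a i ∈ M := fun i => (e i).2
  have hainj : Function.Injective a := fun i j h => e.injective (Subtype.ext h)
  set Ev : (Fin m → ℕ) → Finset (Fin D → Col D) := fun l =>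
    univ.filter (fun O : Fin D → Col D =>
        (∀ i, (orb ((pw O W)⁻¹ * g) (a i)).card = l i) ∧
        (∀ i j, i ≠ j → a j ∉ orb ((pw O W)⁻¹ * g) (a i)) ∧
        (∀ i, (sh O W (orb ((pw O W)⁻¹ * g) (a i)) (a i) : ℝ) ≤ Real.logb 2 (l i))) with hEv
  have hsub : univ.filter (fun O : Fin D → Col D => ev O W g L M) ⊆
      (Fintype.piFinset (fun _ : Fin m => Icc 1 L)).biUnion Ev := by
    intro O hO
    rw [Finset.mem_filter] at hO
    obtain ⟨-, h1, h2⟩ := hO
    rw [Finset.mem_biUnion]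
    refine ⟨fun i => (orb ((pw O W)⁻¹ * g) (a i)).card, ?_, ?_⟩
    · rw [Fintype.mem_piFinset]
      intro i
      rw [Finset.mem_Icc]
      exact ⟨Finset.card_pos.2 ⟨_, self_mem_orb _ _⟩, (h1 _ (haM i)).1⟩
    · rw [hEv, Finset.mem_filter]
      refine ⟨Finset.mem_univ _, fun i => rfl, fun i j hij => ?_, fun i => (h1 _ (haM i)).2⟩
      exact h2 _ (haM i) _ (haM j) (fun h => hij (hainj h))
  calc ((univ.filter (fun O : Fin D → Col D => ev O W g L M)).card : ℝ)
      ≤ (((Fintype.piFinset (fun _ : Fin m => Icc 1 L)).biUnion Ev).card : ℝ) := by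
        exact_mod_cast Finset.card_le_card hsub
    _ ≤ ∑ l ∈ Fintype.piFinset (fun _ : Fin m => Icc 1 L), ((Ev l).card : ℝ) := by
        exact_mod_cast Finset.card_biUnion_le
    _ ≤ ∑ l ∈ Fintype.piFinset (fun _ : Fin m => Icc 1 L),
          2 * (∏ i, Real.sqrt (l i / 2 ^ W.length)) * (Fintype.card (Fin D → Col D) : ℝ) := by
        refine Finset.sum_le_sum fun l hl => ?_
        rw [Fintype.mem_piFinset] at hl
        exact hT D W hW g m a l (fun i => (Finset.mem_Icc.1 (hl i)).1)
    _ = _ := by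
        rw [← Finset.sum_mul, ← Finset.mul_sum]
        congr 2
        have := Finset.prod_univ_sum (fun _ : Fin m => Icc 1 L)
          (fun (_ : Fin m) (l : ℕ) => Real.sqrt (l / 2 ^ W.length))
        rw [← this, Finset.prod_const, Finset.card_univ, Fintype.card_fin]

theorem main (hT : Spec.Two) (hI : Spec.Iso) : Spec.Core := by
  intro D W hW g A L a hL ha
  classical
  set N : ℝ := (Fintype.card (Fin D → Col D) : ℝ) with hN
  have hNpos : 0 < N := by
    rw [hN]
    exact_mod_cast Fintype.card_pos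
  set q : ℝ := (2 : ℝ) ^ a with hq
  have hq1 : 1 ≤ q := Real.one_le_rpow (by norm_num) ha
  set S : ℝ := ∑ l ∈ Icc 1 L, Real.sqrt (l / 2 ^ W.length) with hS
  have hSn : 0 ≤ S := Finset.sum_nonneg fun _ _ => Real.sqrt_nonneg _
  unfold av
  rw [div_le_iff₀ hNpos]
  calc ∑ O : Fin D → Col D, (inv ((pw O W)⁻¹ * g) A : ℝ) ^ a
      ≤ ∑ O : Fin D → Col D, (2 : ℝ) ^ (a * A.card / L) *
      ∑ M ∈ A.powerset, (q - 1) ^ M.card * (if ev O W g L M then 1 else 0) :=
        Finset.sum_le_sum fun O _ => pointwise hI W hW g A L a hL ha O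
    _ = (2 : ℝ) ^ (a * A.card / L) * ∑ M ∈ A.powerset, (q - 1) ^ M.card *
          ((univ.filter (fun O : Fin D → Col D => ev O W g L M)).card : ℝ) := by
        rw [← Finset.mul_sum, Finset.sum_comm]
        congr 1
        refine Finset.sum_congr rfl fun M _ => ?_
        rw [← Finset.mul_sum]
        congr 1
        rw [Finset.card_filter]
        push_cast
        rfl
    _ ≤ (2 : ℝ) ^ (a * A.card / L) * ∑ M ∈ A.powerset, (q - 1) ^ M.card *
          (2 * S ^ M.card * N) := by
        refine mul_le_mul_of_nonneg_left ?_ (by positivity)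
        refine Finset.sum_le_sum fun M _ => ?_
        exact mul_le_mul_of_nonneg_left (count_ev hT W hW g M L) (pow_nonneg (by linarith) _)
    _ = _ := by
        have h := Finset.sum_pow_mul_eq_add_pow ((q - 1) * S) 1 A
        simp only [one_pow, mul_one] at h
        rw [Real.rpow_natCast, add_comm 1 ((q - 1) * S), ← h, Finset.mul_sum, Finset.mul_sum,
          Finset.sum_mul]
        refine Finset.sum_congr rfl fun M _ => ?_
        rw [mul_pow]
        ring

end Crest.Agent.ThpCore
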