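import Mathlib
import Crest.Agent.ThpDefs
import Crest.Agent.ThpLib
import Crest.Agent.ThpSpec

/-!
rid 155, module CYC: exponential moment of the number of closed loops at coordinate `c`.
-/

namespace Crest.Agent.ThpCyc
open Finset Crest.Agent.Thp

variable {D : ℕ}

lemma fl_self (s : Fin D) (z : X D) : fl s z s = !(z s) := by simp [fl]

lemma fl_invol (s : Fin D) : Function.Involutive (fl s) := by
  intro z
  funext i
  by_cases hi : i = s
  · subst hi
    simp [fl]
  · simp [fl, Function.update_of_ne hi]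

/-- `fl` as a permutation -/
def flP (s : Fin D) : Equiv.Perm (X D) := (fl_invol s).toPerm

@[simp] lemma flP_apply (s : Fin D) (z : X D) : flP s z = fl s z := rfl

lemma swf_of_ne {s t : Fin D} (h : t ≠ s) (c : Col D) (z : X D) : swf s c z t = z t := by
  simp [swf, Function.update_of_ne h]

lemma pw_coord (O : Fin D → Col D) (s : Fin D) :
    ∀ (W : List (Fin D)), s ∉ W → ∀ z : X D, pw O W z s = z s
  | [], _, _ => rfl
  | t :: W, h, z => by
      have h1 : s ≠ t := fun h' => h (by simp [h'])
      have h2 : s ∉ W := fun h' => h (by simp [h'])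
      simp only [pw, Equiv.Perm.mul_apply]
      rw [pw_coord O s W h2, sw_apply, swf_of_ne h1]

/-- use the bits of `O` on the half `z c = h` and those of `O'` on the other half -/
def mix (c : Fin D) (h : Bool) (O O' : Fin D → Col D) : Fin D → Col D :=
  fun s z => if z c = h then O s z else O' s z

lemma pw_mix (c : Fin D) (h : Bool) (O O' : Fin D → Col D) :
    ∀ (W : List (Fin D)), c ∉ W → ∀ z : X D,
      pw (mix c h O O') W z = if z c = h then pw O W z else pw O' W z
  | [], _, z => by simp [pw]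
  | s :: W, hc, z => by
      have h1 : c ≠ s := fun h' => hc (by simp [h'])
      have h2 : c ∉ W := fun h' => hc (by simp [h'])
      simp only [pw, Equiv.Perm.mul_apply]
      have h3 : (rp s z) c = z c := by simp [rp, Function.update_of_ne h1]
      rw [pw_mix c h O O' W h2]
      have h4 : (sw s (mix c h O O' s) z) c = z c := by
        rw [sw_apply, swf_of_ne h1]
      rw [h4]
      split_ifs with hz
      · congr 1
        simp [swf, mix, h3, hz]
      · congr 1
        simp [swf, mix, h3, hz]

/-- exchanging halves -/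
def mixT (c : Fin D) (h : Bool) :
    ((Fin D → Col D) × (Fin D → Col D)) ≃ ((Fin D → Col D) × (Fin D → Col D)) where
  toFun p := (mix c h p.1 p.2, mix c h p.2 p.1)
  invFun p := (mix c h p.1 p.2, mix c h p.2 p.1)
  left_inv := by
    rintro ⟨O, O'⟩
    ext s z <;> by_cases hz : z c = h <;> simp [mix, hz]
  right_inv := by
    rintro ⟨O, O'⟩
    ext s z <;> by_cases hz : z c = h <;> simp [mix, hz]

lemma av_mix (c : Fin D) (h : Bool) (Φ : (Fin D → Col D) → ℝ) :
    av Φ = av (fun O' => av (fun O => Φ (mix c h O O'))) := by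
  have h1 : av (fun p : (Fin D → Col D) × (Fin D → Col D) => Φ (mixT c h p).1) =
      av (fun p : (Fin D → Col D) × (Fin D → Col D) => Φ p.1) :=
    av_equiv (mixT c h) (fun p => Φ p.1)
  rw [av_prod, av_prod] at h1
  simp only [av_const] at h1
  rw [← h1, av_comm]
  rfl

lemma cl_le (c : Fin D) (W : List (Fin D)) (hc : c ∉ W) (Q : Equiv.Perm (X D))
    (hQ : ∀ z, (Q (fl c z)) c = !(Q z c)) {k : ℕ} (u : Om k D) (h : Bool)
    (O O' : Fin D → Col D) :
    cl c (fun i => u i) (fun i => pw (mix c h O O') W (Q (u i))) ≤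
      inv ((pw O W)⁻¹ * (flP c * pw O' W * (Q * flP c * Q⁻¹)))
        ((univ.image (fun i => Q (u i))).filter (fun z => z c = h)) := by
  classical
  set π := pw (mix c h O O') W with hπ
  have hπc : ∀ z, π z c = z c := pw_coord _ c W hc
  have hπ1 : ∀ z, z c = h → π z = pw O W z := by
    intro z hz
    rw [hπ, pw_mix c h O O' W hc, if_pos hz]
  have hπ2 : ∀ z, z c ≠ h → π z = pw O' W z := by
    intro z hz
    rw [hπ, pw_mix c h O O' W hc, if_neg hz]
  have hQu : Function.Injective (fun i => Q (u i)) := Q.injective.comp u.injective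
  unfold cl inv
  refine Finset.card_le_card_of_injOn
    (fun Z => (Z.image (fun i => Q (u i))).filter (fun z => z c = h)) ?_ ?_
  · intro Z hZ
    have hZ' : ∀ i ∈ Z, (∃ j ∈ Z, u j = fl c (u i)) ∧
      (∃ j ∈ Z, π (Q (u j)) = fl c (π (Q (u i)))) := by
      have := (Finset.mem_filter.1 (Finset.mem_coe.1 hZ)).2
      exact this
    rw [Finset.mem_coe, Finset.mem_filter, Finset.mem_powerset]
    refine ⟨Finset.filter_subset_filter _ (Finset.image_subset_image (Finset.subset_univ _)), ?_⟩
    refine Finset.eq_of_subset_of_card_le ?_ (by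
      rw [Finset.card_image_of_injective _ (Equiv.injective _)])
    intro z hz
    rw [Finset.mem_image] at hz
    obtain ⟨w, hw, rfl⟩ := hz
    rw [Finset.mem_filter, Finset.mem_image] at hw
    obtain ⟨⟨i, hi, rfl⟩, hic⟩ := hw
    obtain ⟨⟨j, hj, hj'⟩, -⟩ := hZ' i hi
    obtain ⟨-, ⟨l, hl, hl'⟩⟩ := hZ' j hj
    have hjc : Q (u j) c = !h := by
      rw [hj', hQ, hic]
    have hjc' : Q (u j) c ≠ h := by
      rw [hjc]
      cases h <;> simp
    have hlc : Q (u l) c = h := by
      rw [← hπc (Q (u l)), hl', fl_self, hπc, hjc, Bool.not_not]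
    have e : ((pw O W)⁻¹ * (flP c * pw O' W * (Q * flP c * Q⁻¹))) (Q (u i)) = Q (u l) := by
      have hinv : ∀ (g : Equiv.Perm (X D)) (z : X D), g⁻¹ (g z) = z := fun g z =>
        Equiv.symm_apply_apply g z
      simp only [Equiv.Perm.mul_apply, flP_apply]
      rw [hinv, ← hj', ← hπ2 _ hjc', ← hl', hπ1 _ hlc, hinv]
    rw [e, Finset.mem_filter]
    exact ⟨Finset.mem_image_of_mem _ hl, hlc⟩
  · intro Z hZ Z' hZ' hEq
    have key : ∀ Y Y' : Finset (Fin k),
        (∀ i ∈ Y, (∃ j ∈ Y, u j = fl c (u i)) ∧ (∃ j ∈ Y, π (Q (u j)) = fl c (π (Q (u i))))) →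
        (∀ i ∈ Y', (∃ j ∈ Y', u j = fl c (u i)) ∧
          (∃ j ∈ Y', π (Q (u j)) = fl c (π (Q (u i))))) →
        (Y.image (fun i => Q (u i))).filter (fun z => z c = h) =
          (Y'.image (fun i => Q (u i))).filter (fun z => z c = h) → Y ⊆ Y' := by
      intro Y Y' hY hY' hE i hi
      have h1 : ∀ j ∈ Y, Q (u j) c = h → j ∈ Y' := by
        intro j hj hjc
        have : Q (u j) ∈ (Y.image (fun i => Q (u i))).filter (fun z => z c = h) :=
          Finset.mem_filter.2 ⟨Finset.mem_image_of_mem _ hj, hjc⟩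
        rw [hE, Finset.mem_filter, Finset.mem_image] at this
        obtain ⟨⟨l, hl, hl'⟩, -⟩ := this
        rwa [← hQu hl']
      by_cases hic : Q (u i) c = h
      · exact h1 i hi hic
      · obtain ⟨⟨j, hj, hj'⟩, -⟩ := hY i hi
        have hjc : Q (u j) c = h := by
          rw [hj', hQ]
          cases h <;> simp_all
        have hjY := h1 j hj hjc
        obtain ⟨⟨l, hl, hl'⟩, -⟩ := hY' j hjY
        rw [hj', fl_invol c (u i)] at hl'
        rwa [← u.injective hl']
    have hZ1 := (Finset.mem_filter.1 (Finset.mem_coe.1 hZ)).2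
    have hZ2 := (Finset.mem_filter.1 (Finset.mem_coe.1 hZ')).2
    exact Finset.Subset.antisymm (key Z Z' hZ1 hZ2 hEq) (key Z' Z hZ2 hZ1 hEq.symm)

theorem main (hCore : Spec.Core) : Spec.Cyc := by
  classical
  intro D c W hW hc Q hQ k u L a hL ha
  -- choice of the half
  let A : Bool → Finset (X D) := fun h =>
    (univ.image (fun i => Q (u i))).filter (fun z => z c = h)
  have hQu : Function.Injective (fun i => Q (u i)) := Q.injective.comp u.injective
  have hsum : (A true).card + (A false).card = k := by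
    have h1 := Finset.card_filter_add_card_filter_not (s := univ.image (fun i => Q (u i)))
      (fun z : X D => z c = true)
    rw [Finset.card_image_of_injective _ hQu] at h1
    have h2 : (univ.image (fun i => Q (u i))).filter (fun z => ¬ (z c = true)) = A false := by
      simp [A]
    rw [h2] at h1
    simpa using h1
  obtain ⟨h, hh⟩ : ∃ h : Bool, ((A h).card : ℝ) ≤ (k : ℝ) / 2 := by
    by_cases h0 : 2 * (A true).card ≤ k
    · refine ⟨true, ?_⟩
      have : (2 : ℝ) * ((A true).card : ℝ) ≤ k := by exact_mod_cast h0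
      linarith
    · refine ⟨false, ?_⟩
      have : (2 : ℝ) * ((A false).card : ℝ) ≤ k := by
        have : 2 * (A false).card ≤ k := by omega
        exact_mod_cast this
      linarith
  have h2a : (1 : ℝ) ≤ (2 : ℝ) ^ a := Real.one_le_rpow (by norm_num) ha
  set S : ℝ := ∑ l ∈ Icc 1 L, Real.sqrt (l / 2 ^ W.length) with hS
  have hS0 : 0 ≤ S := Finset.sum_nonneg fun l _ => Real.sqrt_nonneg _
  have hB : (1 : ℝ) ≤ 1 + ((2 : ℝ) ^ a - 1) * S := by
    have := mul_nonneg (sub_nonneg.2 h2a) hS0
    linarith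
  rw [av_mix c h]
  apply av_le_of_le
  intro O'
  have hL' : (0 : ℝ) < L := by exact_mod_cast hL
  calc av (fun O => (cl c (fun i => u i) (fun i => pw (mix c h O O') W (Q (u i))) : ℝ) ^ a)
      ≤ av (fun O : Fin D → Col D =>
        (inv ((pw O W)⁻¹ * (flP c * pw O' W * (Q * flP c * Q⁻¹))) (A h) : ℝ) ^ a) := by
        refine av_mono fun O => ?_
        apply Real.rpow_le_rpow (Nat.cast_nonneg _) _ ha
        exact_mod_cast cl_le c W hc Q hQ u h O O'
    _ ≤ 2 * (2 : ℝ) ^ (a * (A h).card / L) *
        (1 + ((2 : ℝ) ^ a - 1) * S) ^ ((A h).card : ℝ) :=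
        hCore D W hW (flP c * pw O' W * (Q * flP c * Q⁻¹)) (A h) L a hL ha
    _ ≤ _ := by
        apply mul_le_mul
        · apply mul_le_mul_of_nonneg_left _ (by norm_num)
          apply Real.rpow_le_rpow_of_exponent_le (by norm_num)
          apply div_le_div_of_nonneg_right _ hL'.le
          exact mul_le_mul_of_nonneg_left hh ha
        · exact Real.rpow_le_rpow_of_exponent_le hB hh
        · positivity
        · positivity

end Crest.Agent.ThpCyc
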