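import Mathlib
import Crest.Agent.ThpLib
import Crest.Agent.ThpSpec

/-! rid 155, module DECOMP, part A: linear algebra. -/

namespace Crest.Agent.ThpDecomp
open Finset Crest.Agent.Thp Crest.Agent.Thp.Spec

section mat
variable {ι : Type} [Fintype ι] [DecidableEq ι]

lemma dot_transpose (A : Matrix ι ι ℝ) (v w : ι → ℝ) :
    (A.mulVec v) ⬝ᵥ w = v ⬝ᵥ (A.transpose.mulVec w) := by
  rw [Matrix.dotProduct_transpose_mulVec, dotProduct_comm]

lemma pow_bound (M : Matrix ι ι ℝ) (θ : ℝ) (h0 : 0 ≤ θ)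
    (h : ∀ v, (M.transpose.mulVec v) ⬝ᵥ (M.transpose.mulVec v) ≤ θ * (v ⬝ᵥ v)) (m : ℕ) :
    ∀ v, ((M ^ m).transpose.mulVec v) ⬝ᵥ ((M ^ m).transpose.mulVec v) ≤ θ ^ m * (v ⬝ᵥ v) := by
  induction m with
  | zero => intro v; simp
  | succ m ih =>
    intro v
    rw [pow_succ', Matrix.transpose_mul, ← Matrix.mulVec_mulVec]
    calc _ ≤ θ ^ m * ((M.transpose.mulVec v) ⬝ᵥ (M.transpose.mulVec v)) := ih _
      _ ≤ θ ^ m * (θ * (v ⬝ᵥ v)) := by
        gcongr
        exact h v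
      _ = θ ^ (m + 1) * (v ⬝ᵥ v) := by ring

lemma trace_sq (A : Matrix ι ι ℝ) : (A * A.transpose).trace = ∑ i, A i ⬝ᵥ A i := by
  simp [Matrix.trace, Matrix.mul_apply, dotProduct]

lemma trace_bound (M : Matrix ι ι ℝ) (θ : ℝ) (h0 : 0 ≤ θ)
    (h : ∀ v, (M.transpose.mulVec v) ⬝ᵥ (M.transpose.mulVec v) ≤ θ * (v ⬝ᵥ v)) (m : ℕ) :
    (M ^ (16 + m) * (M ^ (16 + m)).transpose).trace ≤
      θ ^ m * (M ^ 16 * (M ^ 16).transpose).trace := by
  rw [trace_sq, trace_sq, Finset.mul_sum]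
  refine Finset.sum_le_sum fun i _ => ?_
  have : (M ^ (16 + m)) i = (M ^ m).transpose.mulVec ((M ^ 16) i) := by
    rw [Matrix.mulVec_transpose, pow_add]
    rfl
  rw [this]
  exact pow_bound M θ h0 h m _

end mat

section op
variable {V : Type} [NormedAddCommGroup V] [InnerProductSpace ℝ V] [FiniteDimensional ℝ V]

/-- the trace bound for an operator `S` and its adjoint `S'` -/
lemma op_bound (hSch : Schatten) (S S' : V →ₗ[ℝ] V) (hadj : ∀ x y, inner ℝ (S x) y = inner ℝ x (S' y))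
    (θ : ℝ) (h0 : 0 ≤ θ) (h : ∀ v, ‖S' v‖ ^ 2 ≤ θ * ‖v‖ ^ 2) (m : ℕ) :
    LinearMap.trace ℝ V (S ^ (16 + m) * S' ^ (16 + m)) ≤
      θ ^ m * LinearMap.trace ℝ V ((S * S') ^ 16) := by
  let b := stdOrthonormalBasis ℝ V
  let Φ := LinearMap.toMatrixOrthonormal (𝕜 := ℝ) b
  have hS' : S' = LinearMap.adjoint S := by
    symm
    rw [eq_comm, LinearMap.eq_adjoint_iff]
    intro x y
    rw [real_inner_comm, ← hadj, real_inner_comm]
  have hΦS' : Φ S' = (Φ S).transpose := by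
    rw [hS']
    have := Φ.map_star' S
    simp only [LinearMap.star_eq_adjoint] at this
    rw [← Matrix.conjTranspose_eq_transpose_of_trivial]
    exact this
  have htr : ∀ f : V →ₗ[ℝ] V, LinearMap.trace ℝ V f = (Φ f).trace := by
    intro f
    exact LinearMap.trace_eq_matrix_trace ℝ b.toBasis f
  have hM : ∀ v : Fin (Module.finrank ℝ V) → ℝ,
      ((Φ S).transpose.mulVec v) ⬝ᵥ ((Φ S).transpose.mulVec v) ≤ θ * (v ⬝ᵥ v) := by
    intro v
    let w : V := b.repr.symm (WithLp.toLp 2 v)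
    have hw : ∀ i, b.repr w i = v i := by
      intro i; simp [w]
    have h1 : ∀ i, b.repr (S' w) i = ((Φ S).transpose.mulVec v) i := by
      intro i
      rw [← hΦS']
      have := LinearMap.toMatrix_mulVec_repr b.toBasis b.toBasis S' w
      have h2 := congrFun this i
      simp only [OrthonormalBasis.coe_toBasis_repr_apply] at h2
      rw [← h2]
      congr 1
      funext j
      exact hw j
    have hn : ∀ u : V, ‖u‖ ^ 2 = ∑ i, (b.repr u i) ^ 2 := by
      intro u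
      rw [← b.repr.norm_map u, EuclideanSpace.norm_sq_eq]
      simp
    have h3 := h w
    rw [hn, hn] at h3
    simp only [h1, hw] at h3
    simpa [dotProduct, pow_two] using h3
  have key := trace_bound (Φ S) θ h0 hM m
  have key2 := hSch _ (Φ S)
  rw [htr, htr, map_mul, map_pow, map_pow, map_pow, map_mul, hΦS']
  rw [← Matrix.transpose_pow]
  refine key.trans ?_
  gcongr

end op

end Crest.Agent.ThpDecomp
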