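import Mathlib
import Crest.Agent.ThpDecompA

/-! rid 155, module DECOMP, part B: restriction to few cards, the degree filtration. -/

namespace Crest.Agent.ThpDecomp
open Finset Crest.Agent.Thp Crest.Agent.Thp.Spec

/-- forget the cards outside the range of `A` -/
noncomputable def rst {j n D : ℕ} (A : Fin j ↪ Fin n) (F : Om n D → ℝ) : Om j D → ℝ :=
  fun x' => ∑ x ∈ univ.filter (fun x : Om n D => A.trans x = x'), F x

lemma rst_dot {j n D : ℕ} (A : Fin j ↪ Fin n) (F : Om n D → ℝ) (g : Om j D → ℝ) :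
    rst A F ⬝ᵥ g = F ⬝ᵥ (fun x => g (A.trans x)) := by
  simp only [rst, dotProduct]
  simp_rw [Finset.sum_mul]
  rw [← Finset.sum_fiberwise (univ : Finset (Om n D)) (fun x => A.trans x)
    (fun x => F x * g (A.trans x))]
  refine Finset.sum_congr rfl fun x' _ => Finset.sum_congr rfl fun x hx => ?_
  rw [(mem_filter.mp hx).2]

lemma dot_ext {ι : Type*} [Fintype ι] {u v : ι → ℝ} (h : ∀ g : ι → ℝ, u ⬝ᵥ g = v ⬝ᵥ g) :
    u = v := by
  classical
  funext i
  have := h (Pi.single i 1)
  simpa using this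

lemma rst_T {j n D : ℕ} (A : Fin j ↪ Fin n) (F : Om n D → ℝ) :
    rst A ((Tm D n).mulVec F) = (Tm D j).mulVec (rst A F) := by
  refine dot_ext fun g => ?_
  rw [rst_dot, dot_transpose, Tm_transpose_forget, ← rst_dot, dot_transpose]

lemma rst_T' {j n D : ℕ} (A : Fin j ↪ Fin n) (F : Om n D → ℝ) :
    rst A ((Tm D n).transpose.mulVec F) = (Tm D j).transpose.mulVec (rst A F) := by
  refine dot_ext fun g => ?_
  rw [rst_dot, dot_transpose, Matrix.transpose_transpose, Tm_forget, ← rst_dot, dot_transpose,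
    Matrix.transpose_transpose]

lemma rst_add {j n D : ℕ} (A : Fin j ↪ Fin n) (F G : Om n D → ℝ) :
    rst A (F + G) = rst A F + rst A G := by
  funext x'
  simp [rst, Finset.sum_add_distrib]

lemma rst_smul {j n D : ℕ} (A : Fin j ↪ Fin n) (c : ℝ) (F : Om n D → ℝ) :
    rst A (c • F) = c • rst A F := by
  funext x'
  simp [rst, Finset.mul_sum]

lemma rst_zero {j n D : ℕ} (A : Fin j ↪ Fin n) : rst A (0 : Om n D → ℝ) = 0 := by
  funext x'
  simp [rst]

/-- restriction in two steps -/
lemma rst_rst {i j n D : ℕ} (A : Fin j ↪ Fin n) (B : Fin i ↪ Fin j) (F : Om n D → ℝ) :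
    rst B (rst A F) = rst (B.trans A) F := by
  refine dot_ext fun g => ?_
  rw [rst_dot, rst_dot, rst_dot]
  rfl

lemma rst_refl {n D : ℕ} (F : Om n D → ℝ) : rst (Function.Embedding.refl _) F = F := by
  refine dot_ext fun g => ?_
  rw [rst_dot]
  rfl

/-- state space of the full deck -/
abbrev H (n D : ℕ) := EuclideanSpace ℝ (Om n D)

/-- functions all of whose `j`-card restrictions vanish -/
noncomputable def K (n D j : ℕ) : Submodule ℝ (H n D) where
  carrier := {F | ∀ A : Fin j ↪ Fin n, rst A F.ofLp = 0}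
  add_mem' := by
    intro F G hF hG A
    have : (F + G).ofLp = F.ofLp + G.ofLp := rfl
    rw [this, rst_add, hF A, hG A, add_zero]
  zero_mem' := by
    intro A
    exact rst_zero A
  smul_mem' := by
    intro c F hF A
    have : (c • F).ofLp = c • F.ofLp := rfl
    rw [this, rst_smul, hF A, smul_zero]

lemma mem_K {n D j : ℕ} {F : H n D} : F ∈ K n D j ↔ ∀ A : Fin j ↪ Fin n, rst A F.ofLp = 0 :=
  Iff.rfl

lemma K_top {n D : ℕ} : K n D n = ⊥ := by
  rw [eq_bot_iff]
  intro F hF
  have := hF (Function.Embedding.refl _)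
  rw [rst_refl] at this
  rw [Submodule.mem_bot]
  ext x
  exact congrFun this x

/-- an embedding of `Fin j` into `Fin n`, `j < n`, extends to `Fin (j+1)` -/
lemma exists_extend {j n : ℕ} (h : j < n) (A : Fin j ↪ Fin n) :
    ∃ A' : Fin (j + 1) ↪ Fin n, (Fin.castSuccEmb).trans A' = A := by
  classical
  have : ∃ c : Fin n, c ∉ Set.range A := by
    by_contra hcon
    push Not at hcon
    have hsurj : Function.Surjective A := fun c => hcon c
    have := Fintype.card_le_of_surjective A hsurj
    simp at this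
    omega
  obtain ⟨c, hc⟩ := this
  refine ⟨⟨Fin.snoc (α := fun _ => Fin n) (fun i => A i) c, ?_⟩, ?_⟩
  · intro a b hab
    induction a using Fin.lastCases with
    | last =>
      induction b using Fin.lastCases with
      | last => rfl
      | cast b =>
        simp only [Fin.snoc_last, Fin.snoc_castSucc] at hab
        exact absurd ⟨b, hab.symm⟩ hc
    | cast a =>
      induction b using Fin.lastCases with
      | last =>
        simp only [Fin.snoc_last, Fin.snoc_castSucc] at hab
        exact absurd ⟨a, hab⟩ hc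
      | cast b =>
        simp only [Fin.snoc_castSucc] at hab
        rw [A.injective hab]
  · ext i
    have : (Fin.snoc (α := fun _ => Fin n) (fun i => A i) c) i.castSucc = A i :=
      Fin.snoc_castSucc (α := fun _ => Fin n) _ _ _
    exact congrArg Fin.val this

lemma K_mono {n D j : ℕ} (h : j < n) : K n D (j + 1) ≤ K n D j := by
  intro F hF A
  obtain ⟨A', hA'⟩ := exists_extend h A
  rw [← hA', ← rst_rst, hF A']
  exact rst_zero (n := j + 1) _

lemma K_anti {n D i j : ℕ} (hij : i ≤ j) (hj : j ≤ n) : K n D j ≤ K n D i := by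
  induction j, hij using Nat.le_induction with
  | base => exact le_rfl
  | succ j hij ih => exact (K_mono (by omega)).trans (ih (by omega))

/-- the sweep as an operator on the full deck -/
noncomputable def TL (n D : ℕ) : H n D →ₗ[ℝ] H n D := Matrix.toEuclideanLin (Tm D n)

/-- the reversed sweep -/
noncomputable def TL' (n D : ℕ) : H n D →ₗ[ℝ] H n D := Matrix.toEuclideanLin (Tm D n).transpose

lemma TL_apply (n D : ℕ) (F : H n D) : (TL n D F).ofLp = (Tm D n).mulVec F.ofLp := rfl
lemma TL'_apply (n D : ℕ) (F : H n D) : (TL' n D F).ofLp = (Tm D n).transpose.mulVec F.ofLp := rfl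

lemma inner_H {n D : ℕ} (F G : H n D) : inner ℝ F G = F.ofLp ⬝ᵥ G.ofLp := by
  rw [EuclideanSpace.inner_eq_star_dotProduct, dotProduct_comm]
  simp

lemma TL_adj (n D : ℕ) (F G : H n D) : inner ℝ (TL n D F) G = inner ℝ F (TL' n D G) := by
  rw [inner_H, inner_H, TL_apply, TL'_apply, dot_transpose]

lemma TL_K {n D j : ℕ} {F : H n D} (hF : F ∈ K n D j) : TL n D F ∈ K n D j := by
  intro A
  rw [TL_apply, rst_T, hF A]
  simp

lemma TL'_K {n D j : ℕ} {F : H n D} (hF : F ∈ K n D j) : TL' n D F ∈ K n D j := by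
  intro A
  rw [TL'_apply, rst_T', hF A]
  simp

lemma TL_Kperp {n D j : ℕ} {F : H n D} (hF : F ∈ (K n D j)ᗮ) : TL n D F ∈ (K n D j)ᗮ := by
  rw [Submodule.mem_orthogonal'] at hF ⊢
  intro u hu
  rw [TL_adj]
  exact hF _ (TL'_K hu)

lemma TL'_Kperp {n D j : ℕ} {F : H n D} (hF : F ∈ (K n D j)ᗮ) : TL' n D F ∈ (K n D j)ᗮ := by
  rw [Submodule.mem_orthogonal] at hF ⊢
  intro u hu
  rw [← TL_adj]
  exact hF _ (TL_K hu)

/-- the degree-`k` part -/
noncomputable def V (n D : ℕ) : ℕ → Submodule ℝ (H n D)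
  | 0 => (K n D 0)ᗮ
  | k + 1 => K n D k ⊓ (K n D (k + 1))ᗮ

lemma V_le_perp {n D : ℕ} (k : ℕ) : V n D k ≤ (K n D k)ᗮ := by
  cases k with
  | zero => exact le_rfl
  | succ k => exact inf_le_right

lemma TL_V {n D k : ℕ} {F : H n D} (hF : F ∈ V n D k) : TL n D F ∈ V n D k := by
  cases k with
  | zero => exact TL_Kperp hF
  | succ k => exact ⟨TL_K hF.1, TL_Kperp hF.2⟩

lemma TL'_V {n D k : ℕ} {F : H n D} (hF : F ∈ V n D k) : TL' n D F ∈ V n D k := by
  cases k with
  | zero => exact TL'_Kperp hF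
  | succ k => exact ⟨TL'_K hF.1, TL'_Kperp hF.2⟩

lemma V_orth {n D i j : ℕ} (hij : i < j) (hj : j ≤ n) {F G : H n D} (hF : F ∈ V n D i)
    (hG : G ∈ V n D j) : inner ℝ F G = 0 := by
  obtain ⟨j, rfl⟩ : ∃ j', j = j' + 1 := ⟨j - 1, by omega⟩
  have h1 : G ∈ K n D i := K_anti (by omega) (by omega) hG.1
  have h2 : F ∈ (K n D i)ᗮ := V_le_perp i hF
  rw [Submodule.mem_orthogonal'] at h2
  exact h2 _ h1

lemma V_family (n D : ℕ) : OrthogonalFamily ℝ (fun i : Fin (n + 1) => V n D i)
    fun i => (V n D i).subtypeₗᵢ := by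
  intro i j hij v w
  change inner ℝ (v : H n D) (w : H n D) = 0
  rcases lt_or_gt_of_ne (fun h : (i : ℕ) = j => hij (Fin.ext h)) with h | h
  · exact V_orth h (by omega) v.2 w.2
  · rw [real_inner_comm]
    exact V_orth h (by omega) w.2 v.2

lemma V_internal (n D : ℕ) : DirectSum.IsInternal (fun i : Fin (n + 1) => V n D i) := by
  rw [(V_family n D).isInternal_iff, eq_bot_iff]
  intro F hF
  rw [Submodule.mem_orthogonal] at hF
  have hF' : ∀ k, k ≤ n → ∀ G ∈ V n D k, inner ℝ G F = 0 := by
    intro k hk G hG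
    exact hF G (Submodule.mem_iSup_of_mem (⟨k, by omega⟩ : Fin (n + 1)) hG)
  have h0 : ∀ k, k ≤ n → F ∈ K n D k := by
    intro k
    induction k with
    | zero =>
      intro _
      have : F ∈ (K n D 0)ᗮᗮ := by
        rw [Submodule.mem_orthogonal]
        exact fun G hG => hF' 0 (by omega) G hG
      rwa [Submodule.orthogonal_orthogonal] at this
    | succ k ih =>
      intro hk
      have hFk := ih (by omega)
      have hle : K n D (k + 1) ≤ K n D k := K_mono (by omega)
      -- decompose F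
      obtain ⟨F1, hF1, F2, hF2, hsum⟩ := (K n D (k + 1)).exists_add_mem_mem_orthogonal F
      have hF2K : F2 ∈ K n D k := by
        have : F2 = F - F1 := by rw [hsum]; abel
        rw [this]
        exact Submodule.sub_mem _ hFk (hle hF1)
      have h1 : inner ℝ F2 F = 0 := hF' (k + 1) hk F2 ⟨hF2K, hF2⟩
      have h2 : inner ℝ F2 F1 = 0 := by
        rw [real_inner_comm]
        exact (Submodule.mem_orthogonal _ _).mp hF2 F1 hF1
      have h3 : inner ℝ F2 F2 = 0 := by
        have : inner ℝ F2 F = inner ℝ F2 F1 + inner ℝ F2 F2 := by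
          rw [hsum, inner_add_right]
        linarith
      have h4 : F2 = 0 := inner_self_eq_zero.mp h3
      rw [hsum, h4, add_zero]
      exact hF1
  have := h0 n le_rfl
  rwa [K_top] at this

end Crest.Agent.ThpDecomp
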