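import Mathlib
import Crest.Agent.ThpDecompB

/-! rid 155, module DECOMP, part C: eigenvalues and traces on the degree-`k` part. -/

namespace Crest.Agent.ThpDecomp
open Finset Crest.Agent.Thp Crest.Agent.Thp.Spec

section gen
variable {V : Type} [NormedAddCommGroup V] [InnerProductSpace ℝ V] [FiniteDimensional ℝ V]

lemma le_of_eig (S : V →ₗ[ℝ] V) (hS : S.IsSymmetric) (θ : ℝ)
    (h : ∀ (β : ℝ) (e : V), e ≠ 0 → S e = β • e → β ≤ θ) (v : V) :
    inner ℝ v (S v) ≤ θ * ‖v‖ ^ 2 := by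
  let b := hS.eigenvectorBasis rfl
  have hb : ∀ i, S (b i) = (hS.eigenvalues rfl i) • b i := fun i => hS.apply_eigenvectorBasis rfl i
  have h1 : inner ℝ v (S v) = ∑ i, hS.eigenvalues rfl i * (inner ℝ v (b i)) ^ 2 := by
    rw [← b.sum_inner_mul_inner v (S v)]
    refine Finset.sum_congr rfl fun i _ => ?_
    rw [← hS (b i) v, hb i, inner_smul_left, real_inner_comm (b i) v]
    simp
    ring
  have h2 : ‖v‖ ^ 2 = ∑ i, (inner ℝ v (b i)) ^ 2 := by
    rw [← real_inner_self_eq_norm_sq, ← b.sum_inner_mul_inner v v]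
    refine Finset.sum_congr rfl fun i _ => ?_
    rw [real_inner_comm (b i) v]; ring
  rw [h1, h2, Finset.mul_sum]
  refine Finset.sum_le_sum fun i _ => ?_
  refine mul_le_mul_of_nonneg_right ?_ (sq_nonneg _)
  refine h _ (b i) ?_ (hb i)
  exact b.orthonormal.ne_zero i

end gen

/-- the restriction of a function all of whose `m`-card restrictions vanish is harmonic -/
lemma harm_rst {n D m : ℕ} {F : H n D} (hF : F ∈ K n D m) (A : Fin (m + 1) ↪ Fin n) :
    Harm (rst A F.ofLp) := by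
  intro i x
  have h := congrFun (rst_rst A (Fin.succAboveEmb i) F.ofLp) ((Fin.succAboveEmb i).trans x)
  rw [hF] at h
  simp only [rst, Pi.zero_apply] at h ⊢
  rw [← h]
  refine Finset.sum_congr ?_ fun _ _ => rfl
  ext y
  simp only [mem_filter, mem_univ, true_and]
  constructor
  · intro hy
    ext1 j
    exact hy _ (Fin.succAbove_ne i j)
  · intro hy j hj
    obtain ⟨j', rfl⟩ := Fin.exists_succAbove_eq hj
    exact congrArg (fun e : Fin m ↪ X D => e j') hy

lemma exists_rst_ne {n D k : ℕ} {F : H n D} (hF : F ∈ V n D k) (h0 : F ≠ 0) :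
    ∃ A : Fin k ↪ Fin n, rst A F.ofLp ≠ 0 := by
  by_contra hcon
  push Not at hcon
  have h1 : F ∈ K n D k := hcon
  have h2 := V_le_perp k hF
  have h3 := (Submodule.mem_orthogonal _ _).mp h2 F h1
  exact h0 (inner_self_eq_zero.mp h3)

/-- restriction of the sweep to the degree-`k` part -/
noncomputable def S (n D k : ℕ) : V n D k →ₗ[ℝ] V n D k :=
  (TL n D).restrict (fun _ h => TL_V h)

noncomputable def S' (n D k : ℕ) : V n D k →ₗ[ℝ] V n D k :=
  (TL' n D).restrict (fun _ h => TL'_V h)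

lemma S_coe (n D k : ℕ) (v : V n D k) : ((S n D k v : V n D k) : H n D) = TL n D v := rfl
lemma S'_coe (n D k : ℕ) (v : V n D k) : ((S' n D k v : V n D k) : H n D) = TL' n D v := rfl

lemma S_adj (n D k : ℕ) (x y : V n D k) : inner ℝ (S n D k x) y = inner ℝ x (S' n D k y) :=
  TL_adj n D x y

lemma SS_symm (n D k : ℕ) : ((S n D k) * (S' n D k)).IsSymmetric := by
  intro x y
  change inner ℝ (S n D k (S' n D k x)) y = inner ℝ x (S n D k (S' n D k y))
  rw [S_adj, real_inner_comm, ← S_adj, real_inner_comm]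

lemma rst_SS {n D k j : ℕ} (A : Fin j ↪ Fin n) (v : V n D k) :
    rst A (((S n D k) * (S' n D k)) v : H n D).ofLp = (Bm D j).mulVec (rst A (v : H n D).ofLp) := by
  change rst A (TL n D (TL' n D v)).ofLp = _
  rw [TL_apply, rst_T, TL'_apply, rst_T', Matrix.mulVec_mulVec]
  rfl

lemma norm_S'_le {n D : ℕ} (θ : ℕ → ℝ) (k : ℕ) (hk : 1 ≤ k)
    (hθ : ∀ (β : ℝ) (f : Om k D → ℝ), f ≠ 0 → Harm f → (Bm D k).mulVec f = β • f → β ≤ θ k)
    (v : V n D k) : ‖S' n D k v‖ ^ 2 ≤ θ k * ‖v‖ ^ 2 := by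
  have h1 : ‖S' n D k v‖ ^ 2 = inner ℝ v (((S n D k) * (S' n D k)) v) := by
    rw [← real_inner_self_eq_norm_sq]
    change _ = inner ℝ v (S n D k (S' n D k v))
    rw [← S_adj n D k (S' n D k v) v, real_inner_comm]
  rw [h1]
  refine le_of_eig _ (SS_symm n D k) (θ k) ?_ v
  intro β e he hβ
  have he' : (e : H n D) ≠ 0 := fun h => he (Subtype.ext h)
  obtain ⟨A, hA⟩ := exists_rst_ne e.2 he'
  obtain ⟨m, rfl⟩ : ∃ m, k = m + 1 := ⟨k - 1, by omega⟩
  refine hθ β (rst A (e : H n D).ofLp) hA (harm_rst e.2.1 A) ?_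
  rw [← rst_SS A e, hβ]
  change rst A (β • (e : H n D).ofLp) = _
  rw [rst_smul]

/-- `k`-subsets of the cards -/
abbrev Sub (n k : ℕ) := {A : Finset (Fin n) // A.card = k}

/-- the increasing enumeration of a subset -/
noncomputable def en {n k : ℕ} (A : Sub n k) : Fin k ↪ Fin n :=
  (A.1.orderEmbOfFin A.2).toEmbedding

/-- every embedding is a relabelling of an increasing one -/
lemma exists_en {n k : ℕ} (A : Fin k ↪ Fin n) : ∃ (A' : Sub n k) (e : Fin k ↪ Fin k),
    e.trans (en A') = A := by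
  classical
  refine ⟨⟨univ.map A, by simp⟩, ?_⟩
  set A' : Sub n k := ⟨univ.map A, by simp⟩ with hA'
  have hr : ∀ i, ∃ j, en A' j = A i := by
    intro i
    have : A i ∈ Set.range (A'.1.orderEmbOfFin A'.2) := by
      rw [Finset.range_orderEmbOfFin]
      simp [hA']
    exact this
  choose e he using hr
  refine ⟨⟨e, ?_⟩, ?_⟩
  · intro a b hab
    have : A a = A b := by rw [← he a, ← he b, hab]
    exact A.injective this
  · ext i
    exact congrArg Fin.val (he i)

/-- all restrictions to `k` cards, in one vector -/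
noncomputable def RR (n D k : ℕ) : V n D k →ₗ[ℝ] EuclideanSpace ℝ (Om k D × Sub n k) where
  toFun v := WithLp.toLp 2 (fun p => rst (en p.2) (v : H n D).ofLp p.1)
  map_add' := by
    intro u v
    ext p
    change rst (en p.2) ((u : H n D).ofLp + (v : H n D).ofLp) p.1 = _
    rw [rst_add]
    rfl
  map_smul' := by
    intro c v
    ext p
    change rst (en p.2) (c • (v : H n D).ofLp) p.1 = _
    rw [rst_smul]
    rfl

lemma RR_inj (n D k : ℕ) : Function.Injective (RR n D k) := by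
  rw [← LinearMap.ker_eq_bot, LinearMap.ker_eq_bot']
  intro v hv
  by_contra hne
  have hne' : (v : H n D) ≠ 0 := fun h => hne (Subtype.ext h)
  obtain ⟨A, hA⟩ := exists_rst_ne v.2 hne'
  obtain ⟨A', e, he⟩ := exists_en A
  apply hA
  rw [← he, ← rst_rst]
  have : rst (en A') (v : H n D).ofLp = 0 := by
    funext x
    have := congrArg (fun w : EuclideanSpace ℝ (Om k D × Sub n k) => w.ofLp (x, A')) hv
    exact this
  rw [this]
  exact rst_zero e

open scoped Kronecker in
/-- the block-diagonal operator -/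
noncomputable def WB (n D k : ℕ) : EuclideanSpace ℝ (Om k D × Sub n k) →ₗ[ℝ]
    EuclideanSpace ℝ (Om k D × Sub n k) :=
  Matrix.toEuclideanLin (((Bm D k) ^ 16) ⊗ₖ (1 : Matrix (Sub n k) (Sub n k) ℝ))

lemma WB_pos (n D k : ℕ) : (WB n D k).IsPositive := by
  rw [WB, Matrix.isPositive_toEuclideanLin_iff]
  exact (Bm_pow_posSemidef 16).kronecker Matrix.PosSemidef.one

lemma card_Sub (n k : ℕ) : Fintype.card (Sub n k) = n.choose k := by
  simp [Sub]

lemma WB_trace (n D k : ℕ) : LinearMap.trace ℝ _ (WB n D k) =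
    (n.choose k : ℝ) * ((Bm D k) ^ 16).trace := by
  rw [WB, Matrix.toEuclideanLin_eq_toLin_orthonormal, Matrix.trace_toLin_eq,
    Matrix.trace_kronecker, Matrix.trace_one, card_Sub]
  ring

lemma WB_apply (n D k : ℕ) (w : EuclideanSpace ℝ (Om k D × Sub n k)) (x : Om k D) (A : Sub n k) :
    (WB n D k w).ofLp (x, A) = ((Bm D k) ^ 16).mulVec (fun y => w.ofLp (y, A)) x := by
  change (Matrix.mulVec _ w.ofLp) (x, A) = _
  simp only [Matrix.mulVec, dotProduct, Matrix.kroneckerMap_apply, Matrix.one_apply]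
  rw [Fintype.sum_prod_type]
  refine Finset.sum_congr rfl fun y _ => ?_
  simp

lemma rst_SS_pow {n D k : ℕ} (A : Fin k ↪ Fin n) (j : ℕ) (v : V n D k) :
    rst A ((((S n D k) * (S' n D k)) ^ j) v : H n D).ofLp =
      ((Bm D k) ^ j).mulVec (rst A (v : H n D).ofLp) := by
  induction j with
  | zero => simp
  | succ j ih =>
    rw [pow_succ', pow_succ', ← Matrix.mulVec_mulVec, ← ih]
    exact rst_SS A _

/-- `tr (B^16 | V_k) ≤ choose n k * tr (B_k^16)` -/
lemma trace_le (hTr : TrInj) (n D k : ℕ) :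
    LinearMap.trace ℝ _ (((S n D k) * (S' n D k)) ^ 16) ≤
      (n.choose k : ℝ) * ((Bm D k) ^ 16).trace := by
  rw [← WB_trace]
  have hpos : ∀ v, 0 ≤ inner ℝ v (((S n D k) * (S' n D k)) v) := by
    intro v
    have : inner ℝ v (((S n D k) * (S' n D k)) v) = ‖S' n D k v‖ ^ 2 := by
      rw [← real_inner_self_eq_norm_sq]
      change inner ℝ v (S n D k (S' n D k v)) = _
      rw [real_inner_comm, S_adj]
    rw [this]; positivity
  have hsymm := SS_symm n D k
  have hpow8 : ∀ j, (((S n D k) * (S' n D k)) ^ j).IsSymmetric := fun j => hsymm.pow j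
  refine hTr (V n D k) _ _ (WB n D k) (RR n D k) (hpow8 16) ?_ (WB_pos n D k).isSymmetric ?_
    (RR_inj n D k) ?_
  · intro v
    have : (((S n D k) * (S' n D k)) ^ 16) v =
        (((S n D k) * (S' n D k)) ^ 8) ((((S n D k) * (S' n D k)) ^ 8) v) := by
      rw [← Module.End.mul_apply, ← pow_add]
    rw [this, hpow8 8, ]
    exact real_inner_self_nonneg
  · intro w
    exact (WB_pos n D k).inner_nonneg_left w
  · intro v
    ext p
    obtain ⟨x, A⟩ := p
    rw [WB_apply]
    change rst (en A) ((((S n D k) * (S' n D k)) ^ 16) v : H n D).ofLp x = _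
    rw [rst_SS_pow]
    rfl

end Crest.Agent.ThpDecomp
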