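import Mathlib
import Crest.Agent.ThpDecompC

/-! rid 155, module DECOMP: the chi-square bound by degrees. -/

namespace Crest.Agent.ThpDecomp
open Finset Crest.Agent.Thp Crest.Agent.Thp.Spec

section basics
variable {D k : ℕ}

lemma Tm_pow_row (r : ℕ) (x : Om k D) : ∑ y, ((Tm D k) ^ r) x y = 1 := by
  induction r generalizing x with
  | zero => simpa using row_one x
  | succ r ih =>
    rw [pow_succ]
    exact row_mul ih Tm_row x

lemma Tm_pow_forget (r : ℕ) (e : Fin k ↪ Fin k) (f : Om k D → ℝ) :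
    ((Tm D k) ^ r).mulVec (fun x => f (e.trans x)) = fun x => ((Tm D k) ^ r).mulVec f (e.trans x) := by
  induction r with
  | zero => simp
  | succ r ih =>
    rw [pow_succ', ← Matrix.mulVec_mulVec, ih, Tm_forget]
    funext x
    rw [Matrix.mulVec_mulVec]

lemma Tm_pow_relabel (r : ℕ) (e : Fin k ↪ Fin k) (he : Function.Surjective e) (x y : Om k D) :
    ((Tm D k) ^ r) (e.trans x) (e.trans y) = ((Tm D k) ^ r) x y := by
  classical
  have h := congrFun (Tm_pow_forget r e (Pi.single (e.trans y) (1 : ℝ))) x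
  have hf : (fun x : Om k D => (Pi.single (e.trans y) (1 : ℝ) : Om k D → ℝ) (e.trans x)) =
      Pi.single y 1 := by
    funext z
    by_cases hz : z = y
    · subst hz; simp
    · have : e.trans z ≠ e.trans y := by
        intro h'
        apply hz
        ext1 i
        obtain ⟨j, rfl⟩ := he i
        exact congrArg (fun q : Fin k ↪ X D => q j) h'
      simp [Pi.single_apply, hz, this]
  rw [hf] at h
  simp only [Matrix.mulVec_single_one, Matrix.col_apply] at h
  exact h.symm

lemma exists_relabel (x0 x : Om (2 ^ D) D) :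
    ∃ e : Fin (2 ^ D) ↪ Fin (2 ^ D), Function.Surjective e ∧ e.trans x0 = x := by
  have hcard : Fintype.card (Fin (2 ^ D)) = Fintype.card (X D) := by simp
  have hb0 : Function.Bijective x0 :=
    (Fintype.bijective_iff_injective_and_card _).mpr ⟨x0.injective, hcard⟩
  have hb : Function.Bijective x :=
    (Fintype.bijective_iff_injective_and_card _).mpr ⟨x.injective, hcard⟩
  let e0 := Equiv.ofBijective x0 hb0
  let e1 := Equiv.ofBijective x hb
  refine ⟨(e1.trans e0.symm).toEmbedding, (e1.trans e0.symm).surjective, ?_⟩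
  ext1 i
  change x0 (e0.symm (e1 i)) = x i
  exact e0.apply_symm_apply (e1 i)

lemma row_sq (r : ℕ) (x0 x : Om (2 ^ D) D) :
    ∑ y, (((Tm D (2 ^ D)) ^ r) x y) ^ 2 = ∑ y, (((Tm D (2 ^ D)) ^ r) x0 y) ^ 2 := by
  obtain ⟨e, he, rfl⟩ := exists_relabel x0 x
  have hb : Function.Bijective (fun y : Om (2 ^ D) D => e.trans y) := by
    rw [Fintype.bijective_iff_injective_and_card]
    refine ⟨?_, rfl⟩
    intro y z hyz
    ext1 i
    obtain ⟨j, rfl⟩ := he i
    exact congrArg (fun q : Fin (2 ^ D) ↪ X D => q j) hyz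
  rw [← hb.sum_comp (fun y => (((Tm D (2 ^ D)) ^ r) (e.trans x0) y) ^ 2)]
  refine Finset.sum_congr rfl fun y _ => ?_
  rw [Tm_pow_relabel r e he]

end basics

/-- `n! ∑ p² = tr (T^r T'^r)` -/
lemma sum_sq_eq (D r : ℕ) (x0 : Om (2 ^ D) D) :
    ((2 ^ D).factorial : ℝ) * ∑ y, (((Tm D (2 ^ D)) ^ r) x0 y) ^ 2 =
      LinearMap.trace ℝ _ ((TL (2 ^ D) D) ^ r * (TL' (2 ^ D) D) ^ r) := by
  have h1 : LinearMap.trace ℝ _ ((TL (2 ^ D) D) ^ r * (TL' (2 ^ D) D) ^ r) =
      ((Tm D (2 ^ D)) ^ r * ((Tm D (2 ^ D)) ^ r).transpose).trace := by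
    have h2 : (TL (2 ^ D) D) ^ r * (TL' (2 ^ D) D) ^ r =
        Matrix.toEuclideanLin ((Tm D (2 ^ D)) ^ r * ((Tm D (2 ^ D)) ^ r).transpose) := by
      have h3 : ∀ (M : Matrix (Om (2 ^ D) D) (Om (2 ^ D) D) ℝ) (j : ℕ),
          (Matrix.toEuclideanLin M) ^ j = Matrix.toEuclideanLin (M ^ j) := by
        intro M j
        induction j with
        | zero =>
          ext v
          simp
        | succ j ih =>
          rw [pow_succ, ih, pow_succ]
          ext v x
          change (M ^ j).mulVec (M.mulVec v.ofLp) x = (M ^ j * M).mulVec v.ofLp x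
          rw [Matrix.mulVec_mulVec]
      rw [TL, TL', h3, h3, Matrix.transpose_pow]
      ext v x
      change ((Tm D (2 ^ D)) ^ r).mulVec (((Tm D (2 ^ D)).transpose ^ r).mulVec v.ofLp) x = _
      rw [Matrix.mulVec_mulVec]
      rfl
    rw [h2, Matrix.toEuclideanLin_eq_toLin_orthonormal, Matrix.trace_toLin_eq]
  rw [h1, trace_sq]
  have h4 : ∀ x : Om (2 ^ D) D, ((Tm D (2 ^ D)) ^ r) x ⬝ᵥ ((Tm D (2 ^ D)) ^ r) x =
      ∑ y, (((Tm D (2 ^ D)) ^ r) x0 y) ^ 2 := by
    intro x
    rw [← row_sq r x0 x]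
    simp [dotProduct, pow_two]
  rw [Finset.sum_congr rfl (fun x _ => h4 x), Finset.sum_const, Finset.card_univ, card_Om_full,
    nsmul_eq_mul]

/-- degree 0 -/
lemma V_zero_const {n D : ℕ} {F : H n D} (hF : F ∈ V n D 0) (x y : Om n D) :
    F.ofLp x = F.ofLp y := by
  classical
  have h1 : (EuclideanSpace.single x (1 : ℝ) - EuclideanSpace.single y (1 : ℝ) : H n D) ∈
      K n D 0 := by
    intro A
    funext z
    have : ∀ w : Om n D, A.trans w = z := by
      intro w
      ext1 i
      exact i.elim0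
    simp [rst, this, Finset.filter_true_of_mem]
  have h2 := (Submodule.mem_orthogonal _ _).mp hF _ h1
  rw [inner_sub_left] at h2
  simp only [EuclideanSpace.inner_single_left, map_one, one_mul] at h2
  linarith

lemma trace_zero_le (n D r : ℕ) :
    LinearMap.trace ℝ _ ((S n D 0) ^ r * (S' n D 0) ^ r) ≤ 1 := by
  have hS : S n D 0 = 1 := by
    ext v x
    change (Tm D n).mulVec (v : H n D).ofLp x = (v : H n D).ofLp x
    simp only [Matrix.mulVec, dotProduct]
    rw [Finset.sum_congr rfl (fun y _ => by rw [V_zero_const v.2 y x]), ← Finset.sum_mul, Tm_row,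
      one_mul]
  have hS' : S' n D 0 = 1 := by
    ext v x
    change (Tm D n).transpose.mulVec (v : H n D).ofLp x = (v : H n D).ofLp x
    simp only [Matrix.mulVec, dotProduct]
    rw [Finset.sum_congr rfl (fun y _ => by rw [V_zero_const v.2 y x]), ← Finset.sum_mul, Tm_col,
      one_mul]
  rw [hS, hS', one_pow, one_mul, LinearMap.trace_one]
  have : Module.finrank ℝ (V n D 0) ≤ 1 := by
    by_cases hne : Nonempty (Om n D)
    · obtain ⟨x⟩ := hne
      -- evaluation at x is injective on V 0
      let ev : V n D 0 →ₗ[ℝ] ℝ :=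
        { toFun := fun v => (v : H n D).ofLp x
          map_add' := fun _ _ => rfl
          map_smul' := fun _ _ => rfl }
      have hinj : Function.Injective ev := by
        rw [← LinearMap.ker_eq_bot, LinearMap.ker_eq_bot']
        intro v hv
        ext y
        change (v : H n D).ofLp y = 0
        rw [V_zero_const v.2 y x]
        exact hv
      have := LinearMap.finrank_le_finrank_of_injective hinj
      simpa using this
    · have hz : Subsingleton (H n D) := by
        constructor
        intro a b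
        ext y
        exact absurd ⟨y⟩ hne
      have : Subsingleton (V n D 0) := inferInstance
      have h0 := Module.finrank_zero_of_subsingleton (R := ℝ) (M := V n D 0)
      omega
  exact_mod_cast this

theorem aux (hSch : Schatten) (hTr : TrInj) (D n : ℕ) (hn : n = 2 ^ D) (x0 : Om n D) (m : ℕ)
    (θ : ℕ → ℝ) (hθ0 : ∀ k, 0 ≤ θ k)
    (hθ : ∀ k, 1 ≤ k → k ≤ n → ∀ (β : ℝ) (f : Om k D → ℝ), f ≠ 0 → Harm f →
      (Bm D k).mulVec f = β • f → β ≤ θ k) :
    (∑ y : Om n D, |((Tm D n) ^ (16 + m)) x0 y - 1 / (n.factorial : ℝ)|) ^ 2 ≤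
      ∑ k ∈ Icc 1 n, (n.choose k : ℝ) * (θ k) ^ (16 + m - 16) * ((Bm D k) ^ 16).trace := by
  set p : Om n D → ℝ := fun y => ((Tm D n) ^ (16 + m)) x0 y with hp
  have hN : (0 : ℝ) < (n.factorial : ℝ) := by exact_mod_cast Nat.factorial_pos _
  have hcard : (Fintype.card (Om n D) : ℝ) = (n.factorial : ℝ) := by
    rw [hn, card_Om_full]
  -- Cauchy-Schwarz
  have h1 : (∑ y, |p y - 1 / (n.factorial : ℝ)|) ^ 2 ≤
      (n.factorial : ℝ) * ∑ y, (p y) ^ 2 - 1 := by
    have hcs := sq_sum_le_card_mul_sum_sq (s := (univ : Finset (Om n D)))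
      (f := fun y => |p y - 1 / (n.factorial : ℝ)|)
    have hsum : ∑ y, p y = 1 := Tm_pow_row _ x0
    have h2 : ∑ y, |p y - 1 / (n.factorial : ℝ)| ^ 2 =
        ∑ y, (p y) ^ 2 - 1 / (n.factorial : ℝ) := by
      simp_rw [sq_abs, sub_sq]
      rw [Finset.sum_add_distrib, Finset.sum_sub_distrib, Finset.sum_const, Finset.card_univ,
        nsmul_eq_mul, hcard]
      have : ∑ y, 2 * p y * (1 / (n.factorial : ℝ)) = 2 * (1 / (n.factorial : ℝ)) := by
        rw [← Finset.sum_mul, ← Finset.mul_sum, hsum]; ring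
      rw [this]
      field_simp
      ring
    rw [h2, Finset.card_univ, hcard] at hcs
    calc _ ≤ _ := hcs
      _ = _ := by field_simp
  refine h1.trans ?_
  have h3 : (n.factorial : ℝ) * ∑ y, (p y) ^ 2 =
      ∑ i : Fin (n + 1), LinearMap.trace ℝ _ ((S n D i) ^ (16 + m) * (S' n D i) ^ (16 + m)) := by
    have h4 : (n.factorial : ℝ) * ∑ y, (((Tm D n) ^ (16 + m)) x0 y) ^ 2 =
        LinearMap.trace ℝ _ ((TL n D) ^ (16 + m) * (TL' n D) ^ (16 + m)) := by
      subst hn
      exact sum_sq_eq D (16 + m) x0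
    have hmap : ∀ i : Fin (n + 1), Set.MapsTo ((TL n D) ^ (16 + m) * (TL' n D) ^ (16 + m))
        (V n D i : Set (H n D)) (V n D i) := by
      intro i F hF
      have hT : ∀ j (G : H n D), G ∈ V n D i → ((TL n D) ^ j) G ∈ V n D i := by
        intro j
        induction j with
        | zero => intro G hG; simpa using hG
        | succ j ih =>
          intro G hG
          rw [pow_succ]
          exact ih _ (TL_V hG)
      have hT' : ∀ j (G : H n D), G ∈ V n D i → ((TL' n D) ^ j) G ∈ V n D i := by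
        intro j
        induction j with
        | zero => intro G hG; simpa using hG
        | succ j ih =>
          intro G hG
          rw [pow_succ]
          exact ih _ (TL'_V hG)
      exact hT _ _ (hT' _ _ hF)
    have h5 := LinearMap.trace_eq_sum_trace_restrict (V_internal n D) hmap
    rw [h4, h5]
    refine Finset.sum_congr rfl fun i _ => ?_
    congr 1
    have hpow : ∀ (j : ℕ) (v : V n D i), ((((S n D i) ^ j) v : V n D i) : H n D) =
        ((TL n D) ^ j) v := by
      intro j
      induction j with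
      | zero => intro v; simp
      | succ j ih =>
        intro v
        rw [pow_succ, pow_succ]
        exact ih _
    have hpow' : ∀ (j : ℕ) (v : V n D i), ((((S' n D i) ^ j) v : V n D i) : H n D) =
        ((TL' n D) ^ j) v := by
      intro j
      induction j with
      | zero => intro v; simp
      | succ j ih =>
        intro v
        rw [pow_succ, pow_succ]
        exact ih _
    apply LinearMap.ext
    intro v
    apply Subtype.ext
    change ((TL n D) ^ (16 + m)) (((TL' n D) ^ (16 + m)) (v : H n D)) =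
      ((((S n D i) ^ (16 + m)) (((S' n D i) ^ (16 + m)) v) : V n D i) : H n D)
    rw [hpow, hpow']
  rw [h3, Fin.sum_univ_eq_sum_range
    (fun i => LinearMap.trace ℝ _ ((S n D i) ^ (16 + m) * (S' n D i) ^ (16 + m))) (n + 1)]
  have h6 : Finset.range (n + 1) = insert 0 (Icc 1 n) := by
    ext i
    simp only [mem_range, mem_insert, mem_Icc]
    omega
  rw [h6, Finset.sum_insert (by simp)]
  have h7 := trace_zero_le n D (16 + m)
  have h8 : ∀ k ∈ Icc 1 n, LinearMap.trace ℝ _ ((S n D k) ^ (16 + m) * (S' n D k) ^ (16 + m)) ≤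
      (n.choose k : ℝ) * θ k ^ (16 + m - 16) * ((Bm D k) ^ 16).trace := by
    intro k hk
    rw [mem_Icc] at hk
    have h9 := op_bound hSch (S n D k) (S' n D k) (S_adj n D k) (θ k) (hθ0 k)
      (norm_S'_le θ k hk.1 (hθ k hk.1 hk.2)) m
    have h10 := trace_le hTr n D k
    have h11 : 16 + m - 16 = m := by omega
    rw [h11]
    calc _ ≤ _ := h9
      _ ≤ θ k ^ m * ((n.choose k : ℝ) * ((Bm D k) ^ 16).trace) := by
        gcongr
        exact pow_nonneg (hθ0 k) m
      _ = _ := by ring
  have h12 := Finset.sum_le_sum h8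
  linarith

theorem main (hSch : Schatten) (hTr : TrInj) : Decomp := by
  intro D _ x0 r hr θ hθ0 hθ
  obtain ⟨m, rfl⟩ : ∃ m, r = 16 + m := ⟨r - 16, by omega⟩
  exact aux hSch hTr D (2 ^ D) rfl x0 m θ hθ0 hθ

end Crest.Agent.ThpDecomp
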