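import Mathlib
import Crest.Agent.ThpLib
import Crest.Agent.ThpSpec

/-! rid 155: final assembly of S0222. -/

namespace Crest.Agent.ThpFinal
open Finset Crest.Agent.Thp Crest.Agent.Thp.Spec

/-- eigenvalues on harmonic functions, with 0 -/
def S (D k : ℕ) : Set ℝ :=
  insert 0 {β : ℝ | ∃ f : Om k D → ℝ, f ≠ 0 ∧ Harm f ∧ (Bm D k).mulVec f = β • f}

lemma eig_nonneg {D k : ℕ} {β : ℝ} {f : Om k D → ℝ} (hf : f ≠ 0)
    (h : (Bm D k).mulVec f = β • f) : 0 ≤ β := by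
  have h1 := (Bm_posSemidef (D := D) (k := k)).dotProduct_mulVec_nonneg f
  rw [h] at h1
  simp only [star_trivial, dotProduct_smul, smul_eq_mul] at h1
  have h2 : 0 < f ⬝ᵥ f := by
    have h3 : 0 ≤ f ⬝ᵥ f := by
      simp only [dotProduct]
      exact Finset.sum_nonneg fun x _ => mul_self_nonneg _
    rcases h3.lt_or_eq with h4 | h4
    · exact h4
    · exact absurd (dotProduct_self_eq_zero.mp h4.symm) hf
  nlinarith

lemma S_le {D k : ℕ} (c : ℝ) (hc : 0 ≤ c)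
    (h : ∀ (β : ℝ) (f : Om k D → ℝ), f ≠ 0 → Harm f → (Bm D k).mulVec f = β • f → β ≤ c) :
    ∀ β ∈ S D k, β ≤ c := by
  rintro β (rfl | ⟨f, hf, hH, hB⟩)
  · exact hc
  · exact h β f hf hH hB

/-- the chi-square bound, `r` kept generic (so that no power `^ 1600` is ever unfolded) -/
lemma gen (hT : Thorp) (hD : Decomp) (d r : ℕ) (hr : 16 ≤ r) (θ : ℕ → ℝ) (h0 : ∀ k, 0 ≤ θ k)
    (h1 : ∀ k, 1 ≤ k → k ≤ 2 ^ (d + 1) → ∀ (β : ℝ) (f : Om k (d + 1) → ℝ), f ≠ 0 → Harm f →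
      (Bm (d + 1) k).mulVec f = β • f → β ≤ θ k) :
    (2 * Crest.ProbabilityR.Shuffle.tvFromUniform (2 ^ d) (r * (d + 1))) ^ 2
      ≤ ∑ k ∈ Icc 1 (2 ^ (d + 1)), ((2 ^ (d + 1)).choose k : ℝ) * (θ k) ^ (r - 16)
        * ((Bm (d + 1) k) ^ 16).trace := by
  obtain ⟨x0⟩ := nonempty_Om (k := 2 ^ (d + 1)) (D := d + 1) le_rfl
  have h := hD (d + 1) (by omega) x0 r hr θ h0 h1
  rw [hT d r x0]
  convert h using 2
  ring

open Classical in
/-- the contraction factor of degree `k` -/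
noncomputable def th (D k : ℕ) : ℝ := if 1 ≤ k ∧ k ≤ 2 ^ D then sSup (S D k) else 0

theorem main (hT : Thorp) (hD : Decomp) (hA : Alpha) (hB : Beta) (hG : Gamma) (hS : Spec.Sum) :
    Filter.Tendsto
      (fun d : ℕ => Crest.ProbabilityR.Shuffle.tvFromUniform (2 ^ d) (1600 * (d + 1)))
      Filter.atTop (nhds 0) := by
  have hbdd : ∀ D k, 1 ≤ k → k ≤ 2 ^ D → ∀ β ∈ S D k, β ≤ Real.exp (-(89 / 1000) * k) :=
    fun D k h1 h2 => S_le _ (Real.exp_pos _).le (fun β f hf hH h => hB D k h1 h2 β f hf hH h)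
  have hmem : ∀ D k, 1 ≤ k → k ≤ 2 ^ D → ∀ β ∈ S D k, β ≤ th D k := by
    intro D k h1 h2 β hβ
    rw [th, if_pos ⟨h1, h2⟩]
    exact le_csSup ⟨_, hbdd D k h1 h2⟩ hβ
  have hne : ∀ D k, (S D k).Nonempty := fun D k => ⟨0, Set.mem_insert _ _⟩
  have hth0 : ∀ D k, 0 ≤ th D k := by
    intro D k
    by_cases h : 1 ≤ k ∧ k ≤ 2 ^ D
    · exact hmem D k h.1 h.2 0 (Set.mem_insert _ _)
    · simp [th, h]
  have hle : ∀ D k (c : ℝ), 0 ≤ c → (1 ≤ k → k ≤ 2 ^ D → ∀ β ∈ S D k, β ≤ c) → th D k ≤ c := by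
    intro D k c hc h
    by_cases hk : 1 ≤ k ∧ k ≤ 2 ^ D
    · rw [th, if_pos hk]
      exact csSup_le (hne D k) (h hk.1 hk.2)
    · simpa [th, hk] using hc
  have hlim := hS (fun D k => ((Bm D k) ^ 16).trace) th
    (fun D k => Bm_pow_trace_nonneg 16) hth0
    (fun D k h1 h2 h3 => hA D k h1 h2 h3)
    (fun D k _ h2 h3 => hle D k _ (Real.exp_pos _).le (fun a b => hbdd D k a b))
    (by
      intro D k k' _ h2 h3 h4
      have hc : (0 : ℝ) < (k'.choose k : ℝ) := by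
        exact_mod_cast Nat.choose_pos h3
      have htr : (0 : ℝ) ≤ ((Bm D k') ^ 16).trace := Bm_pow_trace_nonneg 16
      set c := (((Bm D k') ^ 16).trace / (k'.choose k : ℝ)) ^ ((1 : ℝ) / 16) with hcdef
      have hq : 0 ≤ ((Bm D k') ^ 16).trace / (k'.choose k : ℝ) := div_nonneg htr hc.le
      have hc0 : 0 ≤ c := Real.rpow_nonneg hq _
      have hc16 : c ^ 16 = ((Bm D k') ^ 16).trace / (k'.choose k : ℝ) := by
        rw [hcdef, ← Real.rpow_natCast, ← Real.rpow_mul hq]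
        norm_num
      have h5 : th D k ≤ c := by
        refine hle D k c hc0 (fun _ _ => S_le _ hc0 ?_)
        intro β f hf hH hBf
        have hβ : 0 ≤ β := eig_nonneg hf hBf
        have h6 := hG D k k' h2 h3 h4 β f hf hH hBf
        have h7 : β ^ 16 ≤ c ^ 16 := by
          rw [hc16, le_div_iff₀ hc]
          linarith
        exact le_of_pow_le_pow_left₀ (by norm_num) hc0 h7
      calc (k'.choose k : ℝ) * (th D k) ^ 16 ≤ (k'.choose k : ℝ) * c ^ 16 := by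
            gcongr
            exact hth0 D k
        _ = ((Bm D k') ^ 16).trace := by
            rw [hc16]; field_simp)
  -- the chi-square bound
  have hmain : ∀ d : ℕ, (2 * Crest.ProbabilityR.Shuffle.tvFromUniform (2 ^ d) (1600 * (d + 1))) ^ 2
      ≤ ∑ k ∈ Icc 1 (2 ^ (d + 1)), ((2 ^ (d + 1)).choose k : ℝ) * (th (d + 1) k) ^ (1600 - 16)
        * ((Bm (d + 1) k) ^ 16).trace := by
    intro d
    exact gen hT hD d 1600 (by norm_num) (th (d + 1)) (hth0 (d + 1))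
      (fun k h1 h2 β f hf hH hBf => hmem (d + 1) k h1 h2 β (Or.inr ⟨f, hf, hH, hBf⟩))
  have hlim2 := (hlim.comp (Filter.tendsto_add_atTop_nat 1)).sqrt
  rw [Real.sqrt_zero] at hlim2
  have hlim3 := hlim2.const_mul (1 / 2 : ℝ)
  rw [mul_zero] at hlim3
  refine squeeze_zero ?_ ?_ hlim3
  · intro d
    unfold Crest.ProbabilityR.Shuffle.tvFromUniform
    have : (0 : ℝ) ≤ ∑ g : Equiv.Perm (Fin (2 * 2 ^ d)),
      |Crest.FinProb.uniformProb {cs : Fin (1600 * (d + 1)) → Fin (2 ^ d) → Bool |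
          Crest.ProbabilityR.Shuffle.iterPos (2 ^ d) (1600 * (d + 1)) cs = ⇑g}
        - 1 / ((2 * 2 ^ d).factorial : ℝ)| := Finset.sum_nonneg fun _ _ => abs_nonneg _
    linarith
  · intro d
    have h1 := Real.abs_le_sqrt (hmain d)
    have h2 := le_abs_self (2 * Crest.ProbabilityR.Shuffle.tvFromUniform (2 ^ d) (1600 * (d + 1)))
    simp only [Function.comp] at *
    linarith

end Crest.Agent.ThpFinal
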