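import Mathlib
import Crest.Agent.ThpDefs
import Crest.Agent.ThpSpec
import Crest.Agent.ThpLib
set_option autoImplicit false

/-! Module HOLD of rid 155 (S0222): iterated Hölder inequality. -/

namespace Crest.Agent.ThpHold
open Finset Crest.Agent.Thp

lemma holder {α ι : Type} [Fintype α] [Nonempty α] (A : Finset ι) (w : ι → ℝ)
    (hw : ∀ c ∈ A, 0 < w c) (hs : ∑ c ∈ A, w c ≤ 1) (h : ι → α → ℝ) (hh : ∀ c a, 0 ≤ h c a) :
    av (fun a => ∏ c ∈ A, (h c a) ^ (w c)) ≤ ∏ c ∈ A, (av (h c)) ^ (w c) := by
  classical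
  have hav : ∀ c, 0 ≤ av (h c) := fun c => av_nonneg (hh c)
  by_cases hz : ∃ c ∈ A, av (h c) = 0
  · obtain ⟨c, hc, hc0⟩ := hz
    have hcard : (0 : ℝ) < (Fintype.card α : ℝ) := by exact_mod_cast Fintype.card_pos
    have hsum : ∑ a, h c a = 0 := by
      rw [av_def, div_eq_zero_iff] at hc0
      rcases hc0 with h0 | h0
      · exact h0
      · exact absurd h0 hcard.ne'
    have hall : ∀ a, h c a = 0 := fun a =>
      (Finset.sum_eq_zero_iff_of_nonneg (fun a _ => hh c a)).1 hsum a (mem_univ a)
    have h1 : ∀ a, ∏ c ∈ A, (h c a) ^ (w c) = 0 := fun a =>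
      Finset.prod_eq_zero hc (by rw [hall a, Real.zero_rpow (hw c hc).ne'])
    rw [av_congr h1, av_zero]
    exact Finset.prod_nonneg fun c _ => Real.rpow_nonneg (hav c) _
  · push Not at hz
    have hpos : ∀ c ∈ A, 0 < av (h c) := fun c hc => lt_of_le_of_ne (hav c) (Ne.symm (hz c hc))
    have hM : 0 ≤ ∏ c ∈ A, (av (h c)) ^ (w c) :=
      Finset.prod_nonneg fun c _ => Real.rpow_nonneg (hav c) _
    have key : ∀ a, ∏ c ∈ A, (h c a) ^ (w c) ≤ (∏ c ∈ A, (av (h c)) ^ (w c)) *
        ((1 - ∑ c ∈ A, w c) + ∑ c ∈ A, w c * (h c a / av (h c))) := by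
      intro a
      have e1 : ∏ c ∈ A, (h c a) ^ (w c) = (∏ c ∈ A, (av (h c)) ^ (w c)) *
          ∏ c ∈ A, (h c a / av (h c)) ^ (w c) := by
        rw [← Finset.prod_mul_distrib]
        refine Finset.prod_congr rfl fun c hc => ?_
        rw [← Real.mul_rpow (hav c) (div_nonneg (hh c a) (hav c)),
          mul_div_cancel₀ _ (hpos c hc).ne']
      rw [e1]
      refine mul_le_mul_of_nonneg_left ?_ hM
      have h2 := Real.geom_mean_le_arith_mean_weighted (insertNone A)
        (fun o : Option ι => o.elim (1 - ∑ c ∈ A, w c) w)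
        (fun o : Option ι => o.elim 1 (fun c => h c a / av (h c)))
        (by
          intro o ho
          cases o with
          | none => simpa using hs
          | some c => exact (hw c (by simpa using ho)).le)
        (by rw [sum_insertNone]; simp)
        (by
          intro o _
          cases o with
          | none => simp
          | some c => exact div_nonneg (hh c a) (hav c))
      rw [prod_insertNone, sum_insertNone] at h2
      simpa using h2
    calc av (fun a => ∏ c ∈ A, (h c a) ^ (w c)) ≤ av (fun a => (∏ c ∈ A, (av (h c)) ^ (w c)) *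
        ((1 - ∑ c ∈ A, w c) + ∑ c ∈ A, w c * (h c a / av (h c)))) := av_mono key
      _ = (∏ c ∈ A, (av (h c)) ^ (w c)) * 1 := by
        rw [av_mul_left]
        congr 1
        rw [av_add, av_const, av_sum]
        have : ∑ c ∈ A, av (fun a => w c * (h c a / av (h c))) = ∑ c ∈ A, w c := by
          refine Finset.sum_congr rfl fun c hc => ?_
          rw [av_mul_left]
          have : av (fun a => h c a / av (h c)) = 1 := by
            have e : (fun a => h c a / av (h c)) = fun a => h c a * (av (h c))⁻¹ := by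
              funext a; rw [div_eq_mul_inv]
            rw [e, av_mul_right, mul_inv_cancel₀ (hpos c hc).ne']
          rw [this, mul_one]
        rw [this]; ring
      _ = _ := mul_one _

section
variable {D : ℕ} {α : Type} [Fintype α] [Nonempty α]

/-- mix of two configurations -/
def mix (i : ℕ) (O O' : Fin D → α) : Fin D → α := fun j => if i ≤ j.val then O' j else O j

noncomputable def H (F : ℕ → (Fin D → α) → ℝ) (c i : ℕ) (O : Fin D → α) : ℝ :=
  av (fun O' : Fin D → α => (F c (mix i O O')) ^ (c + 1))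

lemma H_nonneg {F : ℕ → (Fin D → α) → ℝ} (hF : ∀ c O, 0 ≤ F c O) (c i : ℕ) (O : Fin D → α) :
    0 ≤ H F c i O := av_nonneg fun O' => pow_nonneg (hF _ _) _

lemma H_of_le {F : ℕ → (Fin D → α) → ℝ}
    (hdep : ∀ c O O', (∀ i : Fin D, i.val < c → O i = O' i) → F c O = F c O')
    {c i : ℕ} (hci : c ≤ i) (O : Fin D → α) : H F c i O = (F c O) ^ (c + 1) := by
  unfold H
  have : ∀ O' : Fin D → α, (F c (mix i O O')) ^ (c + 1) = (F c O) ^ (c + 1) := by
    intro O'
    rw [hdep c (mix i O O') O]
    intro j hj
    have : ¬ i ≤ j.val := by omega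
    simp [mix, this]
  rw [av_congr this, av_const]

lemma H_succ (F : ℕ → (Fin D → α) → ℝ) (c i : ℕ) (hi : i < D) (O : Fin D → α) :
    av (fun a : α => H F c (i + 1) (Function.update O ⟨i, hi⟩ a)) = H F c i O := by
  unfold H
  rw [av_comm, ← av_update ⟨i, hi⟩ (fun O' => (F c (mix i O O')) ^ (c + 1))]
  refine av_congr fun O' => av_congr fun a => ?_
  congr 2
  funext j
  unfold mix
  by_cases hj : j = ⟨i, hi⟩
  · subst hj; simp
  · have hne : j.val ≠ i := fun h => hj (Fin.ext h)
    by_cases h1 : i ≤ j.val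
    · have h2 : i + 1 ≤ j.val := by omega
      simp [h1, h2, Function.update_of_ne hj]
    · have h2 : ¬ i + 1 ≤ j.val := by omega
      simp [h1, h2, Function.update_of_ne hj]

lemma H_le {F : ℕ → (Fin D → α) → ℝ}
    (hdep : ∀ c O O', (∀ i : Fin D, i.val < c → O i = O' i) → F c O = F c O') {K : ℕ → ℝ}
    {c : ℕ} (hK : ∀ O : Fin D → α, av (fun O' : Fin D → α =>
      (F c (fun i => if c / 2 ≤ i.val ∧ i.val < c then O' i else O i)) ^ (c + 1))
      ≤ (K c) ^ (c + 1)) (O : Fin D → α) : H F c (c / 2) O ≤ (K c) ^ (c + 1) := by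
  refine le_trans (le_of_eq ?_) (hK O)
  unfold H
  refine av_congr fun O' => ?_
  rw [hdep c (mix (c / 2) O O') (fun i => if c / 2 ≤ i.val ∧ i.val < c then O' i else O i)]
  intro j hj
  simp [mix, hj]

end

theorem main : Spec.Hold := by
  intro D α _ _ F K c0 hF hK hdep hbd
  have claim : ∀ i ≤ D, av (fun O : Fin D → α => ∏ c ∈ (Ico c0 D).filter (fun c => c / 2 < i),
      (H F c i O) ^ ((1 : ℝ) / ((c : ℝ) + 1))) ≤ ∏ c ∈ (Ico c0 D).filter (fun c => c / 2 < i), K c := by
    intro i
    induction i with
    | zero =>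
      intro _
      have : (Ico c0 D).filter (fun c => c / 2 < 0) = ∅ := by
        ext c; simp
      rw [this]
      simp only [prod_empty]
      rw [av_const]
    | succ i ih =>
      intro hi
      have hiD : i < D := hi
      set S := (Ico c0 D).filter (fun c => c / 2 < i + 1) with hS
      set S' := (Ico c0 D).filter (fun c => c / 2 < i) with hS'
      set T := (Ico c0 D).filter (fun c => c / 2 = i) with hT
      have hdisj : Disjoint S' T := by
        rw [Finset.disjoint_left]
        intro c h1 h2
        simp only [hS', hT, mem_filter] at h1 h2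
        omega
      have hunion : S = S' ∪ T := by
        ext c
        simp only [hS, hS', hT, mem_filter, mem_union]
        constructor
        · rintro ⟨h1, h2⟩
          rcases Nat.lt_or_ge (c / 2) i with h | h
          · exact Or.inl ⟨h1, h⟩
          · exact Or.inr ⟨h1, by omega⟩
        · rintro (⟨h1, h2⟩ | ⟨h1, h2⟩)
          · exact ⟨h1, by omega⟩
          · exact ⟨h1, by omega⟩
      have step1 : av (fun O : Fin D → α => ∏ c ∈ S, (H F c (i + 1) O) ^ ((1 : ℝ) / ((c : ℝ) + 1))) ≤
          av (fun O : Fin D → α => ∏ c ∈ S, (H F c i O) ^ ((1 : ℝ) / ((c : ℝ) + 1))) := by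
        rw [← av_update ⟨i, hiD⟩
          (fun O : Fin D → α => ∏ c ∈ S, (H F c (i + 1) O) ^ ((1 : ℝ) / ((c : ℝ) + 1)))]
        refine av_mono fun O => ?_
        -- split into c ≤ i (constant) and i < c (Hölder)
        set A := S.filter (fun c => i < c) with hA
        set B := S.filter (fun c => ¬ i < c) with hB
        have hsplit : ∀ G : ℕ → ℝ, ∏ c ∈ S, G c = (∏ c ∈ A, G c) * ∏ c ∈ B, G c := fun G =>
          (Finset.prod_filter_mul_prod_filter_not S (fun c => i < c) G).symm
        have hconst : ∀ c ∈ B, ∀ a : α, H F c (i + 1) (Function.update O ⟨i, hiD⟩ a) = H F c i O := by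
          intro c hc a
          have hci : c ≤ i := by
            simp only [hB, mem_filter] at hc
            omega
          rw [H_of_le hdep (show c ≤ i + 1 by omega), H_of_le hdep hci]
          rw [hdep c (Function.update O ⟨i, hiD⟩ a) O]
          intro j hj
          have : j ≠ ⟨i, hiD⟩ := by
            intro h; rw [h] at hj; simp at hj; omega
          rw [Function.update_of_ne this]
        have e1 : ∀ a : α, ∏ c ∈ S, (H F c (i + 1) (Function.update O ⟨i, hiD⟩ a)) ^
            ((1 : ℝ) / ((c : ℝ) + 1)) = (∏ c ∈ A, (H F c (i + 1) (Function.update O ⟨i, hiD⟩ a)) ^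
            ((1 : ℝ) / ((c : ℝ) + 1))) * ∏ c ∈ B, (H F c i O) ^ ((1 : ℝ) / ((c : ℝ) + 1)) := by
          intro a
          rw [hsplit]
          congr 1
          refine Finset.prod_congr rfl fun c hc => ?_
          rw [hconst c hc a]
        rw [av_congr e1, av_mul_right, hsplit]
        refine mul_le_mul_of_nonneg_right ?_
          (Finset.prod_nonneg fun c _ => Real.rpow_nonneg (H_nonneg hF _ _ _) _)
        have hAsub : A ⊆ Ico (i + 1) (2 * i + 2) := by
          intro c hc
          simp only [hA, hS, mem_filter, mem_Ico] at hc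
          rw [mem_Ico]
          omega
        have hw : ∑ c ∈ A, (1 : ℝ) / ((c : ℝ) + 1) ≤ 1 := by
          calc ∑ c ∈ A, (1 : ℝ) / ((c : ℝ) + 1) ≤ ∑ c ∈ Ico (i + 1) (2 * i + 2),
              (1 : ℝ) / ((c : ℝ) + 1) :=
                Finset.sum_le_sum_of_subset_of_nonneg hAsub fun c _ _ => by positivity
            _ ≤ ∑ c ∈ Ico (i + 1) (2 * i + 2), (1 : ℝ) / ((i : ℝ) + 1) := by
                refine Finset.sum_le_sum fun c hc => ?_
                rw [mem_Ico] at hc
                have : (i : ℝ) + 1 ≤ (c : ℝ) := by exact_mod_cast hc.1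
                exact one_div_le_one_div_of_le (by positivity) (by linarith)
            _ = 1 := by
                rw [Finset.sum_const, Nat.card_Ico, nsmul_eq_mul]
                have : 2 * i + 2 - (i + 1) = i + 1 := by omega
                rw [this]; push_cast; field_simp
        have h3 := holder A (fun c : ℕ => (1 : ℝ) / ((c : ℝ) + 1)) (fun c _ => by positivity) hw
          (fun c a => H F c (i + 1) (Function.update O ⟨i, hiD⟩ a)) (fun c a => H_nonneg hF _ _ _)
        refine h3.trans (le_of_eq ?_)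
        refine Finset.prod_congr rfl fun c _ => ?_
        rw [H_succ F c i hiD O]
      have hTle : ∀ c ∈ T, ∀ O : Fin D → α, (H F c i O) ^ ((1 : ℝ) / ((c : ℝ) + 1)) ≤ K c := by
        intro c hc O
        simp only [hT, mem_filter, mem_Ico] at hc
        have h1 := H_le hdep (hbd c hc.1.1 hc.1.2) O
        rw [hc.2] at h1
        have h2 : (H F c i O) ^ ((1 : ℝ) / ((c : ℝ) + 1)) ≤
            ((K c) ^ (c + 1)) ^ ((1 : ℝ) / ((c : ℝ) + 1)) :=
          Real.rpow_le_rpow (H_nonneg hF _ _ _) h1 (by positivity)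
        refine h2.trans (le_of_eq ?_)
        rw [← Real.rpow_natCast, ← Real.rpow_mul (hK c)]
        push_cast
        rw [mul_one_div_cancel (by positivity), Real.rpow_one]
      calc av (fun O : Fin D → α => ∏ c ∈ S, (H F c (i + 1) O) ^ ((1 : ℝ) / ((c : ℝ) + 1)))
          ≤ av (fun O : Fin D → α => ∏ c ∈ S, (H F c i O) ^ ((1 : ℝ) / ((c : ℝ) + 1))) := step1
        _ ≤ av (fun O : Fin D → α => (∏ c ∈ S', (H F c i O) ^ ((1 : ℝ) / ((c : ℝ) + 1))) *
              ∏ c ∈ T, K c) := by
            refine av_mono fun O => ?_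
            rw [hunion, Finset.prod_union hdisj]
            refine mul_le_mul_of_nonneg_left ?_
              (Finset.prod_nonneg fun c _ => Real.rpow_nonneg (H_nonneg hF _ _ _) _)
            exact Finset.prod_le_prod (fun c _ => Real.rpow_nonneg (H_nonneg hF _ _ _) _)
              (fun c hc => hTle c hc O)
        _ = av (fun O : Fin D → α => ∏ c ∈ S', (H F c i O) ^ ((1 : ℝ) / ((c : ℝ) + 1))) *
              ∏ c ∈ T, K c := av_mul_right _ _
        _ ≤ (∏ c ∈ S', K c) * ∏ c ∈ T, K c :=
            mul_le_mul_of_nonneg_right (ih (by omega)) (Finset.prod_nonneg fun c _ => hK c)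
        _ = ∏ c ∈ S, K c := by rw [hunion, Finset.prod_union hdisj]
  have h := claim D le_rfl
  have hall : (Ico c0 D).filter (fun c => c / 2 < D) = Ico c0 D := by
    ext c
    simp only [mem_filter, mem_Ico]
    constructor
    · exact fun h => h.1
    · intro h; exact ⟨h, by omega⟩
  rw [hall] at h
  refine le_trans (le_of_eq ?_) h
  refine av_congr fun O => Finset.prod_congr rfl fun c hc => ?_
  rw [mem_Ico] at hc
  rw [H_of_le hdep (by omega : c ≤ D), ← Real.rpow_natCast, ← Real.rpow_mul (hF c O)]
  push_cast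
  rw [mul_one_div_cancel (by positivity), Real.rpow_one]

end Crest.Agent.ThpHold
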