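import Crest.Agent.ThpSpec

/-! Module ISO of rid 155 (S0222), by helper12. -/

set_option autoImplicit false

open Finset Crest.Agent.Thp

namespace Crest.Agent.ThpIso

/-- `q₀ log q₀ + q₁ log q₁ + 2 min(q₀, q₁) ≤ (q₀ + q₁) log (q₀ + q₁)` -/
theorem num_aux (p q : ℝ) (hp : 0 < p) (hpq : p ≤ q) :
    2 * p + p * Real.logb 2 p + q * Real.logb 2 q ≤ (p + q) * Real.logb 2 (p + q) := by
  have hq : 0 < q := lt_of_lt_of_le hp hpq
  have h1 : Real.logb 2 p + 1 ≤ Real.logb 2 (p + q) := by
    have h2 : Real.logb 2 (2 * p) = 1 + Real.logb 2 p := by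
      rw [Real.logb_mul (by norm_num) hp.ne', Real.logb_self_eq_one (by norm_num)]
    have h3 : Real.logb 2 (2 * p) ≤ Real.logb 2 (p + q) :=
      Real.logb_le_logb_of_le (by norm_num) (by linarith) (by linarith)
    linarith
  have h4 : p / q ≤ Real.logb 2 (p + q) - Real.logb 2 q := by
    have h5 : Real.logb 2 (p + q) = Real.logb 2 (1 + p / q) + Real.logb 2 q := by
      rw [← Real.logb_mul (by positivity) hq.ne']
      congr 1
      field_simp
      ring
    rw [h5, add_sub_cancel_right]
    rw [Real.le_logb_iff_rpow_le (by norm_num) (by positivity)]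
    have h6 := rpow_one_add_le_one_add_mul_self (s := 1) (by norm_num) (p := p / q)
      (by positivity) (by rw [div_le_one hq]; exact hpq)
    norm_num at h6
    linarith
  have h5 : p ≤ q * (Real.logb 2 (p + q) - Real.logb 2 q) := by
    calc p = q * (p / q) := by field_simp
      _ ≤ _ := mul_le_mul_of_nonneg_left h4 hq.le
  nlinarith

theorem num (a b : ℕ) :
    2 * (min a b : ℕ) + (a : ℝ) * Real.logb 2 a + (b : ℝ) * Real.logb 2 b ≤
      ((a + b : ℕ) : ℝ) * Real.logb 2 ((a + b : ℕ) : ℝ) := by
  rcases Nat.eq_zero_or_pos a with ha | ha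
  · subst ha; simp
  rcases Nat.eq_zero_or_pos b with hb | hb
  · subst hb; simp
  rcases le_total a b with h | h
  · rw [min_eq_left h]
    have := num_aux a b (by exact_mod_cast ha) (by exact_mod_cast h)
    push_cast
    exact this
  · rw [min_eq_right h]
    have := num_aux b a (by exact_mod_cast hb) (by exact_mod_cast h)
    push_cast
    rw [add_comm (a : ℝ) b]
    linarith

variable {D : ℕ}

theorem sw_coord (t s : Fin D) (c : Col D) (z : X D) (h : s ≠ t) : sw t c z s = z s := by
  simp [swf, Function.update_of_ne h]

theorem fl_coord (t s : Fin D) (z : X D) (h : s ≠ t) : fl t z s = z s := by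
  simp [fl, Function.update_of_ne h]

theorem sw_fl (s : Fin D) (c : Col D) (z : X D) : sw s c (fl s z) = fl s (sw s c z) := by
  simp only [sw_apply]
  unfold swf
  rw [rp_fl]
  unfold fl
  simp

/-- only the elements with the same bit `s` matter, if `s` is not in the word -/
theorem sh_filter (O : Fin D → Col D) (s : Fin D) : ∀ (W : List (Fin D)), s ∉ W →
    ∀ (Q : Finset (X D)) (b : X D), sh O W Q b = sh O W (Q.filter (fun z => z s = b s)) b := by
  intro W
  induction W with
  | nil => intro _ Q b; rfl
  | cons t W ih =>
    intro hs Q b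
    have hst : s ≠ t := fun h => hs (by simp [h])
    have hsW : s ∉ W := fun h => hs (by simp [h])
    unfold sh
    have h1 : (fl t b ∈ Q) ↔ (fl t b ∈ Q.filter (fun z => z s = b s)) := by
      simp [fl_coord t s b hst]
    have h2 : (Q.filter (fun z => z s = b s)).image (sw t (O t)) =
        (Q.image (sw t (O t))).filter (fun z => z s = (sw t (O t) b) s) := by
      ext w
      simp only [mem_image, mem_filter]
      constructor
      · rintro ⟨z, ⟨hz, hzs⟩, rfl⟩
        exact ⟨⟨z, hz, rfl⟩, by rw [sw_coord _ _ _ _ hst, sw_coord _ _ _ _ hst, hzs]⟩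
      · rintro ⟨⟨z, hz, rfl⟩, h⟩
        rw [sw_coord _ _ _ _ hst, sw_coord _ _ _ _ hst] at h
        exact ⟨z, ⟨hz, h⟩, rfl⟩
    rw [h2, ← ih hsW (Q.image (sw t (O t))) (sw t (O t) b)]
    simp only [← h1]

theorem main : Crest.Agent.Thp.Spec.Iso := by
  intro D W
  induction W with
  | nil =>
    intro _ O Q
    have h : ∑ b ∈ Q, (sh O [] Q b : ℝ) = 0 := by simp [sh]
    rw [h]
    rcases Nat.eq_zero_or_pos Q.card with h0 | h0
    · rw [h0]; simp
    · apply mul_nonneg (Nat.cast_nonneg _)
      apply Real.logb_nonneg (by norm_num)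
      exact_mod_cast h0
  | cons s W ih =>
    intro hW O Q
    have hsW : s ∉ W := (List.nodup_cons.mp hW).1
    have ih := ih (List.nodup_cons.mp hW).2
    set g := sw s (O s) with hg
    set Q' := Q.image g with hQ'
    have hinj : Function.Injective g := g.injective
    -- split the sum
    have h1 : ∑ b ∈ Q, (sh O (s :: W) Q b : ℝ) =
        ((Q.filter (fun b => fl s b ∈ Q)).card : ℝ) + ∑ b ∈ Q', (sh O W Q' b : ℝ) := by
      rw [hQ', Finset.sum_image (fun x _ y _ h => hinj h)]
      rw [Finset.card_filter]
      push_cast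
      rw [← Finset.sum_add_distrib]
      apply Finset.sum_congr rfl
      intro b _
      simp only [sh]
      push_cast
      rfl
    set Q0 := Q'.filter (fun z => z s = false) with hQ0
    set Q1 := Q'.filter (fun z => z s = true) with hQ1
    have hQ1' : Q'.filter (fun z => ¬ z s = false) = Q1 := by
      rw [hQ1]; congr 1; funext z; simp
    have hcard : Q0.card + Q1.card = Q.card := by
      rw [← hQ1', hQ0, Finset.card_filter_add_card_filter_not, hQ', Finset.card_image_of_injective _ hinj]
    have h2 : ∑ b ∈ Q', (sh O W Q' b : ℝ) = ∑ b ∈ Q0, (sh O W Q0 b : ℝ) + ∑ b ∈ Q1, (sh O W Q1 b : ℝ) := by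
      rw [← Finset.sum_filter_add_sum_filter_not Q' (fun z => z s = false), hQ1']
      congr 1
      · apply Finset.sum_congr rfl
        intro b hb
        have hbs : b s = false := (mem_filter.mp hb).2
        rw [sh_filter O s W hsW Q' b, hbs]
      · apply Finset.sum_congr rfl
        intro b hb
        have hbs : b s = true := (mem_filter.mp hb).2
        rw [sh_filter O s W hsW Q' b, hbs]
    -- the pairs
    set P' := Q'.filter (fun b => fl s b ∈ Q') with hP'
    have hflfl : ∀ z : X D, fl s (fl s z) = z := by
      intro z; simp [fl]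
    have h3 : (Q.filter (fun b => fl s b ∈ Q)).card = P'.card := by
      have : P' = (Q.filter (fun b => fl s b ∈ Q)).image g := by
        ext w
        simp only [hP', hQ', mem_filter, mem_image]
        constructor
        · rintro ⟨⟨z, hz, rfl⟩, ⟨z', hz', hzz⟩⟩
          refine ⟨z, ⟨hz, ?_⟩, rfl⟩
          have : g z' = g (fl s z) := by rw [hzz, hg, sw_fl]
          rw [hinj this] at hz'
          exact hz'
        · rintro ⟨z, ⟨hz, hz'⟩, rfl⟩
          exact ⟨⟨z, hz, rfl⟩, ⟨fl s z, hz', by rw [hg, sw_fl]⟩⟩
      rw [this, Finset.card_image_of_injective _ hinj]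
    have h4 : P'.card = 2 * (P'.filter (fun z => z s = false)).card := by
      have h5 : (P'.filter (fun z => ¬ z s = false)).card = (P'.filter (fun z => z s = false)).card := by
        apply Finset.card_bij (fun z _ => fl s z)
        · intro z hz
          simp only [hP', mem_filter] at hz ⊢
          refine ⟨⟨hz.1.2, by rw [hflfl]; exact hz.1.1⟩, ?_⟩
          have := hz.2
          simp [fl] at this ⊢
          exact this
        · intro z _ w _ h
          rw [← hflfl z, h, hflfl]
        · intro z hz
          simp only [hP', mem_filter] at hz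
          refine ⟨fl s z, ?_, hflfl z⟩
          simp only [hP', mem_filter]
          refine ⟨⟨hz.1.2, by rw [hflfl]; exact hz.1.1⟩, ?_⟩
          have := hz.2
          simp [fl, this]
      have := Finset.card_filter_add_card_filter_not (s := P') (fun z => z s = false)
      omega
    have h6 : (P'.filter (fun z => z s = false)).card ≤ Q0.card := by
      apply Finset.card_le_card
      intro z hz
      simp only [hP', hQ0, mem_filter] at hz ⊢
      exact ⟨hz.1.1, hz.2⟩
    have h7 : (P'.filter (fun z => z s = false)).card ≤ Q1.card := by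
      have : (P'.filter (fun z => z s = false)).card = ((P'.filter (fun z => z s = false)).image (fl s)).card := by
        rw [Finset.card_image_of_injective]
        intro z w h
        rw [← hflfl z, h, hflfl]
      rw [this]
      apply Finset.card_le_card
      intro z hz
      simp only [hP', mem_image, mem_filter] at hz
      obtain ⟨w, ⟨⟨hw1, hw2⟩, hw3⟩, rfl⟩ := hz
      simp only [hQ1, mem_filter]
      exact ⟨hw2, by simp [fl, hw3]⟩
    have h8 : (P'.card : ℝ) ≤ 2 * (min Q0.card Q1.card : ℕ) := by
      rw [h4]
      push_cast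
      have : (P'.filter (fun z => z s = false)).card ≤ min Q0.card Q1.card := le_min h6 h7
      have : ((P'.filter (fun z => z s = false)).card : ℝ) ≤ ((min Q0.card Q1.card : ℕ) : ℝ) := by exact_mod_cast this
      push_cast at this
      linarith
    rw [h1, h2, h3]
    have hn := num Q0.card Q1.card
    rw [hcard] at hn
    have i0 := ih O Q0
    have i1 := ih O Q1
    linarith

end Crest.Agent.ThpIso
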