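import Mathlib
import Crest.Agent.ThpDefs
import Crest.Agent.ThpLib
import Crest.Agent.ThpSpec

/-!
rid 155, module KERN: the Beneš law as an average over input and output columns.
-/

namespace Crest.Agent.ThpKern
open Finset Crest.Agent.Thp

lemma av_split {ι α : Type*} [Fintype ι] [DecidableEq ι] [Fintype α] [Nonempty α] (s : ι)
    (g : α → (ι → α) → ℝ) (hg : ∀ c O c', g c (Function.update O s c') = g c O) :
    av (fun O : ι → α => g (O s) O) = av (fun c => av (fun O => g c O)) := by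
  rw [← av_update s (fun O : ι → α => g (O s) O)]
  simp only [Function.update_self, hg]
  exact av_comm _

lemma swf_of_ne {D : ℕ} {s t : Fin D} (h : t ≠ s) (c : Col D) (z : X D) : swf s c z t = z t := by
  simp [swf, Function.update_of_ne h]

lemma swN_apply_of_ne {D : ℕ} (C : Fin D → Col D) (m : ℕ) (s : Fin D) (h : s.val ≠ m) (z : X D) :
    swN C m z s = z s := by
  unfold swN
  split_ifs with hm
  · rw [sw_apply, swf_of_ne]
    intro h'
    apply h
    rw [h']
  · rfl

lemma swN_update {D : ℕ} (C : Fin D → Col D) (m : ℕ) (s : Fin D) (c : Col D) (h : s.val ≠ m) :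
    swN (Function.update C s c) m = swN C m := by
  unfold swN
  split_ifs with hm
  · have : (⟨m, hm⟩ : Fin D) ≠ s := by
      intro h'
      apply h
      rw [← h']
    rw [Function.update_of_ne this]
  · rfl

lemma swN_eq {D : ℕ} (C : Fin D → Col D) (m : ℕ) (h : m < D) : swN C m = sw ⟨m, h⟩ (C ⟨m, h⟩) := by
  simp [swN, h]

lemma mid_update {D : ℕ} (C : Fin D → Col D) (s : Fin D) (c : Col D) :
    ∀ m : ℕ, m ≤ s.val → mid (Function.update C s c) m = mid C m
  | 0, _ => rfl
  | m + 1, h => by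
      simp only [mid]
      rw [mid_update C s c m (by omega), swN_update C m s c (by omega)]

lemma out_update {D : ℕ} (C : Fin D → Col D) (s : Fin D) (c : Col D) :
    ∀ m : ℕ, m ≤ s.val → out (Function.update C s c) m = out C m
  | 0, _ => rfl
  | m + 1, h => by
      simp only [out]
      rw [out_update C s c m (by omega), swN_update C m s c (by omega)]

lemma mid_coord {D : ℕ} (C : Fin D → Col D) (s : Fin D) :
    ∀ m : ℕ, m ≤ s.val → ∀ z : X D, mid C m z s = z s
  | 0, _, _ => rfl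
  | m + 1, h, z => by
      simp only [mid, Equiv.Perm.mul_apply]
      rw [mid_coord C s m (by omega), swN_apply_of_ne C m s (by omega)]

lemma out_coord {D : ℕ} (C : Fin D → Col D) (s : Fin D) :
    ∀ m : ℕ, m ≤ s.val → ∀ z : X D, out C m z s = z s
  | 0, _, _ => rfl
  | m + 1, h, z => by
      simp only [out, Equiv.Perm.mul_apply]
      rw [swN_apply_of_ne C m s (by omega), out_coord C s m (by omega)]

/-- iterated average over input and output columns `< s` -/
noncomputable def Av {k D : ℕ} (s : ℕ) (Φ : (Fin D → Col D) → (Fin D → Col D) → Om k D → ℝ)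
    (x y : Om k D) : ℝ :=
  av (fun I : Fin D → Col D => av (fun O : Fin D → Col D =>
    if act (out O s * mid I s) x = y then Φ I O x else 0))

lemma event_iff {k D : ℕ} (s : ℕ) (hs : s < D) (I O : Fin D → Col D) (x y : Om k D) :
    act (out O (s + 1) * mid I (s + 1)) x = y ↔
      act (out O s * mid I s) (act (sw ⟨s, hs⟩ (I ⟨s, hs⟩)) x) =
        act (sw ⟨s, hs⟩ (O ⟨s, hs⟩)) y := by
  simp only [out, mid, swN_eq _ _ hs]
  rw [mul_assoc, act_mul, act_eq_iff, sw_inv, ← mul_assoc, act_mul]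

/-- the recursion -/
lemma Av_succ {k D : ℕ} (s : ℕ) (hs : s < D)
    (Φ : (Fin D → Col D) → (Fin D → Col D) → Om k D → ℝ)
    (Ψ : (Fin D → Col D) → (Fin D → Col D) → Om k D → ℝ) (x y : Om k D)
    (hI : ∀ I O x c, Φ (Function.update I ⟨s, hs⟩ c) O x = Φ I O x)
    (hO : ∀ I O x c, Φ I (Function.update O ⟨s, hs⟩ c) x = Φ I O x) (K : ℝ)
    (hΨ : ∀ I O, act (out O (s + 1) * mid I (s + 1)) x = y →
      Ψ I O x = K * Φ I O (act (sw ⟨s, hs⟩ (I ⟨s, hs⟩)) x)) :
    Av (s + 1) Ψ x y = K * av (fun c : Col D => av (fun c' : Col D =>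
      Av s Φ (act (sw ⟨s, hs⟩ c) x) (act (sw ⟨s, hs⟩ c') y))) := by
  have h1 : Av (s + 1) Ψ x y = av (fun I : Fin D → Col D => av (fun O : Fin D → Col D =>
      K * if act (out O s * mid I s) (act (sw ⟨s, hs⟩ (I ⟨s, hs⟩)) x) =
        act (sw ⟨s, hs⟩ (O ⟨s, hs⟩)) y then Φ I O (act (sw ⟨s, hs⟩ (I ⟨s, hs⟩)) x) else 0)) := by
    unfold Av
    refine av_congr fun I => av_congr fun O => ?_
    by_cases h : act (out O (s + 1) * mid I (s + 1)) x = y
    · rw [if_pos h, if_pos ((event_iff s hs I O x y).1 h), hΨ I O h]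
    · rw [if_neg h, if_neg (fun h' => h ((event_iff s hs I O x y).2 h')), mul_zero]
  rw [h1]
  simp only [av_mul_left]
  congr 1
  -- resample the output column
  have h2 : ∀ I : Fin D → Col D, av (fun O : Fin D → Col D =>
      if act (out O s * mid I s) (act (sw ⟨s, hs⟩ (I ⟨s, hs⟩)) x) =
        act (sw ⟨s, hs⟩ (O ⟨s, hs⟩)) y then Φ I O (act (sw ⟨s, hs⟩ (I ⟨s, hs⟩)) x) else 0) =
      av (fun c' : Col D => av (fun O : Fin D → Col D =>
        if act (out O s * mid I s) (act (sw ⟨s, hs⟩ (I ⟨s, hs⟩)) x) =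
        act (sw ⟨s, hs⟩ c') y then Φ I O (act (sw ⟨s, hs⟩ (I ⟨s, hs⟩)) x) else 0)) := by
    intro I
    generalize act (sw ⟨s, hs⟩ (I ⟨s, hs⟩)) x = x'
    have h := av_split (⟨s, hs⟩ : Fin D) (fun (c' : Col D) (O : Fin D → Col D) =>
      if act (out O s * mid I s) x' = act (sw ⟨s, hs⟩ c') y then Φ I O x' else 0) (by
        intro c O c'
        have e : out (Function.update O ⟨s, hs⟩ c') s = out O s := out_update O ⟨s, hs⟩ c' s le_rfl
        simp only [e, hO])
    exact h
  simp only [h2]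
  have h3 := av_split (⟨s, hs⟩ : Fin D) (fun c I => av (fun c' : Col D =>
      av (fun O : Fin D → Col D =>
        if act (out O s * mid I s) (act (sw ⟨s, hs⟩ c) x) =
        act (sw ⟨s, hs⟩ c') y then Φ I O (act (sw ⟨s, hs⟩ c) x) else 0))) (by
    intro c I c'
    simp only [mid_update I ⟨s, hs⟩ c' s le_rfl, hI])
  rw [h3]
  refine av_congr fun c => ?_
  rw [av_comm]
  rfl

lemma Av_zero {k D : ℕ} (Φ : (Fin D → Col D) → (Fin D → Col D) → Om k D → ℝ)
    (x y : Om k D) (K : ℝ) (h : ∀ I O, Φ I O x = K) : Av 0 Φ x y = if x = y then K else 0 := by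
  unfold Av
  simp only [out, mid, mul_one, act_one, h, av_const]

/-- the law of `sweep down to 0 and up again` restricted to the coordinates `< s` -/
noncomputable def Ps {k D : ℕ} (s : ℕ) (x y : Om k D) : ℝ := Av s (fun _ _ _ => 1) x y

lemma Ps_succ {k D : ℕ} (s : ℕ) (hs : s < D) (x y : Om k D) :
    Ps (s + 1) x y = av (fun c : Col D => av (fun c' : Col D =>
      Ps s (act (sw ⟨s, hs⟩ c) x) (act (sw ⟨s, hs⟩ c') y))) := by
  have := Av_succ s hs (fun _ _ _ => 1) (fun _ _ _ => 1) x y (fun _ _ _ _ => rfl)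
    (fun _ _ _ _ => rfl) 1 (fun _ _ _ => (one_mul 1).symm)
  rw [one_mul] at this
  exact this

lemma Ps_eq {k D : ℕ} (s : ℕ) (hs : s ≤ D) (x y : Om k D) :
    Ps s x y = (TmN D k s * (TmN D k s).transpose) x y := by
  induction s generalizing x y with
  | zero =>
    unfold Ps
    rw [Av_zero _ x y 1 (fun _ _ => rfl)]
    simp [TmN, Matrix.one_apply]
  | succ s ih =>
    have hs' : s < D := hs
    rw [Ps_succ s hs']
    simp only [ih hs'.le]
    have e : TmN D k (s + 1) * (TmN D k (s + 1)).transpose =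
        Pm D k ⟨s, hs'⟩ * (TmN D k s * (TmN D k s).transpose) * Pm D k ⟨s, hs'⟩ := by
      simp only [TmN, hs', dif_pos, Matrix.transpose_mul, Pm_transpose, Matrix.mul_assoc]
    rw [e]
    set M := TmN D k s * (TmN D k s).transpose with hM
    have h1 : ∀ x y, (M * Pm D k ⟨s, hs'⟩) x y =
        av (fun c' : Col D => M x (act (sw ⟨s, hs'⟩ c') y)) := by
      intro x y
      rw [← Pm_mulVec ⟨s, hs'⟩ (fun z => M x z) y]
      simp only [Matrix.mul_apply, Matrix.mulVec, dotProduct]
      refine Finset.sum_congr rfl fun z _ => ?_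
      rw [Pm_symm, mul_comm]
    have h2 : (Pm D k ⟨s, hs'⟩ * M * Pm D k ⟨s, hs'⟩) x y =
        (Pm D k ⟨s, hs'⟩).mulVec (fun z => (M * Pm D k ⟨s, hs'⟩) z y) x := by
      rw [Matrix.mul_assoc]
      rfl
    rw [h2, Pm_mulVec]
    refine av_congr fun c => ?_
    rw [h1]

theorem main : Spec.Kern := by
  intro D k x y
  have h := Ps_eq D le_rfl x y
  have : Bm D k x y = Ps D x y := by
    rw [h]
    rfl
  rw [this, av_prod]
  rfl

end Crest.Agent.ThpKern
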