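import Mathlib
import Crest.Agent.ThpDefs
import Crest.Agent.ThpLib
import Crest.Agent.ThpSpec
import Crest.Agent.ThpKern

/-!
rid 155, module LOOP: the unrolled looping inequality.
-/

namespace Crest.Agent.ThpLoop
open Finset Crest.Agent.Thp Crest.Agent.ThpKern

/-- sign of a bit -/
def sg (b : Bool) : ℝ := if b then -1 else 1

lemma sg_not (b : Bool) : sg (!b) = - sg b := by cases b <;> simp [sg]

lemma abs_sg (b : Bool) : |sg b| = 1 := by cases b <;> simp [sg]

lemma one_add_sg (a b : Bool) : 1 + sg (xor a b) = if a = b then 2 else 0 := by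
  cases a <;> cases b <;> norm_num [sg]

/-- the columns `c` and `c` flipped at `rp s a` -/
def flc {D : ℕ} (s : Fin D) (a : X D) (c : Col D) : Col D :=
  Function.update c (rp s a) (!(c (rp s a)))

lemma flc_invol {D : ℕ} (s : Fin D) (a : X D) : Function.Involutive (flc s a) := by
  intro c
  simp [flc]

lemma rp_eq_iff {D : ℕ} (s : Fin D) (a b : X D) : rp s b = rp s a ↔ b = a ∨ b = fl s a := by
  constructor
  · intro h
    have h' : ∀ i, i ≠ s → b i = a i := by
      intro i hi
      have := congrFun h i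
      simpa [rp, Function.update_of_ne hi] using this
    by_cases hs : b s = a s
    · left
      funext i
      by_cases hi : i = s
      · rw [hi, hs]
      · exact h' i hi
    · right
      funext i
      by_cases hi : i = s
      · subst hi
        have : b i = !(a i) := by
          cases hb : b i <;> cases ha : a i <;> simp_all
        simp [fl, this]
      · simp [fl, Function.update_of_ne hi, h' i hi]
  · rintro (h | h)
    · rw [h]
    · rw [h, rp_fl]

lemma swf_flc_of_ne {D : ℕ} (s : Fin D) (a b : X D) (c : Col D) (h : rp s b ≠ rp s a) :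
    swf s (flc s a c) b = swf s c b := by
  simp [swf, flc, Function.update_of_ne h]

lemma swf_flc_self {D : ℕ} (s : Fin D) (a : X D) (c : Col D) :
    swf s (flc s a c) a s = !(swf s c a s) := by
  simp [swf, flc]

/-- good pairs of columns -/
def HH {k D : ℕ} (s : Fin D) (x y : Om k D) : Finset (Col D × Col D) :=
  univ.filter (fun p => ∀ i, swf s p.1 (x i) s = swf s p.2 (y i) s)

lemma count {k D : ℕ} (s : Fin D) (x y : Om k D) :
    (2 : ℝ) ^ k * ((HH s x y).card : ℝ) ≤
      (Fintype.card (Col D × Col D) : ℝ) * (cl s (fun i => x i) (fun i => y i) : ℝ) := by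
  classical
  let e : Fin k → Col D × Col D → Bool := fun i p => xor (swf s p.1 (x i) s) (swf s p.2 (y i) s)
  have h1 : (2 : ℝ) ^ k * ((HH s x y).card : ℝ) = ∑ p : Col D × Col D, ∏ i : Fin k, (1 + sg (e i p)) := by
    unfold HH
    rw [Finset.card_filter]
    push_cast
    rw [Finset.mul_sum]
    refine Finset.sum_congr rfl fun p _ => ?_
    simp only [e, one_add_sg]
    split_ifs with h
    · simp [h]
    · push Not at h
      obtain ⟨i, hi⟩ := h
      rw [mul_zero, Finset.prod_eq_zero (Finset.mem_univ i)]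
      rw [if_neg hi]
  have h2 : ∑ p : Col D × Col D, ∏ i : Fin k, (1 + sg (e i p)) =
      ∑ Z : Finset (Fin k), ∑ p : Col D × Col D, ∏ i ∈ Z, sg (e i p) := by
    rw [Finset.sum_comm]
    refine Finset.sum_congr rfl fun p _ => ?_
    rw [Finset.prod_one_add]
    simp
  rw [h1, h2]
  have h3 : ∀ Z : Finset (Fin k), ∑ p : Col D × Col D, ∏ i ∈ Z, sg (e i p) ≤
      (Fintype.card (Col D × Col D) : ℝ) *
      (if (∀ i ∈ Z, (∃ j ∈ Z, x j = fl s (x i)) ∧ (∃ j ∈ Z, y j = fl s (y i))) then 1 else 0) := by
    intro Z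
    split_ifs with hZ
    · rw [mul_one]
      calc ∑ p : Col D × Col D, ∏ i ∈ Z, sg (e i p) ≤ ∑ p : Col D × Col D, (1 : ℝ) := by
            refine Finset.sum_le_sum fun p _ => ?_
            refine (le_abs_self _).trans ?_
            rw [Finset.abs_prod]
            simp [abs_sg]
        _ = _ := by simp
    · rw [mul_zero]
      push Not at hZ
      obtain ⟨i, hi, hi'⟩ := hZ
      by_cases hx : ∃ j ∈ Z, x j = fl s (x i)
      · have hy := hi' hx
        -- flip the output switch
        let T : Equiv.Perm (Col D × Col D) := (Equiv.refl _).prodCongr (flc_invol s (y i)).toPerm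
        have hT : ∑ p : Col D × Col D, ∏ j ∈ Z, sg (e j p) =
            ∑ p : Col D × Col D, ∏ j ∈ Z, sg (e j (T p)) := (Equiv.sum_comp T _).symm
        have hT2 : ∀ p : Col D × Col D, ∏ j ∈ Z, sg (e j (T p)) = - ∏ j ∈ Z, sg (e j p) := by
          intro p
          rw [← Finset.mul_prod_erase Z _ hi, ← Finset.mul_prod_erase Z (fun j => sg (e j p)) hi]
          have a1 : sg (e i (T p)) = - sg (e i p) := by
            rw [← sg_not]
            congr 1
            show xor (swf s p.1 (x i) s) (swf s (flc s (y i) p.2) (y i) s) =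
              !(xor (swf s p.1 (x i) s) (swf s p.2 (y i) s))
            rw [swf_flc_self, Bool.xor_not]
          have a2 : ∏ j ∈ Z.erase i, sg (e j (T p)) = ∏ j ∈ Z.erase i, sg (e j p) := by
            refine Finset.prod_congr rfl fun j hj => ?_
            have hj1 : j ≠ i := Finset.ne_of_mem_erase hj
            have hj2 : j ∈ Z := Finset.mem_of_mem_erase hj
            show sg (xor (swf s p.1 (x j) s) (swf s (flc s (y i) p.2) (y j) s)) =
              sg (xor (swf s p.1 (x j) s) (swf s p.2 (y j) s))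
            rw [swf_flc_of_ne]
            intro h
            rcases (rp_eq_iff s (y i) (y j)).1 h with h | h
            · exact hj1 (y.injective h)
            · exact hy j hj2 h
          rw [a1, a2, neg_mul]
        simp only [hT2, Finset.sum_neg_distrib] at hT
        linarith
      · push Not at hx
        let T : Equiv.Perm (Col D × Col D) := (flc_invol s (x i)).toPerm.prodCongr (Equiv.refl _)
        have hT : ∑ p : Col D × Col D, ∏ j ∈ Z, sg (e j p) =
            ∑ p : Col D × Col D, ∏ j ∈ Z, sg (e j (T p)) := (Equiv.sum_comp T _).symm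
        have hT2 : ∀ p : Col D × Col D, ∏ j ∈ Z, sg (e j (T p)) = - ∏ j ∈ Z, sg (e j p) := by
          intro p
          rw [← Finset.mul_prod_erase Z _ hi, ← Finset.mul_prod_erase Z (fun j => sg (e j p)) hi]
          have a1 : sg (e i (T p)) = - sg (e i p) := by
            rw [← sg_not]
            congr 1
            show xor (swf s (flc s (x i) p.1) (x i) s) (swf s p.2 (y i) s) =
              !(xor (swf s p.1 (x i) s) (swf s p.2 (y i) s))
            rw [swf_flc_self, Bool.not_xor]
          have a2 : ∏ j ∈ Z.erase i, sg (e j (T p)) = ∏ j ∈ Z.erase i, sg (e j p) := by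
            refine Finset.prod_congr rfl fun j hj => ?_
            have hj1 : j ≠ i := Finset.ne_of_mem_erase hj
            have hj2 : j ∈ Z := Finset.mem_of_mem_erase hj
            show sg (xor (swf s (flc s (x i) p.1) (x j) s) (swf s p.2 (y j) s)) =
              sg (xor (swf s p.1 (x j) s) (swf s p.2 (y j) s))
            rw [swf_flc_of_ne]
            intro h
            rcases (rp_eq_iff s (x i) (x j)).1 h with h | h
            · exact hj1 (x.injective h)
            · exact hx j hj2 h
          rw [a1, a2, neg_mul]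
        simp only [hT2, Finset.sum_neg_distrib] at hT
        linarith
  refine (Finset.sum_le_sum fun Z _ => h3 Z).trans (le_of_eq ?_)
  rw [← Finset.mul_sum]
  congr 1
  unfold cl
  rw [Finset.card_filter]
  push_cast
  rfl

lemma jensen {α : Type*} [Fintype α] [Nonempty α] (t : α → ℝ) (ht : ∀ a, 0 ≤ t a) (H : Finset α)
    (hH : ∀ a, a ∉ H → t a = 0) (η A B K : ℝ) (hη : 0 ≤ η) (hA : 0 ≤ A) (hB : 0 ≤ B) (hK : 0 ≤ K)
    (h : A * (H.card : ℝ) ≤ (Fintype.card α : ℝ) * K) :
    av t * (A * B * av t) ^ η ≤ K ^ η * av (fun a => t a * (B * t a) ^ η) := by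
  have hN : (0 : ℝ) < (Fintype.card α : ℝ) := by exact_mod_cast Fintype.card_pos
  have h1 : ∀ u C : ℝ, 0 ≤ u → 0 ≤ C → u * (C * u) ^ η = C ^ η * u ^ (1 + η) := by
    intro u C hu hC
    rw [Real.mul_rpow hC hu, Real.rpow_add_of_nonneg hu zero_le_one hη, Real.rpow_one]
    ring
  have hav : 0 ≤ av t := av_nonneg ht
  rw [h1 _ _ hav (mul_nonneg hA hB)]
  have h2 : av (fun a => t a * (B * t a) ^ η) = B ^ η * av (fun a => t a ^ (1 + η)) := by
    rw [← av_mul_left]
    exact av_congr fun a => h1 _ _ (ht a) hB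
  rw [h2, Real.mul_rpow hA hB]
  have h3 : A ^ η * (av t) ^ (1 + η) ≤ K ^ η * av (fun a => t a ^ (1 + η)) := by
    have hS : ∑ a, t a = ∑ a ∈ H, t a := by
      symm
      apply Finset.sum_subset (Finset.subset_univ H)
      intro a _ ha
      exact hH a ha
    have h4 : (∑ a ∈ H, t a) ^ (1 + η) ≤ (H.card : ℝ) ^ η * ∑ a ∈ H, t a ^ (1 + η) := by
      have := Real.rpow_sum_le_const_mul_sum_rpow_of_nonneg (s := H) (f := t) (p := 1 + η)
        (by linarith) (fun a _ => ht a)
      simpa using this
    have h5 : ∑ a ∈ H, t a ^ (1 + η) ≤ ∑ a, t a ^ (1 + η) :=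
      Finset.sum_le_univ_sum_of_nonneg fun a => Real.rpow_nonneg (ht a) _
    have h6 : (av t) ^ (1 + η) = (∑ a ∈ H, t a) ^ (1 + η) / (Fintype.card α : ℝ) ^ (1 + η) := by
      unfold av
      rw [hS, Real.div_rpow (Finset.sum_nonneg fun a _ => ht a) hN.le]
    have h7 : 0 ≤ ∑ a, t a ^ (1 + η) := Finset.sum_nonneg fun a _ => Real.rpow_nonneg (ht a) _
    calc A ^ η * (av t) ^ (1 + η)
        = A ^ η * ((∑ a ∈ H, t a) ^ (1 + η)) / (Fintype.card α : ℝ) ^ (1 + η) := by
          rw [h6]; ring
      _ ≤ A ^ η * ((H.card : ℝ) ^ η * ∑ a, t a ^ (1 + η)) / (Fintype.card α : ℝ) ^ (1 + η) := by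
          apply div_le_div_of_nonneg_right _ (Real.rpow_nonneg hN.le _)
          apply mul_le_mul_of_nonneg_left _ (Real.rpow_nonneg hA _)
          exact h4.trans (mul_le_mul_of_nonneg_left h5 (Real.rpow_nonneg (Nat.cast_nonneg _) _))
      _ = (A * (H.card : ℝ)) ^ η / (Fintype.card α : ℝ) ^ η *
            ((∑ a, t a ^ (1 + η)) / (Fintype.card α : ℝ)) := by
          rw [Real.mul_rpow hA (Nat.cast_nonneg _), Real.rpow_add hN, Real.rpow_one]
          field_simp
      _ ≤ ((Fintype.card α : ℝ) * K) ^ η / (Fintype.card α : ℝ) ^ η *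
            ((∑ a, t a ^ (1 + η)) / (Fintype.card α : ℝ)) := by
          apply mul_le_mul_of_nonneg_right _ (div_nonneg h7 hN.le)
          apply div_le_div_of_nonneg_right _ (Real.rpow_nonneg hN.le _)
          exact Real.rpow_le_rpow (mul_nonneg hA (Nat.cast_nonneg _)) h hη
      _ = K ^ η * av (fun a => t a ^ (1 + η)) := by
          rw [Real.mul_rpow hN.le hK]
          have : (Fintype.card α : ℝ) ^ η ≠ 0 := (Real.rpow_pos_of_pos hN _).ne'
          unfold av
          field_simp
  calc A ^ η * B ^ η * av t ^ (1 + η) = B ^ η * (A ^ η * av t ^ (1 + η)) := by ring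
    _ ≤ B ^ η * (K ^ η * av (fun a => t a ^ (1 + η))) :=
        mul_le_mul_of_nonneg_left h3 (Real.rpow_nonneg hB _)
    _ = _ := by ring

/-- the product of the loop factors of the coordinates `< s` -/
noncomputable def FF {k D : ℕ} (η : ℝ) (s : ℕ) (I O : Fin D → Col D) (x : Om k D) : ℝ :=
  ∏ c ∈ univ.filter (fun c : Fin D => c.val < s),
    (cl c (fun i => ((mid I (c.val + 1))⁻¹ * mid I s) (x i))
      (fun i => out O c.val (mid I s (x i))) : ℝ) ^ η

lemma FF_nonneg {k D : ℕ} (η : ℝ) (s : ℕ) (I O : Fin D → Col D) (x : Om k D) :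
    0 ≤ FF η s I O x := Finset.prod_nonneg fun c _ => Real.rpow_nonneg (Nat.cast_nonneg _) _

lemma fl_swf {D : ℕ} (s : Fin D) (c : Col D) (z : X D) : swf s c (fl s z) = fl s (swf s c z) := by
  have h : rp s (fl s z) = rp s z := rp_fl s z
  simp only [swf, h]
  funext i
  by_cases hi : i = s
  · subst hi
    simp [fl]
  · simp [fl, Function.update_of_ne hi]

lemma cl_swf {k D : ℕ} (s : Fin D) (c : Col D) (u v : Fin k → X D) :
    cl s u (fun i => sw s c (v i)) = cl s u v := by
  unfold cl
  congr 1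
  ext Z
  simp only [mem_filter, mem_univ, true_and]
  have : ∀ i j, sw s c (v j) = fl s (sw s c (v i)) ↔ v j = fl s (v i) := by
    intro i j
    rw [sw_apply, sw_apply, ← fl_swf]
    exact (sw s c).injective.eq_iff
  simp only [this]

lemma Av_nonneg {k D : ℕ} (s : ℕ) (Φ : (Fin D → Col D) → (Fin D → Col D) → Om k D → ℝ)
    (hΦ : ∀ I O x, 0 ≤ Φ I O x) (x y : Om k D) : 0 ≤ Av s Φ x y := by
  refine av_nonneg fun I => av_nonneg fun O => ?_
  split_ifs
  · exact hΦ _ _ _
  · exact le_rfl

lemma Ps_nonneg {k D : ℕ} (s : ℕ) (x y : Om k D) : 0 ≤ Ps s x y :=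
  Av_nonneg s _ (fun _ _ _ => zero_le_one) x y

lemma Ps_zero_of_ne {k D : ℕ} (s : ℕ) (t : Fin D) (hst : s ≤ t.val) (x y : Om k D) (i : Fin k)
    (h : x i t ≠ y i t) : Ps s x y = 0 := by
  have h0 : ∀ I O : Fin D → Col D,
      (if act (out O s * mid I s) x = y then (1 : ℝ) else 0) = 0 := by
    intro I O
    rw [if_neg]
    intro h'
    apply h
    rw [← h', act_apply, Equiv.Perm.mul_apply, out_coord O t s hst, mid_coord I t s hst]
  unfold Ps Av
  simp only [h0, av_zero]

lemma FF_succ {k D : ℕ} (η : ℝ) (s : ℕ) (hs : s < D) (I O : Fin D → Col D) (x : Om k D) :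
    FF η (s + 1) I O x =
      (cl ⟨s, hs⟩ (fun i => x i) (fun i => out O s (mid I (s + 1) (x i))) : ℝ) ^ η *
        FF η s I O (act (sw ⟨s, hs⟩ (I ⟨s, hs⟩)) x) := by
  have e : univ.filter (fun c : Fin D => c.val < s + 1) =
      insert (⟨s, hs⟩ : Fin D) (univ.filter (fun c : Fin D => c.val < s)) := by
    ext c
    simp only [mem_filter, mem_univ, true_and, mem_insert, Fin.ext_iff]
    omega
  have hn : (⟨s, hs⟩ : Fin D) ∉ univ.filter (fun c : Fin D => c.val < s) := by simp
  unfold FF
  rw [e, Finset.prod_insert hn]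
  congr 1
  · simp
  · refine Finset.prod_congr rfl fun c _ => ?_
    simp only [mid, swN_eq I s hs, act_apply, Equiv.Perm.mul_apply]

lemma FF_update_left {k D : ℕ} (η : ℝ) (s : ℕ) (hs : s < D) (I O : Fin D → Col D) (x : Om k D)
    (c : Col D) : FF η s (Function.update I ⟨s, hs⟩ c) O x = FF η s I O x := by
  unfold FF
  refine Finset.prod_congr rfl fun b hb => ?_
  have hb' : b.val < s := (Finset.mem_filter.1 hb).2
  have e1 : mid (Function.update I ⟨s, hs⟩ c) (b.val + 1) = mid I (b.val + 1) :=
    mid_update I ⟨s, hs⟩ c (b.val + 1) hb'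
  have e2 : mid (Function.update I ⟨s, hs⟩ c) s = mid I s := mid_update I ⟨s, hs⟩ c s le_rfl
  rw [e1, e2]

lemma FF_update_right {k D : ℕ} (η : ℝ) (s : ℕ) (hs : s < D) (I O : Fin D → Col D) (x : Om k D)
    (c : Col D) : FF η s I (Function.update O ⟨s, hs⟩ c) x = FF η s I O x := by
  unfold FF
  refine Finset.prod_congr rfl fun b hb => ?_
  have hb' : b.val < s := (Finset.mem_filter.1 hb).2
  have e1 : out (Function.update O ⟨s, hs⟩ c) b.val = out O b.val :=
    out_update O ⟨s, hs⟩ c b.val hb'.le
  rw [e1]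

lemma claim {k D : ℕ} (η : ℝ) (hη : 0 ≤ η) : ∀ (s : ℕ), s ≤ D → ∀ (x y : Om k D),
    Ps s x y * ((((2 : ℝ) ^ s) ^ k) * Ps s x y) ^ η ≤ Av s (FF η s) x y
  | 0, _, x, y => by
      have h1 : Av 0 (FF η 0) x y = if x = y then 1 else 0 :=
        Av_zero _ x y 1 (fun I O => by simp [FF])
      have h2 : Ps 0 x y = if x = y then 1 else 0 := Av_zero _ x y 1 (fun _ _ => rfl)
      rw [h1, h2]
      split_ifs <;> simp
  | s + 1, hs', x, y => by
      have hs : s < D := hs'
      have hR := Av_succ s hs (FF η s) (FF η (s + 1)) x y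
        (fun I O x c => FF_update_left η s hs I O x c)
        (fun I O x c => FF_update_right η s hs I O x c)
        ((cl ⟨s, hs⟩ (fun i => x i) (fun i => y i) : ℝ) ^ η) (by
          intro I O h
          rw [FF_succ η s hs]
          congr 3
          have e : (fun i => out O s (mid I (s + 1) (x i))) =
              fun i => sw ⟨s, hs⟩ (O ⟨s, hs⟩) (y i) := by
            funext i
            rw [← h, act_apply]
            simp only [out, swN_eq O s hs, Equiv.Perm.mul_apply]
            exact (swf_invol (⟨s, hs⟩ : Fin D) (O ⟨s, hs⟩) _).symm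
          rw [e]
          exact cl_swf _ _ _ _)
      rw [hR]
      rw [Ps_succ s hs]
      let t : Col D × Col D → ℝ := fun p => Ps s (act (sw ⟨s, hs⟩ p.1) x) (act (sw ⟨s, hs⟩ p.2) y)
      have ht : av t = av (fun c : Col D => av (fun c' : Col D =>
          Ps s (act (sw ⟨s, hs⟩ c) x) (act (sw ⟨s, hs⟩ c') y))) := av_prod t
      rw [← ht]
      have hJ := jensen t (fun p => Ps_nonneg _ _ _) (HH ⟨s, hs⟩ x y) (by
          intro p hp
          unfold HH at hp
          simp only [mem_filter, mem_univ, true_and, not_forall] at hp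
          obtain ⟨i, hi⟩ := hp
          exact Ps_zero_of_ne s ⟨s, hs⟩ le_rfl _ _ i hi)
        η (2 ^ k) (((2 : ℝ) ^ s) ^ k) (cl ⟨s, hs⟩ (fun i => x i) (fun i => y i) : ℝ) hη
        (by positivity) (by positivity) (Nat.cast_nonneg _) (count _ _ _)
      have e2 : ((2 : ℝ) ^ (s + 1)) ^ k = 2 ^ k * (2 ^ s) ^ k := by
        rw [pow_succ, mul_pow, mul_comm]
      rw [e2]
      refine hJ.trans (mul_le_mul_of_nonneg_left ?_ (Real.rpow_nonneg (Nat.cast_nonneg _) _))
      rw [av_prod]
      exact av_mono fun c => av_mono fun c' => claim η hη s hs.le _ _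

theorem main : Spec.Loop := by
  intro D k η hη x y
  have h := claim η hη D le_rfl x y
  have hB : Bm D k x y = Ps D x y := by
    rw [Ps_eq D le_rfl x y]
    rfl
  rw [hB]
  refine h.trans (le_of_eq ?_)
  rw [av_prod]
  unfold Av
  refine av_congr fun I => av_congr fun O => ?_
  have e : univ.filter (fun c : Fin D => c.val < D) = univ := by
    ext c
    simp
  simp only [FF, e]
  rfl

end Crest.Agent.ThpLoop
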