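import Mathlib
import Crest.Agent.ThpSpec

/-! rid 155 module OP, part A: exponentials of symmetric operators, representation operators -/

set_option linter.unusedSectionVars false
set_option linter.deprecated false
set_option linter.style.haveILetI false

namespace Crest.Agent.ThpOp
open Finset Crest.Agent.Thp Crest.Agent.Thp.Spec

section ops
variable {E : Type} [NormedAddCommGroup E] [InnerProductSpace ℝ E] [FiniteDimensional ℝ E]

/-- symmetric operator -/
def SA (A : E →L[ℝ] E) : Prop := ∀ x y, inner ℝ (A x) y = inner ℝ x (A y)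

lemma SA.adj {A : E →L[ℝ] E} (h : SA A) : IsSelfAdjoint A := by
  haveI : CompleteSpace E := FiniteDimensional.complete ℝ E
  rw [ContinuousLinearMap.isSelfAdjoint_iff_isSymmetric]
  exact h

lemma SA.of_adj {A : E →L[ℝ] E} (h : IsSelfAdjoint A) : SA A := by
  rw [ContinuousLinearMap.isSelfAdjoint_iff_isSymmetric] at h
  exact h

lemma SA.exp {A : E →L[ℝ] E} (h : SA A) : SA (NormedSpace.exp A) := SA.of_adj h.adj.exp

lemma SA.smul {A : E →L[ℝ] E} (h : SA A) (c : ℝ) : SA (c • A) := by
  intro x y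
  simp only [ContinuousLinearMap.smul_apply, inner_smul_left, inner_smul_right, h x y]
  simp

lemma exp_add' {A B : E →L[ℝ] E} (h : Commute A B) :
    NormedSpace.exp (A + B) = NormedSpace.exp A * NormedSpace.exp B := by
  haveI : CompleteSpace E := FiniteDimensional.complete ℝ E
  let +nondep : NormedAlgebra ℚ (E →L[ℝ] E) := .restrictScalars ℚ ℝ _
  exact NormedSpace.exp_add_of_commute h

lemma exp_half (A : E →L[ℝ] E) (c : ℝ) :
    NormedSpace.exp (c • A) = NormedSpace.exp ((c/2) • A) * NormedSpace.exp ((c/2) • A) := by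
  rw [← exp_add' (Commute.refl _), ← add_smul]
  congr 2
  ring

/-- `⟨G, e^{cA} G⟩ = ‖e^{cA/2} G‖²` -/
lemma inner_exp {A : E →L[ℝ] E} (h : SA A) (c : ℝ) (G : E) :
    inner ℝ G (NormedSpace.exp (c • A) G) = ‖NormedSpace.exp ((c/2) • A) G‖ ^ 2 := by
  rw [exp_half, ← real_inner_self_eq_norm_sq]
  exact ((h.smul (c/2)).exp G _).symm

/-- action of the exponential on an eigenvector -/
lemma exp_eig {A : E →L[ℝ] E} {l : ℝ} {v : E} (h : A v = l • v) :
    NormedSpace.exp A v = Real.exp l • v := by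
  haveI : CompleteSpace E := FiniteDimensional.complete ℝ E
  have h1 := NormedSpace.exp_series_hasSum_exp' (𝕂 := ℝ) A
  have h2 : HasSum (fun n : ℕ => ((n.factorial : ℝ)⁻¹ • A ^ n) v) (NormedSpace.exp A v) :=
    h1.mapL (ContinuousLinearMap.apply ℝ E v)
  have hp : ∀ n : ℕ, (A ^ n) v = l ^ n • v := by
    intro n
    induction n with
    | zero => simp
    | succ n ih =>
      rw [pow_succ, ContinuousLinearMap.mul_apply, h, map_smul, ih, smul_smul, pow_succ, mul_comm]
  have h3 := NormedSpace.exp_series_hasSum_exp' (𝕂 := ℝ) l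
  rw [← Real.exp_eq_exp_ℝ] at h3
  have h4 : HasSum (fun n : ℕ => ((n.factorial : ℝ)⁻¹ • l ^ n) • v) (Real.exp l • v) :=
    h3.smul_const v
  have h5 : (fun n : ℕ => ((n.factorial : ℝ)⁻¹ • A ^ n) v) = fun n : ℕ => ((n.factorial : ℝ)⁻¹ • l ^ n) • v := by
    funext n
    rw [ContinuousLinearMap.smul_apply, hp, smul_smul, smul_eq_mul]
  rw [h5] at h2
  exact h2.unique h4

/-- `1 + A ≤ e^A` -/
lemma one_add_le_exp {A : E →L[ℝ] E} (h : SA A) (G : E) :
    ‖G‖ ^ 2 + inner ℝ G (A G) ≤ inner ℝ G (NormedSpace.exp A G) := by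
  have hs : (A : E →ₗ[ℝ] E).IsSymmetric := h
  set b := hs.eigenvectorBasis rfl with hb
  have hA : ∀ i, A (b i) = (hs.eigenvalues rfl i) • b i := fun i => by
    exact hs.apply_eigenvectorBasis rfl i
  have hE : ∀ i, NormedSpace.exp A (b i) = Real.exp (hs.eigenvalues rfl i) • b i := fun i => exp_eig (hA i)
  have key : ∀ (T : E →L[ℝ] E) (μ : Fin (Module.finrank ℝ E) → ℝ), SA T → (∀ i, T (b i) = μ i • b i) →
      inner ℝ G (T G) = ∑ i, μ i * (inner ℝ (b i) G) ^ 2 := by
    intro T μ hT hμ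
    rw [← b.sum_inner_mul_inner G (T G)]
    apply Finset.sum_congr rfl
    intro i _
    rw [← hT, hμ, inner_smul_left, real_inner_comm]
    simp
    ring
  have k0 : ‖G‖ ^ 2 = ∑ i, 1 * (inner ℝ (b i) G) ^ 2 := by
    have := key 1 (fun _ => 1) (fun x y => rfl) (fun i => by simp)
    rw [← this, ContinuousLinearMap.one_apply, real_inner_self_eq_norm_sq]
  rw [k0, key A _ h hA, key _ _ h.exp hE, ← Finset.sum_add_distrib]
  apply Finset.sum_le_sum
  intro i _
  have := Real.add_one_le_exp (hs.eigenvalues rfl i)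
  nlinarith [sq_nonneg (inner ℝ (b i) G)]

end ops

section rep
variable {Z : Type} [Fintype Z] [DecidableEq Z] {E : Type} [NormedAddCommGroup E]
  [InnerProductSpace ℝ E] [FiniteDimensional ℝ E] (ρ : Equiv.Perm Z →* (E ≃ₗᵢ[ℝ] E))

lemma opR_apply (g : Equiv.Perm Z) (x : E) : opR ρ g x = ρ g x := rfl

lemma opR_mul (g h : Equiv.Perm Z) : opR ρ (g * h) = opR ρ g * opR ρ h := by
  ext x
  simp [opR_apply, map_mul]

lemma opR_one : opR ρ 1 = 1 := by
  ext x
  simp [opR_apply]

lemma norm_opR (g : Equiv.Perm Z) (x : E) : ‖opR ρ g x‖ = ‖x‖ := by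
  rw [opR_apply]; exact (ρ g).norm_map x

lemma inner_opR (g : Equiv.Perm Z) (x y : E) : inner ℝ (opR ρ g x) (opR ρ g y) = inner ℝ x y := by
  rw [opR_apply, opR_apply]; exact (ρ g).inner_map_map x y

lemma SA_invol (g : Equiv.Perm Z) (hg : g * g = 1) : SA (opR ρ g) := by
  intro x y
  rw [← inner_opR ρ g x (opR ρ g y)]
  have : opR ρ g (opR ρ g y) = y := by
    rw [← ContinuousLinearMap.mul_apply, ← opR_mul, hg, opR_one]; rfl
  rw [this]

lemma SA_Lop : SA (Lop ρ) := by
  unfold Lop
  apply SA.smul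
  intro x y
  simp only [ContinuousLinearMap.sum_apply, ContinuousLinearMap.sub_apply, sum_inner, inner_sum,
    inner_sub_left, inner_sub_right, ContinuousLinearMap.one_apply]
  apply Finset.sum_congr rfl
  intro z _
  apply Finset.sum_congr rfl
  intro z' _
  rw [SA_invol ρ (Equiv.swap z z') (Equiv.swap_mul_self z z') x y]

/-- `L` is positive semidefinite -/
lemma Lop_nonneg (x : E) : 0 ≤ inner ℝ x (Lop ρ x) := by
  unfold Lop
  rw [ContinuousLinearMap.smul_apply, inner_smul_right]
  apply mul_nonneg (by positivity)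
  simp only [ContinuousLinearMap.sum_apply, ContinuousLinearMap.sub_apply, inner_sum, inner_sub_right,
    ContinuousLinearMap.one_apply]
  apply Finset.sum_nonneg
  intro z _
  apply Finset.sum_nonneg
  intro z' _
  have h1 := real_inner_le_norm x (opR ρ (Equiv.swap z z') x)
  rw [norm_opR] at h1
  rw [real_inner_self_eq_norm_sq]
  nlinarith

/-- `L` commutes with every group element -/
lemma Lop_central (g : Equiv.Perm Z) : Commute (Lop ρ) (opR ρ g) := by
  unfold Lop
  apply Commute.smul_left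
  show (∑ z : Z, ∑ z' : Z, ((1 : E →L[ℝ] E) - opR ρ (Equiv.swap z z'))) * opR ρ g
    = opR ρ g * (∑ z : Z, ∑ z' : Z, ((1 : E →L[ℝ] E) - opR ρ (Equiv.swap z z')))
  rw [Finset.sum_mul, Finset.mul_sum, ← Equiv.sum_comp g]
  apply Finset.sum_congr rfl
  intro z _
  rw [Finset.sum_mul, Finset.mul_sum, ← Equiv.sum_comp g]
  apply Finset.sum_congr rfl
  intro z' _
  rw [sub_mul, mul_sub, ← opR_mul, ← opR_mul, one_mul, mul_one]
  congr 2
  ext x
  simp only [Equiv.Perm.coe_mul, Function.comp]
  exact (g.injective.swap_apply z z' x)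

/-- average over a finite type of group elements -/
noncomputable def avOp {α : Type} [Fintype α] (T : α → Equiv.Perm Z) : E →L[ℝ] E :=
  (1 / (Fintype.card α : ℝ)) • ∑ c : α, opR ρ (T c)

lemma norm_avOp_le {α : Type} [Fintype α] (T : α → Equiv.Perm Z) (x : E) :
    ‖avOp ρ T x‖ ≤ ‖x‖ := by
  unfold avOp
  rw [ContinuousLinearMap.smul_apply, norm_smul, ContinuousLinearMap.sum_apply]
  rcases isEmpty_or_nonempty α with h | h
  · simp
  · have hc : (0:ℝ) < Fintype.card α := by exact_mod_cast Fintype.card_pos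
    have h1 : ‖∑ c : α, opR ρ (T c) x‖ ≤ ∑ c : α, ‖x‖ :=
      (norm_sum_le _ _).trans (le_of_eq (Finset.sum_congr rfl fun c _ => norm_opR ρ _ x))
    rw [Finset.sum_const, Finset.card_univ, nsmul_eq_mul] at h1
    rw [Real.norm_eq_abs, abs_of_pos (by positivity)]
    calc 1 / (Fintype.card α : ℝ) * ‖∑ c : α, opR ρ (T c) x‖
        ≤ 1 / (Fintype.card α : ℝ) * (Fintype.card α * ‖x‖) := mul_le_mul_of_nonneg_left h1 (by positivity)
      _ = ‖x‖ := by field_simp

/-- commuting with all group elements is enough for averages and `L` -/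
lemma comm_avOp {α : Type} [Fintype α] (T : α → Equiv.Perm Z) {A : E →L[ℝ] E}
    (h : ∀ g, Commute A (opR ρ g)) : Commute A (avOp ρ T) := by
  unfold avOp
  apply Commute.smul_right
  exact Commute.sum_right _ _ _ fun c _ => h _

lemma comm_Lop {A : E →L[ℝ] E} (h : ∀ g, Commute A (opR ρ g)) : Commute A (Lop ρ) := by
  unfold Lop
  apply Commute.smul_right
  refine Commute.sum_right _ _ _ fun z _ => Commute.sum_right _ _ _ fun z' _ => ?_
  exact (Commute.one_right _).sub_right (h _)

end rep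
end Crest.Agent.ThpOp
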