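import Mathlib
import Crest.Agent.ThpOpA

/-! rid 155 module OP, part B: splitting the cube along the last coordinate -/

set_option linter.unusedSectionVars false
set_option linter.deprecated false
set_option linter.style.haveILetI false

namespace Crest.Agent.ThpOp
open Finset Crest.Agent.Thp Crest.Agent.Thp.Spec

/-- `X D × Bool ≃ X (D+1)` -/
def ph (D : ℕ) : X D × Bool ≃ X (D+1) where
  toFun p := Fin.snoc (α := fun _ => Bool) p.1 p.2
  invFun x := (fun i => x i.castSucc, x (Fin.last D))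
  left_inv p := by
    ext i
    · simp
    · simp
  right_inv x := by
    funext i
    refine Fin.lastCases ?_ (fun i => ?_) i
    · simp
    · simp

lemma ph_apply {D : ℕ} (p : X D) (b : Bool) : ph D (p, b) = Fin.snoc (α := fun _ => Bool) p b := rfl

/-- extension of a permutation to one half -/
def ext (D : ℕ) (h : Bool) : Equiv.Perm (X D) →* Equiv.Perm (X D × Bool) where
  toFun g :=
    { toFun := fun x => if x.2 = h then (g x.1, x.2) else x
      invFun := fun x => if x.2 = h then (g⁻¹ x.1, x.2) else x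
      left_inv := by
        rintro ⟨p, b⟩
        by_cases hb : b = h <;> simp [hb]
      right_inv := by
        rintro ⟨p, b⟩
        by_cases hb : b = h <;> simp [hb] }
  map_one' := by
    ext1 x
    rcases x with ⟨p, b⟩
    by_cases hb : b = h <;> simp [hb]
  map_mul' := by
    intro g g'
    ext1 x
    rcases x with ⟨p, b⟩
    by_cases hb : b = h <;> simp [hb]

lemma ext_apply {D : ℕ} (h : Bool) (g : Equiv.Perm (X D)) (p : X D) (b : Bool) :
    ext D h g (p, b) = if b = h then (g p, b) else (p, b) := rfl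

lemma ext_comm {D : ℕ} (g g' : Equiv.Perm (X D)) :
    ext D false g * ext D true g' = ext D true g' * ext D false g := by
  ext1 x
  rcases x with ⟨p, b⟩
  cases b <;> simp [ext_apply]

lemma ext_swap {D : ℕ} (h : Bool) (p q : X D) :
    ext D h (Equiv.swap p q) = Equiv.swap (p, h) (q, h) := by
  ext1 x
  rcases x with ⟨r, b⟩
  rw [ext_apply]
  by_cases hb : b = h
  · subst hb
    rw [if_pos rfl]
    by_cases h1 : r = p
    · subst h1; simp
    · by_cases h2 : r = q
      · subst h2; simp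
      · rw [Equiv.swap_apply_of_ne_of_ne h1 h2, Equiv.swap_apply_of_ne_of_ne]
        · simp [h1]
        · simp [h2]
  · rw [if_neg hb, Equiv.swap_apply_of_ne_of_ne]
    · simp [hb]
    · simp [hb]

variable {E : Type} [NormedAddCommGroup E] [InnerProductSpace ℝ E] [FiniteDimensional ℝ E]

/-- the two halves -/
def half {D : ℕ} (ρ : Equiv.Perm (X D × Bool) →* (E ≃ₗᵢ[ℝ] E)) (h : Bool) :
    Equiv.Perm (X D) →* (E ≃ₗᵢ[ℝ] E) := ρ.comp (ext D h)

/-- transport to the product -/
def tr {D : ℕ} (ρ : Equiv.Perm (X (D+1)) →* (E ≃ₗᵢ[ℝ] E)) :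
    Equiv.Perm (X D × Bool) →* (E ≃ₗᵢ[ℝ] E) := ρ.comp (ph D).permCongrHom.toMonoidHom

lemma opR_half {D : ℕ} (ρ : Equiv.Perm (X D × Bool) →* (E ≃ₗᵢ[ℝ] E)) (h : Bool)
    (g : Equiv.Perm (X D)) : opR (half ρ h) g = opR ρ (ext D h g) := rfl

lemma opR_tr {D : ℕ} (ρ : Equiv.Perm (X (D+1)) →* (E ≃ₗᵢ[ℝ] E)) (g : Equiv.Perm (X D × Bool)) :
    opR (tr ρ) g = opR ρ ((ph D).permCongr g) := rfl

lemma comm_halves {D : ℕ} (ρ : Equiv.Perm (X D × Bool) →* (E ≃ₗᵢ[ℝ] E)) (g g' : Equiv.Perm (X D)) :
    Commute (opR (half ρ false) g) (opR (half ρ true) g') := by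
  show opR (half ρ false) g * opR (half ρ true) g' = opR (half ρ true) g' * opR (half ρ false) g
  rw [opR_half, opR_half, ← opR_mul, ext_comm, opR_mul]

lemma LH_eq {D : ℕ} (ρ : Equiv.Perm (X D × Bool) →* (E ≃ₗᵢ[ℝ] E)) :
    LH ρ = Lop (half ρ false) + Lop (half ρ true) := by
  unfold LH Lop
  rw [Fintype.sum_bool, ← smul_add, add_comm]
  simp only [opR_half, ext_swap]

lemma permCongr_swap {D : ℕ} (a b : X D × Bool) :
    (ph D).permCongr (Equiv.swap a b) = Equiv.swap (ph D a) (ph D b) := by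
  ext1 x
  rw [Equiv.permCongr_apply]
  have := (ph D).injective.swap_apply a b ((ph D).symm x)
  rw [← this, Equiv.apply_symm_apply]

lemma Lop_tr {D : ℕ} (ρ : Equiv.Perm (X (D+1)) →* (E ≃ₗᵢ[ℝ] E)) : Lop (tr ρ) = Lop ρ := by
  unfold Lop
  have hc : Fintype.card (X D × Bool) = Fintype.card (X (D+1)) := Fintype.card_congr (ph D)
  rw [hc]
  congr 1
  rw [← Equiv.sum_comp (ph D)]
  apply Finset.sum_congr rfl
  intro a _
  rw [← Equiv.sum_comp (ph D)]
  apply Finset.sum_congr rfl
  intro b _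
  rw [opR_tr, permCongr_swap]

/-- switches at the other coordinates act on the two halves separately -/
lemma sw_castSucc {D : ℕ} (s : Fin D) (c : Col (D+1)) :
    sw s.castSucc c = (ph D).permCongr (ext D false (sw s (fun p => c (ph D (p, false)))) *
      ext D true (sw s (fun p => c (ph D (p, true))))) := by
  ext1 x
  obtain ⟨⟨p, b⟩, rfl⟩ := (ph D).surjective x
  rw [Equiv.permCongr_apply, Equiv.symm_apply_apply, sw_apply, Equiv.Perm.mul_apply]
  have hrp : rp s.castSucc (ph D (p, b)) = ph D (rp s p, b) := by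
    simp only [rp, ph_apply, Fin.snoc_update]
  have h1 : swf s.castSucc c (ph D (p, b)) = ph D (swf s (fun p => c (ph D (p, b))) p, b) := by
    unfold swf
    rw [hrp]
    simp only [ph_apply, Fin.snoc_update, Fin.snoc_castSucc]
  rw [h1]
  cases b <;> simp [ext_apply]

/-- switches at the last coordinate -/
lemma sw_last {D : ℕ} (c : Col (D+1)) (p : X D) (b : Bool) :
    sw (Fin.last D) c (ph D (p, b)) = ph D (p, xor b (c (ph D (p, false)))) := by
  rw [sw_apply]
  unfold swf rp
  simp only [ph_apply, Fin.update_snoc_last, Fin.snoc_last]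

/-- one column -/
noncomputable def Pop {D : ℕ} (ρ : Equiv.Perm (X D) →* (E ≃ₗᵢ[ℝ] E)) (s : Fin D) : E →L[ℝ] E :=
  avOp ρ (fun c : Col D => sw s c)

/-- `P_0 P_1 ⋯ P_{n-1}` -/
noncomputable def Nop {D : ℕ} (ρ : Equiv.Perm (X D) →* (E ≃ₗᵢ[ℝ] E)) : ℕ → (E →L[ℝ] E)
  | 0 => 1
  | n + 1 => Nop ρ n * (if h : n < D then Pop ρ ⟨n, h⟩ else 1)

/-- columns of the two halves -/
def colEquiv (D : ℕ) : Col (D+1) ≃ Col D × Col D where
  toFun c := (fun p => c (ph D (p, false)), fun p => c (ph D (p, true)))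
  invFun d := fun x => if ((ph D).symm x).2 then d.2 ((ph D).symm x).1 else d.1 ((ph D).symm x).1
  left_inv c := by
    funext x
    obtain ⟨⟨p, b⟩, rfl⟩ := (ph D).surjective x
    cases b <;> simp
  right_inv d := by
    rcases d with ⟨d1, d2⟩
    simp

lemma Pop_castSucc {D : ℕ} (ρ : Equiv.Perm (X (D+1)) →* (E ≃ₗᵢ[ℝ] E)) (s : Fin D) :
    Pop ρ s.castSucc = Pop (half (tr ρ) false) s * Pop (half (tr ρ) true) s := by
  unfold Pop avOp
  have hc : (Fintype.card (Col (D+1)) : ℝ) = (Fintype.card (Col D) : ℝ) * (Fintype.card (Col D) : ℝ) := by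
    rw [Fintype.card_congr (colEquiv D), Fintype.card_prod]; push_cast; ring
  rw [smul_mul_smul_comm, hc]
  congr 1
  · ring
  · rw [Finset.sum_mul_sum, ← Finset.sum_product', Finset.univ_product_univ,
      ← Equiv.sum_comp (colEquiv D)]
    apply Finset.sum_congr rfl
    intro c _
    show opR ρ (sw s.castSucc c) = _
    rw [sw_castSucc, ← opR_tr, opR_mul]
    rfl

lemma comm_Pop {D : ℕ} (ρ : Equiv.Perm (X D) →* (E ≃ₗᵢ[ℝ] E)) (s : Fin D) {A : E →L[ℝ] E}
    (h : ∀ g, Commute A (opR ρ g)) : Commute A (Pop ρ s) := comm_avOp ρ _ h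

lemma comm_Nop {D : ℕ} (ρ : Equiv.Perm (X D) →* (E ≃ₗᵢ[ℝ] E)) (n : ℕ) {A : E →L[ℝ] E}
    (h : ∀ g, Commute A (opR ρ g)) : Commute A (Nop ρ n) := by
  induction n with
  | zero => exact Commute.one_right _
  | succ n ih =>
    rw [Nop]
    apply ih.mul_right
    split_ifs
    · exact comm_Pop ρ _ h
    · exact Commute.one_right _

lemma Nop_split {D : ℕ} (ρ : Equiv.Perm (X (D+1)) →* (E ≃ₗᵢ[ℝ] E)) (n : ℕ) (hn : n ≤ D) :
    Nop ρ n = Nop (half (tr ρ) false) n * Nop (half (tr ρ) true) n := by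
  induction n with
  | zero => simp [Nop]
  | succ n ih =>
    have hn' : n < D := hn
    rw [Nop, Nop, Nop, ih hn'.le, dif_pos (by omega : n < D + 1), dif_pos hn', dif_pos hn']
    rw [show (⟨n, by omega⟩ : Fin (D+1)) = Fin.castSucc ⟨n, hn'⟩ from rfl, Pop_castSucc]
    set P0 := Pop (half (tr ρ) false) ⟨n, hn'⟩
    set P1 := Pop (half (tr ρ) true) ⟨n, hn'⟩
    set N0 := Nop (half (tr ρ) false) n
    set N1 := Nop (half (tr ρ) true) n
    have hcomm : Commute P0 N1 := by
      apply comm_Nop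
      intro g
      exact (comm_Pop (half (tr ρ) false) _ (fun g' => (comm_halves (tr ρ) g' g).symm)).symm
    calc N0 * N1 * (P0 * P1) = N0 * (N1 * P0) * P1 := by simp only [mul_assoc]
      _ = N0 * (P0 * N1) * P1 := by rw [hcomm.eq]
      _ = N0 * P0 * (N1 * P1) := by simp only [mul_assoc]

/-- the last column makes vectors invariant under the fibre swaps -/
lemma Pop_last_inv {D : ℕ} (ρ : Equiv.Perm (X (D+1)) →* (E ≃ₗᵢ[ℝ] E)) (p : X D) (G : E) :
    tr ρ (Equiv.swap (p, false) (p, true)) (Pop ρ (Fin.last D) G) = Pop ρ (Fin.last D) G := by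
  have h1 : opR (tr ρ) (Equiv.swap (p, false) (p, true)) * Pop ρ (Fin.last D) = Pop ρ (Fin.last D) := by
    unfold Pop avOp
    rw [mul_smul_comm]
    congr 1
    rw [Finset.mul_sum]
    set z0 := ph D (p, false) with hz0
    have hinv : Function.Involutive (fun c : Col (D+1) => Function.update c z0 (!(c z0))) := by
      intro c
      simp
    rw [← Equiv.sum_comp hinv.toPerm]
    apply Finset.sum_congr rfl
    intro c _
    rw [opR_tr, ← opR_mul]
    congr 1
    ext1 x
    obtain ⟨⟨q, b⟩, rfl⟩ := (ph D).surjective x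
    rw [Equiv.Perm.mul_apply, sw_last, sw_last, Equiv.permCongr_apply, Equiv.symm_apply_apply]
    congr 1
    show Equiv.swap (p, false) (p, true) (q, xor b (Function.update c z0 (!(c z0)) (ph D (q, false)))) = _
    by_cases hq : q = p
    · subst hq
      rw [← hz0, Function.update_self]
      cases b <;> cases (c z0) <;> simp
    · have hne : ph D (q, false) ≠ z0 := by
        rw [hz0]
        intro h
        have := (ph D).injective h
        exact hq (by simpa using this)
      rw [Function.update_of_ne hne, Equiv.swap_apply_of_ne_of_ne]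
      · simp [hq]
      · simp [hq]
  have h2 := congrArg (fun A : E →L[ℝ] E => A G) h1
  exact h2

end Crest.Agent.ThpOp
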