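import Mathlib
import Crest.Agent.ThpOpB
import Crest.Agent.ThpLib

/-! rid 155 module OP: the Beneš operator is at most `exp (- 0.178 L)` -/

set_option linter.unusedSectionVars false
set_option linter.deprecated false
set_option linter.style.haveILetI false

namespace Crest.Agent.ThpOp
open Finset Crest.Agent.Thp Crest.Agent.Thp.Spec

noncomputable def tD (D : ℕ) : ℝ := 178 / 1000 + 144 / 1000 / 2 ^ D

lemma tD_nonneg (D : ℕ) : 0 ≤ tD D := by unfold tD; positivity

lemma tD_le (D : ℕ) (h : 1 ≤ D) : tD D ≤ 1 / 4 := by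
  unfold tD
  have : (2:ℝ) ≤ 2 ^ D := by
    calc (2:ℝ) = 2 ^ 1 := by norm_num
      _ ≤ 2 ^ D := pow_le_pow_right₀ (by norm_num) h
  have h2 : (144:ℝ) / 1000 / 2 ^ D ≤ 144 / 1000 / 2 := div_le_div_of_nonneg_left (by norm_num) (by norm_num) this
  linarith

lemma tD_succ (D : ℕ) : tD (D+1) = tD D - (9 / 125) / 2 ^ D := by
  unfold tD
  rw [pow_succ]
  field_simp
  ring

theorem claim (hS : Sect) (D : ℕ) : ∀ (E : Type) [NormedAddCommGroup E] [InnerProductSpace ℝ E]
    [FiniteDimensional ℝ E] (ρ : Equiv.Perm (X D) →* (E ≃ₗᵢ[ℝ] E)) (G : E),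
    ‖Nop ρ D G‖ ^ 2 ≤ inner ℝ G (NormedSpace.exp (-(tD D) • Lop ρ) G) := by
  induction D with
  | zero =>
    intro E _ _ _ ρ G
    have hL : Lop ρ = 0 := by
      unfold Lop
      have : ∀ z z' : X 0, opR ρ (Equiv.swap z z') = 1 := by
        intro z z'
        rw [Subsingleton.elim z z', Equiv.swap_self]
        exact opR_one ρ
      simp [this]
    rw [hL, smul_zero, NormedSpace.exp_zero]
    show ‖G‖ ^ 2 ≤ inner ℝ G G
    rw [real_inner_self_eq_norm_sq]
  | succ D ih =>
    intro E _ _ _ ρ G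
    have hSA := SA_Lop ρ
    set PD := Pop ρ (Fin.last D) with hPD
    have hPDc : Commute (Lop ρ) PD := comm_Pop ρ _ (Lop_central ρ)
    have hPDe : ∀ c : ℝ, Commute (NormedSpace.exp (c • Lop ρ)) PD := fun c =>
      (hPDc.smul_left c).exp_left
    have hPDn : ∀ x, ‖PD x‖ ≤ ‖x‖ := fun x => norm_avOp_le ρ _ x
    have hNop : Nop ρ (D+1) = Nop ρ D * PD := by
      rw [Nop, dif_pos (by omega : D < D + 1)]
      rfl
    -- closing step
    have hclose : ∀ t : ℝ, ‖NormedSpace.exp ((-t/2) • Lop ρ) (PD G)‖ ^ 2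
        ≤ inner ℝ G (NormedSpace.exp (-t • Lop ρ) G) := by
      intro t
      rw [inner_exp hSA]
      have h1 : NormedSpace.exp ((-t/2) • Lop ρ) (PD G) = PD (NormedSpace.exp ((-t/2) • Lop ρ) G) := by
        have := congrArg (fun A : E →L[ℝ] E => A G) (hPDe (-t/2)).eq
        exact this
      rw [h1]
      exact pow_le_pow_left₀ (norm_nonneg _) (hPDn _) 2
    rw [hNop]
    show ‖Nop ρ D (PD G)‖ ^ 2 ≤ _
    rcases Nat.eq_zero_or_pos D with hD | hD
    · subst hD
      refine le_trans (le_of_eq ?_) (hclose _)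
      show ‖(1 : E →L[ℝ] E) (PD G)‖ ^ 2 = _
      have hz : Lop ρ (PD G) = 0 := by
        rw [← Lop_tr]
        unfold Lop
        rw [ContinuousLinearMap.smul_apply]
        simp only [ContinuousLinearMap.sum_apply, ContinuousLinearMap.sub_apply]
        rw [Finset.sum_eq_zero, smul_zero]
        intro a _
        apply Finset.sum_eq_zero
        intro b _
        rw [sub_eq_zero]
        show PD G = tr ρ (Equiv.swap a b) (PD G)
        rcases a with ⟨p, i⟩
        rcases b with ⟨q, j⟩
        rw [Subsingleton.elim q p]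
        cases i <;> cases j
        · rw [Equiv.swap_self]
          have := map_one (tr ρ)
          rw [show (Equiv.refl (X 0 × Bool)) = (1 : Equiv.Perm (X 0 × Bool)) from rfl, this]
          rfl
        · exact (Pop_last_inv ρ p G).symm
        · rw [Equiv.swap_comm]
          exact (Pop_last_inv ρ p G).symm
        · rw [Equiv.swap_self]
          have := map_one (tr ρ)
          rw [show (Equiv.refl (X 0 × Bool)) = (1 : Equiv.Perm (X 0 × Bool)) from rfl, this]
          rfl
      have hz2 : ((-(tD (0+1))/2) • Lop ρ) (PD G) = (0:ℝ) • PD G := by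
        rw [ContinuousLinearMap.smul_apply, hz, smul_zero, zero_smul]
      rw [exp_eig hz2, Real.exp_zero, one_smul]
      rfl
    · -- main step
      set H := PD G with hH
      set ρ' := tr ρ with hρ'
      set ρ0 := half ρ' false with hρ0
      set ρ1 := half ρ' true with hρ1
      set t := tD D with ht
      have ht0 : 0 ≤ t := tD_nonneg D
      have ht1 : t ≤ 1 / 4 := tD_le D hD
      set L := Lop ρ with hL
      set L0 := Lop ρ0 with hL0
      set L1 := Lop ρ1 with hL1
      have hSA0 : SA L0 := SA_Lop ρ0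
      have hSA1 : SA L1 := SA_Lop ρ1
      have hLtr : Lop ρ' = L := Lop_tr ρ
      have hLH : LH ρ' = L0 + L1 := LH_eq ρ'
      -- commutations
      have c01 : ∀ g g', Commute (opR ρ0 g) (opR ρ1 g') := comm_halves ρ'
      have cN1 : ∀ g, Commute (Nop ρ1 D) (opR ρ0 g) := fun g => (comm_Nop ρ1 D (c01 g)).symm
      have cN1L0 : Commute (Nop ρ1 D) L0 := comm_Lop ρ0 cN1
      have cL0L1 : Commute L0 L1 := comm_Lop ρ1 (fun g' => (comm_Lop ρ0 (fun g => (c01 g g').symm)).symm)
      have cLL0 : Commute L L0 := by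
        rw [← hLtr]
        exact comm_Lop ρ0 (fun g => Lop_central ρ' _)
      have cLL1 : Commute L L1 := by
        rw [← hLtr]
        exact comm_Lop ρ1 (fun g => Lop_central ρ' _)
      -- step 1
      have s1 : ‖Nop ρ D H‖ ^ 2 ≤ ‖NormedSpace.exp ((-t/2) • L0) (Nop ρ1 D H)‖ ^ 2 := by
        rw [Nop_split ρ D le_rfl]
        have := ih E ρ0 (Nop ρ1 D H)
        rwa [inner_exp hSA0] at this
      have s2 : NormedSpace.exp ((-t/2) • L0) (Nop ρ1 D H) = Nop ρ1 D (NormedSpace.exp ((-t/2) • L0) H) := by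
        have h1 : Commute (NormedSpace.exp ((-t/2) • L0)) (Nop ρ1 D) :=
          (cN1L0.symm.smul_left (-t/2)).exp_left
        exact congrArg (fun A : E →L[ℝ] E => A H) h1.eq
      have s3 : ‖Nop ρ1 D (NormedSpace.exp ((-t/2) • L0) H)‖ ^ 2
          ≤ ‖NormedSpace.exp ((-t/2) • L1) (NormedSpace.exp ((-t/2) • L0) H)‖ ^ 2 := by
        have := ih E ρ1 (NormedSpace.exp ((-t/2) • L0) H)
        rwa [inner_exp hSA1] at this
      -- e^{-t LH} = e^{-tL/2} e^{t(L-LH)} e^{-tL/2}
      set G' := NormedSpace.exp ((-t/2) • L) H with hG'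
      have s4 : NormedSpace.exp ((-t/2) • L1) (NormedSpace.exp ((-t/2) • L0) H)
          = NormedSpace.exp ((t/2) • (L - (L0 + L1))) G' := by
        have h1 : NormedSpace.exp ((-t/2) • L1) * NormedSpace.exp ((-t/2) • L0)
            = NormedSpace.exp ((-t/2) • (L0 + L1)) := by
          rw [← exp_add' ((cL0L1.symm.smul_left _).smul_right _), ← smul_add, add_comm]
        have h2 : NormedSpace.exp ((t/2) • (L - (L0 + L1))) * NormedSpace.exp ((-t/2) • L)
            = NormedSpace.exp ((-t/2) • (L0 + L1)) := by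
          have hc : Commute (L - (L0 + L1)) L :=
            (Commute.refl L).sub_left (cLL0.symm.add_left cLL1.symm)
          rw [← exp_add' ((hc.smul_left _).smul_right _)]
          congr 1
          module
        have h3 := congrArg (fun A : E →L[ℝ] E => A H) (h1.trans h2.symm)
        exact h3
      have hSAd : SA (L - (L0 + L1)) := by
        intro x y
        simp only [ContinuousLinearMap.sub_apply, ContinuousLinearMap.add_apply, inner_sub_left,
          inner_sub_right, inner_add_left, inner_add_right]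
        rw [hSA x y, hSA0 x y, hSA1 x y]
      have s5 : ‖NormedSpace.exp ((t/2) • (L - (L0 + L1))) G'‖ ^ 2
          = inner ℝ G' (NormedSpace.exp (t • (L - (L0 + L1))) G') := (inner_exp hSAd t G').symm
      -- invariance of G'
      have hinv : ∀ p, ρ' (Equiv.swap (p, false) (p, true)) G' = G' := by
        intro p
        have h1 : Commute (NormedSpace.exp ((-t/2) • L)) (opR ρ' (Equiv.swap (p, false) (p, true))) := by
          rw [← hLtr]
          exact ((Lop_central ρ' _).smul_left _).exp_left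
        have h2 := congrArg (fun A : E →L[ℝ] E => A H) h1.eq
        have h3 : opR ρ' (Equiv.swap (p, false) (p, true)) G'
            = NormedSpace.exp ((-t/2) • L) (opR ρ' (Equiv.swap (p, false) (p, true)) H) := h2.symm
        have h4 : opR ρ' (Equiv.swap (p, false) (p, true)) H = H := Pop_last_inv ρ p G
        rw [h4] at h3
        exact h3
      have s6 := hS (X D) E ρ' G' hinv t ht0 ht1
      rw [hLtr, hLH] at s6
      have hcard : (Fintype.card (X D) : ℝ) = 2 ^ D := by
        simp [X]
      rw [hcard] at s6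
      set ε : ℝ := (9 / 125) / 2 ^ D with hε
      have s7 : ‖G'‖ ^ 2 + ε * inner ℝ G' (L G') ≤ inner ℝ G' (NormedSpace.exp (ε • L) G') := by
        have := one_add_le_exp (hSA.smul ε) G'
        rwa [ContinuousLinearMap.smul_apply, inner_smul_right] at this
      have s8 : inner ℝ G' (NormedSpace.exp (ε • L) G')
          = ‖NormedSpace.exp ((-(t - ε)/2) • L) H‖ ^ 2 := by
        rw [inner_exp hSA]
        have h1 : NormedSpace.exp ((ε/2) • L) * NormedSpace.exp ((-t/2) • L)
            = NormedSpace.exp ((-(t - ε)/2) • L) := by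
          rw [← exp_add' (((Commute.refl L).smul_left _).smul_right _), ← add_smul]
          congr 2
          ring
        have h2 := congrArg (fun A : E →L[ℝ] E => A H) h1
        have h3 : NormedSpace.exp ((ε/2) • L) G' = NormedSpace.exp ((-(t - ε)/2) • L) H := h2
        rw [h3]
      have s9 := hclose (t - ε)
      have ht' : tD (D+1) = t - ε := tD_succ D
      rw [ht']
      calc ‖Nop ρ D H‖ ^ 2 ≤ ‖NormedSpace.exp ((-t/2) • L0) (Nop ρ1 D H)‖ ^ 2 := s1
        _ = ‖Nop ρ1 D (NormedSpace.exp ((-t/2) • L0) H)‖ ^ 2 := by rw [s2]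
        _ ≤ ‖NormedSpace.exp ((-t/2) • L1) (NormedSpace.exp ((-t/2) • L0) H)‖ ^ 2 := s3
        _ = inner ℝ G' (NormedSpace.exp (t • (L - (L0 + L1))) G') := by rw [s4, s5]
        _ ≤ ‖G'‖ ^ 2 + ε * inner ℝ G' (L G') := s6
        _ ≤ inner ℝ G' (NormedSpace.exp (ε • L) G') := s7
        _ = ‖NormedSpace.exp ((-(t - ε)/2) • L) H‖ ^ 2 := s8
        _ ≤ _ := s9

/-! ### specialisation to functions on states -/

/-- permutations act on states -/
def actE' {k D : ℕ} (g : Equiv.Perm (X D)) : Equiv.Perm (Om k D) where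
  toFun := act g
  invFun := act g⁻¹
  left_inv x := by ext1 i; simp
  right_inv x := by ext1 i; simp

/-- the representation on functions of states -/
noncomputable def rep (k D : ℕ) : Equiv.Perm (X D) →*
    (EuclideanSpace ℝ (Om k D) ≃ₗᵢ[ℝ] EuclideanSpace ℝ (Om k D)) where
  toFun g := LinearIsometryEquiv.piLpCongrLeft 2 ℝ ℝ (actE' g)
  map_one' := by
    ext1 f
    ext1 x
    simp [LinearIsometryEquiv.piLpCongrLeft_apply, Equiv.piCongrLeft', actE']
    try rfl
  map_mul' := by
    intro g g'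
    ext1 f
    ext1 x
    simp [LinearIsometryEquiv.piLpCongrLeft_apply, Equiv.piCongrLeft', actE']
    try rfl

lemma rep_apply {k D : ℕ} (g : Equiv.Perm (X D)) (f : EuclideanSpace ℝ (Om k D)) (x : Om k D) :
    (rep k D g f) x = f (act g⁻¹ x) := rfl

/-- as a vector of the Euclidean space -/
noncomputable def toE {k D : ℕ} (f : Om k D → ℝ) : EuclideanSpace ℝ (Om k D) := WithLp.toLp 2 f

lemma toE_apply {k D : ℕ} (f : Om k D → ℝ) (x : Om k D) : toE f x = f x := rfl

lemma Pop_rep {k D : ℕ} (s : Fin D) (f : Om k D → ℝ) :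
    Pop (rep k D) s (toE f) = toE ((Pm D k s).mulVec f) := by
  ext1 x
  rw [toE_apply, Pm_mulVec, av_def]
  unfold Pop avOp
  rw [ContinuousLinearMap.smul_apply, ContinuousLinearMap.sum_apply]
  have h1 : ∀ c : Col D, (opR (rep k D) (sw s c) (toE f)) x = f (act (sw s c) x) := by
    intro c
    rw [opR_apply, rep_apply, sw_inv]
    rfl
  show (1 / (Fintype.card (Col D) : ℝ)) * (∑ c : Col D, opR (rep k D) (sw s c) (toE f)) x = _
  have h2 : (∑ c : Col D, opR (rep k D) (sw s c) (toE f)) x
      = ∑ c : Col D, (opR (rep k D) (sw s c) (toE f)) x := by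
    simp
  rw [h2]
  simp_rw [h1]
  ring

lemma Nop_rep {k D : ℕ} (n : ℕ) (f : Om k D → ℝ) :
    Nop (rep k D) n (toE f) = toE ((TmN D k n).transpose.mulVec f) := by
  induction n generalizing f with
  | zero => simp [Nop, TmN]
  | succ n ih =>
    rw [Nop, TmN, Matrix.transpose_mul, ← Matrix.mulVec_mulVec]
    show Nop (rep k D) n ((if h : n < D then Pop (rep k D) ⟨n, h⟩ else 1) (toE f)) = _
    by_cases hn : n < D
    · rw [dif_pos hn, dif_pos hn, Pm_transpose, Pop_rep, ih]
    · rw [dif_neg hn, dif_neg hn, Matrix.transpose_one, Matrix.one_mulVec]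
      exact ih f

lemma Lop_rep {k D : ℕ} (f : Om k D → ℝ) :
    Lop (rep k D) (toE f) = toE ((Lm D k).mulVec f) := by
  ext1 x
  rw [toE_apply]
  unfold Lop Lm
  rw [ContinuousLinearMap.smul_apply, card_X]
  have h1 : ∀ z z' : X D, (opR (rep k D) (Equiv.swap z z') (toE f)) x = f (act (Equiv.swap z z') x) := by
    intro z z'
    rw [opR_apply, rep_apply, Equiv.swap_inv]
    rfl
  have h2 : (((∑ z : X D, ∑ z' : X D, ((1 : EuclideanSpace ℝ (Om k D) →L[ℝ] EuclideanSpace ℝ (Om k D)) -
      opR (rep k D) (Equiv.swap z z')) : EuclideanSpace ℝ (Om k D) →L[ℝ] EuclideanSpace ℝ (Om k D))) (toE f)) x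
      = ∑ z : X D, ∑ z' : X D, (f x - f (act (Equiv.swap z z') x)) := by
    rw [ContinuousLinearMap.sum_apply]
    simp only [WithLp.ofLp_sum, Finset.sum_apply, ContinuousLinearMap.sum_apply]
    apply Finset.sum_congr rfl
    intro z _
    apply Finset.sum_congr rfl
    intro z' _
    rw [← h1]
    rfl
  have h3 : ((∑ z : X D, ∑ z' : X D, ((1 : Matrix (Om k D) (Om k D) ℝ) -
      Rm k (Equiv.swap z z'))).mulVec f) x
      = ∑ z : X D, ∑ z' : X D, (f x - f (act (Equiv.swap z z') x)) := by
    rw [Matrix.sum_mulVec]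
    simp only [Finset.sum_apply, Matrix.sum_mulVec]
    apply Finset.sum_congr rfl
    intro z _
    apply Finset.sum_congr rfl
    intro z' _
    rw [Matrix.sub_mulVec, Matrix.one_mulVec, Pi.sub_apply, Rm_mulVec]
  rw [Matrix.smul_mulVec]
  show (1 / (2 * ((2 ^ D : ℕ) : ℝ))) * _ = (1 / (2 * (2:ℝ) ^ D)) * _
  rw [h3, ← h2]
  push_cast
  rfl

theorem main (hS : Sect) : Op := by
  intro D k β l f hf hB hL
  set F := toE f with hF
  have hF0 : 0 < ‖F‖ ^ 2 := by
    have : F ≠ 0 := by
      intro h
      apply hf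
      funext x
      have := congrArg (fun v : EuclideanSpace ℝ (Om k D) => v x) h
      exact this
    have := norm_pos_iff.2 this
    positivity
  have hLF : Lop (rep k D) F = l • F := by
    rw [hF, Lop_rep, hL]
    rfl
  have hl : 0 ≤ l := by
    have := Lop_nonneg (rep k D) F
    rw [hLF, inner_smul_right, real_inner_self_eq_norm_sq] at this
    by_contra hneg
    push Not at hneg
    nlinarith
  have h1 := claim hS D _ (rep k D) F
  have h2 : (-(tD D) • Lop (rep k D)) F = (-(tD D) * l) • F := by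
    rw [ContinuousLinearMap.smul_apply, hLF, smul_smul]
  rw [exp_eig h2, inner_smul_right, real_inner_self_eq_norm_sq] at h1
  have h3 : ‖Nop (rep k D) D F‖ ^ 2 = β * ‖F‖ ^ 2 := by
    rw [hF, Nop_rep, EuclideanSpace.norm_sq_eq, EuclideanSpace.norm_sq_eq]
    simp only [toE_apply, Real.norm_eq_abs, sq_abs]
    have h4 : ∑ x, ((TmN D k D).transpose.mulVec f x) ^ 2 = dotProduct f ((Bm D k).mulVec f) := by
      have e1 : ∑ x, ((TmN D k D).transpose.mulVec f x) ^ 2
          = dotProduct ((Tm D k).transpose.mulVec f) ((Tm D k).transpose.mulVec f) := by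
        simp only [dotProduct, sq]
        rfl
      rw [e1, Bm, ← Matrix.mulVec_mulVec, Matrix.dotProduct_mulVec f, ← Matrix.mulVec_transpose]
    rw [h4, hB]
    simp only [dotProduct, Pi.smul_apply, smul_eq_mul, Finset.mul_sum]
    apply Finset.sum_congr rfl
    intro x _
    ring
  rw [h3] at h1
  have h5 : β ≤ Real.exp (-(tD D) * l) := le_of_mul_le_mul_right h1 hF0
  refine h5.trans (Real.exp_le_exp.2 ?_)
  have h6 : (178:ℝ) / 1000 ≤ tD D := by
    unfold tD
    have : (0:ℝ) ≤ 144 / 1000 / 2 ^ D := by positivity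
    linarith
  nlinarith

end Crest.Agent.ThpOp
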