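import Mathlib
import Crest.Agent.ThpDefs
import Crest.Agent.ThpSpec

/-!
rid 155, module PATH: the path of `a` given the paths of `B`, every fresh switch costs a factor 2.
-/

namespace Crest.Agent.ThpPath
open Finset Crest.Agent.Thp

lemma sum_split {ι α : Type*} [Fintype ι] [DecidableEq ι] [Fintype α] (s : ι)
    (f : α → (ι → α) → ℝ) (hf : ∀ c O c', f c (Function.update O s c') = f c O) :
    (Fintype.card α : ℝ) * ∑ O : ι → α, f (O s) O = ∑ c, ∑ O, f c O := by
  let e : (α × (ι → α)) ≃ (α × (ι → α)) :=
    { toFun := fun p => (p.2 s, Function.update p.2 s p.1)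
      invFun := fun p => (p.2 s, Function.update p.2 s p.1)
      left_inv := by
        rintro ⟨c, O⟩
        simp
      right_inv := by
        rintro ⟨c, O⟩
        simp }
  rw [← Fintype.sum_prod_type' (f := fun c O => f c O), ← e.sum_comp]
  have : ∀ p : α × (ι → α), f (e p).1 (e p).2 = f (p.2 s) p.2 := by
    rintro ⟨c, O⟩
    exact hf _ _ _
  simp_rw [this]
  rw [Fintype.sum_prod_type]
  simp

lemma swf_of_ne {D : ℕ} {s t : Fin D} (h : t ≠ s) (c : Col D) (z : X D) : swf s c z t = z t := by
  simp [swf, Function.update_of_ne h]

lemma pw_update {D : ℕ} (O : Fin D → Col D) (s : Fin D) (c : Col D) :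
    ∀ (W : List (Fin D)), s ∉ W → pw (Function.update O s c) W = pw O W
  | [], _ => rfl
  | t :: W, h => by
      have h1 : t ≠ s := fun h' => h (by simp [h'])
      have h2 : s ∉ W := fun h' => h (by simp [h'])
      simp [pw, pw_update O s c W h2, Function.update_of_ne h1]

lemma sh_update {D : ℕ} (O : Fin D → Col D) (s : Fin D) (c : Col D) :
    ∀ (W : List (Fin D)) (Q : Finset (X D)) (b : X D), s ∉ W →
      sh (Function.update O s c) W Q b = sh O W Q b
  | [], _, _, _ => rfl
  | t :: W, Q, b, h => by
      have h1 : t ≠ s := fun h' => h (by simp [h'])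
      have h2 : s ∉ W := fun h' => h (by simp [h'])
      simp only [sh, Function.update_of_ne h1]
      rw [sh_update O s c W _ _ h2]

lemma sh_le {D : ℕ} (O : Fin D → Col D) :
    ∀ (W : List (Fin D)) (Q : Finset (X D)) (b : X D), sh O W Q b ≤ W.length
  | [], _, _ => le_rfl
  | t :: W, Q, b => by
      simp only [sh, List.length_cons]
      have := sh_le O W (Q.image (sw t (O t))) (sw t (O t) b)
      split_ifs <;> omega

lemma pw_coord {D : ℕ} (O : Fin D → Col D) (s : Fin D) :
    ∀ (W : List (Fin D)), s ∉ W → ∀ z : X D, pw O W z s = z s
  | [], _, _ => rfl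
  | t :: W, h, z => by
      have h1 : s ≠ t := fun h' => h (by simp [h'])
      have h2 : s ∉ W := fun h' => h (by simp [h'])
      simp only [pw, Equiv.Perm.mul_apply]
      rw [pw_coord O s W h2, sw_apply, swf_of_ne h1]

/-- the columns `c` and `c` flipped at `rp s a` -/
def flc {D : ℕ} (s : Fin D) (a : X D) (c : Col D) : Col D :=
  Function.update c (rp s a) (!(c (rp s a)))

lemma flc_invol {D : ℕ} (s : Fin D) (a : X D) : Function.Involutive (flc s a) := by
  intro c
  simp [flc]

lemma rp_eq_iff {D : ℕ} (s : Fin D) (a b : X D) : rp s b = rp s a ↔ b = a ∨ b = fl s a := by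
  constructor
  · intro h
    have h' : ∀ i, i ≠ s → b i = a i := by
      intro i hi
      have := congrFun h i
      simpa [rp, Function.update_of_ne hi] using this
    by_cases hs : b s = a s
    · left
      funext i
      by_cases hi : i = s
      · rw [hi, hs]
      · exact h' i hi
    · right
      funext i
      by_cases hi : i = s
      · subst hi
        have : b i = !(a i) := by
          cases hb : b i <;> cases ha : a i <;> simp_all
        simp [fl, this]
      · simp [fl, Function.update_of_ne hi, h' i hi]
  · rintro (h | h)
    · rw [h]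
    · rw [h, rp_fl]

lemma swf_flc_of_ne {D : ℕ} (s : Fin D) (a b : X D) (c : Col D) (h : rp s b ≠ rp s a) :
    swf s (flc s a c) b = swf s c b := by
  simp [swf, flc, Function.update_of_ne h]

lemma swf_flc_self {D : ℕ} (s : Fin D) (a : X D) (c : Col D) :
    swf s (flc s a c) a s = !(swf s c a s) := by
  simp [swf, flc]

theorem main : Spec.Path := by
  classical
  intro D W
  induction W with
  | nil =>
    intro _ B a τ _
    have h1 : ∀ O : Fin D → Col D, (2 : ℝ) ^ (([] : List (Fin D)).length - sh O [] B a) = 1 := by
      intro O
      simp [sh]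
    simp only [h1, Finset.sum_const, nsmul_eq_mul, mul_one]
    exact_mod_cast Finset.card_le_card (by
      intro O hO
      rw [Finset.mem_filter] at hO ⊢
      exact ⟨hO.1, hO.2.1⟩)
  | cons s W ih =>
    intro hW B a τ haB
    have hs : s ∉ W := (List.nodup_cons.1 hW).1
    have hW' : W.Nodup := (List.nodup_cons.1 hW).2
    -- fixed column
    let Hc : Col D → (Fin D → Col D) → ℝ := fun c O =>
      if ∀ b ∈ B, pw O W (sw s c b) = τ b then 1 else 0
    let Gc : Col D → (Fin D → Col D) → ℝ := fun c O =>
      if (∀ b ∈ B, pw O W (sw s c b) = τ b) ∧ pw O W (sw s c a) = τ a then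
        (2 : ℝ) ^ ((W.length + 1) - ((if fl s a ∈ B then 1 else 0) +
          sh O W (B.image (sw s c)) (sw s c a))) else 0
    have hH : ∀ c O c', Hc c (Function.update O s c') = Hc c O := by
      intro c O c'
      simp only [Hc, pw_update O s c' W hs]
    have hG : ∀ c O c', Gc c (Function.update O s c') = Gc c O := by
      intro c O c'
      simp only [Gc, pw_update O s c' W hs, sh_update O s c' W _ _ hs]
    have eG := sum_split s Gc hG
    have eH := sum_split s Hc hH
    have hcard : (0 : ℝ) < (Fintype.card (Col D) : ℝ) := by
      exact_mod_cast Fintype.card_pos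
    have key : ∀ c, ∑ O, (if (∀ b ∈ B, pw O W (sw s c b) = τ b) ∧ pw O W (sw s c a) = τ a then
        (2 : ℝ) ^ (W.length - sh O W (B.image (sw s c)) (sw s c a)) else 0) ≤ ∑ O, Hc c O := by
      intro c
      have h := ih hW' (B.image (sw s c)) (sw s c a) (τ ∘ (sw s c).symm) (by
        intro h
        rw [Finset.mem_image] at h
        obtain ⟨b, hb, hb'⟩ := h
        exact haB ((sw s c).injective hb' ▸ hb))
      have e1 : ∀ O : Fin D → Col D, (∀ b ∈ B.image (sw s c), pw O W b = (τ ∘ (sw s c).symm) b) ↔
          (∀ b ∈ B, pw O W (sw s c b) = τ b) := by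
        intro O
        constructor
        · intro h b hb
          have := h (sw s c b) (Finset.mem_image_of_mem _ hb)
          rw [this, Function.comp_apply, Equiv.symm_apply_apply]
        · intro h b hb
          rw [Finset.mem_image] at hb
          obtain ⟨b', hb', rfl⟩ := hb
          rw [h b' hb', Function.comp_apply, Equiv.symm_apply_apply]
      have e2 : ∀ O : Fin D → Col D, (pw O W (sw s c a) = (τ ∘ (sw s c).symm) (sw s c a)) ↔
          (pw O W (sw s c a) = τ a) := by
        intro O
        rw [Function.comp_apply, Equiv.symm_apply_apply]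
      rw [Finset.sum_filter, Finset.card_filter] at h
      push_cast at h
      refine le_trans (le_of_eq ?_) (h.trans (le_of_eq ?_))
      · refine Finset.sum_congr rfl fun O _ => ?_
        exact if_congr (and_congr (e1 O).symm (e2 O).symm) rfl rfl
      · refine Finset.sum_congr rfl fun O _ => ?_
        exact if_congr (e1 O) rfl rfl
    have main : ∑ c, ∑ O, Gc c O ≤ ∑ c, ∑ O, Hc c O := by
      by_cases hfl : fl s a ∈ B
      · refine Finset.sum_le_sum fun c _ => ?_
        refine le_trans (le_of_eq ?_) (key c)
        refine Finset.sum_congr rfl fun O _ => ?_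
        simp only [Gc, hfl, if_true]
        have : W.length + 1 - (1 + sh O W (B.image (sw s c)) (sw s c a)) =
          W.length - sh O W (B.image (sw s c)) (sw s c a) := by omega
        rw [this]
      · -- the bit
        have h1 : ∀ c, ∑ O, Gc c O ≤ if sw s c a s = τ a s then 2 * ∑ O, Hc c O else 0 := by
          intro c
          split_ifs with hbit
          · refine le_trans (le_of_eq ?_) (mul_le_mul_of_nonneg_left (key c) (by norm_num))
            rw [Finset.mul_sum]
            refine Finset.sum_congr rfl fun O _ => ?_
            simp only [Gc, hfl, if_false]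
            have := sh_le O W (B.image (sw s c)) (sw s c a)
            have e : W.length + 1 - (0 + sh O W (B.image (sw s c)) (sw s c a)) =
              (W.length - sh O W (B.image (sw s c)) (sw s c a)) + 1 := by omega
            rw [e]
            split_ifs
            · ring
            · simp
          · refine le_of_eq (Finset.sum_eq_zero fun O _ => ?_)
            simp only [Gc]
            rw [if_neg]
            rintro ⟨_, h⟩
            apply hbit
            rw [← h, pw_coord O s W hs]
        have h2 : ∀ c, ∑ O, Hc (flc s a c) O = ∑ O, Hc c O := by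
          intro c
          refine Finset.sum_congr rfl fun O _ => ?_
          have : ∀ b ∈ B, sw s (flc s a c) b = sw s c b := by
            intro b hb
            simp only [sw_apply]
            apply swf_flc_of_ne
            intro h
            rcases (rp_eq_iff s a b).1 h with h | h
            · exact haB (h ▸ hb)
            · exact hfl (h ▸ hb)
          simp only [Hc]
          congr 1
          apply propext
          constructor
          · intro h b hb
            rw [← this b hb]
            exact h b hb
          · intro h b hb
            rw [this b hb]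
            exact h b hb
        have h3 : ∑ c, (if sw s c a s = τ a s then ∑ O, Hc c O else 0) =
            ∑ c, (if ¬ (sw s c a s = τ a s) then ∑ O, Hc c O else 0) := by
          rw [← Equiv.sum_comp (flc_invol s a).toPerm]
          refine Finset.sum_congr rfl fun c _ => ?_
          simp only [Function.Involutive.coe_toPerm]
          rw [h2]
          congr 1
          apply propext
          simp only [sw_apply, swf_flc_self]
          cases swf s c a s <;> cases τ a s <;> simp
        have h4 : ∑ c, ∑ O, Hc c O = ∑ c, (if sw s c a s = τ a s then ∑ O, Hc c O else 0) +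
            ∑ c, (if ¬ (sw s c a s = τ a s) then ∑ O, Hc c O else 0) := by
          rw [← Finset.sum_add_distrib]
          refine Finset.sum_congr rfl fun c _ => ?_
          split_ifs <;> simp_all
        calc ∑ c, ∑ O, Gc c O ≤ ∑ c, (if sw s c a s = τ a s then 2 * ∑ O, Hc c O else 0) :=
              Finset.sum_le_sum fun c _ => h1 c
          _ = 2 * ∑ c, (if sw s c a s = τ a s then ∑ O, Hc c O else 0) := by
              rw [Finset.mul_sum]
              refine Finset.sum_congr rfl fun c _ => ?_
              split_ifs <;> simp
          _ = ∑ c, ∑ O, Hc c O := by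
              rw [h4, ← h3]
              ring
    have fin : ∑ O, Gc (O s) O ≤ ∑ O, Hc (O s) O := by
      have := eG.le.trans (main.trans eH.symm.le)
      exact le_of_mul_le_mul_left this hcard
    rw [Finset.sum_filter]
    refine le_trans (le_of_eq ?_) (fin.trans (le_of_eq ?_))
    · refine Finset.sum_congr rfl fun O _ => ?_
      simp only [Gc, pw, sh, Equiv.Perm.mul_apply, List.length_cons]
      all_goals congr
    · rw [Finset.card_filter]
      push_cast
      refine Finset.sum_congr rfl fun O _ => ?_
      simp only [Hc, pw, Equiv.Perm.mul_apply]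
      all_goals congr

end Crest.Agent.ThpPath
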