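import Crest.Agent.ThpSpec

/-! Module SCHATTEN of rid 155 (S0222), by helper12. -/

set_option autoImplicit false

open Finset Matrix

namespace Crest.Agent.ThpSchatten

variable {ι : Type} [Fintype ι] [DecidableEq ι]

theorem trace_cyc (A B : Matrix ι ι ℝ) (n : ℕ) : ((A * B) ^ n).trace = ((B * A) ^ n).trace := by
  rcases n with _ | n
  · simp
  · rw [pow_succ, ← mul_assoc, mul_pow_mul, Matrix.trace_mul_comm, ← mul_assoc, ← pow_succ']

theorem cs (A B : Matrix ι ι ℝ) :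
    ((A * B).trace) ^ 2 ≤ (A * Aᵀ).trace * (Bᵀ * B).trace := by
  have h1 : (A * B).trace = ∑ p : ι × ι, A p.1 p.2 * B p.2 p.1 := by
    rw [Fintype.sum_prod_type]; rfl
  have h2 : (A * Aᵀ).trace = ∑ p : ι × ι, A p.1 p.2 ^ 2 := by
    rw [Fintype.sum_prod_type]
    simp only [Matrix.trace, Matrix.diag_apply, Matrix.mul_apply, Matrix.transpose_apply, sq]
  have h3 : (Bᵀ * B).trace = ∑ p : ι × ι, B p.2 p.1 ^ 2 := by
    rw [Fintype.sum_prod_type]
    simp only [Matrix.trace, Matrix.diag_apply, Matrix.mul_apply, Matrix.transpose_apply, sq]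
  rw [h1, h2, h3]
  exact Finset.sum_mul_sq_le_sq_mul_sq _ _ _

theorem nonneg (Z : Matrix ι ι ℝ) (n : ℕ) : 0 ≤ ((Zᵀ * Z) ^ n).trace := by
  have h1 : (Zᵀ * Z).PosSemidef := by
    have := Matrix.posSemidef_conjTranspose_mul_self Z
    rwa [Matrix.conjTranspose_eq_transpose_of_trivial] at this
  exact (h1.pow n).trace_nonneg

/-- the two inequalities, by mutual induction -/
theorem ST (m : ℕ) :
    (∀ Z : Matrix ι ι ℝ, |(Z ^ (2 ^ (m + 1))).trace| ≤ ((Zᵀ * Z) ^ (2 ^ m)).trace) ∧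
    (∀ X Y : Matrix ι ι ℝ, Xᵀ = X → Yᵀ = Y →
      (((X * Y) ^ (2 ^ m)).trace) ^ 2 ≤ (X ^ (2 ^ (m + 1))).trace * (Y ^ (2 ^ (m + 1))).trace) := by
  induction m with
  | zero =>
    constructor
    · intro Z
      have h := cs Z Z
      have h2 : (Z * Zᵀ).trace = (Zᵀ * Z).trace := Matrix.trace_mul_comm _ _
      have h3 := nonneg Z 1
      rw [pow_one] at h3
      simp only [zero_add, pow_one, pow_zero]
      rw [h2] at h
      rw [sq Z]
      refine abs_le_of_sq_le_sq ?_ h3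
      rw [sq (Zᵀ * Z).trace]
      exact h
    · intro X Y hX hY
      have h := cs X Y
      rw [hX, hY] at h
      simpa [sq] using h
  | succ m ih =>
    obtain ⟨ihS, ihT⟩ := ih
    constructor
    · intro Z
      have e1 : Z ^ (2 ^ (m + 1 + 1)) = (Z ^ 2) ^ (2 ^ (m + 1)) := by
        rw [← pow_mul]; congr 1; ring
      have h1 := ihS (Z ^ 2)
      rw [← e1] at h1
      have e2 : (Z ^ 2)ᵀ * Z ^ 2 = (Zᵀ * (Zᵀ * Z)) * Z := by
        rw [sq, Matrix.transpose_mul]; simp only [mul_assoc]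
      have e3 : (((Z ^ 2)ᵀ * Z ^ 2) ^ (2 ^ m)).trace = (((Z * Zᵀ) * (Zᵀ * Z)) ^ (2 ^ m)).trace := by
        rw [e2, trace_cyc]; simp only [mul_assoc]
      have h2 := ihT (Z * Zᵀ) (Zᵀ * Z) (by simp) (by simp)
      rw [trace_cyc Z Zᵀ, ← e3, ← sq] at h2
      have h3 : (((Z ^ 2)ᵀ * Z ^ 2) ^ (2 ^ m)).trace ≤ ((Zᵀ * Z) ^ (2 ^ (m + 1))).trace :=
        le_of_sq_le_sq h2 (nonneg Z _)
      exact h1.trans h3
    · intro X Y hX hY
      have e1 : (X * Y) ^ (2 ^ (m + 1)) = (X * Y) ^ (2 ^ (m + 1)) := rfl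
      have h1 := ihS (X * Y)
      have e2 : (X * Y)ᵀ * (X * Y) = Y * (X ^ 2 * Y) := by
        rw [Matrix.transpose_mul, hX, hY, sq]; simp only [mul_assoc]
      have e3 : (((X * Y)ᵀ * (X * Y)) ^ (2 ^ m)).trace = ((X ^ 2 * Y ^ 2) ^ (2 ^ m)).trace := by
        rw [e2, trace_cyc, sq Y]; simp only [mul_assoc]
      have h2 := ihT (X ^ 2) (Y ^ 2) (by rw [Matrix.transpose_pow, hX]) (by rw [Matrix.transpose_pow, hY])
      rw [← e3] at h2
      have h3 : ((X * Y) ^ (2 ^ (m + 1))).trace ^ 2 ≤ (((X * Y)ᵀ * (X * Y)) ^ (2 ^ m)).trace ^ 2 := by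
        rw [← sq_abs]
        exact pow_le_pow_left₀ (abs_nonneg _) h1 2
      refine h3.trans (h2.trans_eq ?_)
      rw [← pow_mul, ← pow_mul]
      have : 2 * 2 ^ (m + 1) = 2 ^ (m + 1 + 1) := by ring
      rw [this]

theorem step (A : Matrix ι ι ℝ) (m : ℕ) :
    (((A ^ 2)ᵀ * A ^ 2) ^ (2 ^ m)).trace ≤ ((Aᵀ * A) ^ (2 ^ (m + 1))).trace := by
  have e2 : (A ^ 2)ᵀ * A ^ 2 = (Aᵀ * (Aᵀ * A)) * A := by
    rw [sq, Matrix.transpose_mul]; simp only [mul_assoc]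
  have e3 : (((A ^ 2)ᵀ * A ^ 2) ^ (2 ^ m)).trace = (((A * Aᵀ) * (Aᵀ * A)) ^ (2 ^ m)).trace := by
    rw [e2, trace_cyc]; simp only [mul_assoc]
  have h2 := (ST m).2 (A * Aᵀ) (Aᵀ * A) (by simp) (by simp)
  rw [trace_cyc A Aᵀ, ← e3, ← sq] at h2
  exact le_of_sq_le_sq h2 (nonneg A _)

theorem main : Crest.Agent.Thp.Spec.Schatten := by
  intro ι _ _ M
  set A := Mᵀ with hA
  have e1 : (M ^ 16 * (M ^ 16)ᵀ) = (A ^ 16)ᵀ * A ^ 16 := by
    rw [hA, Matrix.transpose_pow, Matrix.transpose_pow, Matrix.transpose_transpose]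
  have e2 : (M * Mᵀ) = Aᵀ * A := by rw [hA, Matrix.transpose_transpose]
  rw [e1, e2]
  have h1 := step (A ^ 8) 0
  have h2 := step (A ^ 4) 1
  have h3 := step (A ^ 2) 2
  have h4 := step A 3
  norm_num [← pow_mul] at h1 h2 h3 h4
  rw [Matrix.transpose_pow]
  linarith

end Crest.Agent.ThpSchatten
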