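import Crest.Agent.ThpSpec
import Crest.Agent.ThpLib

/-!
rid 155 (S0222, Thorp shuffle): module SMALL (`Spec.Small`), pairs occupied by a random set of cards.
-/

set_option autoImplicit false

namespace Crest.Agent.Thp
open Finset

namespace SmallM

open Classical in
/-- number of states whose image contains `A` -/
noncomputable def NA (k : ℕ) {D : ℕ} (A : Finset (X D)) : ℝ :=
  ∑ x : Om k D, if (∀ z ∈ A, ∃ i, x i = z) then 1 else 0

variable {k D : ℕ}

lemma NA_nonneg (A : Finset (X D)) : 0 ≤ NA k A :=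
  Finset.sum_nonneg fun x _ => by split_ifs <;> norm_num

lemma NA_empty : NA k (∅ : Finset (X D)) = (Fintype.card (Om k D) : ℝ) := by
  simp [NA]

lemma NA_swap (A : Finset (X D)) (z z' : X D) (hz : z ∉ A) (hz' : z' ∉ A) :
    NA k (insert z A) = NA k (insert z' A) := by
  classical
  unfold NA
  rw [← Equiv.sum_comp (actE (k := k) (Equiv.swap z z'))]
  refine Finset.sum_congr rfl fun x _ => ?_
  have key : (∀ w ∈ insert z A, ∃ i, (actE (Equiv.swap z z') x) i = w) ↔
      (∀ w ∈ insert z' A, ∃ i, x i = w) := by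
    have e : ∀ w i, (actE (Equiv.swap z z') x) i = w ↔ x i = Equiv.swap z z' w := by
      intro w i
      change Equiv.swap z z' (x i) = w ↔ _
      constructor
      · rintro rfl; simp
      · intro h; rw [h]; simp
    simp only [e]
    constructor
    · intro h w hw
      rcases Finset.mem_insert.mp hw with rfl | hwA
      · obtain ⟨i, hi⟩ := h z (Finset.mem_insert_self _ _)
        exact ⟨i, by simpa using hi⟩
      · obtain ⟨i, hi⟩ := h w (Finset.mem_insert_of_mem hwA)
        have hw1 : w ≠ z := fun h => hz (by rw [← h]; exact hwA)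
        have hw2 : w ≠ z' := fun h => hz' (by rw [← h]; exact hwA)
        rw [Equiv.swap_apply_of_ne_of_ne hw1 hw2] at hi
        exact ⟨i, hi⟩
    · intro h w hw
      rcases Finset.mem_insert.mp hw with rfl | hwA
      · obtain ⟨i, hi⟩ := h z' (Finset.mem_insert_self _ _)
        exact ⟨i, by simpa using hi⟩
      · obtain ⟨i, hi⟩ := h w (Finset.mem_insert_of_mem hwA)
        have hw1 : w ≠ z := fun h => hz (by rw [← h]; exact hwA)
        have hw2 : w ≠ z' := fun h => hz' (by rw [← h]; exact hwA)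
        rw [Equiv.swap_apply_of_ne_of_ne hw1 hw2]
        exact ⟨i, hi⟩
  simp only [key]

lemma NA_sum (A : Finset (X D)) :
    ∑ z ∈ univ \ A, NA k (insert z A) = ((k : ℝ) - A.card) * NA k A := by
  classical
  unfold NA
  rw [Finset.sum_comm, Finset.mul_sum]
  refine Finset.sum_congr rfl fun x _ => ?_
  by_cases h : ∀ z ∈ A, ∃ i, x i = z
  · rw [if_pos h, mul_one]
    have e : ∀ z ∈ univ \ A, (if (∀ w ∈ insert z A, ∃ i, x i = w) then (1 : ℝ) else 0) =
        if z ∈ univ.map x then 1 else 0 := by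
      intro z _
      congr 1
      simp only [Finset.forall_mem_insert, eq_iff_iff, Finset.mem_map, Finset.mem_univ, true_and]
      exact ⟨fun h => h.1, fun h' => ⟨h', h⟩⟩
    rw [Finset.sum_congr rfl e, ← Finset.sum_filter, Finset.sum_const, nsmul_eq_mul, mul_one]
    have e2 : (univ \ A).filter (fun z => z ∈ univ.map x) = univ.map x \ A := by
      ext z
      simp [and_comm]
    rw [e2]
    have hsub : A ⊆ univ.map x := by
      intro z hz
      obtain ⟨i, hi⟩ := h z hz
      exact Finset.mem_map.mpr ⟨i, Finset.mem_univ _, hi⟩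
    rw [Finset.card_sdiff_of_subset hsub, Nat.cast_sub (Finset.card_le_card hsub)]
    simp
  · rw [if_neg h, mul_zero]
    refine Finset.sum_eq_zero fun z _ => ?_
    rw [if_neg]
    intro h'
    exact h fun w hw => h' w (Finset.mem_insert_of_mem hw)

lemma NA_step (hk : k ≤ 2 ^ D) (A : Finset (X D)) (z : X D) (hz : z ∉ A) :
    NA k (insert z A) ≤ ((k : ℝ) / 2 ^ D) * NA k A := by
  classical
  have h1 := NA_sum (k := k) A
  rw [Finset.sum_congr rfl (fun z' hz' => NA_swap A z' z (by simpa using hz') hz),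
    Finset.sum_const, nsmul_eq_mul, Finset.card_sdiff_of_subset (Finset.subset_univ _),
    Finset.card_univ, Nat.cast_sub (Finset.card_le_univ A), card_X] at h1
  have ha : A.card < 2 ^ D := by
    rw [← card_X]
    exact Finset.card_lt_univ_of_notMem hz
  have ha' : (0 : ℝ) < ((2 ^ D : ℕ) : ℝ) - (A.card : ℝ) := by
    have : (A.card : ℝ) < ((2 ^ D : ℕ) : ℝ) := by exact_mod_cast ha
    linarith
  have hn : (0 : ℝ) < 2 ^ D := by positivity
  have hk' : (k : ℝ) ≤ 2 ^ D := by exact_mod_cast hk
  rw [div_mul_eq_mul_div, le_div_iff₀ hn]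
  refine le_of_mul_le_mul_left ?_ ha'
  have h0 := NA_nonneg (k := k) A
  have e : (((2 ^ D : ℕ) : ℝ) - (A.card : ℝ)) * (NA k (insert z A) * 2 ^ D) =
      (((k : ℝ) - A.card) * NA k A) * 2 ^ D := by
    rw [← h1]; ring
  rw [e]
  push_cast
  nlinarith [mul_nonneg h0 (mul_nonneg (Nat.cast_nonneg (α := ℝ) A.card) (sub_nonneg.mpr hk'))]

lemma NA_le (hk : k ≤ 2 ^ D) (A : Finset (X D)) :
    NA k A ≤ (Fintype.card (Om k D) : ℝ) * ((k : ℝ) / 2 ^ D) ^ A.card := by
  classical
  induction A using Finset.induction_on with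
  | empty => simp [NA_empty]
  | insert z A hz ih =>
    refine (NA_step hk A z hz).trans ?_
    rw [Finset.card_insert_of_notMem hz, pow_succ]
    calc ((k : ℝ) / 2 ^ D) * NA k A ≤ ((k : ℝ) / 2 ^ D) *
        ((Fintype.card (Om k D) : ℝ) * ((k : ℝ) / 2 ^ D) ^ A.card) :=
          mul_le_mul_of_nonneg_left ih (by positivity)
      _ = _ := by ring

/-- representatives of the pairs -/
def RR (s : Fin D) : Finset (X D) := univ.filter (fun z => z s = false)

lemma fl_fl (s : Fin D) (z : X D) : fl s (fl s z) = z := by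
  simp [fl]

lemma fl_ne (s : Fin D) (z : X D) : fl s z ≠ z := by
  intro h
  have := congrFun h s
  simp [fl] at this

lemma RR_card (s : Fin D) : 2 * (RR s).card = 2 ^ D := by
  classical
  have h1 : (RR s).card = (univ.filter (fun z : X D => z s ≠ false)).card := by
    refine Finset.card_bij (fun z _ => fl s z) ?_ ?_ ?_
    · intro z hz
      simp only [RR, Finset.mem_filter, Finset.mem_univ, true_and] at hz ⊢
      simp [fl, hz]
    · intro z _ z' _ h
      rw [← fl_fl s z, h, fl_fl]
    · intro z hz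
      refine ⟨fl s z, ?_, fl_fl s z⟩
      simp only [RR, Finset.mem_filter, Finset.mem_univ, true_and] at hz ⊢
      simp only [fl, Function.update_self]
      cases h : z s
      · exact absurd h hz
      · rfl
  have h2 : (RR s).card + (univ.filter (fun z : X D => z s ≠ false)).card = 2 ^ D := by
    have := Finset.card_filter_add_card_filter_not (s := (univ : Finset (X D)))
      (fun z : X D => z s = false)
    rw [Finset.card_univ, card_X] at this
    simpa [RR] using this
  omega

open Classical in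
lemma prs_eq (s : Fin D) (x : Om k D) :
    prs s (fun i => x i) = ((RR s).filter (fun z => (∃ i, x i = z) ∧ ∃ j, x j = fl s z)).card := by
  unfold prs
  refine Finset.card_bij (fun i _ => x i) ?_ ?_ ?_
  · intro i hi
    simp only [RR, Finset.mem_filter, Finset.mem_univ, true_and] at hi ⊢
    exact ⟨hi.1, ⟨i, rfl⟩, hi.2⟩
  · intro i _ j _ h
    exact x.injective h
  · intro z hz
    simp only [RR, Finset.mem_filter, Finset.mem_univ, true_and] at hz
    obtain ⟨h1, ⟨i, hi⟩, h3⟩ := hz
    subst hi
    exact ⟨i, by simp only [Finset.mem_filter, Finset.mem_univ, true_and]; exact ⟨h1, h3⟩, rfl⟩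

open Classical in
lemma single (hk : k ≤ 2 ^ D) (s : Fin D) (t : ℝ) (ht : 0 ≤ t) :
    ∑ x : Om k D, (1 + t) ^ (prs s (fun i => x i)) ≤
      (Fintype.card (Om k D) : ℝ) * (1 + t * ((k : ℝ) / 2 ^ D) ^ 2) ^ (RR s).card := by
  have e1 : ∀ x : Om k D, (1 + t) ^ (prs s (fun i => x i)) =
      ∑ J ∈ (RR s).powerset, t ^ J.card *
        (if (∀ z ∈ J ∪ J.image (fl s), ∃ i, x i = z) then 1 else 0) := by
    intro x
    rw [prs_eq, ← Finset.prod_const, Finset.prod_filter]
    have : ∀ z ∈ RR s, (if ((∃ i, x i = z) ∧ ∃ j, x j = fl s z) then (1 + t) else 1) =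
        1 + t * (if ((∃ i, x i = z) ∧ ∃ j, x j = fl s z) then 1 else 0) := by
      intro z _
      split_ifs <;> ring
    rw [Finset.prod_congr rfl this, Finset.prod_one_add]
    refine Finset.sum_congr rfl fun J _ => ?_
    rw [Finset.prod_mul_distrib, Finset.prod_const, Finset.prod_ite_zero]
    simp only [Finset.prod_const_one]
    congr 2
    simp only [eq_iff_iff]
    constructor
    · intro h z hz
      rcases Finset.mem_union.mp hz with hz | hz
      · exact (h z hz).1
      · obtain ⟨w, hw, rfl⟩ := Finset.mem_image.mp hz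
        exact (h w hw).2
    · intro h z hz
      exact ⟨h z (Finset.mem_union_left _ hz),
        h _ (Finset.mem_union_right _ (Finset.mem_image_of_mem _ hz))⟩
  rw [Finset.sum_congr rfl (fun x _ => e1 x), Finset.sum_comm]
  have e2 : ∀ J ∈ (RR s).powerset, ∑ x : Om k D, t ^ J.card *
        (if (∀ z ∈ J ∪ J.image (fl s), ∃ i, x i = z) then 1 else 0) ≤
      (Fintype.card (Om k D) : ℝ) * (∏ z ∈ J, t * ((k : ℝ) / 2 ^ D) ^ 2) := by
    intro J hJ
    rw [← Finset.mul_sum]
    have h1 := NA_le (k := k) hk (J ∪ J.image (fl s))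
    have hdisj : Disjoint J (J.image (fl s)) := by
      rw [Finset.disjoint_left]
      intro z hz hz'
      obtain ⟨w, hw, rfl⟩ := Finset.mem_image.mp hz'
      have h2 := Finset.mem_powerset.mp hJ hz
      have h3 := Finset.mem_powerset.mp hJ hw
      simp only [RR, Finset.mem_filter, Finset.mem_univ, true_and] at h2 h3
      simp [fl, h3] at h2
    have hcard : (J ∪ J.image (fl s)).card = 2 * J.card := by
      rw [Finset.card_union_of_disjoint hdisj, Finset.card_image_of_injective _
        (fun a b h => by rw [← fl_fl s a, h, fl_fl])]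
      ring
    rw [hcard] at h1
    calc t ^ J.card * ∑ x : Om k D,
          (if (∀ z ∈ J ∪ J.image (fl s), ∃ i, x i = z) then (1 : ℝ) else 0)
        ≤ t ^ J.card * ((Fintype.card (Om k D) : ℝ) * ((k : ℝ) / 2 ^ D) ^ (2 * J.card)) := by
          refine mul_le_mul_of_nonneg_left ?_ (by positivity)
          refine le_trans (le_of_eq ?_) h1
          unfold NA
          exact Finset.sum_congr rfl fun x _ => by congr
      _ = _ := by
          rw [Finset.prod_const, mul_pow, pow_mul]; ring
  refine (Finset.sum_le_sum e2).trans (le_of_eq ?_)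
  rw [← Finset.mul_sum, ← Finset.prod_one_add, Finset.prod_const]

end SmallM

open SmallM in
theorem ThpSmall.main : Spec.Small := by
  classical
  intro D k hk I c0 hc0
  have := nonempty_Om hk
  have hO : (0 : ℝ) < (Fintype.card (Om k D) : ℝ) := by exact_mod_cast Fintype.card_pos
  set S : Finset (Fin D) := univ.filter (fun c : Fin D => c.val < c0) with hS
  set m := S.card with hm
  have hmc : m ≤ c0 := by
    have : m = (S.map ⟨fun c : Fin D => c.val, Fin.val_injective⟩).card := by
      rw [Finset.card_map]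
    rw [this]
    calc (S.map ⟨fun c : Fin D => c.val, Fin.val_injective⟩).card ≤ (Finset.range c0).card := by
          refine Finset.card_le_card ?_
          intro j hj
          simp only [hS, Finset.mem_map, Finset.mem_filter, Finset.mem_univ, true_and,
            Function.Embedding.coeFn_mk] at hj
          obtain ⟨c, hc, rfl⟩ := hj
          exact Finset.mem_range.mpr hc
      _ = c0 := Finset.card_range _
  have hrhs : (1 : ℝ) ≤ Real.exp (2 ^ c0 / 2 * k * (k / 2 ^ D)) :=
    Real.one_le_exp (by positivity)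
  rcases Nat.eq_zero_or_pos m with h0 | hpos
  · have hS0 : S = ∅ := Finset.card_eq_zero.mp (hm ▸ h0)
    rw [hS0]
    simp only [Finset.prod_empty, Finset.sum_const, Finset.card_univ, nsmul_eq_mul, mul_one]
    rw [one_div, inv_mul_cancel₀ hO.ne']
    exact hrhs
  · have hm' : (0 : ℝ) < m := by exact_mod_cast hpos
    have hsing : ∀ c : Fin D, (1 / (Fintype.card (Om k D) : ℝ)) *
        ∑ x : Om k D, ((2 : ℝ) ^ (prs c (fun i => inn I c (x i)))) ^ m ≤
        Real.exp (2 ^ c0 / 2 * k * (k / 2 ^ D)) := by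
      intro c
      have e1 : ∑ x : Om k D, ((2 : ℝ) ^ (prs c (fun i => inn I c (x i)))) ^ m =
          ∑ x : Om k D, (1 + ((2 : ℝ) ^ m - 1)) ^ (prs c (fun i => x i)) := by
        rw [← Equiv.sum_comp (actE (k := k) (inn I c))
          (fun x : Om k D => (1 + ((2 : ℝ) ^ m - 1)) ^ (prs c (fun i => x i)))]
        refine Finset.sum_congr rfl fun x _ => ?_
        rw [show (1 : ℝ) + (2 ^ m - 1) = 2 ^ m by ring, ← pow_mul, ← pow_mul, mul_comm]
        rfl
      have hm1 : (1 : ℝ) ≤ 2 ^ m := one_le_pow₀ (by norm_num)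
      have e2 := single (k := k) hk c ((2 : ℝ) ^ m - 1) (by linarith)
      rw [e1, one_div, inv_mul_le_iff₀ hO]
      refine e2.trans (mul_le_mul_of_nonneg_left ?_ hO.le)
      have e3 : (1 + ((2 : ℝ) ^ m - 1) * ((k : ℝ) / 2 ^ D) ^ 2) ≤
          Real.exp (((2 : ℝ) ^ m - 1) * ((k : ℝ) / 2 ^ D) ^ 2) := by
        rw [add_comm]; exact Real.add_one_le_exp _
      have hnn : 0 ≤ ((2 : ℝ) ^ m - 1) * ((k : ℝ) / 2 ^ D) ^ 2 :=
        mul_nonneg (by linarith) (sq_nonneg _)
      refine (pow_le_pow_left₀ (by linarith) e3 _).trans ?_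
      rw [← Real.exp_nat_mul]
      apply Real.exp_le_exp.mpr
      have hR : ((RR c).card : ℝ) = 2 ^ D / 2 := by
        have : ((2 * (RR c).card : ℕ) : ℝ) = ((2 ^ D : ℕ) : ℝ) := by rw [RR_card]
        push_cast at this
        linarith
      rw [hR]
      have hmc' : (2 : ℝ) ^ m ≤ 2 ^ c0 := pow_le_pow_right₀ (by norm_num) hmc
      have hn : (0 : ℝ) < 2 ^ D := by positivity
      calc (2 : ℝ) ^ D / 2 * (((2 : ℝ) ^ m - 1) * ((k : ℝ) / 2 ^ D) ^ 2)
          = ((2 : ℝ) ^ m - 1) * (k * (k / 2 ^ D) / 2) := by field_simp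
        _ ≤ (2 : ℝ) ^ c0 * (k * (k / 2 ^ D) / 2) :=
            mul_le_mul_of_nonneg_right (by linarith) (by positivity)
        _ = _ := by ring
    have hamgm : ∀ x : Om k D, ∏ c ∈ S, (2 : ℝ) ^ (prs c (fun i => inn I c (x i))) ≤
        ∑ c ∈ S, (1 / (m : ℝ)) * ((2 : ℝ) ^ (prs c (fun i => inn I c (x i)))) ^ m := by
      intro x
      have := Real.geom_mean_le_arith_mean_weighted S (fun _ => 1 / (m : ℝ))
        (fun c => ((2 : ℝ) ^ (prs c (fun i => inn I c (x i)))) ^ m)
        (fun c _ => by positivity)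
        (by rw [Finset.sum_const, nsmul_eq_mul, ← hm]; field_simp)
        (fun c _ => by positivity)
      refine le_trans (le_of_eq ?_) this
      refine Finset.prod_congr rfl fun c _ => ?_
      rw [one_div, Real.pow_rpow_inv_natCast (by positivity) hpos.ne']
    calc (1 / (Fintype.card (Om k D) : ℝ)) * ∑ x : Om k D,
          ∏ c ∈ S, (2 : ℝ) ^ (prs c (fun i => inn I c (x i)))
        ≤ (1 / (Fintype.card (Om k D) : ℝ)) * ∑ x : Om k D,
          ∑ c ∈ S, (1 / (m : ℝ)) * ((2 : ℝ) ^ (prs c (fun i => inn I c (x i)))) ^ m :=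
          mul_le_mul_of_nonneg_left (Finset.sum_le_sum fun x _ => hamgm x) (by positivity)
      _ = ∑ c ∈ S, (1 / (m : ℝ)) * ((1 / (Fintype.card (Om k D) : ℝ)) * ∑ x : Om k D,
          ((2 : ℝ) ^ (prs c (fun i => inn I c (x i)))) ^ m) := by
          rw [Finset.sum_comm, Finset.mul_sum]
          refine Finset.sum_congr rfl fun c _ => ?_
          rw [← Finset.mul_sum]; ring
      _ ≤ ∑ c ∈ S, (1 / (m : ℝ)) * Real.exp (2 ^ c0 / 2 * k * (k / 2 ^ D)) :=
          Finset.sum_le_sum fun c _ => mul_le_mul_of_nonneg_left (hsing c) (by positivity)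
      _ = _ := by
          rw [Finset.sum_const, nsmul_eq_mul, ← hm]
          field_simp

end Crest.Agent.Thp
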