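import Mathlib
import Crest.Agent.ThpSpec

set_option autoImplicit false

namespace Crest.Agent.ThpSum
open Finset

lemma two_pow (N : ℕ) : (2 : ℝ) ^ N = Real.exp (N * Real.log 2) := by
  rw [Real.exp_nat_mul, Real.exp_log two_pos]

lemma choose_ub (n k l : ℕ) (h : n ≤ 2 ^ (l + 1) * k) :
    (n.choose k : ℝ) ≤ Real.exp (k + (l + 1) * k * Real.log 2) := by
  have h1 : (n.choose k : ℝ) ≤ (n : ℝ) ^ k / (k.factorial : ℝ) := Nat.choose_le_pow_div k n
  have h2 : (n : ℝ) ≤ 2 ^ (l + 1) * k := by exact_mod_cast h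
  have h3 : (n : ℝ) ^ k ≤ (2 ^ (l + 1) * k) ^ k := pow_le_pow_left₀ (by positivity) h2 k
  have h4 : (k : ℝ) ^ k / (k.factorial : ℝ) ≤ Real.exp k :=
    Real.pow_div_factorial_le_exp (k : ℝ) (Nat.cast_nonneg k) k
  calc (n.choose k : ℝ) ≤ (n : ℝ) ^ k / (k.factorial : ℝ) := h1
    _ ≤ (2 ^ (l + 1) * k) ^ k / (k.factorial : ℝ) := by gcongr
    _ = (2 ^ ((l + 1) * k)) * ((k : ℝ) ^ k / (k.factorial : ℝ)) := by
        rw [mul_pow, ← pow_mul, mul_div_assoc]
    _ ≤ (2 ^ ((l + 1) * k)) * Real.exp k := by gcongr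
    _ = _ := by
        rw [two_pow, ← Real.exp_add]
        push_cast
        ring_nf

lemma choose_lb (m k : ℕ) (hm : 1 ≤ m) : m ^ k ≤ (m * k).choose k := by
  have h1 : m ^ k * k.factorial ≤ (m * k).descFactorial k := by
    rw [Nat.descFactorial_eq_prod_range]
    have h2 : m ^ k * k.factorial = ∏ i ∈ range k, (m * (k - i)) := by
      rw [Finset.prod_mul_distrib, Finset.prod_const, Finset.card_range,
        ← Nat.descFactorial_eq_prod_range, Nat.descFactorial_self]
    rw [h2]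
    refine Finset.prod_le_prod' fun i _ => ?_
    rw [Nat.mul_sub]
    have : i ≤ m * i := Nat.le_mul_of_pos_left i hm
    omega
  rw [Nat.descFactorial_eq_factorial_mul_choose, mul_comm] at h1
  exact Nat.le_of_mul_le_mul_left h1 (Nat.factorial_pos k)

/-- the numerics, case A -/
lemma num_a (x : ℝ) (hx : 8 ≤ x) :
    1 + 18 * (x + 1) * Real.log 2 + 17 + 99 * (23 / 32 + 1 / 4096 - (x - 5) * Real.log 2) ≤
      -(x / 2) := by
  have h1 := Real.log_two_gt_d9
  nlinarith [mul_nonneg (by linarith : (0 : ℝ) ≤ 81 * x - 513)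
    (by linarith : (0 : ℝ) ≤ Real.log 2 - 0.693147)]

lemma num_b : (1 : ℝ) + 144 * Real.log 2 + 17 - 89 / 1000 * 1584 ≤ -4 := by
  have h1 := Real.log_two_lt_d9
  linarith

theorem term (a θ : ℕ → ℕ → ℝ) (ha : ∀ D k, 0 ≤ a D k) (hθ : ∀ D k, 0 ≤ θ D k)
    (h1 : ∀ D k, 1 ≤ D → 1 ≤ k → k ≤ 2 ^ D → (∀ j : ℕ, 1 ≤ j → a D k ≤
      2 ^ 15 * (D : ℝ) ^ 11 * Real.exp (k * (23 / 2 ^ j + 2 ^ (16 * j - 2) * (k / 2 ^ D)))) ∧
      a D k ≤ 2 ^ 15 * (D : ℝ) ^ 11 * Real.exp (17 * k))
    (h2 : ∀ D k, 1 ≤ D → 1 ≤ k → k ≤ 2 ^ D → θ D k ≤ Real.exp (-(89 / 1000) * k))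
    (h3 : ∀ D k k', 1 ≤ D → 1 ≤ k → k ≤ k' → k + k' ≤ 2 ^ D →
      (k'.choose k : ℝ) * (θ D k) ^ 16 ≤ a D k')
    (D k : ℕ) (hD : 300 ≤ D) (hk : 1 ≤ k) (hkn : k ≤ 2 ^ D) :
    ((2 ^ D).choose k : ℝ) * (θ D k) ^ (1600 - 16) * a D k ≤
      (2 ^ 15 * (D : ℝ) ^ 11) ^ 100 * Real.exp (1 - D / 150) * (1 / 2) ^ k := by
  have hD1 : (1 : ℝ) ≤ D := by exact_mod_cast (by omega : 1 ≤ D)
  set E : ℝ := 2 ^ 15 * (D : ℝ) ^ 11 with hE
  have hE1 : 1 ≤ E := by
    have : (1 : ℝ) ≤ (D : ℝ) ^ 11 := one_le_pow₀ hD1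
    rw [hE]; nlinarith
  have hk0 : (1 : ℝ) ≤ k := by exact_mod_cast hk
  -- the level l
  set l := Nat.log 2 (2 ^ D / k) with hl
  have hq : 2 ^ D / k ≠ 0 := (Nat.div_pos hkn hk).ne'
  have hl1 : 2 ^ l * k ≤ 2 ^ D := by
    have := Nat.pow_log_le_self 2 hq
    calc 2 ^ l * k ≤ (2 ^ D / k) * k := Nat.mul_le_mul_right k this
      _ ≤ 2 ^ D := Nat.div_mul_le_self _ _
  have hl2 : 2 ^ D < 2 ^ (l + 1) * k := by
    have := Nat.lt_pow_succ_log_self (b := 2) (by norm_num) (2 ^ D / k)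
    exact (Nat.div_lt_iff_lt_mul hk).1 this
  -- it suffices to bound the exponent
  have hlog2 : Real.log 2 < 0.6931471808 := Real.log_two_lt_d9
  have hlog2' : 0.6931471803 < Real.log 2 := Real.log_two_gt_d9
  suffices hs : ∃ x : ℝ, ((2 ^ D).choose k : ℝ) * (θ D k) ^ (1600 - 16) * a D k ≤
      E ^ 100 * Real.exp x ∧ x ≤ 1 - D / 150 - k * Real.log 2 by
    obtain ⟨x, hx1, hx2⟩ := hs
    refine hx1.trans ?_
    have e1 : ((1 : ℝ) / 2) ^ k = Real.exp (-(k * Real.log 2)) := by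
      rw [Real.exp_neg, ← two_pow, one_div, inv_pow]
    rw [e1, mul_assoc, ← Real.exp_add]
    gcongr
    linarith
  have hchoose : ((2 ^ D).choose k : ℝ) ≤ Real.exp (k + (l + 1) * k * Real.log 2) :=
    choose_ub _ _ _ hl2.le
  have ha17 : a D k ≤ E * Real.exp (17 * k) := (h1 D k (by omega) hk hkn).2
  -- lower bound of k when k ^ 2 ≥ n
  rcases le_or_gt 144 l with hA | hB
  · -- case A
    set j := l / 18 with hj
    have hj8 : 8 ≤ j := by omega
    obtain ⟨i, hi⟩ : ∃ i, j = i + 5 := ⟨j - 5, by omega⟩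
    have h18 : 18 * j ≤ l := by omega
    have h18' : l + 1 ≤ 18 * (j + 1) := by omega
    have hjk : 2 ^ (18 * j) * k ≤ 2 ^ D :=
      (Nat.mul_le_mul_right k (Nat.pow_le_pow_right (by norm_num) h18)).trans hl1
    have hi3 : 3 ≤ i := by omega
    have hkk' : k ≤ 2 ^ i * k := Nat.le_mul_of_pos_left k (by positivity)
    have hsum : k + 2 ^ i * k ≤ 2 ^ D := by
      refine le_trans ?_ hjk
      have : 1 + 2 ^ i ≤ 2 ^ (18 * j) := by
        have e1 : 1 + 2 ^ i ≤ 2 ^ (i + 1) := by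
          have := Nat.one_le_two_pow (n := i)
          rw [pow_succ]; omega
        exact e1.trans (Nat.pow_le_pow_right (by norm_num) (by omega))
      nlinarith
    have hk'n : 2 ^ i * k ≤ 2 ^ D := by omega
    have c1 := h3 D k (2 ^ i * k) (by omega) hk hkk' hsum
    have c2 := (h1 D (2 ^ i * k) (by omega) (hk.trans hkk') hk'n).1 j (by omega)
    have c3 : ((2 ^ i * k : ℕ) : ℝ) * (23 / 2 ^ j + 2 ^ (16 * j - 2) *
        (((2 ^ i * k : ℕ) : ℝ) / 2 ^ D)) ≤ k * (23 / 32 + 1 / 4096) := by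
      have e0 : 16 * j - 2 = 16 * i + 78 := by omega
      rw [e0, hi]
      push_cast
      have e1 : (2 : ℝ) ^ i * k * (23 / 2 ^ (i + 5)) = k * (23 / 32) := by
        rw [pow_add]
        field_simp
        norm_num
      have e2 : (2 : ℝ) ^ i * k * (2 ^ (16 * i + 78) * (2 ^ i * k / 2 ^ D)) =
          k * ((2 ^ (18 * i + 78) * k) / 2 ^ D) := by
        have : (2 : ℝ) ^ (18 * i + 78) = 2 ^ i * 2 ^ i * 2 ^ (16 * i + 78) := by
          rw [← pow_add, ← pow_add]; congr 1; ring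
        rw [this]
        ring
      have e3 : (2 ^ (18 * i + 78) * (k : ℝ)) / 2 ^ D ≤ 1 / 4096 := by
        have : (2 : ℝ) ^ (18 * i + 90) * k ≤ 2 ^ D := by
          have := hjk
          rw [hi] at this
          have e : 18 * (i + 5) = 18 * i + 90 := by ring
          rw [e] at this
          exact_mod_cast this
        rw [div_le_div_iff₀ (by positivity) (by norm_num)]
        have e4 : (2 : ℝ) ^ (18 * i + 90) = 2 ^ (18 * i + 78) * 4096 := by
          rw [show 18 * i + 90 = (18 * i + 78) + 12 by ring, pow_add]; norm_num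
        rw [e4] at this
        linarith
      rw [mul_add, e1, e2, mul_add]
      have := mul_le_mul_of_nonneg_left e3 (by linarith : (0 : ℝ) ≤ k)
      linarith
    have c4 : ((2 : ℝ) ^ (i * k)) * (θ D k) ^ 16 ≤ E * Real.exp (k * (23 / 32 + 1 / 4096)) := by
      have e1 : ((2 : ℝ) ^ (i * k)) ≤ ((2 ^ i * k).choose k : ℝ) := by
        have := choose_lb (2 ^ i) k Nat.one_le_two_pow
        rw [← pow_mul] at this
        exact_mod_cast this
      calc ((2 : ℝ) ^ (i * k)) * (θ D k) ^ 16 ≤ ((2 ^ i * k).choose k : ℝ) * (θ D k) ^ 16 := by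
            have := hθ D k
            gcongr
        _ ≤ a D (2 ^ i * k) := c1
        _ ≤ _ := c2
        _ ≤ _ := by
            have : (0 : ℝ) ≤ E := by linarith
            gcongr
    have c5 : (θ D k) ^ 16 ≤ E * Real.exp (k * (23 / 32 + 1 / 4096) - i * k * Real.log 2) := by
      have e1 : Real.exp (k * (23 / 32 + 1 / 4096) - i * k * Real.log 2) =
          Real.exp (k * (23 / 32 + 1 / 4096)) / 2 ^ (i * k) := by
        rw [Real.exp_sub, two_pow]
        push_cast
        rfl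
      rw [e1, ← mul_div_assoc, le_div_iff₀ (by positivity), mul_comm]
      exact c4
    have c6 : (θ D k) ^ (1600 - 16) ≤
        E ^ 99 * Real.exp (99 * (k * (23 / 32 + 1 / 4096) - i * k * Real.log 2)) := by
      have e1 : (θ D k) ^ (1600 - 16) = ((θ D k) ^ 16) ^ 99 := by rw [← pow_mul]
      rw [e1]
      refine (pow_le_pow_left₀ (by have := hθ D k; positivity) c5 99).trans (le_of_eq ?_)
      rw [mul_pow, ← Real.exp_nat_mul]
      norm_num
    refine ⟨(k + (l + 1) * k * Real.log 2) +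
      99 * (k * (23 / 32 + 1 / 4096) - i * k * Real.log 2) + 17 * k, ?_, ?_⟩
    · have e1 : E ^ 100 * Real.exp ((k + (l + 1) * k * Real.log 2) +
          99 * (k * (23 / 32 + 1 / 4096) - i * k * Real.log 2) + 17 * k) =
          Real.exp (k + (l + 1) * k * Real.log 2) *
          (E ^ 99 * Real.exp (99 * (k * (23 / 32 + 1 / 4096) - i * k * Real.log 2))) *
          (E * Real.exp (17 * k)) := by
        rw [Real.exp_add, Real.exp_add]; ring
      rw [e1]
      have g1 := hθ D k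
      have g2 := ha D k
      have g3 : (0 : ℝ) ≤ E := by linarith
      refine mul_le_mul (mul_le_mul hchoose c6 (pow_nonneg g1 _) (Real.exp_pos _).le) ha17 g2 ?_
      exact mul_nonneg (Real.exp_pos _).le (mul_nonneg (pow_nonneg g3 _) (Real.exp_pos _).le)
    · clear c1 c2 c3 c4 c5 c6 hchoose ha17 h1 h2 h3 ha hθ
      have hjr : (j : ℝ) = i + 5 := by exact_mod_cast hi
      have hl' : (l : ℝ) + 1 ≤ 18 * (j + 1) := by exact_mod_cast h18'
      have hj8' : (8 : ℝ) ≤ j := by exact_mod_cast hj8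
      have n1 := num_a j hj8'
      have n2 : (k + (l + 1) * k * Real.log 2) +
          99 * (k * (23 / 32 + 1 / 4096) - i * k * Real.log 2) + 17 * k ≤ -(j / 2 * k) := by
        have e1 : ((l : ℝ) + 1) * k * Real.log 2 ≤ 18 * (j + 1) * k * Real.log 2 := by
          gcongr
        have e2 := mul_le_mul_of_nonneg_left n1 (by linarith : (0 : ℝ) ≤ k)
        have e3 : (i : ℝ) = j - 5 := by linarith
        rw [e3]
        nlinarith
      -- now -(j/2) k ≤ 1 - D/150 - k log 2
      refine n2.trans ?_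
      have hjk1 : (j : ℝ) ≤ j * k := by nlinarith
      have hjk8 : 8 * (k : ℝ) ≤ j * k := by nlinarith
      have hkl : (k : ℝ) * Real.log 2 ≤ k * 0.6931471808 := by gcongr
      clear n2 n1
      rcases le_or_gt (2 ^ D) (k * k) with hkk | hkk
      · -- k^2 ≥ 2^D
        have hkD : (D : ℝ) ≤ 2 * k := by
          have : D * D ≤ 4 * 2 ^ D := by
            have h4 : D < 2 ^ (D / 2 + 1) := by
              have := Nat.lt_two_pow_self (n := D / 2)
              rw [pow_succ]; omega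
            have h5 : D * D < 2 ^ (D / 2 + 1) * 2 ^ (D / 2 + 1) := Nat.mul_lt_mul'' h4 h4
            rw [← pow_add] at h5
            have h6 : 2 ^ (D / 2 + 1 + (D / 2 + 1)) ≤ 2 ^ (D + 2) :=
              Nat.pow_le_pow_right (by norm_num) (by omega)
            rw [pow_add 2 D 2] at h6
            omega
          have h7 : D * D ≤ (2 * k) * (2 * k) := by nlinarith
          have : D ≤ 2 * k := Nat.mul_self_le_mul_self_iff.1 h7
          exact_mod_cast this
        linarith
      · have hDl : D ≤ 2 * l + 1 := by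
          by_contra hcon
          push Not at hcon
          have : 2 ^ (2 * l + 2) ≤ 2 ^ D := Nat.pow_le_pow_right (by norm_num) (by omega)
          have e1 : 2 ^ D * 2 ^ D < (2 ^ (l + 1) * k) * (2 ^ (l + 1) * k) := Nat.mul_lt_mul'' hl2 hl2
          have e2 : (2 ^ (l + 1) * k) * (2 ^ (l + 1) * k) = 2 ^ (2 * l + 2) * (k * k) := by
            rw [show 2 * l + 2 = (l + 1) + (l + 1) by ring, pow_add]; ring
          rw [e2] at e1
          have e3 : 2 ^ (2 * l + 2) * (k * k) ≤ 2 ^ D * 2 ^ D := Nat.mul_le_mul this hkk.le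
          omega
        have hjD : D ≤ 36 * j + 35 := by omega
        have hjD' : (D : ℝ) ≤ 36 * j + 35 := by exact_mod_cast hjD
        linarith
  · -- case B
    have d1 : (θ D k) ^ (1600 - 16) ≤ Real.exp (-(89 / 1000 * 1584) * k) := by
      refine (pow_le_pow_left₀ (hθ D k) (h2 D k (by omega) hk hkn) (1600 - 16)).trans (le_of_eq ?_)
      rw [← Real.exp_nat_mul]
      norm_num
      ring
    refine ⟨(k + (l + 1) * k * Real.log 2) + -(89 / 1000 * 1584) * k + 17 * k, ?_, ?_⟩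
    · have hE100 : E ≤ E ^ 100 := le_self_pow₀ hE1 (by norm_num)
      have e1 : Real.exp ((k + (l + 1) * k * Real.log 2) + -(89 / 1000 * 1584) * k + 17 * k) =
          Real.exp (k + (l + 1) * k * Real.log 2) * Real.exp (-(89 / 1000 * 1584) * k) *
          Real.exp (17 * k) := by
        rw [Real.exp_add, Real.exp_add]
      rw [e1]
      have g1 := hθ D k
      have g2 := ha D k
      calc ((2 ^ D).choose k : ℝ) * (θ D k) ^ (1600 - 16) * a D k
          ≤ Real.exp (k + (l + 1) * k * Real.log 2) * Real.exp (-(89 / 1000 * 1584) * k) *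
            (E * Real.exp (17 * k)) :=
            mul_le_mul (mul_le_mul hchoose d1 (pow_nonneg g1 _) (Real.exp_pos _).le) ha17 g2
              (mul_nonneg (Real.exp_pos _).le (Real.exp_pos _).le)
        _ = E * (Real.exp (k + (l + 1) * k * Real.log 2) * Real.exp (-(89 / 1000 * 1584) * k) *
            Real.exp (17 * k)) := by ring
        _ ≤ _ := mul_le_mul_of_nonneg_right hE100 (by positivity)
    · have hl' : (l : ℝ) + 1 ≤ 144 := by exact_mod_cast hB
      have n1 := num_b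
      have n2 : (k + (l + 1) * k * Real.log 2) + -(89 / 1000 * 1584) * k + 17 * k ≤ -(4 * k) := by
        have e1 : ((l : ℝ) + 1) * k * Real.log 2 ≤ 144 * k * Real.log 2 := by
          gcongr
        have e2 := mul_le_mul_of_nonneg_left n1 (by linarith : (0 : ℝ) ≤ k)
        nlinarith
      refine n2.trans ?_
      -- k is huge: 2^D < 2^144 * k
      have hkD : (D : ℝ) ≤ 2 * k := by
        have e1 : 2 ^ D < 2 ^ 144 * k :=
          hl2.trans_le (Nat.mul_le_mul_right k (Nat.pow_le_pow_right (by norm_num) (by omega)))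
        have e2 : 2 ^ 144 * 2 ^ (D - 144) < 2 ^ 144 * k := by
          rw [← pow_add]
          have : 144 + (D - 144) = D := by omega
          rw [this]; exact e1
        have e3 : 2 ^ (D - 144) < k := Nat.lt_of_mul_lt_mul_left e2
        have e4 : D - 144 < 2 ^ (D - 144) := Nat.lt_two_pow_self
        have : D ≤ 2 * k := by omega
        exact_mod_cast this
      have hkl : (k : ℝ) * Real.log 2 ≤ k * 0.6931471808 := by gcongr
      linarith

theorem main : Crest.Agent.Thp.Spec.Sum := by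
  intro a θ ha hθ h1 h2 h3
  have hbound : ∀ D : ℕ, 300 ≤ D → ∑ k ∈ Icc 1 (2 ^ D),
      ((2 ^ D).choose k : ℝ) * (θ D k) ^ (1600 - 16) * a D k ≤
        (2 ^ 15 * (D : ℝ) ^ 11) ^ 100 * Real.exp (1 - D / 150) := by
    intro D hD
    have e1 : ∀ k ∈ Icc 1 (2 ^ D), ((2 ^ D).choose k : ℝ) * (θ D k) ^ (1600 - 16) * a D k ≤
        (2 ^ 15 * (D : ℝ) ^ 11) ^ 100 * Real.exp (1 - D / 150) * (1 / 2) ^ k := by
      intro k hk
      rw [Finset.mem_Icc] at hk
      exact term a θ ha hθ h1 h2 h3 D k hD hk.1 hk.2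
    refine (Finset.sum_le_sum e1).trans ?_
    rw [← Finset.mul_sum]
    have e2 : ∑ k ∈ Icc 1 (2 ^ D), ((1 : ℝ) / 2) ^ k ≤ 1 := by
      have e3 : ∀ N : ℕ, ∑ k ∈ Icc 1 N, ((1 : ℝ) / 2) ^ k = 1 - (1 / 2) ^ N := by
        intro N
        induction N with
        | zero => simp
        | succ N ih =>
          rw [Finset.sum_Icc_succ_top (by omega), ih, pow_succ]
          ring
      rw [e3]
      have : (0 : ℝ) ≤ (1 / 2) ^ (2 ^ D) := by positivity
      linarith
    have e4 : (0 : ℝ) ≤ (2 ^ 15 * (D : ℝ) ^ 11) ^ 100 * Real.exp (1 - D / 150) := by positivity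
    nlinarith
  have hlim : Filter.Tendsto (fun D : ℕ => (2 ^ 15 * (D : ℝ) ^ 11) ^ 100 * Real.exp (1 - D / 150))
      Filter.atTop (nhds 0) := by
    have t1 := tendsto_rpow_mul_exp_neg_mul_atTop_nhds_zero (1100 : ℝ) (1 / 150) (by norm_num)
    have t2 : Filter.Tendsto (fun D : ℕ => (D : ℝ) ^ (1100 : ℝ) * Real.exp (-(1 / 150) * (D : ℝ)))
        Filter.atTop (nhds 0) := t1.comp tendsto_natCast_atTop_atTop
    have t3 := t2.const_mul (((2 : ℝ) ^ 15) ^ 100 * Real.exp 1)
    rw [mul_zero] at t3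
    refine t3.congr fun D => ?_
    have e1 : (D : ℝ) ^ (1100 : ℝ) = ((D : ℝ) ^ 11) ^ 100 := by
      rw [← pow_mul, ← Real.rpow_natCast]
      norm_num
    rw [e1, mul_pow, show (1 : ℝ) - D / 150 = 1 + -(1 / 150) * (D : ℝ) by ring, Real.exp_add]
    ring
  refine tendsto_of_tendsto_of_tendsto_of_le_of_le' tendsto_const_nhds hlim ?_ ?_
  · refine Filter.Eventually.of_forall fun D => ?_
    refine Finset.sum_nonneg fun k _ => ?_
    have := hθ D k
    have := ha D k
    positivity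
  · filter_upwards [Filter.eventually_ge_atTop 300] with D hD
    exact hbound D hD

end Crest.Agent.ThpSum
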