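import Mathlib
import Crest.Prelude.Def_Shuffle
import Crest.Agent.ThpDefs
import Crest.Agent.ThpLib
import Crest.Agent.ThpSpec

/-!
rid 155, module THORP: `d+1` Thorp shuffles of `2 * 2 ^ d` cards are one sweep of columns
`D-1, …, 0` of the butterfly network with `D = d+1`.
-/

namespace Crest.Agent.ThpThorp
open Finset Crest.Agent.Thp

/-! ### rotation -/

lemma neg_one_last (d : ℕ) : (-1 : Fin (d + 1)) = Fin.last d := by
  ext
  simp [Fin.coe_neg_one]

/-- rotation of the coordinates -/
def rho (d : ℕ) : Equiv.Perm (X (d + 1)) where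
  toFun z := fun i => z (i - 1)
  invFun z := fun i => z (i + 1)
  left_inv z := by funext i; simp
  right_inv z := by funext i; simp

lemma rho_apply (d : ℕ) (z : X (d + 1)) (i : Fin (d + 1)) : rho d z i = z (i - 1) := rfl

lemma rho_pow_apply (d t : ℕ) (z : X (d + 1)) (i : Fin (d + 1)) :
    (rho d ^ t) z i = z (i - t • (1 : Fin (d + 1))) := by
  induction t generalizing i with
  | zero => simp
  | succ t ih =>
    rw [pow_succ', Equiv.Perm.mul_apply, rho_apply, ih, succ_nsmul]
    congr 1
    abel

lemma rho_pow_card (d : ℕ) : rho d ^ (d + 1) = 1 := by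
  ext1 z
  funext i
  rw [rho_pow_apply]
  have : (d + 1) • (1 : Fin (d + 1)) = 0 := by
    have := card_nsmul_eq_zero' (G := Fin (d + 1)) (x := 1)
    simpa using this
  rw [this]; simp

lemma rho_rp (d : ℕ) (s : Fin (d + 1)) (z : X (d + 1)) : rp s (rho d z) = rho d (rp (s - 1) z) := by
  funext i
  by_cases h : i = s
  · subst h
    simp [rp, rho_apply]
  · have h' : i - 1 ≠ s - 1 := by
      intro h'; exact h (by simpa using h')
    simp [rp, rho_apply, Function.update_of_ne h, Function.update_of_ne h']

lemma rho_sw (d : ℕ) (s : Fin (d + 1)) (c : Col (d + 1)) :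
    sw s c * rho d = rho d * sw (s - 1) (c ∘ rho d) := by
  ext1 z
  funext i
  simp only [Equiv.Perm.mul_apply, sw_apply, swf]
  by_cases h : i = s
  · subst h
    simp only [Function.update_self, rho_rp, rho_apply, Function.comp_apply]
  · have h' : i - 1 ≠ s - 1 := by
      intro h'; exact h (by simpa using h')
    simp only [rho_apply, Function.update_of_ne h, Function.update_of_ne h']

/-! ### matrices -/

section matrices
variable {D k : ℕ}

lemma Rm_mul (g h : Equiv.Perm (X D)) : (Rm k h * Rm k g : Matrix (Om k D) (Om k D) ℝ) = Rm k (g * h) := by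
  ext x y
  simp only [Matrix.mul_apply, Rm, act_mul]
  rw [Finset.sum_eq_single (act h x)]
  · simp
  · intro z _ hz
    simp [hz.symm]
  · intro h'; exact absurd (mem_univ _) h'

lemma Rm_one : (Rm k (1 : Equiv.Perm (X D)) : Matrix (Om k D) (Om k D) ℝ) = 1 := by
  ext x y
  simp [Rm, Matrix.one_apply]

lemma Rm_pow (g : Equiv.Perm (X D)) (t : ℕ) : (Rm k g : Matrix (Om k D) (Om k D) ℝ) ^ t = Rm k (g ^ t) := by
  induction t with
  | zero => simp [Rm_one]
  | succ t ih => rw [pow_succ, ih, Rm_mul, pow_succ']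

lemma mul_Rm_apply (M : Matrix (Om k D) (Om k D) ℝ) (g : Equiv.Perm (X D)) (x y : Om k D) :
    (M * Rm k g) x y = M x (act g⁻¹ y) := by
  simp only [Matrix.mul_apply, Rm, act_eq_iff]
  simp

lemma Rm_mul_apply (M : Matrix (Om k D) (Om k D) ℝ) (g : Equiv.Perm (X D)) (x y : Om k D) :
    (Rm k g * M) x y = M (act g x) y := by
  simp only [Matrix.mul_apply, Rm]
  simp

end matrices

section
variable (d k : ℕ)

lemma Rm_Pm (s : Fin (d + 1)) :
    Rm k (rho d) * Pm (d + 1) k s = Pm (d + 1) k (s - 1) * Rm k (rho d) := by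
  ext x y
  rw [Rm_mul_apply, mul_Rm_apply]
  have h1 : Pm (d + 1) k s (act (rho d) x) y =
      av (fun c : Col (d + 1) => if act (sw (s - 1) (c ∘ rho d)) x = act (rho d)⁻¹ y then (1 : ℝ) else 0) := by
    refine av_congr fun c => ?_
    rw [← act_mul, rho_sw, act_mul]
    exact if_congr (act_eq_iff (rho d) _ _) rfl rfl
  rw [h1]
  exact av_equiv (Equiv.arrowCongr (rho d)⁻¹ (Equiv.refl Bool))
    (fun c : Col (d + 1) => if act (sw (s - 1) c) x = act (rho d)⁻¹ y then (1 : ℝ) else 0)

lemma Rm_pow_Pm (i : ℕ) (hi : i < d + 1) :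
    Rm k (rho d) ^ (i + 1) * Pm (d + 1) k ⟨i, hi⟩ =
      Pm (d + 1) k (Fin.last d) * Rm k (rho d) ^ (i + 1) := by
  induction i with
  | zero =>
    rw [zero_add, pow_one, Rm_Pm]
    congr 2
    have : (⟨0, hi⟩ : Fin (d + 1)) = 0 := rfl
    rw [this, zero_sub]
    exact neg_one_last d
  | succ i ih =>
    rw [pow_succ, mul_assoc, Rm_Pm, ← mul_assoc]
    have : (⟨i + 1, hi⟩ : Fin (d + 1)) - 1 = ⟨i, by omega⟩ := by
      ext
      rw [Fin.val_sub_one_of_ne_zero]
      · rfl
      · intro h
        have := congrArg Fin.val h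
        simp at this
    rw [this, ih (by omega), mul_assoc]

lemma TmN_eq (i : ℕ) (hi : i ≤ d + 1) :
    Rm k (rho d) ^ i * TmN (d + 1) k i = (Pm (d + 1) k (Fin.last d) * Rm k (rho d)) ^ i := by
  induction i with
  | zero => simp [TmN]
  | succ i ih =>
    have hi' : i < d + 1 := by omega
    rw [TmN, dif_pos hi', ← mul_assoc, Rm_pow_Pm, pow_succ', pow_succ', ← ih (by omega)]
    simp only [mul_assoc]

lemma Tm_eq : Tm (d + 1) k = (Pm (d + 1) k (Fin.last d) * Rm k (rho d)) ^ (d + 1) := by
  rw [← TmN_eq _ _ _ le_rfl, Rm_pow, rho_pow_card, Rm_one, one_mul]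
  rfl

end

/-! ### averaging over the bits of one column -/

lemma av_col (D : ℕ) (s : Fin D) {β : Type*} [Fintype β] [DecidableEq β] (ψ : X D → β)
    (hψ : Function.Bijective (fun z : {z : X D // z s = false} => ψ z)) (F : Equiv.Perm (X D) → ℝ) :
    av (fun c : β → Bool => F (sw s (fun z => c (ψ z)))) = av (fun c : Col D => F (sw s c)) := by
  classical
  set e := Equiv.piEquivPiSubtypeProd (fun z : X D => z s = false) (fun _ => Bool) with he
  have h1 : av (fun c : Col D => F (sw s c)) = av (fun ab => F (sw s (e.symm ab))) :=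
    (av_equiv e.symm (fun c : Col D => F (sw s c))).symm
  rw [h1, av_prod]
  set φ : {z : X D // z s = false} ≃ β := Equiv.ofBijective _ hψ with hφ
  have h2 : av (fun c : β → Bool => F (sw s (fun z => c (ψ z)))) =
      av (fun a : {z : X D // z s = false} → Bool => F (sw s (fun z => (a (φ.symm (ψ z)))))) := by
    exact (av_equiv (Equiv.arrowCongr φ (Equiv.refl Bool))
      (fun c : β → Bool => F (sw s (fun z => c (ψ z))))).symm
  rw [h2]
  refine av_congr fun a => ?_
  have h3 : ∀ b : {z : X D // ¬ z s = false} → Bool,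
      F (sw s (e.symm (a, b))) = F (sw s (fun z => (a (φ.symm (ψ z))))) := by
    intro b
    congr 1
    ext1 z
    simp only [sw_apply, swf]
    congr 2
    have hz : (rp s z) s = false := by simp [rp]
    have h4 : e.symm (a, b) (rp s z) = a ⟨rp s z, hz⟩ := by
      simp [he, Equiv.piEquivPiSubtypeProd, hz]
    rw [h4]
    congr 1
    symm
    rw [Equiv.symm_apply_eq]
    rfl
  simp_rw [h3]
  rw [av_const]

/-! ### encoding of the physical positions -/

/-- bits of a physical position -/
def encf (d : ℕ) (x : Fin (2 * 2 ^ d)) : X (d + 1) := fun i => x.val.testBit i.val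

lemma lt_pow_of_fin {d : ℕ} (x : Fin (2 * 2 ^ d)) : x.val < 2 ^ (d + 1) := by
  have := x.isLt
  rw [pow_succ]; omega

lemma encf_inj (d : ℕ) : Function.Injective (encf d) := by
  intro x y h
  ext
  apply Nat.eq_of_testBit_eq
  intro i
  by_cases hi : i < d + 1
  · exact congrFun h ⟨i, hi⟩
  · have hx : x.val < 2 ^ i := lt_of_lt_of_le (lt_pow_of_fin x) (Nat.pow_le_pow_right (by norm_num) (by omega))
    have hy : y.val < 2 ^ i := lt_of_lt_of_le (lt_pow_of_fin y) (Nat.pow_le_pow_right (by norm_num) (by omega))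
    rw [Nat.testBit_lt_two_pow hx, Nat.testBit_lt_two_pow hy]

lemma encf_bij (d : ℕ) : Function.Bijective (encf d) := by
  rw [Fintype.bijective_iff_injective_and_card]
  refine ⟨encf_inj d, ?_⟩
  simp [pow_succ, mul_comm]

/-- the bits of a physical position, as an equivalence -/
noncomputable def enc (d : ℕ) : Fin (2 * 2 ^ d) ≃ X (d + 1) := Equiv.ofBijective _ (encf_bij d)

lemma enc_apply (d : ℕ) (x : Fin (2 * 2 ^ d)) (i : Fin (d + 1)) : enc d x i = x.val.testBit i.val := rfl

/-- low bits -/
noncomputable def low (d : ℕ) (z : X (d + 1)) : Fin (2 ^ d) :=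
  ⟨((enc d).symm z).val % 2 ^ d, Nat.mod_lt _ (by positivity)⟩

lemma low_eq_of (d : ℕ) (x : Fin (2 * 2 ^ d)) (z : X (d + 1))
    (h : ∀ i : Fin (d + 1), i ≠ Fin.last d → z i = enc d x i) : (low d z).val = x.val % 2 ^ d := by
  simp only [low]
  apply Nat.eq_of_testBit_eq
  intro i
  rw [Nat.testBit_mod_two_pow, Nat.testBit_mod_two_pow]
  by_cases hi : i < d
  · simp only [hi, decide_true, Bool.true_and]
    have h1 := h ⟨i, by omega⟩ (by intro h'; have := congrArg Fin.val h'; simp at this; omega)
    have h2 : enc d ((enc d).symm z) ⟨i, by omega⟩ = z ⟨i, by omega⟩ := by simp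
    rw [enc_apply] at h1 h2
    rw [← h1, ← h2]
  · simp [hi]

lemma low_rp (d : ℕ) (x : Fin (2 * 2 ^ d)) :
    (low d (rp (Fin.last d) (enc d x))).val = x.val % 2 ^ d := by
  apply low_eq_of
  intro i hi
  simp [rp, Function.update_of_ne hi]

lemma low_bij (d : ℕ) : Function.Bijective (fun z : {z : X (d + 1) // z (Fin.last d) = false} => low d z) := by
  constructor
  · rintro ⟨z, hz⟩ ⟨w, hw⟩ h
    have h' : (low d z).val = (low d w).val := congrArg Fin.val h
    have key : ∀ z : X (d + 1), z (Fin.last d) = false → (low d z).val = ((enc d).symm z).val := by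
      intro z hz
      simp only [low]
      apply Nat.mod_eq_of_lt
      have h1 : enc d ((enc d).symm z) (Fin.last d) = false := by simpa using hz
      rw [enc_apply] at h1
      simp only [Fin.val_last] at h1
      have h2 := lt_pow_of_fin ((enc d).symm z)
      by_contra hlt
      push Not at hlt
      have h3 : (((enc d).symm z).val).testBit d = true := by
        rw [Nat.testBit_eq_decide_div_mod_eq]
        have : ((enc d).symm z).val / 2 ^ d = 1 := by
          apply Nat.div_eq_of_lt_le
          · simpa using hlt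
          · simpa [pow_succ, mul_comm] using h2
        simp [this]
      rw [h3] at h1
      exact absurd h1 (by simp)
    rw [key z hz, key w hw] at h'
    have : z = w := by
      have := Fin.ext h'
      exact (enc d).symm.injective this
    exact Subtype.ext this
  · intro u
    have hu := u.isLt
    refine ⟨⟨enc d ⟨u.val, by omega⟩, ?_⟩, ?_⟩
    · rw [enc_apply]
      exact Nat.testBit_lt_two_pow (by simpa using hu)
    · ext
      rw [low_eq_of d ⟨u.val, by omega⟩ _ (fun i _ => rfl)]
      exact Nat.mod_eq_of_lt hu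

open Crest.ProbabilityR.Shuffle in
lemma enc_step (d : ℕ) (c : Fin (2 ^ d) → Bool) (x : Fin (2 * 2 ^ d)) :
    enc d (stepPos (2 ^ d) c x) = (rho d * sw (Fin.last d) (fun z => c (low d z))) (enc d x) := by
  have hx := lt_pow_of_fin x
  have hd : decide (2 ^ d ≤ x.val) = x.val.testBit d := by
    rw [Nat.testBit_eq_decide_div_mod_eq]
    by_cases h : 2 ^ d ≤ x.val
    · have : x.val / 2 ^ d = 1 := by
        apply Nat.div_eq_of_lt_le
        · simpa using h
        · simpa [pow_succ, mul_comm] using hx
      simp [this, h]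
    · have : x.val / 2 ^ d = 0 := Nat.div_eq_of_lt (by omega)
      simp [this, h]
  have hl : low d (rp (Fin.last d) (enc d x)) = ⟨x.val % 2 ^ d, Nat.mod_lt _ (by positivity)⟩ := by
    ext; exact low_rp d x
  funext i
  rw [Equiv.Perm.mul_apply, rho_apply, enc_apply, sw_apply]
  simp only [stepPos, swf, hl]
  by_cases hi : i = 0
  · subst hi
    have h0 : (0 : Fin (d + 1)) - 1 = Fin.last d := by rw [zero_sub]; exact neg_one_last d
    rw [h0, Function.update_self, enc_apply, hd]
    simp only [Fin.val_zero, Nat.testBit_zero, Fin.val_last]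
    split_ifs with h
    · rw [h]
      have : (2 * (x.val % 2 ^ d) + 1) % 2 = 1 := by omega
      simp [this]
    · have h' : (x.val.testBit d ^^ c ⟨x.val % 2 ^ d, Nat.mod_lt _ (by positivity)⟩) = false := by
        simpa using h
      rw [h']
      simp
  · obtain ⟨j, rfl⟩ := Fin.exists_succ_eq.mpr hi
    have hj : (j.succ - 1 : Fin (d + 1)).val = j.val := by
      rw [Fin.val_sub_one_of_ne_zero (Fin.succ_ne_zero j)]
      simp
    have hj' : (j.succ - 1 : Fin (d + 1)) ≠ Fin.last d := by
      intro h
      have := congrArg Fin.val h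
      rw [hj] at this
      simp at this
      have := j.isLt
      omega
    rw [Function.update_of_ne hj', enc_apply, hj, Fin.val_succ]
    rw [Nat.testBit_succ]
    have hdiv : ∀ b : ℕ, b < 2 → (2 * (x.val % 2 ^ d) + b) / 2 = x.val % 2 ^ d := by
      intro b hb; omega
    rw [hdiv _ (by split_ifs <;> norm_num), Nat.testBit_mod_two_pow]
    simp

/-- the physical map after `t` shuffles, on bit vectors -/
noncomputable def S (d : ℕ) : (t : ℕ) → (Fin t → Fin (2 ^ d) → Bool) → Equiv.Perm (X (d + 1))
  | 0, _ => 1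
  | t + 1, cs => (rho d * sw (Fin.last d) (fun z => cs (Fin.last t) (low d z))) *
      S d t (fun i => cs i.castSucc)

open Crest.ProbabilityR.Shuffle in
lemma enc_iter (d t : ℕ) (cs : Fin t → Fin (2 ^ d) → Bool) (x : Fin (2 * 2 ^ d)) :
    enc d (iterPos (2 ^ d) t cs x) = S d t cs (enc d x) := by
  induction t with
  | zero => rfl
  | succ t ih =>
    simp only [iterPos, S]
    rw [enc_step, ih]
    rfl

lemma av_S (d k t : ℕ) (x y : Om k (d + 1)) :
    av (fun cs : Fin t → Fin (2 ^ d) → Bool => if act (S d t cs) x = y then (1 : ℝ) else 0) =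
      ((Pm (d + 1) k (Fin.last d) * Rm k (rho d)) ^ t) x y := by
  induction t generalizing y with
  | zero =>
    simp only [S, act_one, pow_zero, Matrix.one_apply]
    rw [av_const]
  | succ t ih =>
    have h1 : av (fun cs : Fin (t + 1) → Fin (2 ^ d) → Bool =>
        if act (S d (t + 1) cs) x = y then (1 : ℝ) else 0) =
        av (fun p : (Fin (2 ^ d) → Bool) × (Fin t → Fin (2 ^ d) → Bool) =>
          if act (S d (t + 1) (Fin.snocEquiv (fun _ : Fin (t + 1) => Fin (2 ^ d) → Bool) p)) x = y
            then (1 : ℝ) else 0) :=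
      (av_equiv (Fin.snocEquiv (fun _ : Fin (t + 1) => Fin (2 ^ d) → Bool)) _).symm
    rw [h1, av_prod]
    have h2 : ∀ (c : Fin (2 ^ d) → Bool) (cs : Fin t → Fin (2 ^ d) → Bool),
        S d (t + 1) (Fin.snocEquiv (fun _ : Fin (t + 1) => Fin (2 ^ d) → Bool) (c, cs)) =
          (rho d * sw (Fin.last d) (fun z => c (low d z))) * S d t cs := by
      intro c cs
      simp [S, Fin.snocEquiv]
    simp only [h2]
    rw [av_comm]
    have h3 : ∀ z y : Om k (d + 1),
        av (fun c : Fin (2 ^ d) → Bool =>
          if act (rho d * sw (Fin.last d) (fun z => c (low d z))) z = y then (1 : ℝ) else 0) =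
        (Pm (d + 1) k (Fin.last d) * Rm k (rho d)) z y := by
      intro z y
      rw [mul_Rm_apply]
      have := av_col (d + 1) (Fin.last d) (low d) (low_bij d)
        (fun g => if act (rho d * g) z = y then (1 : ℝ) else 0)
      rw [this]
      refine av_congr fun c => ?_
      rw [act_mul]
      exact if_congr (act_eq_iff (rho d) _ _) rfl rfl
    rw [pow_succ, Matrix.mul_apply]
    simp_rw [← h3, ← ih, ← av_mul_right]
    rw [← av_sum]
    refine av_congr fun cs => ?_
    simp_rw [← av_mul_left]
    rw [← av_sum]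
    refine av_congr fun c => ?_
    rw [act_mul, Finset.sum_eq_single (act (S d t cs) x)]
    · simp
    · intro z _ hz
      simp [hz.symm]
    · intro h'; exact absurd (mem_univ _) h'

lemma Tm_pow_apply (d r k : ℕ) (x y : Om k (d + 1)) :
    ((Tm (d + 1) k) ^ r) x y =
      av (fun cs : Fin (r * (d + 1)) → Fin (2 ^ d) → Bool =>
        if act (S d (r * (d + 1)) cs) x = y then (1 : ℝ) else 0) := by
  rw [av_S, Tm_eq, ← pow_mul, mul_comm r]

open Crest.ProbabilityR.Shuffle in
theorem main : Spec.Thorp := by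
  classical
  intro d r x0
  unfold tvFromUniform
  congr 1
  have hx0 : Function.Bijective x0 := by
    rw [Fintype.bijective_iff_injective_and_card]
    exact ⟨x0.injective, by simp⟩
  -- the bijection between permutations and states of the full deck
  let Φ : Equiv.Perm (Fin (2 * 2 ^ d)) → Om (2 ^ (d + 1)) (d + 1) :=
    fun g => act ((enc d).permCongr g) x0
  have hΦi : Function.Injective Φ := by
    intro g g' h
    apply (enc d).permCongr.injective
    ext1 z
    obtain ⟨i, rfl⟩ := hx0.2 z
    have := congrArg (fun y : Om (2 ^ (d + 1)) (d + 1) => y i) h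
    simpa [Φ] using this
  have hΦ : Function.Bijective Φ := by
    rw [Fintype.bijective_iff_injective_and_card]
    refine ⟨hΦi, ?_⟩
    rw [Fintype.card_perm, card_Om_full, Fintype.card_fin]
    congr 1
    rw [pow_succ]; ring
  have hfac : (2 * 2 ^ d).factorial = (2 ^ (d + 1)).factorial := by
    congr 1
    rw [pow_succ]; ring
  rw [hfac]
  refine Fintype.sum_bijective Φ hΦ _ _ ?_
  intro g
  congr 2
  rw [Tm_pow_apply]
  unfold Crest.FinProb.uniformProb
  rw [av]
  congr 1
  rw [Finset.card_filter]
  push_cast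
  refine Finset.sum_congr rfl fun cs _ => ?_
  have hiff : cs ∈ {cs : Fin (r * (d + 1)) → Fin (2 ^ d) → Bool | iterPos (2 ^ d) (r * (d + 1)) cs = ⇑g} ↔
      act (S d (r * (d + 1)) cs) x0 = Φ g := by
    change _ = _ ↔ _
    constructor
    · intro h
      ext i
      simp only [Φ, act_apply, Equiv.permCongr_apply]
      rw [← h, enc_iter]
      simp
    · intro h
      funext x
      obtain ⟨i, hi⟩ := hx0.2 (enc d x)
      have h1 := congrArg (fun y : Om (2 ^ (d + 1)) (d + 1) => y i) h
      simp only [Φ, act_apply, Equiv.permCongr_apply, hi, Equiv.symm_apply_apply] at h1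
      rw [← enc_iter] at h1
      exact (enc d).injective h1
  by_cases h : act (S d (r * (d + 1)) cs) x0 = Φ g
  · rw [if_pos (hiff.mpr h), if_pos h]
  · rw [if_neg (fun h' => h (hiff.mp h')), if_neg h]

end Crest.Agent.ThpThorp
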