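import Crest.Agent.ThpSpec

/-! Module TRINJ of rid 155 (S0222), by helper12. -/

set_option autoImplicit false

open Finset

namespace Crest.Agent.ThpTrInj

theorem main : Crest.Agent.Thp.Spec.TrInj := by
  intro V W _ _ _ _ _ _ A B R hA hA0 hB hB0 hR hRA
  let U : Submodule ℝ W := LinearMap.range R
  let e : V ≃ₗ[ℝ] U := LinearEquiv.ofInjective R hR
  let π : W →ₗ[ℝ] U := (U.orthogonalProjectionOnto : W →L[ℝ] U).toLinearMap
  let S : W →ₗ[ℝ] V := e.symm.toLinearMap ∘ₗ π
  have hπU : ∀ u : U, π u = u := by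
    intro u
    exact Submodule.orthogonalProjectionOnto_mem_subspace_eq_self u
  have hSR : ∀ v, S (R v) = v := by
    intro v
    have h1 : R v = ((e v : U) : W) := rfl
    show e.symm (π (R v)) = v
    rw [h1, hπU, LinearEquiv.symm_apply_apply]
  have hRS : ∀ w, R (S w) = (π w : W) := by
    intro w
    have h1 : R (S w) = ((e (S w) : U) : W) := rfl
    rw [h1]
    show ((e (e.symm (π w)) : U) : W) = _
    rw [LinearEquiv.apply_symm_apply]
  have h1 : A = S ∘ₗ (B ∘ₗ R) := by
    apply LinearMap.ext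
    intro v
    show A v = S (B (R v))
    rw [← hRA, hSR]
  have h2 : LinearMap.trace ℝ V A = LinearMap.trace ℝ W (B ∘ₗ (R ∘ₗ S)) := by
    rw [h1, LinearMap.trace_comp_comm', LinearMap.comp_assoc]
  let Q : W →ₗ[ℝ] W := LinearMap.id - R ∘ₗ S
  have hQ : ∀ w, Q w = w - (π w : W) := by
    intro w
    show w - R (S w) = _
    rw [hRS]
  have hQQ : Q ∘ₗ Q = Q := by
    apply LinearMap.ext
    intro w
    show Q (Q w) = Q w
    rw [hQ (Q w), hQ w, map_sub, hπU]
    simp
  have hQs : ∀ x y, inner ℝ (Q x) y = inner ℝ x (Q y) := by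
    intro x y
    rw [hQ, hQ, inner_sub_left, inner_sub_right]
    congr 1
    exact Submodule.inner_starProjection_left_eq_right U x y
  have h3 : LinearMap.trace ℝ W B - LinearMap.trace ℝ V A = LinearMap.trace ℝ W (Q ∘ₗ (B ∘ₗ Q)) := by
    rw [LinearMap.trace_comp_comm', LinearMap.comp_assoc, hQQ, h2, ← map_sub]
    congr 1
    apply LinearMap.ext
    intro w
    simp [Q]
  have h4 : 0 ≤ LinearMap.trace ℝ W (Q ∘ₗ (B ∘ₗ Q)) := by
    rw [LinearMap.trace_eq_sum_inner _ (stdOrthonormalBasis ℝ W)]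
    apply Finset.sum_nonneg
    intro i _
    have h5 := hB0 (Q (stdOrthonormalBasis ℝ W i))
    rw [real_inner_comm, LinearMap.comp_apply, hQs]
    exact h5
  linarith

end Crest.Agent.ThpTrInj
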