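import Mathlib
import Crest.Agent.ThpDefs
import Crest.Agent.ThpLib
import Crest.Agent.ThpSpec
import Crest.Agent.ThpLoop

/-!
rid 155, module TRLOOP: trace and looping combined.
-/

namespace Crest.Agent.ThpTrLoop
open Finset Crest.Agent.Thp

theorem main (hT : Spec.Trace) : Spec.TrLoop := by
  intro D k hk
  have hne : Nonempty (Om k D) := nonempty_Om hk
  refine (hT (Om k D) (Bm D k) Bm_nonneg Bm_symm Bm_row).trans ?_
  apply mul_le_mul_of_nonneg_left _ (by positivity)
  refine Finset.sum_le_sum fun x _ => ?_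
  have h0 : 0 ≤ ∑ y, Bm D k x y * ((Fintype.card (Om k D) : ℝ) * Bm D k x y) ^ ((1 : ℝ) / 15) :=
    Finset.sum_nonneg fun y _ => mul_nonneg (Bm_nonneg x y)
      (Real.rpow_nonneg (mul_nonneg (Nat.cast_nonneg _) (Bm_nonneg x y)) _)
  apply pow_le_pow_left₀ h0
  calc ∑ y, Bm D k x y * ((Fintype.card (Om k D) : ℝ) * Bm D k x y) ^ ((1 : ℝ) / 15)
      ≤ ∑ y, Bm D k x y * (((2 : ℝ) ^ D) ^ k * Bm D k x y) ^ ((1 : ℝ) / 15) := by
        refine Finset.sum_le_sum fun y _ => ?_
        apply mul_le_mul_of_nonneg_left _ (Bm_nonneg x y)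
        apply Real.rpow_le_rpow (mul_nonneg (Nat.cast_nonneg _) (Bm_nonneg x y)) _ (by norm_num)
        exact mul_le_mul_of_nonneg_right (card_Om_le k D) (Bm_nonneg x y)
    _ ≤ ∑ y, av (fun C : (Fin D → Col D) × (Fin D → Col D) =>
          if act (out C.2 D * mid C.1 D) x = y then
            ∏ s : Fin D, (cl s (fun i => inn C.1 s (x i))
              (fun i => out C.2 s (mid C.1 D (x i))) : ℝ) ^ ((1 : ℝ) / 15)
          else 0) := Finset.sum_le_sum fun y _ => ThpLoop.main D k (1 / 15) (by norm_num) x y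
    _ = _ := by
        rw [← av_sum]
        refine av_congr fun C => ?_
        rw [Finset.sum_ite_eq]
        simp

end Crest.Agent.ThpTrLoop
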