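import Mathlib
import Crest.Agent.ThpSpec

set_option autoImplicit false

namespace Crest.Agent.ThpTrace
open Finset

variable {Ω : Type} [Fintype Ω] [DecidableEq Ω]

omit [DecidableEq Ω] in
/-- sums over tuples: split off the first coordinate -/
lemma sum_cons {n : ℕ} (f : (Fin (n + 1) → Ω) → ℝ) :
    ∑ x : Fin (n + 1) → Ω, f x = ∑ a : Ω, ∑ y : Fin n → Ω, f (Fin.cons a y) := by
  rw [← (Fin.consEquiv (fun _ : Fin (n + 1) => Ω)).sum_comp, Fintype.sum_prod_type]
  rfl

/-- path sums -/
theorem path (M : Matrix Ω Ω ℝ) : ∀ (n : ℕ) (F : Ω → Ω → ℝ),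
    ∑ x : Fin (n + 1) → Ω, F (x 0) (x (Fin.last n)) *
      ∏ i : Fin n, M (x i.castSucc) (x i.succ) = ∑ a, ∑ b, F a b * (M ^ n) a b := by
  intro n
  induction n with
  | zero =>
    intro F
    rw [sum_cons]
    refine Finset.sum_congr rfl fun a _ => ?_
    simp [Matrix.one_apply]
  | succ n ih =>
    intro F
    rw [sum_cons]
    have h1 : ∀ a : Ω, ∀ y : Fin (n + 1) → Ω,
        F ((Fin.cons a y : Fin (n + 2) → Ω) 0) ((Fin.cons a y : Fin (n + 2) → Ω) (Fin.last (n + 1))) *
          ∏ i : Fin (n + 1), M ((Fin.cons a y : Fin (n + 2) → Ω) i.castSucc)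
            ((Fin.cons a y : Fin (n + 2) → Ω) i.succ) =
        (F a (y (Fin.last n)) * M a (y 0)) * ∏ i : Fin n, M (y i.castSucc) (y i.succ) := by
      intro a y
      rw [Fin.prod_univ_succ]
      have e1 : (Fin.cons a y : Fin (n + 2) → Ω) (Fin.last (n + 1)) = y (Fin.last n) := by
        rw [← Fin.succ_last, Fin.cons_succ]
      have e2 : ∀ i : Fin n, (Fin.cons a y : Fin (n + 2) → Ω) (i.succ).castSucc = y i.castSucc := by
        intro i
        rw [← Fin.succ_castSucc, Fin.cons_succ]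
      simp only [Fin.castSucc_zero, Fin.cons_zero, Fin.cons_succ, e1, e2]
      ring
    simp only [h1]
    rw [Finset.sum_comm]
    have h2 : ∀ y : Fin (n + 1) → Ω, ∑ a : Ω, (F a (y (Fin.last n)) * M a (y 0)) *
        ∏ i : Fin n, M (y i.castSucc) (y i.succ) =
        (fun c b => ∑ a : Ω, F a b * M a c) (y 0) (y (Fin.last n)) *
          ∏ i : Fin n, M (y i.castSucc) (y i.succ) := by
      intro y
      rw [Finset.sum_mul]
    simp only [h2]
    rw [ih (fun c b => ∑ a : Ω, F a b * M a c)]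
    simp only [Finset.sum_mul]
    rw [Finset.sum_comm]
    have h3 : ∀ b : Ω, ∑ c : Ω, ∑ a : Ω, F a b * M a c * (M ^ n) c b =
        ∑ a : Ω, F a b * (M ^ (n + 1)) a b := by
      intro b
      rw [Finset.sum_comm]
      refine Finset.sum_congr rfl fun a _ => ?_
      rw [pow_succ' M n, Matrix.mul_apply, Finset.mul_sum]
      refine Finset.sum_congr rfl fun c _ => by ring
    simp only [h3]
    rw [Finset.sum_comm]

/-- powers of a row-stochastic matrix -/
lemma pow_row {T : Matrix Ω Ω ℝ} (hT : ∀ x, ∑ y, T x y = 1) : ∀ (n : ℕ) (x : Ω),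
    ∑ y, (T ^ n) x y = 1 := by
  intro n
  induction n with
  | zero => intro x; simp [Matrix.one_apply]
  | succ n ih =>
    intro x
    rw [pow_succ' T n]
    simp only [Matrix.mul_apply]
    rw [Finset.sum_comm]
    simp only [← Finset.mul_sum, ih, mul_one, hT]

/-- the marginals of a stationary path measure -/
theorem marg {T : Matrix Ω Ω ℝ} (hT : ∀ x, ∑ y, T x y = 1) (u : Ω → ℝ)
    (hu : ∀ y, ∑ x, u x * T x y = u y) : ∀ (n : ℕ) (φ : Ω → ℝ) (i : Fin (n + 1)),
    ∑ x : Fin (n + 1) → Ω, u (x 0) * (∏ l : Fin n, T (x l.castSucc) (x l.succ)) * φ (x i) =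
      ∑ a, u a * φ a := by
  have h0 : ∀ (n : ℕ) (v : Ω → ℝ), ∑ x : Fin (n + 1) → Ω, v (x 0) *
      ∏ l : Fin n, T (x l.castSucc) (x l.succ) = ∑ a, v a := by
    intro n v
    rw [path T n (fun a _ => v a)]
    refine Finset.sum_congr rfl fun a _ => ?_
    rw [← Finset.mul_sum, pow_row hT, mul_one]
  intro n
  induction n with
  | zero =>
    intro φ i
    have hi : i = 0 := Fin.fin_one_eq_zero i
    subst hi
    rw [← h0 0 (fun a => u a * φ a)]
    refine Finset.sum_congr rfl fun x _ => by ring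
  | succ n ih =>
    intro φ i
    refine Fin.cases ?_ (fun j => ?_) i
    · rw [← h0 (n + 1) (fun a => u a * φ a)]
      refine Finset.sum_congr rfl fun x _ => by ring
    · rw [sum_cons, Finset.sum_comm, ← ih φ j]
      refine Finset.sum_congr rfl fun y _ => ?_
      have h1 : ∀ a : Ω, u ((Fin.cons a y : Fin (n + 2) → Ω) 0) *
          (∏ l : Fin (n + 1), T ((Fin.cons a y : Fin (n + 2) → Ω) l.castSucc)
            ((Fin.cons a y : Fin (n + 2) → Ω) l.succ)) *
            φ ((Fin.cons a y : Fin (n + 2) → Ω) j.succ) =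
          (u a * T a (y 0)) * ((∏ l : Fin n, T (y l.castSucc) (y l.succ)) * φ (y j)) := by
        intro a
        rw [Fin.prod_univ_succ]
        have e2 : ∀ i : Fin n,
            (Fin.cons a y : Fin (n + 2) → Ω) (i.succ).castSucc = y i.castSucc := by
          intro i
          rw [← Fin.succ_castSucc, Fin.cons_succ]
        simp only [Fin.castSucc_zero, Fin.cons_zero, Fin.cons_succ, e2]
        ring
      simp only [h1]
      rw [← Finset.sum_mul, hu]
      ring

/-- walks are bounded by degrees -/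
theorem walk (K : Matrix Ω Ω ℝ) (hK : ∀ x y, 0 ≤ K x y) (hs : ∀ x y, K x y = K y x)
    (hd : ∀ x, 0 < ∑ y, K x y) :
    ∑ a, ∑ b, (K ^ 15) a b ≤ ∑ x, (∑ y, K x y) ^ 15 := by
  classical
  set d : Ω → ℝ := fun x => ∑ y, K x y with hdd
  set T : Matrix Ω Ω ℝ := fun x y => K x y / d x with hTT
  have hT : ∀ x, ∑ y, T x y = 1 := by
    intro x
    simp only [hTT]
    rw [← Finset.sum_div]
    exact div_self (hd x).ne'
  have hu : ∀ y, ∑ x, d x * T x y = d y := by
    intro y
    have : ∀ x, d x * T x y = K y x := by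
      intro x
      simp only [hTT]
      rw [mul_div_cancel₀ _ (hd x).ne', hs]
    simp only [this]
    rfl
  -- the left side as a path sum with 14 vertices
  have h1 : ∑ a, ∑ b, (K ^ 15) a b = ∑ a, ∑ b, (d a * d b) * (K ^ 13) a b := by
    have e : K ^ 15 = K * (K ^ 13 * K) := by
      rw [← pow_succ, ← pow_succ']
    rw [e]
    simp only [Matrix.mul_apply, Finset.mul_sum]
    have e1 : ∀ a : Ω, ∑ b : Ω, ∑ x : Ω, ∑ y : Ω, K a x * ((K ^ 13) x y * K y b) =
        ∑ x : Ω, ∑ y : Ω, K a x * ((K ^ 13) x y * d y) := by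
      intro a
      rw [Finset.sum_comm]
      refine Finset.sum_congr rfl fun x _ => ?_
      rw [Finset.sum_comm]
      refine Finset.sum_congr rfl fun y _ => ?_
      rw [← Finset.mul_sum, ← Finset.mul_sum]
    simp only [e1]
    rw [Finset.sum_comm]
    refine Finset.sum_congr rfl fun x _ => ?_
    rw [Finset.sum_comm]
    refine Finset.sum_congr rfl fun y _ => ?_
    rw [← Finset.sum_mul]
    have : ∑ i, K i x = d x := by
      simp only [hdd]
      exact Finset.sum_congr rfl fun i _ => hs i x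
    rw [this]
    ring
  rw [h1, ← path K 13 (fun a b => d a * d b)]
  have h2 : ∀ x : Fin 14 → Ω, (d (x 0) * d (x (Fin.last 13))) *
      ∏ i : Fin 13, K (x i.castSucc) (x i.succ) ≤
      ∑ j : Fin 14, (1 / 14 : ℝ) * (d (x 0) * (∏ l : Fin 13, T (x l.castSucc) (x l.succ)) *
        (fun a => d a ^ 14) (x j)) := by
    intro x
    have e1 : (d (x 0) * d (x (Fin.last 13))) * ∏ i : Fin 13, K (x i.castSucc) (x i.succ) =
        (d (x 0) * ∏ l : Fin 13, T (x l.castSucc) (x l.succ)) * ∏ j : Fin 14, d (x j) := by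
      rw [Fin.prod_univ_castSucc (fun j : Fin 14 => d (x j))]
      have : ∏ i : Fin 13, K (x i.castSucc) (x i.succ) =
          (∏ l : Fin 13, T (x l.castSucc) (x l.succ)) * ∏ j : Fin 13, d (x j.castSucc) := by
        rw [← Finset.prod_mul_distrib]
        refine Finset.prod_congr rfl fun i _ => ?_
        simp only [hTT]
        rw [div_mul_cancel₀ _ (hd _).ne']
      rw [this]
      ring
    rw [e1]
    have e2 : ∏ j : Fin 14, d (x j) ≤ ∑ j : Fin 14, (1 / 14 : ℝ) * d (x j) ^ 14 := by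
      have := Real.geom_mean_le_arith_mean_weighted (Finset.univ : Finset (Fin 14))
        (fun _ => (1 / 14 : ℝ)) (fun j => d (x j) ^ 14) (by intros; norm_num) (by simp)
        (by intro j _; positivity)
      refine le_trans (le_of_eq ?_) this
      refine Finset.prod_congr rfl fun j _ => ?_
      have hp : (0 : ℝ) ≤ d (x j) := (hd _).le
      rw [← Real.rpow_natCast, ← Real.rpow_mul hp]
      norm_num
    have e3 : 0 ≤ d (x 0) * ∏ l : Fin 13, T (x l.castSucc) (x l.succ) := by
      refine mul_nonneg (hd _).le (Finset.prod_nonneg fun l _ => ?_)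
      exact div_nonneg (hK _ _) (hd _).le
    calc _ ≤ (d (x 0) * ∏ l : Fin 13, T (x l.castSucc) (x l.succ)) *
          ∑ j : Fin 14, (1 / 14 : ℝ) * d (x j) ^ 14 := mul_le_mul_of_nonneg_left e2 e3
      _ = _ := by
        rw [Finset.mul_sum]
        refine Finset.sum_congr rfl fun j _ => by ring
  refine (Finset.sum_le_sum fun x _ => h2 x).trans (le_of_eq ?_)
  rw [Finset.sum_comm]
  simp only [← Finset.mul_sum]
  have h3 : ∀ j : Fin 14, ∑ x : Fin 14 → Ω,
      d (x 0) * (∏ l : Fin 13, T (x l.castSucc) (x l.succ)) * (fun a => d a ^ 14) (x j) =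
      ∑ a, d a * d a ^ 14 := fun j => marg hT d hu 13 (fun a => d a ^ 14) j
  simp only [h3]
  rw [Finset.sum_const, Finset.card_univ, Fintype.card_fin]
  simp only [hdd]
  rw [nsmul_eq_mul]
  have : ∀ a : Ω, (∑ y, K a y) * (∑ y, K a y) ^ 14 = (∑ y, K a y) ^ 15 := fun a => by ring
  simp only [this]
  push_cast
  ring

/-- the trace as a cyclic sum -/
lemma trace_cyc (P : Matrix Ω Ω ℝ) : (P ^ 16).trace =
    ∑ x : Fin 16 → Ω, ∏ i : Fin 16, P (x i) (x (i + 1)) := by
  have h := path P 15 (fun a b => P b a)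
  have e1 : ∀ x : Fin 16 → Ω, ∏ i : Fin 16, P (x i) (x (i + 1)) =
      P (x (Fin.last 15)) (x 0) * ∏ i : Fin 15, P (x i.castSucc) (x i.succ) := by
    intro x
    rw [Fin.prod_univ_castSucc]
    have : (Fin.last 15 : Fin 16) + 1 = 0 := rfl
    rw [this, mul_comm]
    congr 1
  simp only [e1]
  rw [h, pow_succ P 15]
  simp only [Matrix.trace, Matrix.diag, Matrix.mul_apply]
  refine Finset.sum_congr rfl fun a _ => ?_
  refine Finset.sum_congr rfl fun b _ => by ring

/-- all shifts of the open cyclic sum agree -/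
lemma shift (Q : Matrix Ω Ω ℝ) (j : Fin 16) :
    ∑ x : Fin 16 → Ω, ∏ i ∈ Finset.univ.erase j, Q (x i) (x (i + 1)) =
      ∑ a, ∑ b, (Q ^ 15) a b := by
  have h := path Q 15 (fun _ _ => (1 : ℝ))
  simp only [one_mul] at h
  rw [← h]
  -- shift by c = j + 1 : i ↦ i + (j + 1)
  rw [← (Equiv.arrowCongr (Equiv.addRight (j + 1)) (Equiv.refl Ω)).sum_comp]
  refine Finset.sum_congr rfl fun x _ => ?_
  have e1 : ∀ i : Fin 16, ((Equiv.arrowCongr (Equiv.addRight (j + 1)) (Equiv.refl Ω)) x) i =
      x (i - (j + 1)) := by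
    intro i
    change x ((Equiv.addRight (j + 1)).symm i) = _
    rw [Equiv.addRight_symm, Equiv.coe_addRight, sub_eq_add_neg]
  simp only [e1]
  -- reindex the product
  have e2 : ∏ i ∈ Finset.univ.erase j, Q (x (i - (j + 1))) (x (i + 1 - (j + 1))) =
      ∏ i ∈ Finset.univ.erase (Fin.last 15), Q (x i) (x (i + 1)) := by
    refine Finset.prod_bij' (fun i _ => i - (j + 1)) (fun i _ => i + (j + 1)) ?_ ?_ ?_ ?_ ?_
    · intro i hi
      simp only [Finset.mem_erase, Finset.mem_univ, and_true] at hi ⊢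
      intro h
      apply hi
      have h2 : i = Fin.last 15 + (j + 1) := by rw [← h]; abel
      rw [h2]
      have : (Fin.last 15 : Fin 16) = -1 := rfl
      rw [this]; abel
    · intro i hi
      simp only [Finset.mem_erase, Finset.mem_univ, and_true] at hi ⊢
      intro h
      apply hi
      have h2 : i = j - (j + 1) := eq_sub_of_add_eq h
      rw [h2]
      have : (Fin.last 15 : Fin 16) = -1 := rfl
      rw [this]; abel
    · intro i _; abel
    · intro i _; abel
    · intro i _
      congr 2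
      abel
  rw [e2]
  have e3 : ∏ i ∈ Finset.univ.erase (Fin.last 15), Q (x i) (x (i + 1)) =
      ∏ i : Fin 15, Q (x i.castSucc) (x i.succ) := by
    have hset : (Finset.univ.erase (Fin.last 15) : Finset (Fin 16)) =
        Finset.univ.map Fin.castSuccEmb := by
      ext i
      simp only [Finset.mem_erase, Finset.mem_univ, and_true, Finset.mem_map, true_and]
      constructor
      · intro h
        refine ⟨i.castPred h, ?_⟩
        simp
      · rintro ⟨k, rfl⟩
        exact (Fin.castSucc_lt_last k).ne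
    rw [hset, Finset.prod_map]
    refine Finset.prod_congr rfl fun i _ => ?_
    simp only [Fin.coe_castSuccEmb]
    rw [Fin.coeSucc_eq_succ]
  rw [e3]

theorem main : Crest.Agent.Thp.Spec.Trace := by
  intro Ω _ _ _ P hP hs h1
  set N : ℝ := (Fintype.card Ω : ℝ) with hN
  have hN0 : 0 < N := by
    rw [hN]; exact_mod_cast Fintype.card_pos
  set Q : Matrix Ω Ω ℝ := fun x y => (P x y) ^ ((16 : ℝ) / 15) with hQ
  set K : Matrix Ω Ω ℝ := fun x y => P x y * (N * P x y) ^ ((1 : ℝ) / 15) with hK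
  have hKQ : K = (N ^ ((1 : ℝ) / 15)) • Q := by
    funext x y
    change P x y * (N * P x y) ^ ((1 : ℝ) / 15) = N ^ ((1 : ℝ) / 15) * (P x y) ^ ((16 : ℝ) / 15)
    rw [Real.mul_rpow hN0.le (hP x y)]
    have : (P x y) ^ ((16 : ℝ) / 15) = P x y * (P x y) ^ ((1 : ℝ) / 15) := by
      rcases eq_or_lt_of_le (hP x y) with h | h
      · rw [← h, Real.zero_rpow (by norm_num), Real.zero_rpow (by norm_num)]; ring
      · rw [show (16 : ℝ) / 15 = 1 + 1 / 15 by norm_num, Real.rpow_add h, Real.rpow_one]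
    rw [this]
    ring
  have hNK : ((N ^ ((1 : ℝ) / 15)) ^ 15 : ℝ) = N := by
    rw [← Real.rpow_natCast, ← Real.rpow_mul hN0.le]
    norm_num
  -- first AM-GM
  have hA : (P ^ 16).trace ≤ ∑ a, ∑ b, (Q ^ 15) a b := by
    rw [trace_cyc]
    have key : ∀ x : Fin 16 → Ω, ∏ i : Fin 16, P (x i) (x (i + 1)) ≤
        ∑ j : Fin 16, (1 / 16 : ℝ) * ∏ i ∈ Finset.univ.erase j, Q (x i) (x (i + 1)) := by
      intro x
      set e : Fin 16 → ℝ := fun i => P (x i) (x (i + 1)) with he
      have he0 : ∀ i, 0 ≤ e i := fun i => hP _ _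
      have := Real.geom_mean_le_arith_mean_weighted (Finset.univ : Finset (Fin 16))
        (fun _ => (1 / 16 : ℝ)) (fun j => ∏ i ∈ Finset.univ.erase j, (e i) ^ ((16 : ℝ) / 15))
        (by intros; norm_num) (by simp)
        (by intro j _; exact Finset.prod_nonneg fun i _ => Real.rpow_nonneg (he0 i) _)
      refine le_trans (le_of_eq ?_) this
      have e1 : ∀ j : Fin 16, (∏ i ∈ Finset.univ.erase j, (e i) ^ ((16 : ℝ) / 15)) ^ (1 / 16 : ℝ) =
          ∏ i ∈ Finset.univ.erase j, (e i) ^ ((1 : ℝ) / 15) := by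
        intro j
        rw [← Real.finsetProd_rpow _ _ (fun i _ => Real.rpow_nonneg (he0 i) _)]
        refine Finset.prod_congr rfl fun i _ => ?_
        rw [← Real.rpow_mul (he0 i)]
        norm_num
      simp only [e1]
      have e2 : ∏ j : Fin 16, ∏ i ∈ Finset.univ.erase j, (e i) ^ ((1 : ℝ) / 15) =
          ∏ i : Fin 16, ∏ j ∈ Finset.univ.erase i, (e i) ^ ((1 : ℝ) / 15) := by
        refine Finset.prod_comm' ?_
        intro a b
        simp only [Finset.mem_univ, Finset.mem_erase, true_and, and_true]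
        exact ne_comm
      rw [e2]
      refine Finset.prod_congr rfl fun i _ => ?_
      rw [Finset.prod_const, Finset.card_erase_of_mem (Finset.mem_univ _), Finset.card_univ,
        Fintype.card_fin, ← Real.rpow_natCast, ← Real.rpow_mul (he0 i)]
      norm_num
    refine (Finset.sum_le_sum fun x _ => key x).trans (le_of_eq ?_)
    rw [Finset.sum_comm]
    simp only [← Finset.mul_sum]
    simp only [shift Q]
    rw [Finset.sum_const, Finset.card_univ, Fintype.card_fin, nsmul_eq_mul]
    push_cast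
    ring
  -- scaling
  have hB : ∑ a, ∑ b, (Q ^ 15) a b = (1 / N) * ∑ a, ∑ b, (K ^ 15) a b := by
    have : K ^ 15 = N • Q ^ 15 := by
      rw [hKQ, smul_pow, hNK]
    rw [this]
    simp only [Matrix.smul_apply, smul_eq_mul, ← Finset.mul_sum]
    field_simp
  have hK0 : ∀ x y, 0 ≤ K x y := fun x y =>
    mul_nonneg (hP x y) (Real.rpow_nonneg (mul_nonneg hN0.le (hP x y)) _)
  have hKs : ∀ x y, K x y = K y x := by
    intro x y
    simp only [hK]
    rw [hs x y]
  have hKd : ∀ x, 0 < ∑ y, K x y := by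
    intro x
    have : ∃ y, 0 < P x y := by
      by_contra hcon
      push Not at hcon
      have : ∑ y, P x y ≤ 0 := Finset.sum_nonpos fun y _ => hcon y
      rw [h1] at this
      linarith
    obtain ⟨y, hy⟩ := this
    refine Finset.sum_pos' (fun y _ => hK0 x y) ⟨y, Finset.mem_univ _, ?_⟩
    exact mul_pos hy (Real.rpow_pos_of_pos (mul_pos hN0 hy) _)
  have hC := walk K hK0 hKs hKd
  calc (P ^ 16).trace ≤ (1 / N) * ∑ a, ∑ b, (K ^ 15) a b := hA.trans (le_of_eq hB)
    _ ≤ (1 / N) * ∑ x, (∑ y, K x y) ^ 15 :=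
        mul_le_mul_of_nonneg_left hC (by positivity)

end Crest.Agent.ThpTrace
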