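import Mathlib
import Crest.Agent.ThpFinal
import Crest.Agent.ThpDECOMP
import Crest.Agent.ThpSchatten
import Crest.Agent.ThpTrInj
import Crest.Agent.ThpTrace
import Crest.Agent.ThpTrLoop
import Crest.Agent.ThpLoop
import Crest.Agent.ThpKern
import Crest.Agent.ThpPath
import Crest.Agent.ThpIso
import Crest.Agent.ThpOne
import Crest.Agent.ThpTwo
import Crest.Agent.ThpCore
import Crest.Agent.ThpCyc
import Crest.Agent.ThpHold
import Crest.Agent.ThpSmall
import Crest.Agent.ThpAlpha
import Crest.Agent.ThpOp
import Crest.Agent.ThpKill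
import Crest.Agent.ThpLowL
import Crest.Agent.ThpBeta
import Crest.Agent.ThpSum
import Crest.Agent.ThpThorp

/-! rid 155: everything except SECT, CONTENT, GAMMA. -/

namespace Crest.Agent.ThpAll
open Crest.Agent.Thp Crest.Agent.Thp.Spec

theorem main (hSect : Sect) (hContent : Content) (hGamma : TrInj → Gamma) :
    Filter.Tendsto
      (fun d : ℕ => Crest.ProbabilityR.Shuffle.tvFromUniform (2 ^ d) (1600 * (d + 1)))
      Filter.atTop (nhds 0) := by
  have hOne : One := ThpOne.main ThpPath.main
  have hTwo : Two := ThpTwo.main hOne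
  have hCore : Core := ThpCore.main hTwo ThpIso.main
  have hCyc : Cyc := ThpCyc.main hCore
  have hTrLoop : TrLoop := ThpTrLoop.main ThpTrace.main
  have hAlpha : Alpha := ThpAlpha.main hTrLoop hCyc ThpHold.main ThpSmall.main
  have hOp : Op := ThpOp.main hSect
  have hLowL : LowL := ThpLowL.main hContent ThpKill.main
  have hBeta : Beta := ThpBeta.main hOp hLowL
  have hDecomp : Decomp := ThpDecomp.main ThpSchatten.main ThpTrInj.main
  exact ThpFinal.main ThpThorp.main hDecomp hAlpha hBeta (hGamma ThpTrInj.main) ThpSum.main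

end Crest.Agent.ThpAll
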