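import Crest.Agent.ThpSpec

/-!
# rid 155, module CONTENT: content bound for the class sum of transpositions
-/

set_option autoImplicit false

namespace Crest.Agent.ThpContent

open Finset

section
variable {Z : Type} [Fintype Z] [DecidableEq Z] {V : Type} [AddCommGroup V] [Module ℝ V]

/-- permutations supported in `R` -/
def S (R : Finset Z) : Finset (Equiv.Perm Z) :=
  univ.filter (fun σ : Equiv.Perm Z => ∀ z, z ∉ R → σ z = z)

theorem mem_S {R : Finset Z} {σ : Equiv.Perm Z} : σ ∈ S R ↔ ∀ z, z ∉ R → σ z = z := by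
  simp [S]

theorem one_mem (R : Finset Z) : (1 : Equiv.Perm Z) ∈ S R := mem_S.mpr fun _ _ => rfl

theorem mul_mem {R : Finset Z} {σ τ : Equiv.Perm Z} (hσ : σ ∈ S R) (hτ : τ ∈ S R) :
    σ * τ ∈ S R := by
  rw [mem_S] at *
  intro z hz
  rw [Equiv.Perm.mul_apply, hτ z hz, hσ z hz]

theorem inv_mem {R : Finset Z} {σ : Equiv.Perm Z} (hσ : σ ∈ S R) : σ⁻¹ ∈ S R := by
  rw [mem_S] at *
  intro z hz
  rw [Equiv.Perm.inv_eq_iff_eq, hσ z hz]

theorem S_mono {R R' : Finset Z} (h : R ⊆ R') : S R ⊆ S R' := by
  intro σ hσ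
  rw [mem_S] at *
  exact fun z hz => hσ z (fun h' => hz (h h'))

theorem swap_mem {R : Finset Z} {i j : Z} (hi : i ∈ R) (hj : j ∈ R) : Equiv.swap i j ∈ S R := by
  rw [mem_S]
  intro z hz
  exact Equiv.swap_apply_of_ne_of_ne (fun h => hz (h ▸ hi)) (fun h => hz (h ▸ hj))

theorem map_mem {R : Finset Z} {σ : Equiv.Perm Z} (hσ : σ ∈ S R) {z : Z} (hz : z ∈ R) :
    σ z ∈ R := by
  by_contra h
  have h1 := mem_S.mp hσ _ h
  have := σ.injective h1
  rw [this] at h
  exact h hz

variable (ρ : Equiv.Perm Z →* (V →ₗ[ℝ] V))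

/-- the symmetriser -/
def P (R : Finset Z) (v : V) : V := ∑ σ ∈ S R, ρ σ v

theorem P_smul (R : Finset Z) (c : ℝ) (v : V) : P ρ R (c • v) = c • P ρ R v := by
  simp [P, Finset.smul_sum]

theorem rho_mul (σ τ : Equiv.Perm Z) (v : V) : ρ (σ * τ) v = ρ σ (ρ τ v) := by
  rw [map_mul]; rfl

theorem rho_P {R : Finset Z} {τ : Equiv.Perm Z} (hτ : τ ∈ S R) (v : V) :
    ρ τ (P ρ R v) = P ρ R v := by
  rw [P, map_sum]
  refine Finset.sum_nbij' (fun σ => τ * σ) (fun σ => τ⁻¹ * σ) ?_ ?_ ?_ ?_ ?_
  · intro σ hσ; exact mul_mem hτ hσ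
  · intro σ hσ; exact mul_mem (inv_mem hτ) hσ
  · intro σ _; simp
  · intro σ _; simp
  · intro σ _; rw [rho_mul]

theorem P_inv {R : Finset Z} {v : V} (h : ∀ τ ∈ S R, ρ τ v = v) :
    P ρ R v = ((S R).card : ℝ) • v := by
  rw [P, Finset.sum_congr rfl h, Finset.sum_const, Nat.cast_smul_eq_nsmul]

/-- coset decomposition -/
theorem P_insert {R : Finset Z} {j : Z} (hj : j ∉ R) (v : V) :
    P ρ (insert j R) v = ∑ i ∈ insert j R, ρ (Equiv.swap i j) (P ρ R v) := by
  simp only [P, map_sum]
  rw [← Finset.sum_product']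
  refine Finset.sum_nbij' (fun σ => (σ j, Equiv.swap (σ j) j * σ))
    (fun x => Equiv.swap x.1 j * x.2) ?_ ?_ ?_ ?_ ?_
  · intro σ hσ
    rw [mem_product]
    refine ⟨map_mem hσ (mem_insert_self _ _), ?_⟩
    rw [mem_S]
    intro z hz
    rw [Equiv.Perm.mul_apply]
    by_cases hzj : z = j
    · rw [hzj, Equiv.swap_apply_left]
    · have h1 : σ z = z := mem_S.mp hσ z (by simp [hzj, hz])
      rw [h1]
      refine Equiv.swap_apply_of_ne_of_ne ?_ hzj
      intro h
      rw [h] at h1
      exact hzj (h.trans (σ.injective h1))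
  · rintro ⟨i, τ⟩ hx
    rw [mem_product] at hx
    exact mul_mem (swap_mem hx.1 (mem_insert_self _ _)) (S_mono (Finset.subset_insert _ _) hx.2)
  · intro σ _
    show Equiv.swap (σ j) j * (Equiv.swap (σ j) j * σ) = σ
    rw [← mul_assoc, Equiv.swap_mul_self, one_mul]
  · rintro ⟨i, τ⟩ hx
    rw [mem_product] at hx
    have h1 : τ j = j := mem_S.mp hx.2 j hj
    have h2 : (Equiv.swap i j * τ) j = i := by
      rw [Equiv.Perm.mul_apply, h1, Equiv.swap_apply_right]
    show ((Equiv.swap i j * τ) j, Equiv.swap ((Equiv.swap i j * τ) j) j * (Equiv.swap i j * τ))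
      = (i, τ)
    rw [h2, ← mul_assoc, Equiv.swap_mul_self, one_mul]
  · intro σ _
    rw [← rho_mul, ← mul_assoc, Equiv.swap_mul_self, one_mul]

/-- class sum over ordered pairs of points of `Y` -/
def C (Y : Finset Z) (v : V) : V := ∑ z ∈ Y, ∑ z' ∈ Y, ρ (Equiv.swap z z') v

theorem C_comm {Y : Finset Z} {g : Equiv.Perm Z} (hg : g ∈ S Y) (v : V) :
    C ρ Y (ρ g v) = ρ g (C ρ Y v) := by
  simp only [C, map_sum]
  have hinv : ∀ z, g (g⁻¹ z) = z := fun z => by simp
  have hinv' : ∀ z, g⁻¹ (g z) = z := fun z => by simp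
  refine Finset.sum_nbij' (fun z => g⁻¹ z) (fun z => g z) ?_ ?_ ?_ ?_ ?_
  · intro z hz; exact map_mem (inv_mem hg) hz
  · intro z hz; exact map_mem hg hz
  · intro z _; exact hinv z
  · intro z _; exact hinv' z
  · intro z _
    refine Finset.sum_nbij' (fun z => g⁻¹ z) (fun z => g z) ?_ ?_ ?_ ?_ ?_
    · intro z hz; exact map_mem (inv_mem hg) hz
    · intro z hz; exact map_mem hg hz
    · intro z _; exact hinv z
    · intro z _; exact hinv' z
    · intro z' _
      rw [← rho_mul, ← rho_mul]
      congr 2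
      rw [Equiv.swap_apply_apply]
      · group
      
theorem C_P {Y R : Finset Z} (hR : R ⊆ Y) {g : Equiv.Perm Z} (hg : g ∈ S Y) {f : V} {μ : ℝ}
    (hf : C ρ Y f = μ • f) : C ρ Y (P ρ R (ρ g f)) = μ • P ρ R (ρ g f) := by
  have h1 : P ρ R (ρ g f) = ∑ σ ∈ S R, ρ (σ * g) f :=
    Finset.sum_congr rfl fun σ _ => (rho_mul ρ σ g f).symm
  have hC : ∀ (s : Finset (Equiv.Perm Z)) (F : Equiv.Perm Z → V), C ρ Y (∑ σ ∈ s, F σ) =
      ∑ σ ∈ s, C ρ Y (F σ) := by
    intro s F
    simp only [C, map_sum]
    rw [Finset.sum_comm]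
    have : ∀ z ∈ Y, ∑ z' ∈ Y, ∑ σ ∈ s, ρ (Equiv.swap z z') (F σ) =
        ∑ σ ∈ s, ∑ z' ∈ Y, ρ (Equiv.swap z z') (F σ) := fun z _ => Finset.sum_comm
    rw [Finset.sum_comm, Finset.sum_congr rfl this, Finset.sum_comm]
  rw [h1, hC, Finset.smul_sum]
  refine Finset.sum_congr rfl fun σ hσ => ?_
  rw [C_comm ρ (mul_mem (S_mono hR hσ) hg), hf, map_smul]

theorem ind (q : ℕ) : ∀ (n : ℕ) (Y : Finset Z), Y.card = n → ∀ (μ : ℝ) (f : V), f ≠ 0 →
    C ρ Y f = μ • f → (∀ R ⊆ Y, q < R.card → ∀ h ∈ S Y, P ρ R (ρ h f) = 0) →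
    μ ≤ (Y.card : ℝ) * q := by
  intro n
  induction n using Nat.strong_induction_on with
  | _ n ih =>
    intro Y hYn μ f hf hC hK
    rcases Finset.eq_empty_or_nonempty Y with rfl | ⟨z0, hz0⟩
    · have : μ • f = 0 := by rw [← hC]; simp [C]
      rcases smul_eq_zero.mp this with h | h
      · rw [h]; simp
      · exact absurd h hf
    · classical
      set 𝒮 : Finset (Finset Z) := Y.powerset.filter (fun R => ∃ h ∈ S Y, P ρ R (ρ h f) ≠ 0)
        with h𝒮
      have hne : 𝒮.Nonempty := by
        refine ⟨{z0}, ?_⟩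
        rw [h𝒮, mem_filter, mem_powerset, singleton_subset_iff]
        refine ⟨hz0, 1, one_mem Y, ?_⟩
        have h1 : S ({z0} : Finset Z) = {1} := by
          ext σ
          rw [mem_S, mem_singleton]
          constructor
          · intro h
            ext z
            by_cases hz : z = z0
            · subst hz
              by_contra hc
              have h2 := h (σ z) (by simpa using hc)
              exact hc (σ.injective h2)
            · rw [h z (by simpa using hz)]; rfl
          · rintro rfl z _; rfl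
        rw [P, h1, sum_singleton, map_one, Module.End.one_apply, Module.End.one_apply]
        exact hf
      obtain ⟨R, hR, hmax⟩ := Finset.exists_max_image 𝒮 Finset.card hne
      rw [h𝒮, mem_filter, mem_powerset] at hR
      obtain ⟨hRY, g, hg, hF⟩ := hR
      set F := P ρ R (ρ g f) with hFdef
      have hR1 : 1 ≤ R.card := by
        have h1 := hmax {z0} (by
          rw [h𝒮, mem_filter, mem_powerset, singleton_subset_iff]
          refine ⟨hz0, 1, one_mem Y, ?_⟩
          have h1 : S ({z0} : Finset Z) = {1} := by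
            ext σ
            rw [mem_S, mem_singleton]
            constructor
            · intro h
              ext z
              by_cases hz : z = z0
              · subst hz
                by_contra hc
                have h2 := h (σ z) (by simpa using hc)
                exact hc (σ.injective h2)
              · rw [h z (by simpa using hz)]; rfl
            · rintro rfl z _; rfl
          rw [P, h1, sum_singleton, map_one, Module.End.one_apply, Module.End.one_apply]
          exact hf)
        simpa using h1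
      have hRq : R.card ≤ q := by
        by_contra hc
        push Not at hc
        exact hF (hK R hRY hc g hg)
      have hinvF : ∀ τ ∈ S R, ρ τ F = F := fun τ hτ => rho_P ρ hτ _
      have hCF : C ρ Y F = μ • F := C_P ρ hRY hg hC
      have hbig : ∀ j ∈ Y, j ∉ R → ∑ i ∈ R, ρ (Equiv.swap i j) F = -F := by
        intro j hjY hjR
        have h1 : P ρ (insert j R) F = 0 := by
          have hzero : ∀ h ∈ S Y, P ρ (insert j R) (ρ h f) = 0 := by
            intro h hh
            by_contra hc
            have h2 := hmax (insert j R) (by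
              rw [h𝒮, mem_filter, mem_powerset]
              exact ⟨Finset.insert_subset hjY hRY, h, hh, hc⟩)
            rw [card_insert_of_notMem hjR] at h2
            omega
          have h3 : P ρ (insert j R) F = ∑ σ ∈ S R, P ρ (insert j R) (ρ (σ * g) f) := by
            rw [hFdef]
            simp only [P, map_sum]
            rw [Finset.sum_comm]
            refine Finset.sum_congr rfl fun σ _ => Finset.sum_congr rfl fun τ _ => ?_
            rw [rho_mul]
          rw [h3]
          exact Finset.sum_eq_zero fun σ hσ => hzero _ (mul_mem (S_mono hRY hσ) hg)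
        rw [P_insert ρ hjR, P_inv ρ hinvF] at h1
        simp only [map_smul] at h1
        rw [← Finset.smul_sum] at h1
        have h4 : ((S R).card : ℝ) ≠ 0 := by
          have : 0 < (S R).card := Finset.card_pos.mpr ⟨1, one_mem R⟩
          exact_mod_cast this.ne'
        have h5 := (smul_eq_zero.mp h1).resolve_left h4
        rw [Finset.sum_insert hjR, Equiv.swap_self] at h5
        have h6 : ρ (Equiv.refl Z) F = F := by
          have : (Equiv.refl Z : Equiv.Perm Z) = 1 := rfl
          rw [this, map_one]; rfl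
        rw [h6] at h5
        exact eq_neg_of_add_eq_zero_right h5
      set Y' := Y \ R with hY'
      have hdisj : Disjoint R Y' := Finset.disjoint_sdiff
      have hYu : Y = R ∪ Y' := (Finset.union_sdiff_of_subset hRY).symm
      have hcardY : Y.card = R.card + Y'.card := by
        rw [hYu, Finset.card_union_of_disjoint hdisj]
      have hCsplit : C ρ Y F = C ρ Y' F + (((R.card : ℝ) ^ 2) • F - ((2 * (Y'.card : ℝ)) • F)) := by
        have e1 : C ρ Y F = (∑ z ∈ R, ∑ z' ∈ R, ρ (Equiv.swap z z') F) +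
            (∑ z ∈ R, ∑ z' ∈ Y', ρ (Equiv.swap z z') F) +
            ((∑ z ∈ Y', ∑ z' ∈ R, ρ (Equiv.swap z z') F) +
            (∑ z ∈ Y', ∑ z' ∈ Y', ρ (Equiv.swap z z') F)) := by
          rw [C, hYu, Finset.sum_union hdisj, ← Finset.sum_add_distrib, ← Finset.sum_add_distrib]
          congr 1
          · refine Finset.sum_congr rfl fun z _ => ?_
            rw [Finset.sum_union hdisj]
          · refine Finset.sum_congr rfl fun z _ => ?_
            rw [Finset.sum_union hdisj]
        have e2 : ∑ z ∈ R, ∑ z' ∈ R, ρ (Equiv.swap z z') F = ((R.card : ℝ) ^ 2) • F := by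
          have : ∀ z ∈ R, ∑ z' ∈ R, ρ (Equiv.swap z z') F = (R.card : ℝ) • F := by
            intro z hz
            rw [Finset.sum_congr rfl (fun z' hz' => hinvF _ (swap_mem hz hz')), Finset.sum_const,
              Nat.cast_smul_eq_nsmul]
          rw [Finset.sum_congr rfl this, Finset.sum_const, ← Nat.cast_smul_eq_nsmul ℝ, smul_smul,
            sq]
        have e3 : ∑ z ∈ Y', ∑ z' ∈ R, ρ (Equiv.swap z z') F = -((Y'.card : ℝ) • F) := by
          have : ∀ z ∈ Y', ∑ z' ∈ R, ρ (Equiv.swap z z') F = -F := by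
            intro z hz
            rw [hY', mem_sdiff] at hz
            rw [← hbig z hz.1 hz.2]
            refine Finset.sum_congr rfl fun z' _ => ?_
            rw [Equiv.swap_comm]
          rw [Finset.sum_congr rfl this, Finset.sum_const, ← Nat.cast_smul_eq_nsmul ℝ, smul_neg]
        have e4 : ∑ z ∈ R, ∑ z' ∈ Y', ρ (Equiv.swap z z') F = -((Y'.card : ℝ) • F) := by
          rw [Finset.sum_comm]
          have : ∀ z ∈ Y', ∑ z' ∈ R, ρ (Equiv.swap z' z) F = -F := by
            intro z hz
            rw [hY', mem_sdiff] at hz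
            exact hbig z hz.1 hz.2
          rw [Finset.sum_congr rfl this, Finset.sum_const, ← Nat.cast_smul_eq_nsmul ℝ, smul_neg]
        rw [e1, e2, e3, e4]
        have : (2 * (Y'.card : ℝ)) • F = (Y'.card : ℝ) • F + (Y'.card : ℝ) • F := by
          rw [← add_smul]; ring_nf
        rw [this]
        change _ = C ρ Y' F + _
        rw [show ∑ z ∈ Y', ∑ z' ∈ Y', ρ (Equiv.swap z z') F = C ρ Y' F from rfl]
        abel
      have hC' : C ρ Y' F = (μ - (R.card : ℝ) ^ 2 + 2 * (Y'.card : ℝ)) • F := by
        have : C ρ Y' F = C ρ Y F - (((R.card : ℝ) ^ 2) • F - ((2 * (Y'.card : ℝ)) • F)) := by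
          rw [hCsplit]; abel
        rw [this, hCF]
        rw [add_smul, sub_smul]
        abel
      have hfin := ih Y'.card (by omega) Y' rfl (μ - (R.card : ℝ) ^ 2 + 2 * (Y'.card : ℝ)) F hF
        hC' (by
          intro R' hR' hq h hh
          have h3 : P ρ R' (ρ h F) = ∑ σ ∈ S R, P ρ R' (ρ (h * (σ * g)) f) := by
            rw [hFdef]
            simp only [P, map_sum]
            rw [Finset.sum_comm]
            refine Finset.sum_congr rfl fun σ _ => Finset.sum_congr rfl fun τ _ => ?_
            rw [rho_mul, rho_mul]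
          rw [h3]
          refine Finset.sum_eq_zero fun σ hσ => ?_
          refine hK R' (hR'.trans Finset.sdiff_subset) hq _ ?_
          exact mul_mem (S_mono Finset.sdiff_subset hh) (mul_mem (S_mono hRY hσ) hg))
      have h1 : (R.card : ℝ) ≤ q := by exact_mod_cast hRq
      have h2 : (0 : ℝ) ≤ R.card := Nat.cast_nonneg _
      have h3 : (0 : ℝ) ≤ Y'.card := Nat.cast_nonneg _
      rw [hcardY]
      push_cast
      nlinarith

end

theorem main : Crest.Agent.Thp.Spec.Content := by
  intro Z _ _ V _ _ ρ q μ f _ hf hμ hK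
  have h := ind ρ q (univ : Finset Z).card univ rfl μ f hf hμ (by
    intro R _ hq h _
    exact hK R hq h)
  simpa using h

end Crest.Agent.ThpContent
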