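import Crest.Agent.H1ThpGamma

/-! rid 155, module GAMMA -/

set_option autoImplicit false

namespace Crest.Agent.ThpGamma

theorem main (hT : Crest.Agent.Thp.Spec.TrInj) : Crest.Agent.Thp.Spec.Gamma :=
  Crest.Agent.H1ThpGam.main hT

end Crest.Agent.ThpGamma
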