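import Mathlib
import Crest.Prelude.Def_Shuffle
import Crest.Agent.ThpDefs
import Crest.Agent.ThpSpec

/-! rid 155 (S0223): module COUNTLB, counting lower bound. -/

namespace Crest.Agent.ThpCountLB
open Finset Crest.Agent.Thp Crest.ProbabilityR.Shuffle

lemma stepPos_inj (m : ℕ) (c : Fin m → Bool) : Function.Injective (stepPos m c) := by
  intro x y h
  have h1 := congrArg Fin.val h
  simp only [stepPos] at h1
  have hx := x.isLt
  have hy := y.isLt
  have e : x.val % m = y.val % m := by split_ifs at h1 <;> omega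
  have e2 : xor (decide (m ≤ x.val)) (c ⟨x.val % m, Nat.mod_lt _ (by omega)⟩) =
      xor (decide (m ≤ y.val)) (c ⟨y.val % m, Nat.mod_lt _ (by omega)⟩) := by
    by_cases h3 : xor (decide (m ≤ x.val)) (c ⟨x.val % m, Nat.mod_lt _ (by omega)⟩) = true <;>
      by_cases h4 : xor (decide (m ≤ y.val)) (c ⟨y.val % m, Nat.mod_lt _ (by omega)⟩) = true
    · rw [h3, h4]
    · rw [if_pos h3, if_neg h4] at h1; omega
    · rw [if_neg h3, if_pos h4] at h1; omega
    · rw [Bool.not_eq_true] at h3 h4
      rw [h3, h4]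
  have e3 : (⟨x.val % m, Nat.mod_lt _ (by omega)⟩ : Fin m) =
      ⟨y.val % m, Nat.mod_lt _ (by omega)⟩ := Fin.ext e
  rw [e3] at e2
  have e4 : decide (m ≤ x.val) = decide (m ≤ y.val) := by
    revert e2
    generalize decide (m ≤ x.val) = p
    generalize decide (m ≤ y.val) = q
    generalize c ⟨y.val % m, Nat.mod_lt _ (by omega)⟩ = r
    cases p <;> cases q <;> cases r <;> decide
  have e5 : (m ≤ x.val) ↔ (m ≤ y.val) := decide_eq_decide.1 e4
  apply Fin.ext
  have dx := Nat.div_add_mod x.val m
  have dy := Nat.div_add_mod y.val m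
  by_cases hm : m ≤ x.val
  · have hm' := e5.1 hm
    have a1 : x.val % m = x.val - m := by
      rw [Nat.mod_eq_sub_mod hm, Nat.mod_eq_of_lt (by omega)]
    have a2 : y.val % m = y.val - m := by
      rw [Nat.mod_eq_sub_mod hm', Nat.mod_eq_of_lt (by omega)]
    omega
  · have hm' : ¬ m ≤ y.val := fun h => hm (e5.2 h)
    rw [Nat.mod_eq_of_lt (by omega), Nat.mod_eq_of_lt (by omega)] at e
    exact e

lemma iterPos_inj (m : ℕ) : ∀ (t : ℕ) (cs : Fin t → Fin m → Bool),
    Function.Injective (iterPos m t cs)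
  | 0, _ => fun x y h => h
  | t + 1, cs => (stepPos_inj m _).comp (iterPos_inj m t _)

theorem main : Spec.CountLB := by
  intro d t
  classical
  set m := 2 ^ d with hm
  set n : ℕ := 2 * m with hn
  have hF : ∀ cs : Fin t → Fin m → Bool, ∃ g : Equiv.Perm (Fin (2 * m)),
      iterPos m t cs = ⇑g := fun cs =>
    ⟨Equiv.ofBijective _ ((Finite.injective_iff_bijective).1 (iterPos_inj m t cs)), rfl⟩
  choose F hF using hF
  set N : ℕ := Fintype.card (Fin t → Fin m → Bool) with hN
  have hNval : N = 2 ^ (m * t) := by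
    rw [hN]
    simp [Fintype.card_fun, pow_mul]
  have hNpos : (0 : ℝ) < N := by rw [hNval]; positivity
  have hP : ∀ g : Equiv.Perm (Fin (2 * m)), Crest.FinProb.uniformProb
      {cs : Fin t → Fin m → Bool | iterPos m t cs = ⇑g} =
      ((univ.filter (fun cs => F cs = g)).card : ℝ) / N := by
    intro g
    unfold Crest.FinProb.uniformProb
    congr 2
    apply congrArg
    ext cs
    simp only [Finset.mem_filter, Finset.mem_univ, true_and, Set.mem_setOf_eq]
    rw [hF cs]
    exact ⟨fun h => Equiv.coe_fn_injective h, fun h => by rw [h]⟩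
  have hsum : ∑ g : Equiv.Perm (Fin (2 * m)), ((univ.filter (fun cs => F cs = g)).card : ℝ) / N
      = 1 := by
    rw [← Finset.sum_div, div_eq_one_iff_eq hNpos.ne']
    have := Finset.card_eq_sum_card_fiberwise (f := F) (s := univ) (t := univ) (fun _ _ => by simp)
    rw [Finset.card_univ] at this
    rw [hN, this]
    push_cast
    rfl
  set S : Finset (Equiv.Perm (Fin (2 * m))) := univ.image F with hS
  have hScard : S.card ≤ N := by
    rw [hS, hN]
    exact Finset.card_image_le
  set nf : ℝ := ((2 * m).factorial : ℝ) with hnf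
  have hnfpos : 0 < nf := by rw [hnf]; positivity
  have hperm : (Fintype.card (Equiv.Perm (Fin (2 * m))) : ℝ) = nf := by
    rw [Fintype.card_perm, Fintype.card_fin]
  unfold tvFromUniform
  simp only [hP]
  have hsplit : ∑ g : Equiv.Perm (Fin (2 * m)),
      |((univ.filter (fun cs => F cs = g)).card : ℝ) / N - 1 / nf| =
      ∑ g ∈ S, |((univ.filter (fun cs => F cs = g)).card : ℝ) / N - 1 / nf| +
      ∑ g ∈ Sᶜ, |((univ.filter (fun cs => F cs = g)).card : ℝ) / N - 1 / nf| :=
    (Finset.sum_add_sum_compl S _).symm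
  have hzero : ∀ g ∈ Sᶜ, ((univ.filter (fun cs => F cs = g)).card : ℝ) = 0 := by
    intro g hg
    rw [Finset.mem_compl] at hg
    have : univ.filter (fun cs => F cs = g) = ∅ := by
      rw [Finset.filter_eq_empty_iff]
      intro cs _ h
      exact hg (by rw [hS, Finset.mem_image]; exact ⟨cs, Finset.mem_univ _, h⟩)
    rw [this]; simp
  have h1 : (1 : ℝ) - S.card / nf ≤
      ∑ g ∈ S, |((univ.filter (fun cs => F cs = g)).card : ℝ) / N - 1 / nf| := by
    have hS1 : ∑ g ∈ S, ((univ.filter (fun cs => F cs = g)).card : ℝ) / N = 1 := by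
      rw [← hsum, ← Finset.sum_add_sum_compl S]
      have : ∑ g ∈ Sᶜ, ((univ.filter (fun cs => F cs = g)).card : ℝ) / N = 0 :=
        Finset.sum_eq_zero fun g hg => by rw [hzero g hg, zero_div]
      rw [this, add_zero]
    calc (1 : ℝ) - S.card / nf
        = ∑ g ∈ S, (((univ.filter (fun cs => F cs = g)).card : ℝ) / N - 1 / nf) := by
          rw [Finset.sum_sub_distrib, hS1, Finset.sum_const, nsmul_eq_mul]
          ring
      _ ≤ _ := Finset.sum_le_sum fun g _ => le_abs_self _
  have h2 : ∑ g ∈ Sᶜ, |((univ.filter (fun cs => F cs = g)).card : ℝ) / N - 1 / nf| =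
      1 - S.card / nf := by
    rw [Finset.sum_congr rfl (g := fun _ => 1 / nf)]
    · rw [Finset.sum_const, nsmul_eq_mul, Finset.card_compl,
        Nat.cast_sub (Finset.card_le_univ S), hperm]
      field_simp
    · intro g hg
      rw [hzero g hg, zero_div, zero_sub, abs_neg, abs_of_pos (by positivity)]
  rw [hsplit, h2]
  have h3 : (S.card : ℝ) / nf ≤ (2 : ℝ) ^ (m * t) / nf := by
    have : (S.card : ℝ) ≤ (2 : ℝ) ^ (m * t) := by
      have : (S.card : ℝ) ≤ (N : ℝ) := by exact_mod_cast hScard
      rw [hNval] at this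
      push_cast at this
      exact this
    gcongr
  linarith

end Crest.Agent.ThpCountLB
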