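import Crest.Statements.S0254
import Crest.Agent.H14Fusf
import Crest.Agent.H14UstLim
import Crest.Agent.H14UstEqv

set_option autoImplicit false
open Crest Crest.ProbabilityR

namespace Crest.Agent.S0254

open Crest.Agent.H14

/-- Uniqueness of solutions on every graph. -/
lemma sol_unique_all (G : SimpleGraph ℕ) (x : ℕ → UI) (y y' : ℕ × Sym2 ℕ → UI)
    (h : Sol G x y) (h' : Sol G x y') : y = y' := by
  classical
  obtain ⟨ν, hν, hν1, hν2⟩ := exists_fusf G h.1.1
  exact sol_unique ν hν1 (8 / 3) (by norm_num) (lipPost_of_rowBd ν hν2) h h'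

/-- One rule from (graph on `ℕ`, labels in `[0,1]^ℕ`) to edge sets, jointly measurable in (adjacency table, labels) and commuting on every input with every permutation of `ℕ` acting on graph, labels and pairs, gives i.i.d. uniform labels the free uniform spanning forest's law on every connected locally finite graph: along every exhaustion by finite connected induced pieces, for finite edge sets `F` the chance that the piece's uniform spanning tree contains `F` tends to that for the output. -/
theorem result :
    ∃ Φ : SimpleGraph ℕ → (ℕ → unitInterval) → (Sym2 ℕ → Bool),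
      Measurable (fun p : (ℕ → ℕ → Bool) × (ℕ → unitInterval) =>
          Φ (Crest.ProbabilityR.GraphTables.graphOfTable p.1) p.2) ∧
      (∀ (σ : Equiv.Perm ℕ) (G : SimpleGraph ℕ) (x : ℕ → unitInterval),
          Φ (G.comap ⇑σ) (x ∘ ⇑σ) = Φ G x ∘ Sym2.map ⇑σ) ∧
      ∀ G : SimpleGraph ℕ, G.Connected → (∀ v : ℕ, (G.neighborSet v).Finite) →
        ∀ S : ℕ → Finset ℕ, Monotone S → (∀ v : ℕ, ∃ n, v ∈ S n) →
          (∀ n, (G.induce (S n : Set ℕ)).Connected) →
          ∀ F : Finset (Sym2 ℕ), (↑F : Set (Sym2 ℕ)) ⊆ G.edgeSet →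
            Filter.Tendsto (fun n => Crest.ProbabilityR.SpanningTrees.ustContains G (S n) F) Filter.atTop
              (nhds (((Crest.ProbabilityR.Labels.labelMeasure ℕ).map (Φ G) {ω | ∀ e ∈ F, ω e = true}).toReal)) := by
  classical
  have hmeas := measurable_PhiG measurable_pinc sol_unique_all
  refine ⟨PhiG, hmeas, ?_, ?_⟩
  · intro σ G x
    exact PhiG_comap pinc_comap sol_unique_all σ G x
  · intro G hconn hlf S hmono hex hS F hF
    obtain ⟨ν, hν, hν1, hν2⟩ := exists_fusf G hconn
    have hmG : Measurable (PhiG G) := measurable_PhiG_fixed hmeas G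
    have hlaw := law_PhiG ν hν1 (8 / 3) (by norm_num) (lipPost_of_rowBd ν hν2) ⟨hconn, hlf⟩ hmG F hF
    have e : Crest.ProbabilityR.Labels.labelMeasure ℕ = noise ℕ := rfl
    rw [e, hlaw]
    exact tendsto_pinc G S hmono hex hS F hF

end Crest.Agent.S0254
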