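import Crest.Statements.S0255
import Crest.Agent.H14Factor
import Crest.Agent.H14Marg

set_option autoImplicit false
open Crest Crest.ProbabilityR

namespace Crest.Agent.S0255

open MeasureTheory ProbabilityTheory Filter Topology
open Crest.Agent.H14

variable {Γ : Type*} [Group Γ]

/-- Order of sites by their labels. -/
def ord (U : Γ → UI) (i j : Γ) : Prop := U i < U j

/-- Windows: left translates of an exhaustion of the group. -/
noncomputable def win' (B : ℕ → Finset Γ) (n : ℕ) (v : Γ) : Finset Γ :=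
  letI := Classical.decEq Γ
  (B n).image (fun b => v * b)

lemma exists_exh [Countable Γ] : ∃ B : ℕ → Finset Γ, Monotone B ∧ ∀ g, ∃ n, g ∈ B n := by
  obtain ⟨f, hf⟩ := exists_injective_nat Γ
  have hfin : ∀ n, {g : Γ | f g < n}.Finite := by
    intro n
    have : {g : Γ | f g < n} = f ⁻¹' (Set.Iio n) := rfl
    rw [this]
    exact (Set.finite_Iio n).preimage hf.injOn
  refine ⟨fun n => (hfin n).toFinset, ?_, ?_⟩
  · intro m n hmn g hg
    simp only [Set.Finite.mem_toFinset, Set.mem_ofPred_eq] at hg ⊢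
    omega
  · intro g
    refine ⟨f g + 1, ?_⟩
    simp only [Set.Finite.mem_toFinset, Set.mem_ofPred_eq]
    omega

open Crest.ProbabilityR.StronglyRayleigh

/-- Left shift of the observation field. -/
def shiftY (g : Γ) (y : ℕ × Γ → UI) : ℕ × Γ → UI := fun α => y (α.1, g⁻¹ * α.2)

lemma measurable_leftShift (g : Γ) : Measurable (leftShift g : (Γ → Bool) → (Γ → Bool)) :=
  measurable_pi_lambda _ (fun h => measurable_pi_apply _)

lemma map_leftShift (ν : Measure (Γ → Bool)) (hinv : IsShiftInvariant ν) (g : Γ) :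
    ν.map (leftShift g) = ν := by
  ext A hA
  rw [Measure.map_apply (measurable_leftShift g) hA]
  exact hinv g A hA

lemma integral_shift (ν : Measure (Γ → Bool)) (hinv : IsShiftInvariant ν) (g : Γ)
    (F : (Γ → Bool) → ℝ) (hF : Measurable F) :
    ∫ s, F (leftShift g s) ∂ν = ∫ s, F s ∂ν := by
  conv_rhs => rw [← map_leftShift ν hinv g]
  rw [integral_map (measurable_leftShift g).aemeasurable hF.aestronglyMeasurable]

lemma postν_shift (ν : Measure (Γ → Bool)) (hinv : IsShiftInvariant ν) (g : Γ)
    (B : ℕ → Finset Γ) (n : ℕ) (G : Γ → Bool → ℝ) (v : Γ) :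
    postν ν (win' B n v) (fun i => G (g⁻¹ * i)) v = postν ν (win' B n (g⁻¹ * v)) G (g⁻¹ * v) := by
  classical
  have hG : ∀ (i : Γ), Measurable (G i) := fun i => measurable_of_finite _
  have hprodm : Measurable (fun s : Γ → Bool => ∏ i ∈ win' B n (g⁻¹ * v), G i (s i)) := by
    apply Finset.measurable_prod
    intro i _
    exact (hG i).comp (measurable_pi_apply i)
  have hwin : win' B n v = (win' B n (g⁻¹ * v)).image (fun i => g * i) := by
    unfold win'
    rw [Finset.image_image]
    ext x
    simp only [Finset.mem_image, Function.comp]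
    constructor
    · rintro ⟨b, hb, rfl⟩
      exact ⟨b, hb, by group⟩
    · rintro ⟨b, hb, rfl⟩
      exact ⟨b, hb, by group⟩
  have hprod : ∀ s : Γ → Bool, ∏ i ∈ win' B n v, G (g⁻¹ * i) (s i) =
      ∏ i ∈ win' B n (g⁻¹ * v), G i (leftShift g⁻¹ s i) := by
    intro s
    rw [hwin, Finset.prod_image (by
      intro a _ b _ h
      exact mul_left_cancel h)]
    apply Finset.prod_congr rfl
    intro i _
    simp [leftShift]
  unfold postν
  congr 1
  · have e : ∀ s : Γ → Bool, sg (s v) * ∏ i ∈ win' B n v, G (g⁻¹ * i) (s i) =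
        (fun s : Γ → Bool => sg (s (g⁻¹ * v)) * ∏ i ∈ win' B n (g⁻¹ * v), G i (s i))
          (leftShift g⁻¹ s) := by
      intro s
      simp only
      rw [hprod]
      congr 2
      simp [leftShift]
    rw [integral_congr_ae (ae_of_all ν e)]
    exact integral_shift ν hinv g⁻¹ _ ((measurable_sg_eval _).mul hprodm)
  · rw [integral_congr_ae (ae_of_all ν hprod)]
    exact integral_shift ν hinv g⁻¹ _ hprodm

lemma T_shift (ν : Measure (Γ → Bool)) (hinv : IsShiftInvariant ν) (B : ℕ → Finset Γ) (g : Γ)
    (U : Γ → UI) (y : ℕ × Γ → UI) :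
    T (postν ν) (ord (leftShift g U)) (win' B) (shiftY g y) =
      shiftY g (T (postν ν) (ord U) (win' B) y) := by
  classical
  ext1 ⟨k, h⟩
  have hw : wfun (ord (leftShift g U)) (shiftY g y) (k, h) =
      fun i => wfun (ord U) y (k, g⁻¹ * h) (g⁻¹ * i) := by
    ext i b
    rfl
  have hp : pmean (postν ν) (ord (leftShift g U)) (win' B) (shiftY g y) (k, h) =
      pmean (postν ν) (ord U) (win' B) y (k, g⁻¹ * h) := by
    unfold pmean
    rw [hw]
    simp only
    congr 1
    ext n
    rw [postν_shift ν hinv g B n]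
  change FI (pmean (postν ν) (ord (leftShift g U)) (win' B) (shiftY g y) (k, h))
    (y (k, g⁻¹ * h)) = FI (pmean (postν ν) (ord U) (win' B) y (k, g⁻¹ * h)) (y (k, g⁻¹ * h))
  rw [hp]

/-- Split the labels into the order labels and the noise. -/
noncomputable def lab (u : Γ → UI) : (Γ → UI) × (ℕ × Γ → UI) :=
  (fun v => tau (u v) 0, fun α => tau (u α.2) (α.1 + 1))

lemma measurable_lab : Measurable (lab : (Γ → UI) → _) := by
  unfold lab
  have h : ∀ (v : Γ) (k : ℕ), Measurable (fun u : Γ → UI => tau (u v) k) := fun v k =>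
    (measurable_pi_apply k).comp (measurable_tau.comp (measurable_pi_apply v))
  exact (measurable_pi_lambda _ (fun v => h v 0)).prodMk
    (measurable_pi_lambda _ (fun α => h α.2 (α.1 + 1)))

lemma map_lab : (noise Γ).map lab = (noise Γ).prod (noise (ℕ × Γ)) := by
  have h1 := noise_tau Γ
  have h2 := noise_split (A := Γ) (B := ℕ × Γ) (O := Γ × ℕ) (fun v => (v, 0))
    (fun α => (α.2, α.1 + 1)) (by
      rintro (a | ⟨k, a⟩) (b | ⟨l, b⟩) h
      · simp at h; rw [h]
      · simp at h
      · simp at h
      · simp at h; rw [h.1, h.2])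
  have hm1 : Measurable (fun (u : Γ → UI) (p : Γ × ℕ) => tau (u p.1) p.2) :=
    measurable_pi_lambda _ (fun p => (measurable_pi_apply p.2).comp
      (measurable_tau.comp (measurable_pi_apply p.1)))
  have hm2 : Measurable (fun z : Γ × ℕ → UI =>
      ((fun a => z (a, 0)), (fun b : ℕ × Γ => z (b.2, b.1 + 1)))) :=
    (measurable_pi_lambda _ (fun i => measurable_pi_apply _)).prodMk
      (measurable_pi_lambda _ (fun i => measurable_pi_apply _))
  have e : (lab : (Γ → UI) → _) = (fun z : Γ × ℕ → UI =>
      ((fun a => z (a, 0)), (fun b : ℕ × Γ => z (b.2, b.1 + 1)))) ∘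
      (fun (u : Γ → UI) (p : Γ × ℕ) => tau (u p.1) p.2) := rfl
  rw [e, ← Measure.map_map hm2 hm1, h1]
  exact h2

/-- The equivariant factor map. -/
noncomputable def Phi (ν : Measure (Γ → Bool)) (B : ℕ → Finset Γ) (u : Γ → UI) : Γ → Bool :=
  outMap ν ord (win' B) (lab u)

lemma readout_shift (g : Γ) (y : ℕ × Γ → UI) :
    readout (shiftY g y) = leftShift g (readout y) := by
  ext1 h
  rfl

lemma shiftY_inv (g : Γ) (y : ℕ × Γ → UI) : shiftY g (shiftY g⁻¹ y) = y := by
  ext1 ⟨k, h⟩
  simp [shiftY]

lemma leftShift_inv (g : Γ) {X : Type*} (y : Γ → X) : leftShift g (leftShift g⁻¹ y) = y := by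
  ext1 h
  simp [leftShift]

lemma outMap_shift (ν : Measure (Γ → Bool)) (C : ℝ) (hC : C < 4) (hL : LipPost (postν ν) C)
    (hinv : IsShiftInvariant ν) (B : ℕ → Finset Γ) (g : Γ) (q : (Γ → UI) × (ℕ × Γ → UI)) :
    outMap ν ord (win' B) (leftShift g q.1, shiftY g q.2) =
      leftShift g (outMap ν ord (win' B) q) := by
  have hshift : ∀ (g : Γ) (p : (Γ → UI) × (ℕ × Γ → UI)),
      Psi ν ord (win' B) (leftShift g p.1, shiftY g p.2) =
        (leftShift g (Psi ν ord (win' B) p).1, shiftY g (Psi ν ord (win' B) p).2) := by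
    intro g p
    unfold Psi
    simp only
    rw [T_shift ν hinv B g p.1 p.2]
  by_cases hq : ∃ p, Psi ν ord (win' B) p = q
  · obtain ⟨p, rfl⟩ := hq
    rw [← hshift, outMap_Psi ν C hC hL, outMap_Psi ν C hC hL, readout_shift]
  · have hq' : ¬ ∃ p, Psi ν ord (win' B) p = (leftShift g q.1, shiftY g q.2) := by
      rintro ⟨p, hp⟩
      apply hq
      refine ⟨(leftShift g⁻¹ p.1, shiftY g⁻¹ p.2), ?_⟩
      rw [hshift, hp]
      simp only
      have e1 := leftShift_inv g⁻¹ q.1
      have e2 := shiftY_inv g⁻¹ q.2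
      rw [inv_inv] at e1 e2
      rw [e1, e2]
    unfold outMap
    rw [dif_neg hq, dif_neg hq']
    rfl

lemma lab_shift (g : Γ) (u : Γ → UI) :
    lab (leftShift g u) = (leftShift g (lab u).1, shiftY g (lab u).2) := rfl

/-- For a countable group `Γ` and a strongly Rayleigh probability law `ν` on binary configurations `Γ → Bool` that is invariant under every left shift `a ↦ (h ↦ a (g⁻¹ h))`, there is a measurable map from independent uniform labels indexed by `Γ` to configurations that commutes with every left shift and pushes the label law forward to `ν`. -/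
theorem result (Γ : Type*) [Group Γ]
    [Countable Γ] (ν : MeasureTheory.Measure (Γ → Bool)) [MeasureTheory.IsProbabilityMeasure ν]
    (hsr : Crest.ProbabilityR.StronglyRayleigh.IsStronglyRayleigh ν)
    (hinv : Crest.ProbabilityR.StronglyRayleigh.IsShiftInvariant ν) :
    ∃ Φ : (Γ → unitInterval) → (Γ → Bool), Measurable Φ ∧
      (∀ (g : Γ) (u : Γ → unitInterval),
        Φ (Crest.ProbabilityR.StronglyRayleigh.leftShift g u) =
          Crest.ProbabilityR.StronglyRayleigh.leftShift g (Φ u)) ∧
      (Crest.ProbabilityR.Labels.labelMeasure Γ).map Φ = ν := by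
  classical
  obtain ⟨B, hBm, hBe⟩ := exists_exh (Γ := Γ)
  have hL : LipPost (postν ν) (8 / 3) := lipPost_of_sr ν hsr
  have hC : (8 / 3 : ℝ) < 4 := by norm_num
  have hrm : ∀ i j : Γ, MeasurableSet {U : Γ → UI | ord U i j} := fun i j =>
    measurableSet_lt (measurable_pi_apply i) (measurable_pi_apply j)
  have hout : Measurable (outMap ν (ord (Γ := Γ)) (win' B)) :=
    measurable_outMap ν (8 / 3) hC hL ord hrm (win' B)
  refine ⟨Phi ν B, hout.comp measurable_lab, ?_, ?_⟩
  · intro g u
    unfold Phi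
    rw [lab_shift]
    exact outMap_shift ν (8 / 3) hC hL hinv B g (lab u)
  · have htot : ∀ᵐ U ∂(noise Γ), IsStrictTotalOrder Γ (ord U) := by
      filter_upwards [ae_injective Γ] with U hU
      have h1 : Std.Irrefl (ord U) := ⟨fun a => lt_irrefl (U a)⟩
      have h2 : IsTrans Γ (ord U) := ⟨fun a b c h1 h2 => lt_trans h1 h2⟩
      have h3 : Std.Trichotomous (ord U) := ⟨fun a b h1 h2 => by
        rcases lt_trichotomy (U a) (U b) with h | h | h
        · exact absurd h h1
        · exact hU h
        · exact absurd h h2⟩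
      exact { }
    have hmap := map_outMap ν (8 / 3) hC hL ord hrm (win' B) (noise Γ) htot
      (by
        intro v m n hmn
        unfold win'
        exact Finset.image_subset_image (hBm hmn))
      (by
        intro v i
        obtain ⟨n, hn⟩ := hBe (v⁻¹ * i)
        refine ⟨n, ?_⟩
        unfold win'
        rw [Finset.mem_image]
        exact ⟨v⁻¹ * i, hn, by group⟩)
    have e : (Phi ν B : (Γ → UI) → Γ → Bool) = outMap ν ord (win' B) ∘ lab := rfl
    have e2 : Crest.ProbabilityR.Labels.labelMeasure Γ = noise Γ := rfl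
    rw [e, e2, ← Measure.map_map hout measurable_lab, map_lab]
    exact hmap

end Crest.Agent.S0255
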