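import Crest.Statements.S0316
import Crest.Agent.H18Flow
import Crest.Agent.H18Quadric

set_option autoImplicit false
open Crest Crest.GeometryTopology

namespace Crest.Agent.S0316
open Set Crest.GeometryTopology.Quadric Crest.Agent.H18Flow Crest.Agent.H18Quadric
open scoped ContDiff

/-- the time scale -/
noncomputable def δ : ℝ := 1 / (5 * (4 * bnd + bnd + 1) + 200)

theorem bnd_nonneg : 0 ≤ bnd := vf.hL

theorem δ_pos : 0 < δ := by
  have := bnd_nonneg
  unfold δ; positivity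

theorem hδ' : δ * (4 * vf.L + vf.M) ≤ 1 / 5 := by
  have := bnd_nonneg
  show δ * (4 * bnd + bnd) ≤ 1 / 5
  unfold δ
  rw [div_mul_eq_mul_div, one_mul, div_le_div_iff₀ (by positivity) (by norm_num)]
  linarith

theorem δ_small : δ / 2 * 34 ≤ 1 / 8 := by
  have := bnd_nonneg
  unfold δ
  rw [div_div, div_mul_eq_mul_div, one_mul, div_le_div_iff₀ (by positivity) (by norm_num)]
  linarith

noncomputable def fl : ℝ × E 5 → E 5 := flow δ_pos hδ'

/-! ### invariants along the flow -/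

theorem fl_four (σ : ℝ) (z : E 5) (hσ : |σ| ≤ 3) (hz : ‖z‖ ≤ 3) : fl (σ, z) 4 = z 4 := by
  have h := path_one δ_pos hδ' hσ hz
  show flow δ_pos hδ' (σ, z) 4 = z 4
  rw [← h]
  have hc : ∀ t ∈ Icc (0:ℝ) 1, path δ_pos hδ' σ z t 4 = path δ_pos hδ' σ z 0 4 := by
    apply constant_of_has_deriv_right_zero
    · intro t ht
      have := hasDerivAt_pi.1 (hasDerivAt_path δ_pos hδ' hσ hz t (Icc_subset_Icc (by norm_num) le_rfl ht)) 4
      exact this.continuousAt.continuousWithinAt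
    · intro t ht
      have := hasDerivAt_pi.1 (hasDerivAt_path δ_pos hδ' hσ hz t 
        (Icc_subset_Icc (by norm_num) le_rfl (Ico_subset_Icc_self ht))) 4
      have e : ((σ * δ) • vf.V (path δ_pos hδ' σ z t)) 4 = 0 := by
        show ((σ * δ : ℝ)) • (V (path δ_pos hδ' σ z t) 4) = 0
        rw [V_four, smul_zero]
      rw [e] at this
      exact this.hasDerivWithinAt
  rw [hc 1 (by norm_num), path_zero]

theorem path_cone (σ : ℝ) (z : E 5) (hσ : |σ| ≤ 3) (hz : z ∈ unitCone) (t : ℝ) (ht : t ∈ Icc (0:ℝ) 1) :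
    path δ_pos hδ' σ z t ∈ unitCone := by
  have hz3 : ‖z‖ ≤ 3 := (norm_le_one hz).trans (by norm_num)
  have hd := fun (t : ℝ) (ht : t ∈ Icc (0:ℝ) 1) => 
    hasDerivAt_path δ_pos hδ' hσ hz3 t (Icc_subset_Icc (by norm_num) le_rfl ht)
  have hdj := fun (t : ℝ) (ht : t ∈ Icc (0:ℝ) 1) (j : Fin 5) => hasDerivAt_pi.1 (hd t ht) j
  have c1 : ∀ t ∈ Icc (0:ℝ) 1, herm (path δ_pos hδ' σ z t) (path δ_pos hδ' σ z t) = 
      herm (path δ_pos hδ' σ z 0) (path δ_pos hδ' σ z 0) := by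
    have key : ∀ t ∈ Icc (0:ℝ) 1, HasDerivAt (fun t => herm (path δ_pos hδ' σ z t) (path δ_pos hδ' σ z t)) 0 t := by
      intro t ht
      have h1 : ∀ j, HasDerivAt (fun t => starRingEnd ℂ (path δ_pos hδ' σ z t j) * path δ_pos hδ' σ z t j)
          (starRingEnd ℂ (((σ * δ) • vf.V (path δ_pos hδ' σ z t)) j) * path δ_pos hδ' σ z t j
            + starRingEnd ℂ (path δ_pos hδ' σ z t j) * ((σ * δ) • vf.V (path δ_pos hδ' σ z t)) j) t := by
        intro j
        exact ((hdj t ht j).star).mul (hdj t ht j)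
      have h2 := HasDerivAt.fun_sum (u := Finset.univ) (fun j _ => h1 j)
      refine h2.congr_deriv ?_
      have hre := herm_V_re (path δ_pos hδ' σ z t)
      set y := path δ_pos hδ' σ z t with hy
      have e : ∑ j, (starRingEnd ℂ (((σ * δ) • vf.V y) j) * y j + starRingEnd ℂ (y j) * ((σ * δ) • vf.V y) j)
          = (((σ * δ) * (2 * (herm y (V y)).re) : ℝ) : ℂ) := by
        have e1 : herm y (V y) + starRingEnd ℂ (herm y (V y)) = ((2 * (herm y (V y)).re : ℝ) : ℂ) := by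
          rw [Complex.add_conj]
        rw [Complex.ofReal_mul, ← e1]
        unfold herm
        rw [map_sum, ← Finset.sum_add_distrib, Finset.mul_sum]
        refine Finset.sum_congr rfl fun j _ => ?_
        show starRingEnd ℂ ((σ * δ : ℝ) • (V y j)) * y j + starRingEnd ℂ (y j) * ((σ * δ : ℝ) • (V y j)) = _
        rw [Complex.real_smul]
        simp only [map_mul, Complex.conj_ofReal, Complex.conj_conj]
        ring
      rw [e, hre]
      simp
    apply constant_of_has_deriv_right_zero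
    · intro t ht; exact (key t ht).continuousAt.continuousWithinAt
    · intro t ht; exact (key t (Ico_subset_Icc_self ht)).hasDerivWithinAt
  have c2 : ∀ t ∈ Icc (0:ℝ) 1, (∑ j, path δ_pos hδ' σ z t j ^ 2) = ∑ j, path δ_pos hδ' σ z 0 j ^ 2 := by
    have key : ∀ t ∈ Icc (0:ℝ) 1, HasDerivAt (fun t => ∑ j, path δ_pos hδ' σ z t j ^ 2) 0 t := by
      intro t ht
      have h1 : ∀ j, HasDerivAt (fun t => path δ_pos hδ' σ z t j ^ 2)
          ((2:ℕ) * path δ_pos hδ' σ z t j ^ (2 - 1) * ((σ * δ) • vf.V (path δ_pos hδ' σ z t)) j) t := by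
        intro j
        exact (hdj t ht j).pow 2
      have h2 := HasDerivAt.fun_sum (u := Finset.univ) (fun j _ => h1 j)
      refine h2.congr_deriv ?_
      set y := path δ_pos hδ' σ z t with hy
      have hs := sum_mul_V y
      have e : ∑ j, ((2:ℕ) * y j ^ (2 - 1) * ((σ * δ) • vf.V y) j) = 2 * ((σ * δ : ℝ) : ℂ) * ∑ j, y j * V y j := by
        rw [Finset.mul_sum]
        refine Finset.sum_congr rfl fun j _ => ?_
        show ((2:ℕ):ℂ) * y j ^ (2 - 1) * ((σ * δ : ℝ) • (V y j)) = _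
        rw [Complex.real_smul]
        push_cast
        ring
      rw [e, hs, mul_zero]
    apply constant_of_has_deriv_right_zero
    · intro t ht; exact (key t ht).continuousAt.continuousWithinAt
    · intro t ht; exact (key t (Ico_subset_Icc_self ht)).hasDerivWithinAt
  rw [path_zero] at c1 c2
  exact ⟨(c1 t ht).trans hz.1, (c2 t ht).trans hz.2⟩

theorem fl_cone (σ : ℝ) (z : E 5) (hσ : |σ| ≤ 3) (hz : z ∈ unitCone) : fl (σ, z) ∈ unitCone := by
  have h := path_one δ_pos hδ' hσ ((norm_le_one hz).trans (by norm_num))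
  show flow δ_pos hδ' (σ, z) ∈ unitCone
  rw [← h]
  exact path_cone σ z hσ hz 1 (by norm_num)

theorem abs_q_le {z : E 5} (hz : z ∈ unitCone) (j k : Fin 5) : |q z j k| ≤ 1 := by
  have h := norm_le_one hz
  have h1 : ‖z j‖ ≤ 1 := (norm_le_pi_norm z j).trans h
  have h2 : ‖z k‖ ≤ 1 := (norm_le_pi_norm z k).trans h
  calc |q z j k| ≤ ‖starRingEnd ℂ (z j) * z k‖ := Complex.abs_im_le_norm _
    _ = ‖z j‖ * ‖z k‖ := by rw [norm_mul, RCLike.norm_conj]
    _ ≤ 1 := mul_le_one₀ h1 (norm_nonneg _) h2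

theorem norm_Mom_le {z : E 5} (hz : z ∈ unitCone) : ‖Mom z‖ ≤ 4 := by
  rw [pi_norm_le_iff_of_nonneg (by norm_num)]
  intro j
  have h := fun j k => abs_le.1 (abs_q_le hz j k)
  rw [Real.norm_eq_abs, abs_le]
  fin_cases j
  · have := h 0 1; have := h 2 3; simp [Mom]; constructor <;> linarith
  · have := h 0 2; have := h 1 3; simp [Mom]; constructor <;> linarith
  · have := h 0 3; have := h 1 2; simp [Mom]; constructor <;> linarith
  · have := h 0 1; have := h 2 3; simp [Mom]; constructor <;> linarith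
  · have := h 0 2; have := h 1 3; simp [Mom]; constructor <;> linarith
  · have := h 0 3; have := h 1 2; simp [Mom]; constructor <;> linarith

theorem mom_orbit (z : E 5) (hz : z ∈ unitCone) :
    ∃ w : ℝ → (Fin 6 → ℝ), w 0 = Mom z ∧ w 1 = Mom (fl (1/2, z)) ∧ 
      (∀ t ∈ Icc (0:ℝ) 1, HasDerivAt w ((δ/2) • W (w t)) t) ∧ ∀ t ∈ Icc (0:ℝ) 1, ‖w t‖ ≤ 4 := by
  have hσ : |(1/2 : ℝ)| ≤ 3 := by rw [abs_of_pos] <;> norm_num
  have hz3 : ‖z‖ ≤ 3 := (norm_le_one hz).trans (by norm_num)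
  refine ⟨fun t => Mom (path δ_pos hδ' (1/2) z t), congrArg Mom (path_zero δ_pos hδ'), ?_, ?_, ?_⟩
  · show Mom (path δ_pos hδ' (1/2) z 1) = _
    rw [path_one δ_pos hδ' hσ hz3]; rfl
  · intro t ht
    have h := hasDerivAt_Mom (hasDerivAt_path δ_pos hδ' hσ hz3 t (Icc_subset_Icc (by norm_num) le_rfl ht))
    refine h.congr_deriv ?_
    rw [dMom_smul]
    show ((1/2) * δ) • dMom _ (V _) = _
    rw [dMom_V]
    congr 1; ring
  · intro t ht
    exact norm_Mom_le (path_cone _ z hσ hz t ht)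

/-! ### the rotation isotopy -/

/-- rotation -/
noncomputable def g (t : ℝ) (z : E 5) : E 5 :=
  ![(Real.cos (Real.pi * t) : ℂ) * z 0 - (Real.sin (Real.pi * t) : ℂ) * z 1,
    (Real.sin (Real.pi * t) : ℂ) * z 0 + (Real.cos (Real.pi * t) : ℂ) * z 1,
    (Real.cos (Real.pi * t) : ℂ) * z 2 - (Real.sin (Real.pi * t) : ℂ) * z 3,
    (Real.sin (Real.pi * t) : ℂ) * z 2 + (Real.cos (Real.pi * t) : ℂ) * z 3,
    z 4]

theorem g_smul (t : ℝ) (c : ℂ) (z : E 5) : g t (c • z) = c • g t z := by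
  ext j
  fin_cases j <;> (simp [g]; try ring)

theorem g_smul_real (t : ℝ) (c : ℝ) (z : E 5) : g t (c • z) = c • g t z := by
  ext j
  fin_cases j <;> (simp [g]; try ring)

theorem g_zero (z : E 5) : g 0 z = z := by
  ext j
  fin_cases j <;> simp [g]

theorem g_one (z : E 5) : g 1 z = ![-z 0, -z 1, -z 2, -z 3, z 4] := by
  ext j
  fin_cases j <;> simp [g]

theorem sc (t : ℝ) : (Real.cos (Real.pi * t) : ℂ) ^ 2 + (Real.sin (Real.pi * t) : ℂ) ^ 2 = 1 := by
  have := Real.cos_sq_add_sin_sq (Real.pi * t)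
  exact_mod_cast this

theorem g_neg (t : ℝ) (z : E 5) : g (-t) (g t z) = z := by
  have h := sc t
  have e0 : g (-t) (g t z) 0 = z 0 := by
    simp only [g, mul_neg, Real.cos_neg, Real.sin_neg, Matrix.cons_val, Complex.ofReal_neg]
    linear_combination (z 0) * h
  have e1 : g (-t) (g t z) 1 = z 1 := by
    simp only [g, mul_neg, Real.cos_neg, Real.sin_neg, Matrix.cons_val, Complex.ofReal_neg]
    linear_combination (z 1) * h
  have e2 : g (-t) (g t z) 2 = z 2 := by
    simp only [g, mul_neg, Real.cos_neg, Real.sin_neg, Matrix.cons_val, Complex.ofReal_neg]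
    linear_combination (z 2) * h
  have e3 : g (-t) (g t z) 3 = z 3 := by
    simp only [g, mul_neg, Real.cos_neg, Real.sin_neg, Matrix.cons_val, Complex.ofReal_neg]
    linear_combination (z 3) * h
  have e4 : g (-t) (g t z) 4 = z 4 := rfl
  ext j
  fin_cases j
  exacts [e0, e1, e2, e3, e4]

theorem herm_g (t : ℝ) (z w : E 5) : herm (g t z) w = herm z (g (-t) w) := by
  simp only [herm, Fin.sum_univ_five, g, mul_neg, Real.cos_neg, Real.sin_neg, Matrix.cons_val, map_sub, map_add,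
    map_mul, Complex.conj_ofReal]
  push_cast
  ring

theorem herm_gg (t : ℝ) (z w : E 5) : herm (g t z) (g t w) = herm z w := by
  rw [herm_g, g_neg]

theorem sum_g (t : ℝ) (z w : E 5) : ∑ j, g t z j * g t w j = ∑ j, z j * w j := by
  have h := sc t
  simp only [Fin.sum_univ_five, g, Matrix.cons_val]
  linear_combination (z 0 * w 0 + z 1 * w 1 + z 2 * w 2 + z 3 * w 3) * h

theorem g_cone (t : ℝ) {z : E 5} (hz : z ∈ unitCone) : g t z ∈ unitCone := by
  refine ⟨(herm_gg t z z).trans hz.1, ?_⟩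
  have := sum_g t z z
  simp only [← pow_two] at this
  exact this.trans hz.2

/-- generator of the rotation -/
noncomputable def ξ (y : E 5) : E 5 := ![-y 1, y 0, -y 3, y 2, 0]

theorem hasDerivAt_g {φ : ℝ → E 5} {φ' : E 5} {t : ℝ} (h : HasDerivAt φ φ' t) :
    HasDerivAt (fun s => g s (φ s)) (Real.pi • ξ (g t (φ t)) + g t φ') t := by
  have hj := hasDerivAt_pi.1 h
  have hc : HasDerivAt (fun s : ℝ => ((Real.cos (Real.pi * s) : ℝ) : ℂ)) ((-(Real.sin (Real.pi * t)) * Real.pi : ℝ) : ℂ) t := by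
    have h1 : HasDerivAt (fun s : ℝ => Real.pi * s) Real.pi t := by
      simpa using (hasDerivAt_id t).const_mul Real.pi
    exact ((Real.hasDerivAt_cos (Real.pi * t)).comp t h1).ofReal_comp
  have hs : HasDerivAt (fun s : ℝ => ((Real.sin (Real.pi * s) : ℝ) : ℂ)) ((Real.cos (Real.pi * t) * Real.pi : ℝ) : ℂ) t := by
    have h1 : HasDerivAt (fun s : ℝ => Real.pi * s) Real.pi t := by
      simpa using (hasDerivAt_id t).const_mul Real.pi
    exact ((Real.hasDerivAt_sin (Real.pi * t)).comp t h1).ofReal_comp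
  rw [hasDerivAt_pi]
  intro j
  fin_cases j
  · refine ((hc.mul (hj 0)).sub (hs.mul (hj 1))).congr_deriv ?_
    simp [ξ, g]; ring
  · refine ((hs.mul (hj 0)).add (hc.mul (hj 1))).congr_deriv ?_
    simp [ξ, g]; ring
  · refine ((hc.mul (hj 2)).sub (hs.mul (hj 3))).congr_deriv ?_
    simp [ξ, g]; ring
  · refine ((hs.mul (hj 2)).add (hc.mul (hj 3))).congr_deriv ?_
    simp [ξ, g]; ring
  · refine (hj 4).congr_deriv ?_
    simp [ξ, g]

/-- the Hamiltonian of the rotation -/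
noncomputable def K (y : E 5) : ℝ := Real.pi * (2 * (q y 0 1 + q y 2 3))

theorem ham_K (y w : E 5) : 2 * (herm (Real.pi • ξ y) w).im = Real.pi * (2 * (dq y w 0 1 + dq y w 2 3)) := by
  simp [herm, Fin.sum_univ_five, ξ, dq, Complex.mul_re, Complex.mul_im]
  ring

/-! ### the Hamiltonian and the isotopy -/

noncomputable def HH (x : ℝ × E 5) : ℝ := K x.2 + (δ / 2) * F (g (-x.1) x.2)

theorem contDiff_q (j k : Fin 5) {n : WithTop ℕ∞} {W' : Type*} [NormedAddCommGroup W'] [NormedSpace ℝ W'] {f : W' → E 5}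
    (hf : ContDiff ℝ n f) : ContDiff ℝ n (fun x => q (f x) j k) := by
  have h1 : ∀ j, ContDiff ℝ n (fun x => (f x j).re) := fun j =>
    Complex.reCLM.contDiff.comp (contDiff_pi.1 hf j)
  have h2 : ∀ j, ContDiff ℝ n (fun x => (f x j).im) := fun j =>
    Complex.imCLM.contDiff.comp (contDiff_pi.1 hf j)
  simp only [q_eq]
  exact ((h1 j).mul (h2 k)).sub ((h2 j).mul (h1 k))

theorem contDiff_g {n : WithTop ℕ∞} {W' : Type*} [NormedAddCommGroup W'] [NormedSpace ℝ W'] {f : W' → E 5}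
    {τ : W' → ℝ} (hτ : ContDiff ℝ n τ) (hf : ContDiff ℝ n f) : ContDiff ℝ n (fun x => g (τ x) (f x)) := by
  have hj := contDiff_pi.1 hf
  have hc : ContDiff ℝ n (fun x => ((Real.cos (Real.pi * τ x) : ℝ) : ℂ)) :=
    Complex.ofRealCLM.contDiff.comp (Real.contDiff_cos.comp (contDiff_const.mul hτ))
  have hs : ContDiff ℝ n (fun x => ((Real.sin (Real.pi * τ x) : ℝ) : ℂ)) :=
    Complex.ofRealCLM.contDiff.comp (Real.contDiff_sin.comp (contDiff_const.mul hτ))
  rw [contDiff_pi]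
  intro j
  fin_cases j
  · exact (hc.mul (hj 0)).sub (hs.mul (hj 1))
  · exact (hs.mul (hj 0)).add (hc.mul (hj 1))
  · exact (hc.mul (hj 2)).sub (hs.mul (hj 3))
  · exact (hs.mul (hj 2)).add (hc.mul (hj 3))
  · exact hj 4

theorem contDiff_HH : ContDiff ℝ ∞ HH := by
  have h1 : ContDiff ℝ ∞ (fun x : ℝ × E 5 => x.2) := contDiff_snd
  have h2 : ContDiff ℝ ∞ (fun x : ℝ × E 5 => g (-x.1) x.2) := contDiff_g contDiff_fst.neg contDiff_snd
  have a := fun j k => contDiff_q j k h1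
  have b := fun j k => contDiff_q j k h2
  unfold HH K F
  fun_prop

/-- bump in time and space -/
noncomputable def bt : ContDiffBump (0 : ℝ) := ⟨2, 3, by norm_num, by norm_num⟩
noncomputable def bs : ContDiffBump (0 : E 5) := ⟨2, 3, by norm_num, by norm_num⟩

noncomputable def τ (t : ℝ) : ℝ := bt t * t

theorem τ_le (t : ℝ) : |τ t| ≤ 3 := by
  unfold τ
  rw [abs_mul, abs_of_nonneg bt.nonneg]
  rcases le_or_gt |t| 3 with h | h
  · calc bt t * |t| ≤ 1 * 3 := by
          gcongr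
          · exact bt.le_one
      _ = 3 := by norm_num
  · have : bt t = 0 := bt.zero_of_le_dist (by
      show (3:ℝ) ≤ dist t 0
      rw [dist_zero_right]; exact h.le)
    rw [this, zero_mul]; norm_num

theorem τ_eq (t : ℝ) (ht : |t| ≤ 2) : τ t = t := by
  unfold τ
  rw [bt.one_of_mem_closedBall (by rw [mem_closedBall_zero_iff]; exact ht), one_mul]

theorem bs_eq (z : E 5) (hz : ‖z‖ ≤ 2) : bs z = 1 :=
  bs.one_of_mem_closedBall (by rw [mem_closedBall_zero_iff]; exact hz)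

noncomputable def inner' (x : ℝ × E 5) : E 5 := bs x.2 • fl (τ x.1 / 2, x.2)

theorem half_le {s : ℝ} (hs : |s| ≤ 3) : |s / 2| ≤ 3 := by
  rw [abs_div, abs_two]; linarith [abs_nonneg s]

theorem contDiff_inner' : ContDiff ℝ ∞ inner' := by
  rw [contDiff_iff_contDiffAt]
  intro x
  rcases le_or_gt ‖x.2‖ 3 with h | h
  · have h1 : ContDiffAt ℝ ∞ fl (τ x.1 / 2, x.2) := 
      contDiffAt_flow δ_pos hδ' _ (half_le (τ_le _)) h
    have h2 : ContDiff ℝ ∞ τ := bt.contDiff.mul contDiff_id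
    have h3 : ContDiff ℝ ∞ (fun x : ℝ × E 5 => (τ x.1 / 2, x.2)) :=
      ((h2.comp contDiff_fst).div_const 2).prodMk contDiff_snd
    have h4 : ContDiffAt ℝ ∞ (fun x : ℝ × E 5 => fl (τ x.1 / 2, x.2)) x :=
      ContDiffAt.comp x h1 h3.contDiffAt
    have h5 : ContDiff ℝ ∞ (fun x : ℝ × E 5 => bs x.2) := bs.contDiff.comp contDiff_snd
    exact h5.contDiffAt.smul h4
  · have : inner' =ᶠ[nhds x] fun _ => 0 := by
      have ho : IsOpen {x : ℝ × E 5 | 3 < ‖x.2‖} := isOpen_lt continuous_const (continuous_norm.comp continuous_snd)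
      filter_upwards [ho.mem_nhds h] with y hy
      have : bs y.2 = 0 := bs.zero_of_le_dist (by
        show (3:ℝ) ≤ dist y.2 0
        rw [dist_zero_right]; exact (le_of_lt hy))
      unfold inner'
      rw [this, zero_smul]
    exact contDiffAt_const.congr_of_eventuallyEq this

noncomputable def ΨΨ (x : ℝ × E 5) : E 5 := g x.1 (inner' x)

theorem ΨΨ_eq (t : ℝ) {z : E 5} (hz : z ∈ unitCone) : ΨΨ (t, z) = g t (fl (τ t / 2, z)) := by
  unfold ΨΨ inner'
  rw [bs_eq z ((norm_le_one hz).trans (by norm_num)), one_smul]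

theorem fl_smul (σ : ℝ) (hσ : |σ| ≤ 3) {z : E 5} (hz : z ∈ unitCone) (c : ℂ) (hc : ‖c‖ = 1) :
    fl (σ, c • z) = c • fl (σ, z) :=
  flow_smul δ_pos hδ' hσ ((norm_le_one hz).trans (by norm_num)) c hc (fun w => V_smul c hc w)

theorem smul_cone {z : E 5} (hz : z ∈ unitCone) (c : ℂ) (hc : ‖c‖ = 1) : c • z ∈ unitCone := by
  refine ⟨?_, ?_⟩
  · have : herm (c • z) (c • z) = (starRingEnd ℂ c * c) * herm z z := by
      unfold herm
      rw [Finset.mul_sum]
      refine Finset.sum_congr rfl fun j _ => ?_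
      simp only [Pi.smul_apply, smul_eq_mul, map_mul]; ring
    rw [this, hz.1, mul_one, ← Complex.normSq_eq_conj_mul_self, Complex.normSq_eq_norm_sq, hc]
    simp
  · have : ∑ j, (c • z) j ^ 2 = c ^ 2 * ∑ j, z j ^ 2 := by
      rw [Finset.mul_sum]
      refine Finset.sum_congr rfl fun j _ => ?_
      simp only [Pi.smul_apply, smul_eq_mul]; ring
    rw [this, hz.2, mul_zero]

noncomputable def L : HamiltonianConeLift where
  Ψ := ΨΨ
  H := HH
  smooth_Ψ := contDiff_g contDiff_fst contDiff_inner'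
  smooth_H := contDiff_HH
  mapsTo_cone := by
    intro t z hz
    rw [ΨΨ_eq t hz]
    exact g_cone t (fl_cone _ z (half_le (τ_le _)) hz)
  compatible := by
    intro t z hz c hc
    refine ⟨c, ?_⟩
    rw [ΨΨ_eq t hz, ΨΨ_eq t (smul_cone hz c hc), fl_smul _ (half_le (τ_le _)) hz c hc, g_smul]
  start := by
    intro z hz
    refine ⟨1, ?_⟩
    rw [ΨΨ_eq 0 hz, τ_eq 0 (by simp), zero_div, g_zero, one_smul]
    exact flow_zero δ_pos hδ' ((norm_le_one hz).trans (by norm_num))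
  invariant := by
    intro t z hz c hc
    show K (c • z) + (δ / 2) * F (g (-t) (c • z)) = K z + (δ / 2) * F (g (-t) z)
    rw [g_smul]
    unfold K F
    simp only [q_smul c hc]
  hamilton := by
    intro t ht z hz w hw
    have hz3 : ‖z‖ ≤ 3 := (norm_le_one hz).trans (by norm_num)
    -- time derivative of the isotopy
    have hfl : HasDerivAt (fun s => fl (s / 2, z)) ((δ / 2) • V (fl (t / 2, z))) t := by
      have h1 := hasDerivAt_flow δ_pos hδ' hz3 (t / 2) ⟨by linarith [ht.1], by linarith [ht.2]⟩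
      have h2 : HasDerivAt (fun s : ℝ => s / 2) (1 / 2) t := (hasDerivAt_id t).div_const 2
      have h3 := HasDerivAt.scomp t h1 h2
      refine h3.congr_deriv ?_
      rw [smul_smul]
      show ((1/2) * δ) • V _ = _
      congr 1; ring
    have hder : HasDerivAt (fun s => ΨΨ (s, z)) (Real.pi • ξ (g t (fl (t / 2, z))) + g t ((δ / 2) • V (fl (t / 2, z)))) t := by
      refine (hasDerivAt_g hfl).congr_of_eventuallyEq ?_
      have ho : Ioo (-1 : ℝ) 2 ∈ nhds t := Ioo_mem_nhds (by linarith [ht.1]) (by linarith [ht.2])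
      filter_upwards [ho] with s hs
      rw [ΨΨ_eq s hz, τ_eq s (abs_le.2 ⟨by linarith [hs.1], by linarith [hs.2]⟩)]
    have hΨ : ΨΨ (t, z) = g t (fl (t / 2, z)) := by
      rw [ΨΨ_eq t hz, τ_eq t (abs_le.2 ⟨by linarith [ht.1], by linarith [ht.2]⟩)]
    rw [hder.deriv, hΨ]
    set y := fl (t / 2, z) with hy
    -- space derivative of the Hamiltonian
    have hdiff : DifferentiableAt ℝ (fun x : E 5 => HH (t, x)) (g t y) := by
      have : ContDiff ℝ ∞ (fun x : E 5 => HH (t, x)) := contDiff_HH.comp (contDiff_const.prodMk contDiff_id)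
      exact this.contDiffAt.differentiableAt (by simp)
    have hline : HasDerivAt (fun s : ℝ => g t y + s • w) w 0 := by
      simpa using ((hasDerivAt_id (0:ℝ)).smul_const w).const_add (g t y)
    have h1 : HasDerivAt (fun s : ℝ => HH (t, g t y + s • w)) (fderiv ℝ (fun x : E 5 => HH (t, x)) (g t y) w) 0 := by
      have hd := hdiff.hasFDerivAt
      have e : g t y + (0:ℝ) • w = g t y := by rw [zero_smul, add_zero]
      rw [← e] at hd
      have := hd.comp_hasDerivAt (0:ℝ) hline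
      rw [e] at this
      exact this
    have hgl : HasDerivAt (fun s : ℝ => g (-t) (g t y + s • w)) (g (-t) w) 0 := by
      have e : ∀ s : ℝ, g (-t) (g t y + s • w) = y + s • g (-t) w := by
        intro s
        have : g (-t) (g t y + s • w) = g (-t) (g t y) + s • g (-t) w := by
          rw [← g_smul_real]
          ext j
          fin_cases j <;> (simp [g]; try ring)
        rw [this, g_neg]
      simp_rw [e]
      simpa using ((hasDerivAt_id (0:ℝ)).smul_const (g (-t) w)).const_add y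
    have h2 : HasDerivAt (fun s : ℝ => HH (t, g t y + s • w))
        (Real.pi * (2 * (dq (g t y) w 0 1 + dq (g t y) w 2 3)) + (δ / 2) * dF y (g (-t) w)) 0 := by
      have a := (((hasDerivAt_q hline 0 1).add (hasDerivAt_q hline 2 3)).const_mul 2).const_mul Real.pi
      have b := (hasDerivAt_F hgl).const_mul (δ / 2)
      have c := a.add b
      simp only [zero_smul, add_zero, g_neg] at c
      exact c
    rw [h1.unique h2, ← ham_K, ← ham_V, ← herm_g]
    have e : herm (Real.pi • ξ (g t y) + g t ((δ / 2) • V y)) w = 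
        herm (Real.pi • ξ (g t y)) w + ((δ / 2 : ℝ) : ℂ) * herm (g t (V y)) w := by
      rw [g_smul_real]
      unfold herm
      rw [Finset.mul_sum, ← Finset.sum_add_distrib]
      refine Finset.sum_congr rfl fun j _ => ?_
      simp only [Pi.add_apply, Pi.smul_apply, Complex.real_smul, map_add, map_mul, Complex.conj_ofReal]
      ring
    rw [e, Complex.add_im, Complex.im_ofReal_mul]
    ring

/-! ### fixed points -/

theorem ΨΨ_one {z : E 5} (hz : z ∈ unitCone) : ΨΨ (1, z) = g 1 (fl (1 / 2, z)) := by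
  rw [ΨΨ_eq 1 hz, τ_eq 1 (by norm_num)]

theorem half3 : |(1/2 : ℝ)| ≤ 3 := by rw [abs_of_pos] <;> norm_num

theorem g_one_of_zero {z : E 5} (h : z 4 = 0) : g 1 z = -z := by
  rw [g_one]
  ext j
  fin_cases j <;> simp [h]

/-- a nonzero multiple relation transports moments -/
theorem Mom_smul_eq {z y : E 5} (c : ℂ) (hc : ‖c‖ = 1) (h : y = c • z) : Mom y = Mom z := by
  rw [h]; unfold Mom; simp only [q_smul c hc]

theorem norm_of_smul {z y : E 5} (hz : z ∈ unitCone) (hy : y ∈ unitCone) (c : ℂ) (h : y = c • z) : ‖c‖ = 1 := by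
  have h1 := hy.1
  rw [h] at h1
  have : herm (c • z) (c • z) = (starRingEnd ℂ c * c) * herm z z := by
    unfold herm
    rw [Finset.mul_sum]
    refine Finset.sum_congr rfl fun j _ => ?_
    simp only [Pi.smul_apply, smul_eq_mul, map_mul]; ring
  rw [this, hz.1, mul_one, ← Complex.normSq_eq_conj_mul_self, Complex.normSq_eq_norm_sq] at h1
  have h2 : ‖c‖ ^ 2 = 1 := by exact_mod_cast h1
  exact (pow_eq_one_iff_of_nonneg (norm_nonneg _) two_ne_zero).1 h2

theorem norm_V_le {z : E 5} (hz : z ∈ unitCone) : ‖V z‖ ≤ bnd := by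
  have h1 : ‖N (cst z)‖ ≤ bnd := vf.bdd (cst z) (lt_of_le_of_lt ((norm_cst z).trans (norm_le_one hz)) (by norm_num))
  refine le_trans ?_ h1
  rw [pi_norm_le_iff_of_nonneg (norm_nonneg _)]
  intro j
  have e : V z j = N (cst z) j ⟨1, by norm_num⟩ := by
    rw [compat]; rfl
  rw [e]
  exact (ContinuousMap.norm_coe_le_norm _ _).trans (norm_le_pi_norm _ j)

theorem real_aux1 (a b : ℝ) (h : a ^ 2 + b ^ 2 ≤ 1 / 100) : 
    a ^ 2 - b ^ 2 ≤ 1 / 100 ∧ -(1 / 100) ≤ a ^ 2 - b ^ 2 ∧ 2 * (a * b) ≤ 1 / 100 ∧ -(1 / 100) ≤ 2 * (a * b) := by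
  have h1 := sq_nonneg a
  have h2 := sq_nonneg b
  refine ⟨by linarith, by linarith, ?_, ?_⟩
  · have := sq_nonneg (a - b); nlinarith
  · have := sq_nonneg (a + b); nlinarith

theorem real_aux (a0 a1 a2 a3 A b0 b1 b2 b3 B : ℝ) (k0 : a0 ^ 2 + b0 ^ 2 ≤ 1 / 100) (k1 : a1 ^ 2 + b1 ^ 2 ≤ 1 / 100)
    (k2 : a2 ^ 2 + b2 ^ 2 ≤ 1 / 100) (k3 : a3 ^ 2 + b3 ^ 2 ≤ 1 / 100)
    (c1 : a0 ^ 2 + b0 ^ 2 + (a1 ^ 2 + b1 ^ 2) + (a2 ^ 2 + b2 ^ 2) + (a3 ^ 2 + b3 ^ 2) + (A ^ 2 + B ^ 2) = 1)
    (c2 : a0 ^ 2 - b0 ^ 2 + (a1 ^ 2 - b1 ^ 2) + (a2 ^ 2 - b2 ^ 2) + (a3 ^ 2 - b3 ^ 2) + (A ^ 2 - B ^ 2) = 0)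
    (c3 : a0 * b0 + a1 * b1 + a2 * b2 + a3 * b3 + A * B = 0) : False := by
  obtain ⟨p0, q0, r0, s0⟩ := real_aux1 a0 b0 k0
  obtain ⟨p1, q1, r1, s1⟩ := real_aux1 a1 b1 k1
  obtain ⟨p2, q2, r2, s2⟩ := real_aux1 a2 b2 k2
  obtain ⟨p3, q3, r3, s3⟩ := real_aux1 a3 b3 k3
  have hAB : A ^ 2 - B ^ 2 ≤ 1/25 := by linarith
  have hAB' : -(1/25) ≤ A ^ 2 - B ^ 2 := by linarith
  have hp : 2 * (A * B) ≤ 1/25 := by linarith
  have hp' : -(1/25) ≤ 2 * (A * B) := by linarith
  have hS : 24/25 ≤ A ^ 2 + B ^ 2 := by linarith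
  have hsq : (A ^ 2 + B ^ 2) ^ 2 = (A ^ 2 - B ^ 2) ^ 2 + (2 * (A * B)) ^ 2 := by ring
  have h5 : (A ^ 2 - B ^ 2) ^ 2 ≤ (1/25) ^ 2 := sq_le_sq' hAB' hAB
  have h6 : (2 * (A * B)) ^ 2 ≤ (1/25) ^ 2 := sq_le_sq' hp' hp
  have h7 : (24/25) ^ 2 ≤ (A ^ 2 + B ^ 2) ^ 2 := pow_le_pow_left₀ (by norm_num) hS 2
  rw [hsq] at h7
  norm_num at h5 h6 h7
  linarith

theorem off_surface {z : E 5} (hz : z ∈ unitCone) (h4 : z 4 ≠ 0) (h : ΨΨ (1, z) ∈ Submodule.span ℂ {z}) : False := by
  obtain ⟨c, hc⟩ := Submodule.mem_span_singleton.1 h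
  have hz3 : ‖z‖ ≤ 3 := (norm_le_one hz).trans (by norm_num)
  rw [ΨΨ_one hz] at hc
  have hf4 := fl_four (1/2) z half3 hz3
  set y := fl (1 / 2, z) with hy
  rw [g_one] at hc
  have hc4 : c * z 4 = y 4 := congrFun hc 4
  have hc1 : c = 1 := by
    rw [hf4] at hc4
    exact mul_right_cancel₀ h4 (by rw [hc4, one_mul])
  rw [hc1, one_smul] at hc
  have hdiff : ‖y - z‖ ≤ 1 / 5 := by
    have h1 := norm_flow_sub_le δ_pos hδ' half3 hz3
    have h2 : ‖y - z‖ ≤ 2 * (|(1/2:ℝ)| * δ) * ‖V z‖ := h1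
    have h3 := norm_V_le hz
    have h4 : δ * (4 * bnd + bnd) ≤ 1 / 5 := hδ'
    have hb := bnd_nonneg
    have hd := δ_pos
    rw [abs_of_pos (by norm_num : (0:ℝ) < 1/2)] at h2
    calc ‖y - z‖ ≤ 2 * (1/2 * δ) * ‖V z‖ := h2
      _ ≤ 2 * (1/2 * δ) * bnd := by gcongr
      _ = δ * bnd := by ring
      _ ≤ δ * (4 * bnd + bnd) := by gcongr; linarith
      _ ≤ 1 / 5 := h4
  have key : ∀ j : Fin 5, y j = -z j → (z j).re ^ 2 + (z j).im ^ 2 ≤ 1 / 100 := by
    intro j e
    have h1 : ‖y j - z j‖ ≤ 1 / 5 := (norm_le_pi_norm (y - z) j).trans hdiff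
    rw [e] at h1
    have h2 : ‖-z j - z j‖ = 2 * ‖z j‖ := by
      rw [show -z j - z j = -(2 * z j) by ring, norm_neg, norm_mul]; simp
    rw [h2] at h1
    have h3 : ‖z j‖ ≤ 1 / 10 := by linarith
    have h4 : (z j).re ^ 2 + (z j).im ^ 2 = ‖z j‖ ^ 2 := by
      rw [← Complex.normSq_eq_norm_sq, Complex.normSq_apply]; ring
    rw [h4]
    nlinarith [norm_nonneg (z j)]
  obtain ⟨c1, c2, c3⟩ := (cone_iff z).1 hz
  rw [Fin.sum_univ_five] at c1 c2 c3
  have y0 : z 0 = - y 0 := congrFun hc 0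
  have y1 : z 1 = - y 1 := congrFun hc 1
  have y2 : z 2 = - y 2 := congrFun hc 2
  have y3 : z 3 = - y 3 := congrFun hc 3
  have k0 := key 0 (by rw [y0, neg_neg])
  have k1 := key 1 (by rw [y1, neg_neg])
  have k2 := key 2 (by rw [y2, neg_neg])
  have k3 := key 3 (by rw [y3, neg_neg])
  clear_value y
  clear key y0 y1 y2 y3 hdiff hc hc1 hc4 hf4 hy h hz3
  exact real_aux _ _ _ _ _ _ _ _ _ _ k0 k1 k2 k3 c1 c2 c3

theorem s3 : Real.sqrt 3 ^ 2 = 3 := Real.sq_sqrt (by norm_num)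

/-- the parameters of the three fixed lines -/
def good (a b : ℝ) : Prop := (a = 1 ∧ b = 0) ∨ (a = -1/2 ∧ b = Real.sqrt 3 / 2) ∨ (a = -1/2 ∧ b = -(Real.sqrt 3 / 2))

theorem good_sq {a b : ℝ} (h : good a b) : a ^ 2 + b ^ 2 = 1 := by
  have := s3
  rcases h with ⟨rfl, rfl⟩ | ⟨rfl, rfl⟩ | ⟨rfl, rfl⟩ <;> nlinarith

theorem W_good {a b : ℝ} (h : good a b) : W ![a, b, 0, a, b, 0] = 0 := by
  have h3 := s3
  have key : b * b + (1 - a) * a = 0 := by
    rcases h with ⟨rfl, rfl⟩ | ⟨rfl, rfl⟩ | ⟨rfl, rfl⟩ <;> nlinarith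
  ext j
  fin_cases j
  · simp [W]
  · simp [W]
  · simp [W]; linarith
  · simp [W]
  · simp [W]
  · simp [W]; linarith

theorem span_smul_eq (c : ℂ) (hc : c ≠ 0) (x : E 5) : Submodule.span ℂ {c • x} = Submodule.span ℂ {x} :=
  Submodule.span_singleton_smul_eq (IsUnit.mk0 c hc) x

theorem span_eq_of_good {z : E 5} (hz : z ∈ unitCone) (h4 : z 4 = 0) {a b : ℝ}
    (hm : Mom z = ![a, b, 0, a, b, 0]) : Submodule.span ℂ {z} = Submodule.span ℂ {ee a b} := by
  have h := eq_smul_of_mom hz h4 a b (by rw [hm]; rfl) (by rw [hm]; rfl) (by rw [hm]; rfl) (by rw [hm]; rfl)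
    (by rw [hm]; rfl) (by rw [hm]; rfl)
  have h0 : z 0 ≠ 0 := by
    intro h0
    rw [h0, zero_smul] at h
    have := hz.1
    rw [h] at this
    simp [herm] at this
  rw [h, span_smul_eq _ ]
  exact h0

theorem uu_four (a b : ℝ) : uu a b 4 = 0 := by simp [uu, ee]

theorem fixed_iff (ℓ : Submodule ℂ (Fin 5 → ℂ)) : ℓ ∈ fixedLines L ↔ ∃ a b, good a b ∧ ℓ = Submodule.span ℂ {ee a b} := by
  constructor
  · rintro ⟨z, hz, rfl, hfix⟩
    have hfix' : ΨΨ (1, z) ∈ Submodule.span ℂ {z} := hfix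
    by_cases h4 : z 4 = 0
    · have hz3 : ‖z‖ ≤ 3 := (norm_le_one hz).trans (by norm_num)
      have hf4 := fl_four (1/2) z half3 hz3
      rw [ΨΨ_one hz, g_one_of_zero (hf4.trans h4)] at hfix'
      have hfix2 : fl (1/2, z) ∈ Submodule.span ℂ {z} := by
        have := Submodule.neg_mem _ hfix'
        rwa [neg_neg] at this
      obtain ⟨c, hc⟩ := Submodule.mem_span_singleton.1 hfix2
      have hcn := norm_of_smul hz (fl_cone (1/2) z half3 hz) c hc.symm
      obtain ⟨w, hw0, hw1, hwd, hwb⟩ := mom_orbit z hz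
      have hW : W (w 0) = 0 := by
        apply orbit_closed w (δ/2) (by have := δ_pos; positivity) δ_small hwd hwb
        rw [hw0, hw1]
        exact Mom_smul_eq c hcn hc.symm
      rw [hw0] at hW
      obtain ⟨hs1, hs2⟩ := mom_sphere hz h4
      obtain ⟨e2, e5, e3, e4, hg⟩ := critical (Mom z) hW hs1 hs2
      refine ⟨Mom z 0, Mom z 1, hg, ?_⟩
      apply span_eq_of_good hz h4
      ext j
      fin_cases j
      · rfl
      · rfl
      · exact e2
      · exact e3
      · exact e4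
      · exact e5
    · exact (off_surface hz h4 hfix').elim
  · rintro ⟨a, b, hg, rfl⟩
    have hz := uu_mem a b (good_sq hg)
    have hz3 : ‖uu a b‖ ≤ 3 := (norm_le_one hz).trans (by norm_num)
    have hne : ((1 / Real.sqrt 2 : ℝ) : ℂ) ≠ 0 := by
      norm_cast
      positivity
    have hspan : Submodule.span ℂ {uu a b} = Submodule.span ℂ {ee a b} := span_smul_eq _ hne _
    refine ⟨uu a b, hz, hspan.symm, ?_⟩
    obtain ⟨w, hw0, hw1, hwd, hwb⟩ := mom_orbit _ hz
    have hW : W (w 0) = 0 := by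
      rw [hw0, Mom_uu]; exact W_good hg
    have h1 := orbit_const w (δ/2) (by have := δ_pos; positivity) δ_small hwd hwb hW
    rw [hw0, hw1, Mom_uu] at h1
    have hf4 := (fl_four (1/2) _ half3 hz3).trans (uu_four a b)
    have h2 := span_eq_of_good (fl_cone (1/2) _ half3 hz) hf4 h1
    show ΨΨ (1, uu a b) ∈ _
    rw [ΨΨ_one hz, g_one_of_zero hf4, ← h2]
    exact Submodule.neg_mem _ (Submodule.mem_span_singleton_self _)

theorem span_ee_inj {a b a' b' : ℝ} (h : Submodule.span ℂ {ee a b} = Submodule.span ℂ {ee a' b'}) :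
    a = a' ∧ b = b' := by
  have hm : ee a b ∈ Submodule.span ℂ {ee a' b'} := by
    rw [← h]; exact Submodule.mem_span_singleton_self _
  obtain ⟨c, hc⟩ := Submodule.mem_span_singleton.1 hm
  have h0 := congrFun hc 0
  have h1 := congrFun hc 1
  have h2 := congrFun hc 2
  simp [ee] at h0 h1 h2
  rw [h0] at h1 h2
  simp at h1 h2
  exact ⟨h1.symm, h2.symm⟩

theorem card_three : (fixedLines L).ncard = 3 := by
  have hs : 0 < Real.sqrt 3 := by positivity
  rw [Set.ncard_eq_three]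
  refine ⟨Submodule.span ℂ {ee 1 0}, Submodule.span ℂ {ee (-1/2) (Real.sqrt 3 / 2)},
    Submodule.span ℂ {ee (-1/2) (-(Real.sqrt 3 / 2))}, ?_, ?_, ?_, ?_⟩
  · intro h; have := (span_ee_inj h).1; norm_num at this
  · intro h; have := (span_ee_inj h).1; norm_num at this
  · intro h; have := (span_ee_inj h).2; linarith
  · ext ℓ
    rw [fixed_iff]
    constructor
    · rintro ⟨a, b, ⟨rfl, rfl⟩ | ⟨rfl, rfl⟩ | ⟨rfl, rfl⟩, rfl⟩ <;> simp
    · rintro (rfl | rfl | rfl)
      · exact ⟨_, _, Or.inl ⟨rfl, rfl⟩, rfl⟩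
      · exact ⟨_, _, Or.inr (Or.inl ⟨rfl, rfl⟩), rfl⟩
      · exact ⟨_, _, Or.inr (Or.inr ⟨rfl, rfl⟩), rfl⟩

/-! ### the degenerate fixed point -/

noncomputable def zz (h : ℝ) : E 5 := uu 1 0 + h • (Pi.single 3 1 : E 5)

theorem zz_eq (h : ℝ) : zz h = ![((1 / Real.sqrt 2 : ℝ) : ℂ), ((1 / Real.sqrt 2 : ℝ) : ℂ) * Complex.I, 0, (h : ℂ), 0] := by
  ext j
  fin_cases j <;> simp [zz, uu, ee]

theorem V_zz (h : ℝ) : V (zz h) = ![0, 0, ((-(4 * (1 / Real.sqrt 2) * h ^ 2) : ℝ) : ℂ), 0, 0] := by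
  have hs : (1 / Real.sqrt 2) * (1 / Real.sqrt 2) = 1 / 2 := by
    rw [div_mul_div_comm, Real.mul_self_sqrt (by norm_num)]; norm_num
  set s := 1 / Real.sqrt 2 with hs'
  have z0 : zz h 0 = (s : ℂ) := by rw [zz_eq]; rfl
  have z1 : zz h 1 = (s : ℂ) * Complex.I := by rw [zz_eq]; rfl
  have z2 : zz h 2 = 0 := by rw [zz_eq]; rfl
  have z3 : zz h 3 = (h : ℂ) := by rw [zz_eq]; rfl
  have q01 : q (zz h) 0 1 = 1 / 2 := by rw [q_eq, z0, z1]; simp; rw [hs]; norm_num
  have q02 : q (zz h) 0 2 = 0 := by rw [q_eq, z2]; simp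
  have q03 : q (zz h) 0 3 = 0 := by rw [q_eq, z0, z3]; simp
  have q12 : q (zz h) 1 2 = 0 := by rw [q_eq, z2]; simp
  have q13 : q (zz h) 1 3 = -(s * h) := by rw [q_eq, z1, z3]; simp
  have q23 : q (zz h) 2 3 = 0 := by rw [q_eq, z2]; simp
  rw [V_eq, q01, q02, q03, q12, q13, q23, z0, z1, z2, z3]
  ext j
  fin_cases j
  · simp
  · simp
  · simp; ring
  · simp
  · simp

theorem norm_V_zz (h : ℝ) : ‖V (zz h)‖ ≤ 4 * h ^ 2 := by
  have hs : 1 / Real.sqrt 2 ≤ 1 := by
    rw [div_le_one (by positivity)]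
    exact Real.one_le_sqrt.2 (by norm_num)
  have hs0 : 0 ≤ 1 / Real.sqrt 2 := by positivity
  rw [V_zz, pi_norm_le_iff_of_nonneg (by positivity)]
  have key : ‖((-(4 * (1 / Real.sqrt 2) * h ^ 2) : ℝ) : ℂ)‖ ≤ 4 * h ^ 2 := by
    rw [Complex.norm_real, norm_neg, Real.norm_of_nonneg (by positivity)]
    calc 4 * (1 / Real.sqrt 2) * h ^ 2 ≤ 4 * 1 * h ^ 2 := by gcongr
      _ = _ := by ring
  have h0 : ‖(0:ℂ)‖ ≤ 4 * h ^ 2 := by rw [norm_zero]; positivity
  intro j
  fin_cases j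
  exacts [h0, h0, key, h0, h0]

theorem hasDerivAt_zz : HasDerivAt zz (Pi.single 3 1 : E 5) 0 := by
  have := ((hasDerivAt_id (0:ℝ)).smul_const (Pi.single 3 1 : E 5)).const_add (uu 1 0)
  rw [one_smul] at this
  exact this

theorem hasDerivAt_fl_zz : HasDerivAt (fun h : ℝ => fl (1/2, zz h)) (Pi.single 3 1 : E 5) 0 := by
  have h1 := hasDerivAt_zz
  have h2 : HasDerivAt (fun h : ℝ => fl (1/2, zz h) - zz h) (0 : E 5) 0 := by
    have hO : (fun h : ℝ => fl (1/2, zz h) - zz h) =O[nhds 0] (fun h : ℝ => ‖h - 0‖ ^ 2) := by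
      apply Asymptotics.IsBigO.of_bound (4 * δ)
      have ho : Metric.ball (0:ℝ) 1 ∈ nhds (0:ℝ) := Metric.ball_mem_nhds _ one_pos
      filter_upwards [ho] with h hh
      have hh' : |h| < 1 := by simpa using hh
      have hn : ‖zz h‖ ≤ 3 := by
        unfold zz
        calc ‖uu 1 0 + h • (Pi.single 3 1 : E 5)‖ ≤ ‖uu 1 0‖ + ‖h • (Pi.single 3 1 : E 5)‖ := norm_add_le _ _
          _ ≤ 1 + 1 := by
              gcongr
              · exact norm_le_one (uu_mem 1 0 (by norm_num))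
              · rw [norm_smul, Real.norm_eq_abs]
                calc |h| * ‖(Pi.single 3 1 : E 5)‖ ≤ 1 * 1 := by
                      gcongr
                      rw [pi_norm_le_iff_of_nonneg zero_le_one]
                      intro j
                      by_cases hj : j = 3
                      · subst hj; simp
                      · rw [Pi.single_eq_of_ne hj]; simp
                  _ = 1 := by norm_num
          _ ≤ 3 := by norm_num
      have h3 := norm_flow_sub_le δ_pos hδ' half3 hn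
      have h4 : ‖fl (1/2, zz h) - zz h‖ ≤ 2 * (|(1/2:ℝ)| * δ) * ‖V (zz h)‖ := h3
      have h5 := norm_V_zz h
      have hd := δ_pos
      rw [abs_of_pos (by norm_num : (0:ℝ) < 1/2)] at h4
      rw [sub_zero, norm_pow, norm_norm, Real.norm_eq_abs, sq_abs]
      calc _ ≤ 2 * (1/2 * δ) * ‖V (zz h)‖ := h4
        _ ≤ 2 * (1/2 * δ) * (4 * h ^ 2) := by gcongr
        _ = 4 * δ * h ^ 2 := by ring
    have := hO.hasFDerivAt (𝕜 := ℝ) (by norm_num : 1 < 2)
    exact this.hasDerivAt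
  have h3 := h2.add h1
  rw [zero_add] at h3
  refine h3.congr_of_eventuallyEq (Filter.Eventually.of_forall fun h => ?_)
  simp

theorem zz_zero : zz 0 = uu 1 0 := by simp [zz]

theorem fl_uu : fl (1/2, uu 1 0) = uu 1 0 := by
  have h3 := norm_flow_sub_le δ_pos hδ' half3 (z := uu 1 0) ((norm_le_one (uu_mem 1 0 (by norm_num))).trans (by norm_num))
  have h4 : ‖fl (1/2, uu 1 0) - uu 1 0‖ ≤ 2 * (|(1/2:ℝ)| * δ) * ‖V (uu 1 0)‖ := h3
  have h5 := norm_V_zz 0
  rw [zz_zero] at h5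
  have h6 : ‖V (uu 1 0)‖ = 0 := le_antisymm (h5.trans (by norm_num)) (norm_nonneg _)
  rw [h6, mul_zero] at h4
  exact sub_eq_zero.1 (norm_le_zero_iff.1 h4)

theorem degenerate : HasDegenerateFixedPoint L := by
  have hz := uu_mem 1 0 (by norm_num)
  refine ⟨uu 1 0, hz, -1, ?_, Pi.single 3 1, ?_, ?_, 0, ?_⟩
  · show ΨΨ (1, uu 1 0) = _
    rw [ΨΨ_one hz, fl_uu, g_one_of_zero (uu_four 1 0)]
    simp
  · refine ⟨?_, ?_⟩
    · simp [herm, Fin.sum_univ_five, uu, ee]
    · simp [Fin.sum_univ_five, uu, ee]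
  · intro r h
    have := congrFun h 3
    simp [uu, ee] at this
  · show fderiv ℝ (fun x : Fin 5 → ℂ => ΨΨ (1, x)) (uu 1 0) (Pi.single 3 1) = _
    have hdiff : DifferentiableAt ℝ (fun x : E 5 => ΨΨ (1, x)) (uu 1 0) := by
      have : ContDiff ℝ ∞ (fun x : E 5 => ΨΨ (1, x)) :=
        (contDiff_g contDiff_fst contDiff_inner').comp (contDiff_const.prodMk contDiff_id)
      exact this.contDiffAt.differentiableAt (by simp)
    have hline := hasDerivAt_zz
    have h1 : HasDerivAt (fun h : ℝ => ΨΨ (1, zz h)) (fderiv ℝ (fun x : E 5 => ΨΨ (1, x)) (uu 1 0) (Pi.single 3 1)) 0 := by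
      have hd := hdiff.hasFDerivAt
      rw [← zz_zero] at hd
      have := hd.comp_hasDerivAt (0:ℝ) hline
      rw [zz_zero] at this
      exact this
    have h2 : HasDerivAt (fun h : ℝ => g 1 (fl (1/2, zz h))) (g 1 (Pi.single 3 1 : E 5)) 0 := by
      have hj := hasDerivAt_pi.1 hasDerivAt_fl_zz
      rw [hasDerivAt_pi]
      intro j
      fin_cases j
      · exact ((hj 0).const_mul _).sub ((hj 1).const_mul _)
      · exact ((hj 0).const_mul _).add ((hj 1).const_mul _)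
      · exact ((hj 2).const_mul _).sub ((hj 3).const_mul _)
      · exact ((hj 2).const_mul _).add ((hj 3).const_mul _)
      · exact hj 4
    have h3 : HasDerivAt (fun h : ℝ => ΨΨ (1, zz h)) (g 1 (Pi.single 3 1 : E 5)) 0 := by
      refine h2.congr_of_eventuallyEq ?_
      have ho : Metric.ball (0:ℝ) 1 ∈ nhds (0:ℝ) := Metric.ball_mem_nhds _ one_pos
      filter_upwards [ho] with h hh
      have hh' : |h| < 1 := by simpa using hh
      have hn : ‖zz h‖ ≤ 2 := by
        unfold zz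
        calc ‖uu 1 0 + h • (Pi.single 3 1 : E 5)‖ ≤ ‖uu 1 0‖ + ‖h • (Pi.single 3 1 : E 5)‖ := norm_add_le _ _
          _ ≤ 1 + 1 := by
              gcongr
              · exact norm_le_one (uu_mem 1 0 (by norm_num))
              · rw [norm_smul, Real.norm_eq_abs]
                calc |h| * ‖(Pi.single 3 1 : E 5)‖ ≤ 1 * 1 := by
                      gcongr
                      rw [pi_norm_le_iff_of_nonneg zero_le_one]
                      intro j
                      by_cases hj : j = 3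
                      · subst hj; simp
                      · rw [Pi.single_eq_of_ne hj]; simp
                  _ = 1 := by norm_num
          _ = 2 := by norm_num
      show g 1 (bs (zz h) • fl (τ 1 / 2, zz h)) = _
      rw [bs_eq _ hn, one_smul, τ_eq 1 (by norm_num)]
    rw [h1.unique h3, g_one_of_zero (by simp)]
    simp

/-- There is a Hamiltonian diffeomorphism of the complex quadric threefold (the zero set of z₀² + ⋯ + z₄² in complex projective 4-space, with the restricted Fubini–Study form) having exactly three fixed points, at least one of them degenerate. Hamiltonian isotopies are encoded by smooth lifts to the unit isotropic cone in ℂ⁵ obeying Hamilton's equation; points of the quadric are complex lines through cone points; degenerate means the differential of the time-one map fixes a nonzero tangent vector. -/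
theorem result :
    ∃ L : Crest.GeometryTopology.Quadric.HamiltonianConeLift,
      (Crest.GeometryTopology.Quadric.fixedLines L).ncard = 3 ∧
      Crest.GeometryTopology.Quadric.HasDegenerateFixedPoint L :=
  ⟨L, card_three, degenerate⟩

end Crest.Agent.S0316
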