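import Crest.Statements.S0323
import Crest.Agent.H2EBase
import Crest.Agent.H2ECostA
import Crest.Agent.H2ECostB
import Crest.Agent.H2ECostC
import Crest.Agent.H2ECharKey
import Crest.Agent.H2ECharComp
import Crest.Agent.H2ERow
import Crest.Agent.H2EFar
import Crest.Agent.H2ECompose
import Crest.Agent.H2EIter
import Crest.Agent.H2ESpectral
import Crest.Agent.H2ECut
import Crest.Agent.H2EPoincare
import Crest.Agent.H2EEdl
import Crest.Agent.H2EBin
import Crest.Agent.H2ELower
import Crest.Agent.H2EPrimes
import Crest.Agent.H2ELevel
import Crest.Agent.H2EAsym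

set_option autoImplicit false
open Crest.GeometryTopology.EditDistance
open Crest Crest.GeometryTopology Crest.GeometryTopology.EditDistance

namespace Crest.Agent.S0323

/-- There are constants `c > 0` and `d₀` such that for every `d ≥ d₀` some length `n ≤ d` has the following property: any map `f` from binary words into real `ℓ¹` that, after a common rescaling `s > 0`, satisfies `s · ed(x,y) ≤ ‖f x - f y‖ ≤ D · s · ed(x,y)` for all distinct binary words `x`, `y` of length exactly `n`, has `D ≥ exp (c √(log d · log log d))`. Here `ed` is unit-cost edit distance (insertions, deletions, substitutions, intermediate words of any length). -/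
theorem result :
    ∃ c : ℝ, 0 < c ∧ ∃ d₀ : ℕ, ∀ d : ℕ, d₀ ≤ d → ∃ n : ℕ, n ≤ d ∧
      ∀ (f : List Bool → lp (fun _ : ℕ => ℝ) 1) (s D : ℝ), 0 < s →
        (∀ x y : List Bool, x.length = n → y.length = n → x ≠ y →
          s * (editDist x y : ℝ) ≤ ‖f x - f y‖ ∧ ‖f x - f y‖ ≤ D * s * (editDist x y : ℝ)) →
        Real.exp (c * Real.sqrt (Real.log d * Real.log (Real.log d))) ≤ D := by
  have hcost : ED.CompCost := ED.compCost ED.costSingle ED.costShift
  have hspec : ED.CompSpec := ED.compSpec ED.charKey
  have hfar : ED.CompFar := ED.compFar ED.rowClaim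
  have hiter : ED.Iter := ED.iter ED.base (ED.compose hcost hspec hfar)
  have hpoin : ED.Poincare := ED.poincare ED.spectralId ED.cutL1
  have hlower : ED.Lower := ED.lower hpoin (ED.bin ED.edLink)
  exact ED.asym (ED.level hiter hlower ED.primes)

end Crest.Agent.S0323
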