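import Crest.Statements.S0324
import Crest.Agent.H17Main

set_option autoImplicit false
open MeasureTheory
open scoped ENNReal
open Crest Crest.GeometryTopology Crest.GeometryTopology.Convex

namespace Crest.Agent.S0324

/-- The regular tetrahedron `K` with vertices `(±1, 0, 0)`, `(0, ±1, √2)` is covered by finitely many cylinders `Bᵢ + ℝ uᵢ`, each with unit direction `uᵢ` and base `Bᵢ` a triangle (convex hull of three points) in the plane `uᵢ^⊥`, whose total base area `∑ᵢ area(Bᵢ)` is smaller, by a positive margin, than half the area of the orthogonal projection of `K` onto `v^⊥` for every unit vector `v`; areas are 2-dimensional Hausdorff measure. -/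
theorem result :
    ∃ (m : ℕ) (u p q r : Fin m → EuclideanSpace ℝ (Fin 3)),
      (∀ i, ‖u i‖ = 1) ∧
      (∀ i, inner ℝ (p i) (u i) = 0 ∧ inner ℝ (q i) (u i) = 0 ∧ inner ℝ (r i) (u i) = 0) ∧
      convexHull ℝ {!₂[1, 0, 0], !₂[-1, 0, 0], !₂[0, 1, Real.sqrt 2], !₂[0, -1, Real.sqrt 2]} ⊆
        ⋃ i, {x : EuclideanSpace ℝ (Fin 3) | ∃ b ∈ convexHull ℝ {p i, q i, r i}, ∃ t : ℝ, x = b + t • u i} ∧
      ∃ δ : ℝ, 0 < δ ∧ ∀ v : EuclideanSpace ℝ (Fin 3), ‖v‖ = 1 →
        ∑ i, (μH[(2 : ℝ)] (convexHull ℝ {p i, q i, r i})).toReal + δ ≤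
          (μH[(2 : ℝ)] ((fun y => y - inner ℝ y v • v) '' convexHull ℝ {!₂[1, 0, 0], !₂[-1, 0, 0], !₂[0, 1, Real.sqrt 2], !₂[0, -1, Real.sqrt 2]})).toReal / 2 := by
  obtain ⟨n, hn⟩ : ∃ n : ℕ, 2000001 ≤ n := ⟨_, le_refl _⟩
  obtain ⟨u, p, q, r, hu, horth, hcov, hsum⟩ := Crest.Agent.H17Main.main_cover 0 le_rfl n hn
  refine ⟨n, u, p, q, r, hu, horth, hcov, ?_⟩
  obtain ⟨k, hk, hscale⟩ := Crest.Agent.H17Area.exists_scale
  have hS0 := Crest.Agent.H17Main.S0_le
  have hs : 0 < Real.sqrt 2 := by positivity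
  refine ⟨k * (Real.sqrt 2 * (86 / 10000000000)), by positivity, ?_⟩
  intro v hv
  simp only [hscale]
  rw [← Finset.mul_sum, hsum]
  have hge := Crest.Agent.H17Proj.proj_ge v hv
  rw [← Crest.Agent.H17Proj.projUnit_eq v hv] at hge
  have hfin := Crest.Agent.H17Proj.proj_lt_top v hv
  rw [← Crest.Agent.H17Proj.projUnit_eq v hv] at hfin
  have h2 : Real.sqrt 2 ≤ (μHE[2] ((fun y : EuclideanSpace ℝ (Fin 3) => y - inner ℝ y v • v) '' Crest.Agent.H17Proj.KK)).toReal := by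
    have := ENNReal.toReal_mono hfin.ne hge
    rwa [ENNReal.toReal_ofReal hs.le] at this
  have h3 : k * (Crest.Agent.H17Main.S0 + 0) + k * (Real.sqrt 2 * (86 / 10000000000)) ≤ k * (Real.sqrt 2 / 2) := by
    rw [← mul_add]
    apply mul_le_mul_of_nonneg_left _ hk.le
    linarith
  refine h3.trans ?_
  rw [mul_div_assoc]
  apply mul_le_mul_of_nonneg_left _ hk.le
  linarith

end Crest.Agent.S0324
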