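import Crest.Statements.S0327
import Crest.Agent.H17Tet2

set_option autoImplicit false
open MeasureTheory
open scoped ENNReal
open Crest Crest.GeometryTopology Crest.GeometryTopology.Convex

namespace Crest.Agent.S0327

/-- Let K ⊂ ℝ³ be a regular tetrahedron (convex hull of four points with equal pairwise distances ℓ > 0); areas are Lebesgue-normalised 2-dimensional Hausdorff measure, π_v y = y − ⟪y, v⟫ v. (1) Finitely many cylinders Bᵢ + ℝ uᵢ, ‖uᵢ‖ = 1, with parallelogram bases Bᵢ = cᵢ + [0,1]aᵢ + [0,1]bᵢ in uᵢ^⊥ cover K, ∑ᵢ area(Bᵢ) being below half of area(π_v K) by a positive margin for all unit v, and ∑ᵢ area(Bᵢ)/area(π_{uᵢ} K) < 1/2. (2) The same with bounded relatively open subsets of the uᵢ^⊥ as bases. -/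
theorem result
    (w : Fin 4 → EuclideanSpace ℝ (Fin 3)) (ℓ : ℝ) (hℓ : 0 < ℓ)
    (hw : ∀ i j, i ≠ j → dist (w i) (w j) = ℓ) :
    (∃ (k : ℕ) (u c a b : Fin k → EuclideanSpace ℝ (Fin 3)),
      (∀ i, ‖u i‖ = 1) ∧
      (∀ i, inner ℝ (c i) (u i) = 0 ∧ inner ℝ (a i) (u i) = 0 ∧ inner ℝ (b i) (u i) = 0) ∧
      convexHull ℝ (Set.range w) ⊆ ⋃ i, {x : EuclideanSpace ℝ (Fin 3) |
        ∃ s ∈ Set.Icc (0 : ℝ) 1, ∃ t ∈ Set.Icc (0 : ℝ) 1, ∃ τ : ℝ, x = c i + s • a i + t • b i + τ • u i} ∧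
      (∃ δ : ℝ, 0 < δ ∧ ∀ v : EuclideanSpace ℝ (Fin 3), ‖v‖ = 1 →
        (∑ i, (μHE[2] {x : EuclideanSpace ℝ (Fin 3) |
            ∃ s ∈ Set.Icc (0 : ℝ) 1, ∃ t ∈ Set.Icc (0 : ℝ) 1, x = c i + s • a i + t • b i}).toReal) + δ ≤
          (μHE[2] ((fun y => y - inner ℝ y v • v) '' convexHull ℝ (Set.range w))).toReal / 2) ∧
      ∑ i, (μHE[2] {x : EuclideanSpace ℝ (Fin 3) |
            ∃ s ∈ Set.Icc (0 : ℝ) 1, ∃ t ∈ Set.Icc (0 : ℝ) 1, x = c i + s • a i + t • b i}).toReal /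
          (μHE[2] ((fun y => y - inner ℝ y (u i) • u i) '' convexHull ℝ (Set.range w))).toReal < 1 / 2) ∧
    (∃ (k : ℕ) (u : Fin k → EuclideanSpace ℝ (Fin 3)) (B : Fin k → Set (EuclideanSpace ℝ (Fin 3))),
      (∀ i, ‖u i‖ = 1) ∧
      (∀ i, Bornology.IsBounded (B i) ∧ ∃ O : Set (EuclideanSpace ℝ (Fin 3)), IsOpen O ∧
        B i = O ∩ {x | inner ℝ x (u i) = 0}) ∧
      convexHull ℝ (Set.range w) ⊆
        ⋃ i, {x : EuclideanSpace ℝ (Fin 3) | ∃ y ∈ B i, ∃ τ : ℝ, x = y + τ • u i} ∧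
      (∃ δ : ℝ, 0 < δ ∧ ∀ v : EuclideanSpace ℝ (Fin 3), ‖v‖ = 1 →
        (∑ i, (μHE[2] (B i)).toReal) + δ ≤
          (μHE[2] ((fun y => y - inner ℝ y v • v) '' convexHull ℝ (Set.range w))).toReal / 2) ∧
      ∑ i, (μHE[2] (B i)).toReal /
          (μHE[2] ((fun y => y - inner ℝ y (u i) • u i) '' convexHull ℝ (Set.range w))).toReal < 1 / 2) := by
  classical
  obtain ⟨O, U, hK⟩ := Crest.Agent.H17Tet2.exists_iso w ℓ hℓ hw
  obtain ⟨k, u, c, a, b, hu, horth, hcov, hsum⟩ := Crest.Agent.H17Tet.std_par_cover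
  have hs : 0 < Real.sqrt 2 := by positivity
  have hh : 0 < ℓ / 2 := by positivity
  have hproj : ∀ v : EuclideanSpace ℝ (Fin 3), ‖v‖ = 1 → (ℓ / 2) ^ 2 * Real.sqrt 2 ≤
      (μHE[2] ((fun y : EuclideanSpace ℝ (Fin 3) => y - inner ℝ y v • v) '' convexHull ℝ (Set.range w))).toReal := by
    intro v hv
    rw [Crest.Agent.H17Proj.projUnit_eq v hv]
    exact Crest.Agent.H17Tet2.projW_ge w ℓ hℓ O U hK v hv
  set u' : Fin k → EuclideanSpace ℝ (Fin 3) := fun i => U (u i) with hu'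
  set a' : Fin k → EuclideanSpace ℝ (Fin 3) := fun i => (ℓ / 2) • U (a i) with ha'
  set b' : Fin k → EuclideanSpace ℝ (Fin 3) := fun i => (ℓ / 2) • U (b i) with hb'
  set c' : Fin k → EuclideanSpace ℝ (Fin 3) :=
    fun i => Crest.Agent.H17Cyl.projAlong (U (u i)) O + (ℓ / 2) • U (c i) with hc'
  have hu1 : ∀ i, ‖u' i‖ = 1 := fun i => by rw [hu']; simp [hu i]
  have hu0 : ∀ i, u' i ≠ 0 := fun i h => by have := hu1 i; rw [h] at this; simp at this
  have hort : ∀ i, inner ℝ (c' i) (u' i) = 0 ∧ inner ℝ (a' i) (u' i) = 0 ∧ inner ℝ (b' i) (u' i) = 0 := by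
    intro i
    obtain ⟨h1, h2, h3⟩ := horth i
    refine ⟨?_, ?_, ?_⟩
    · have := Crest.Agent.H17Cyl.inner_projAlong (U (u i)) O (hu0 i)
      simp only [hc', hu']
      rw [inner_add_left, this, inner_smul_left, U.inner_map_map, h1]; simp
    · simp only [ha', hu']
      rw [inner_smul_left, U.inner_map_map, h2]; simp
    · simp only [hb', hu']
      rw [inner_smul_left, U.inner_map_map, h3]; simp
  have hcov' : convexHull ℝ (Set.range w) ⊆ ⋃ i, {x : EuclideanSpace ℝ (Fin 3) |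
        ∃ s ∈ Set.Icc (0 : ℝ) 1, ∃ t ∈ Set.Icc (0 : ℝ) 1, ∃ τ : ℝ, x = c' i + s • a' i + t • b' i + τ • u' i} := by
    rw [hK]
    rintro x ⟨y, hy, rfl⟩
    obtain ⟨i, s, hs1, t, ht1, τ, hy2⟩ := hcov y hy
    rw [Set.mem_iUnion]
    refine ⟨i, s, hs1, t, ht1, inner ℝ O (U (u i)) / ‖U (u i)‖ ^ 2 + (ℓ / 2) * τ, ?_⟩
    simp only [hc', ha', hb', hu', Crest.Agent.H17Cyl.projAlong, hy2, map_add, map_smul]
    module
  have harea : ∀ i, (μHE[2] {x : EuclideanSpace ℝ (Fin 3) |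
            ∃ s ∈ Set.Icc (0 : ℝ) 1, ∃ t ∈ Set.Icc (0 : ℝ) 1, x = c' i + s • a' i + t • b' i}).toReal =
      (ℓ / 2) ^ 2 * Crest.Agent.H17Area.parea (a i) (b i) := by
    intro i
    rw [Crest.Agent.H17Area.euclideanHausdorff_parallelogram,
      ENNReal.toReal_ofReal (Crest.Agent.H17Area.parea_nonneg _ _)]
    simp only [ha', hb']
    rw [Crest.Agent.H17Tet.parea_smul_left _ _ _ hh.le, Crest.Agent.H17Tet.parea_smul_right _ _ _ hh.le]
    have : Crest.Agent.H17Area.parea (U (a i)) (U (b i)) = Crest.Agent.H17Area.parea (a i) (b i) := by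
      unfold Crest.Agent.H17Area.parea
      rw [U.norm_map, U.norm_map, U.inner_map_map]
    rw [this]; ring
  have hsum' : ∑ i, (μHE[2] {x : EuclideanSpace ℝ (Fin 3) |
            ∃ s ∈ Set.Icc (0 : ℝ) 1, ∃ t ∈ Set.Icc (0 : ℝ) 1, x = c' i + s • a' i + t • b' i}).toReal ≤
      (ℓ / 2) ^ 2 * Real.sqrt 2 * (1 / 2 - 3 / 1000000000) := by
    simp only [harea]
    rw [← Finset.mul_sum, mul_assoc]
    gcongr
  have hP : 0 < (ℓ / 2) ^ 2 * Real.sqrt 2 := by positivity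
  -- ratio bound
  have hratio : ∀ (A : Fin k → ℝ), (∀ i, 0 ≤ A i) → ∑ i, A i ≤ (ℓ / 2) ^ 2 * Real.sqrt 2 * (1 / 2 - 1 / 1000000000) →
      ∑ i, A i / (μHE[2] ((fun y : EuclideanSpace ℝ (Fin 3) => y - inner ℝ y (u' i) • u' i) ''
        convexHull ℝ (Set.range w))).toReal < 1 / 2 := by
    intro A hA hAs
    have h1 : ∑ i, A i / (μHE[2] ((fun y : EuclideanSpace ℝ (Fin 3) => y - inner ℝ y (u' i) • u' i) ''
        convexHull ℝ (Set.range w))).toReal ≤ ∑ i, A i / ((ℓ / 2) ^ 2 * Real.sqrt 2) := by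
      apply Finset.sum_le_sum
      intro i _
      exact div_le_div_of_nonneg_left (hA i) hP (hproj _ (hu1 i))
    rw [← Finset.sum_div] at h1
    have h2 : (∑ i, A i) / ((ℓ / 2) ^ 2 * Real.sqrt 2) ≤ 1 / 2 - 1 / 1000000000 := by
      rw [div_le_iff₀ hP]; linarith
    linarith
  refine ⟨⟨k, u', c', a', b', hu1, hort, hcov', ⟨(ℓ / 2) ^ 2 * Real.sqrt 2 * (3 / 1000000000), by positivity, ?_⟩, ?_⟩, ?_⟩
  · intro v hv
    have := hproj v hv
    linarith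
  · apply hratio _ (fun i => ENNReal.toReal_nonneg)
    refine hsum'.trans ?_
    gcongr
    norm_num
  · -- open bases
    have hopen : ∀ i, ∃ B' : Set (EuclideanSpace ℝ (Fin 3)), {x : EuclideanSpace ℝ (Fin 3) |
            ∃ s ∈ Set.Icc (0 : ℝ) 1, ∃ t ∈ Set.Icc (0 : ℝ) 1, x = c' i + s • a' i + t • b' i} ⊆ B' ∧
        Bornology.IsBounded B' ∧ (∃ O : Set (EuclideanSpace ℝ (Fin 3)), IsOpen O ∧ B' = O ∩ {x | inner ℝ x (u' i) = 0}) ∧
        (μHE[2] B').toReal ≤ (μHE[2] {x : EuclideanSpace ℝ (Fin 3) |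
            ∃ s ∈ Set.Icc (0 : ℝ) 1, ∃ t ∈ Set.Icc (0 : ℝ) 1, x = c' i + s • a' i + t • b' i}).toReal +
            (ℓ / 2) ^ 2 * Real.sqrt 2 * (1 / 1000000000) / (k + 1) := by
      intro i
      apply Crest.Agent.H17Tet2.open_enlarge (u' i) (hu1 i)
      · have h1 := Crest.Agent.H17Area.parallelogram_eq_image (c' i) (a' i) (b' i)
        have h2 : IsCompact {x : EuclideanSpace ℝ (Fin 3) |
            ∃ s ∈ Set.Icc (0 : ℝ) 1, ∃ t ∈ Set.Icc (0 : ℝ) 1, x = c' i + s • a' i + t • b' i} := by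
          have h3 : {x : EuclideanSpace ℝ (Fin 3) |
            ∃ s ∈ Set.Icc (0 : ℝ) 1, ∃ t ∈ Set.Icc (0 : ℝ) 1, x = c' i + s • a' i + t • b' i} =
            (fun p : ℝ × ℝ => c' i + p.1 • a' i + p.2 • b' i) '' (Set.Icc (0 : ℝ) 1 ×ˢ Set.Icc (0 : ℝ) 1) := by
            ext x
            constructor
            · rintro ⟨s, hs1, t, ht1, rfl⟩; exact ⟨(s, t), ⟨hs1, ht1⟩, rfl⟩
            · rintro ⟨⟨s, t⟩, ⟨hs1, ht1⟩, rfl⟩; exact ⟨s, hs1, t, ht1, rfl⟩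
          rw [h3]
          exact (isCompact_Icc.prod isCompact_Icc).image (by fun_prop)
        exact h2
      · rintro x ⟨s, _, t, _, rfl⟩
        obtain ⟨h1, h2, h3⟩ := hort i
        have hh1 : inner ℝ (c' i) (u' i) = 0 := by first | exact h1 | exact h2 | exact h3
        have e1 : inner ℝ (s • a' i) (u' i) = 0 := by
          rw [real_inner_smul_left]
          have : inner ℝ (a' i) (u' i) = 0 := by first | exact h1 | exact h2 | exact h3
          rw [this, mul_zero]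
        have e2 : inner ℝ (t • b' i) (u' i) = 0 := by
          rw [real_inner_smul_left]
          have : inner ℝ (b' i) (u' i) = 0 := by first | exact h1 | exact h2 | exact h3
          rw [this, mul_zero]
        rw [inner_add_left, inner_add_left, hh1, e1, e2]; simp
      · positivity
    choose B' hB1 hB2 hB3 hB4 using hopen
    have hsumB : ∑ i, (μHE[2] (B' i)).toReal ≤ (ℓ / 2) ^ 2 * Real.sqrt 2 * (1 / 2 - 1 / 1000000000) := by
      have h1 : ∑ i, (μHE[2] (B' i)).toReal ≤ (∑ i, (μHE[2] {x : EuclideanSpace ℝ (Fin 3) |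
            ∃ s ∈ Set.Icc (0 : ℝ) 1, ∃ t ∈ Set.Icc (0 : ℝ) 1, x = c' i + s • a' i + t • b' i}).toReal) +
            (k : ℝ) * ((ℓ / 2) ^ 2 * Real.sqrt 2 * (1 / 1000000000) / (k + 1)) := by
        refine (Finset.sum_le_sum (fun i _ => hB4 i)).trans (le_of_eq ?_)
        rw [Finset.sum_add_distrib]
        simp
      have h2 : (k : ℝ) * ((ℓ / 2) ^ 2 * Real.sqrt 2 * (1 / 1000000000) / (k + 1)) ≤
          (ℓ / 2) ^ 2 * Real.sqrt 2 * (1 / 1000000000) := by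
        rw [← mul_div_assoc, div_le_iff₀ (by positivity)]
        nlinarith [hP, Nat.cast_nonneg (α := ℝ) k]
      linarith
    refine ⟨k, u', B', hu1, fun i => ⟨hB2 i, hB3 i⟩, ?_, ⟨(ℓ / 2) ^ 2 * Real.sqrt 2 * (1 / 1000000000), by positivity, ?_⟩, ?_⟩
    · refine hcov'.trans (Set.iUnion_mono (fun i => ?_))
      rintro x ⟨s, hs1, t, ht1, τ, rfl⟩
      exact ⟨_, hB1 i ⟨s, hs1, t, ht1, rfl⟩, τ, rfl⟩
    · intro v hv
      have := hproj v hv
      linarith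
    · exact hratio _ (fun i => ENNReal.toReal_nonneg) hsumB

end Crest.Agent.S0327
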