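import Crest.Statements.S0328
import Crest.Agent.H12Radial

set_option autoImplicit false
set_option maxHeartbeats 4000000
open MeasureTheory
open scoped ENNReal
open Crest Crest.GeometryTopology Crest.GeometryTopology.Convex

namespace Crest.Agent.S0328

/-- Unit e; a, b, p₀ ∈ e^⊥, a, b independent; α < β; L > 0; R ≥ 0, λ both continuous on [α, β]; w(t) ∈ e^⊥, w′ = λ(t)(a + tb). S = {p₀ + ρ(a + t b) + s(e + w t) : α ≤ t ≤ β, 0 ≤ ρ ≤ R t, ‖s‖ ≤ L}; A = κ ∫_α^β R²/(2√(1 + ‖w‖²)), κ = area spanned by a, b. For η > 0 a δ > 0 makes each partition t₀ < … < t_N of [α, β] of mesh ≤ δ, tags cᵢ, admit N cylinders (axes e + w(cᵢ), nondegenerate triangle bases) covering S, total area within η of A; same for S's pieces tᵢ ≤ t ≤ tᵢ₊₁ projected along these axes. -/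
theorem result
    (e a b p₀ : EuclideanSpace ℝ (Fin 3)) (he : ‖e‖ = 1)
    (ha : inner ℝ a e = 0) (hb : inner ℝ b e = 0) (hp₀ : inner ℝ p₀ e = 0)
    (hab : LinearIndependent ℝ ![a, b]) (L : ℝ) (hL : 0 < L) (α β : ℝ) (hαβ : α < β)
    (R : ℝ → ℝ) (hR : ContinuousOn R (Set.Icc α β)) (hR0 : ∀ t ∈ Set.Icc α β, 0 ≤ R t)
    (w : ℝ → EuclideanSpace ℝ (Fin 3)) (hw : ∀ t ∈ Set.Icc α β, inner ℝ (w t) e = 0)
    (lam : ℝ → ℝ) (hlam : ContinuousOn lam (Set.Icc α β))
    (hw' : ∀ t ∈ Set.Icc α β, HasDerivWithinAt w (lam t • (a + t • b)) (Set.Icc α β) t)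
    (η : ℝ) (hη : 0 < η) :
    ∃ δ : ℝ, 0 < δ ∧ ∀ (N : ℕ) (t : Fin (N + 1) → ℝ) (c : Fin N → ℝ),
      StrictMono t → t 0 = α → t (Fin.last N) = β →
      (∀ i : Fin N, t i.succ - t i.castSucc ≤ δ) →
      (∀ i : Fin N, t i.castSucc ≤ c i ∧ c i ≤ t i.succ) →
      (∃ (p q r : Fin N → EuclideanSpace ℝ (Fin 3)),
        (∀ i, inner ℝ (p i) (e + w (c i)) = 0 ∧ inner ℝ (q i) (e + w (c i)) = 0 ∧
          inner ℝ (r i) (e + w (c i)) = 0) ∧
        (∀ i, AffineIndependent ℝ ![p i, q i, r i]) ∧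
        {x : EuclideanSpace ℝ (Fin 3) | ∃ τ ∈ Set.Icc α β, ∃ ρ ∈ Set.Icc 0 (R τ), ∃ s : ℝ, abs s ≤ L ∧
            x = p₀ + ρ • (a + τ • b) + s • (e + w τ)} ⊆
          ⋃ i, {x : EuclideanSpace ℝ (Fin 3) | ∃ y ∈ convexHull ℝ {p i, q i, r i}, ∃ σ : ℝ,
            x = y + σ • (e + w (c i))} ∧
        abs ((∑ i, (μHE[2] (convexHull ℝ ({p i, q i, r i} : Set (EuclideanSpace ℝ (Fin 3))))).toReal) -
            Real.sqrt (‖a‖ ^ 2 * ‖b‖ ^ 2 - inner ℝ a b ^ 2) *
              ∫ τ in α..β, R τ ^ 2 / (2 * Real.sqrt (1 + ‖w τ‖ ^ 2))) ≤ η) ∧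
      abs ((∑ i : Fin N, (μHE[2] ((fun y => y - (inner ℝ y (e + w (c i)) / ‖e + w (c i)‖ ^ 2) • (e + w (c i))) ''
            {x : EuclideanSpace ℝ (Fin 3) | ∃ τ ∈ Set.Icc (t i.castSucc) (t i.succ), ∃ ρ ∈ Set.Icc 0 (R τ),
              ∃ s : ℝ, abs s ≤ L ∧ x = p₀ + ρ • (a + τ • b) + s • (e + w τ)})).toReal) -
          Real.sqrt (‖a‖ ^ 2 * ‖b‖ ^ 2 - inner ℝ a b ^ 2) *
            ∫ τ in α..β, R τ ^ 2 / (2 * Real.sqrt (1 + ‖w τ‖ ^ 2))) ≤ η := by
  classical
  set κ := Crest.Agent.H17Area.parea a b with hκdef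
  have hκ0 : 0 ≤ κ := Crest.Agent.H17Area.parea_nonneg a b
  have hκe : Real.sqrt (‖a‖ ^ 2 * ‖b‖ ^ 2 - inner ℝ a b ^ 2) = κ := rfl
  rw [hκe]
  obtain ⟨B, hB⟩ := isCompact_Icc.exists_bound_of_continuousOn hlam
  obtain ⟨Rm, hRm⟩ := isCompact_Icc.exists_bound_of_continuousOn hR
  have hB0 : 0 ≤ B := (norm_nonneg _).trans (hB α ⟨le_refl _, hαβ.le⟩)
  have hRm0 : 0 ≤ Rm := (norm_nonneg _).trans (hRm α ⟨le_refl _, hαβ.le⟩)
  have hwc : ContinuousOn w (Set.Icc α β) := fun x hx => (hw' x hx).continuousWithinAt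
  set F : ℝ → ℝ := fun τ => R τ ^ 2 / (2 * Real.sqrt (1 + ‖w τ‖ ^ 2)) with hF
  have hsq1 : ∀ τ, 1 ≤ Real.sqrt (1 + ‖w τ‖ ^ 2) := fun τ => by
    rw [Real.one_le_sqrt]; nlinarith [sq_nonneg ‖w τ‖]
  have hFc : ContinuousOn F (Set.Icc α β) := by
    apply ContinuousOn.div (hR.pow 2)
    · apply ContinuousOn.mul continuousOn_const
      exact (continuousOn_const.add (hwc.norm.pow 2)).sqrt
    · intro x _
      have := hsq1 x
      positivity
  set ε := min (1 / 2) (η / (κ * (β - α) * (2 * Rm + 2) + 1)) with hεdef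
  have hden : 0 < κ * (β - α) * (2 * Rm + 2) + 1 := by
    have : 0 < β - α := by linarith
    positivity
  have hε : 0 < ε := lt_min (by norm_num) (div_pos hη hden)
  have hε1 : ε ≤ 1 / 2 := min_le_left _ _
  have hε2 : κ * (β - α) * (2 * Rm + 2) * ε ≤ η := by
    have h1 : ε ≤ η / (κ * (β - α) * (2 * Rm + 2) + 1) := min_le_right _ _
    rw [le_div_iff₀ hden] at h1
    nlinarith
  obtain ⟨δ1, hδ1, hR1⟩ := Crest.Agent.H12Radial.unif R α β hR ε hε
  obtain ⟨δ2, hδ2, hF2⟩ := Crest.Agent.H12Radial.unif F α β hFc ε hε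
  have hLB : 0 ≤ L * B := mul_nonneg hL.le hB0
  set K := L * B + (3 * L * B + 1) with hK
  have hK0 : 0 < K := by rw [hK]; nlinarith
  refine ⟨min (min δ1 δ2) (ε / K), lt_min (lt_min hδ1 hδ2) (div_pos hε hK0), ?_⟩
  intro N t c ht ht0 ht1 hmesh hc
  have hmem : ∀ i, t i ∈ Set.Icc α β := fun i => by
    constructor
    · rw [← ht0]; exact ht.monotone (Fin.zero_le i)
    · rw [← ht1]; exact ht.monotone (Fin.le_last i)
  have hlt : ∀ i : Fin N, t i.castSucc < t i.succ := fun i => ht (Fin.castSucc_lt_succ)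
  have hcm : ∀ i : Fin N, c i ∈ Set.Icc α β := fun i =>
    ⟨(hmem _).1.trans (hc i).1, (hc i).2.trans (hmem _).2⟩
  have hd1 : ∀ i : Fin N, t i.succ - t i.castSucc ≤ δ1 := fun i =>
    (hmesh i).trans ((min_le_left _ _).trans (min_le_left _ _))
  have hd2 : ∀ i : Fin N, t i.succ - t i.castSucc ≤ δ2 := fun i =>
    (hmesh i).trans ((min_le_left _ _).trans (min_le_right _ _))
  have hd3 : ∀ i : Fin N, K * (t i.succ - t i.castSucc) ≤ ε := fun i => by
    have := (hmesh i).trans (min_le_right _ _)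
    rwa [le_div_iff₀ hK0, mul_comm] at this
  -- Riemann sum
  have hriem := Crest.Agent.H12Radial.riemann F α β ε δ2 hFc hF2 N t c ht ht0 ht1 hd2 hc
  have hsumΔ := Crest.Agent.H12Radial.sum_sub_fin N t
  rw [ht0, ht1] at hsumΔ
  -- combination lemma
  have hcomb : ∀ A : Fin N → ℝ, (∀ i, |A i - κ * ((t i.succ - t i.castSucc) * F (c i))| ≤
      κ * ((2 * Rm + 1) * ε) * (t i.succ - t i.castSucc)) →
      |(∑ i, A i) - κ * ∫ τ in α..β, F τ| ≤ η := by
    intro A hA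
    have e1 : (∑ i, A i) - κ * ∫ τ in α..β, F τ =
        (∑ i, (A i - κ * ((t i.succ - t i.castSucc) * F (c i)))) +
        κ * ((∑ i, (t i.succ - t i.castSucc) * F (c i)) - ∫ τ in α..β, F τ) := by
      rw [Finset.sum_sub_distrib, ← Finset.mul_sum]; ring
    rw [e1]
    refine (abs_add_le _ _).trans ?_
    have h1 : |∑ i, (A i - κ * ((t i.succ - t i.castSucc) * F (c i)))| ≤
        κ * ((2 * Rm + 1) * ε) * (β - α) := by
      rw [← hsumΔ, Finset.mul_sum]
      exact (Finset.abs_sum_le_sum_abs _ _).trans (Finset.sum_le_sum fun i _ => hA i)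
    have h2 : |κ * ((∑ i, (t i.succ - t i.castSucc) * F (c i)) - ∫ τ in α..β, F τ)| ≤
        κ * (ε * (β - α)) := by
      rw [abs_mul, abs_of_nonneg hκ0]
      exact mul_le_mul_of_nonneg_left hriem hκ0
    calc _ ≤ κ * ((2 * Rm + 1) * ε) * (β - α) + κ * (ε * (β - α)) := add_le_add h1 h2
      _ = κ * (β - α) * (2 * Rm + 2) * ε := by ring
      _ ≤ η := hε2
  -- notation for a piece
  set Δ : Fin N → ℝ := fun i => t i.succ - t i.castSucc with hΔ
  have hΔ0 : ∀ i, 0 < Δ i := fun i => by simp only [hΔ]; linarith [hlt i]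
  set x0 : Fin N → ℝ := fun i => (3 * L * B + 1) * (t i.succ - t i.castSucc) with hx0
  set D : Fin N → ℝ := fun i => (R (c i) + ε) + L * B * (t i.succ - t i.castSucc) + x0 i with hD
  set r : Fin N → ℝ := fun i => max 0 (R (c i) - ε) with hr
  have hRc0 : ∀ i, 0 ≤ R (c i) := fun i => hR0 _ (hcm i)
  have hRcm : ∀ i, R (c i) ≤ Rm := fun i => by
    have := hRm _ (hcm i)
    rw [Real.norm_eq_abs] at this
    exact (le_abs_self _).trans this
  have hD1 : ∀ i, R (c i) + ε ≤ D i := fun i => by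
    simp only [hD, hx0]
    have := (hΔ0 i).le
    simp only [hΔ] at this
    have h1 : 0 ≤ L * B * (t i.succ - t i.castSucc) := by positivity
    nlinarith
  have hD2 : ∀ i, D i ≤ R (c i) + 2 * ε := fun i => by
    have h1 : D i = R (c i) + ε + K * (t i.succ - t i.castSucc) := by
      simp only [hD, hx0, hK]; ring
    rw [h1]; linarith [hd3 i]
  have hDpos : ∀ i, 0 < D i := fun i => by linarith [hD1 i, hRc0 i]
  have hRτ : ∀ i : Fin N, ∀ τ ∈ Set.Icc (t i.castSucc) (t i.succ), |R τ - R (c i)| ≤ ε := by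
    intro i τ hτ
    apply hR1
    · exact ⟨(hmem _).1.trans hτ.1, hτ.2.trans (hmem _).2⟩
    · exact hcm i
    · rw [abs_le]
      constructor
      · linarith [hτ.1, hτ.2, (hc i).1, (hc i).2, hd1 i]
      · linarith [hτ.1, hτ.2, (hc i).1, (hc i).2, hd1 i]
  have hwi : ∀ i, inner ℝ (w (c i)) e = 0 := fun i => hw _ (hcm i)
  have hne : ∀ i, e + w (c i) ≠ 0 := fun i h => by
    have hn := Crest.Agent.H12Radial.norm_axis (w (c i)) e he (hwi i)
    rw [h, norm_zero] at hn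
    have := hsq1 (c i)
    linarith
  -- the error of a triangle of size `d`
  have herr : ∀ i, ∀ d : ℝ, 0 ≤ d → d ≤ R (c i) + 2 * ε → R (c i) - ε ≤ d →
      |d ^ 2 * (t i.succ - t i.castSucc) / 2 * (κ / Real.sqrt (1 + ‖w (c i)‖ ^ 2)) -
        κ * ((t i.succ - t i.castSucc) * F (c i))| ≤ κ * ((2 * Rm + 1) * ε) * (t i.succ - t i.castSucc) := by
    intro i d hd0 hdle hdge
    have hs := hsq1 (c i)
    have hs0 : 0 < Real.sqrt (1 + ‖w (c i)‖ ^ 2) := by linarith
    have hΔi := (hΔ0 i).le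
    simp only [hΔ] at hΔi
    have e1 : d ^ 2 * (t i.succ - t i.castSucc) / 2 * (κ / Real.sqrt (1 + ‖w (c i)‖ ^ 2)) -
        κ * ((t i.succ - t i.castSucc) * F (c i)) =
        κ * ((d ^ 2 - R (c i) ^ 2) / 2) * (t i.succ - t i.castSucc) / Real.sqrt (1 + ‖w (c i)‖ ^ 2) := by
      simp only [hF]; field_simp
    have hRi := hRc0 i
    have hRi' := hRcm i
    have h2 : |(d ^ 2 - R (c i) ^ 2) / 2| ≤ (2 * Rm + 1) * ε := by
      rw [abs_le]
      constructor
      · have h3 : R (c i) ^ 2 - d ^ 2 ≤ 2 * ε * R (c i) := by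
          by_cases hc1 : R (c i) ≤ ε
          · nlinarith
          · push Not at hc1
            have : (R (c i) - ε) ^ 2 ≤ d ^ 2 := pow_le_pow_left₀ (by linarith) hdge 2
            nlinarith
        nlinarith
      · have h3 : d ^ 2 ≤ (R (c i) + 2 * ε) ^ 2 := pow_le_pow_left₀ hd0 hdle 2
        nlinarith
    rw [e1, abs_div, abs_mul, abs_mul, abs_of_nonneg hκ0, abs_of_nonneg hΔi, abs_of_pos hs0]
    rw [div_le_iff₀ hs0]
    have h4 : κ * |(d ^ 2 - R (c i) ^ 2) / 2| * (t i.succ - t i.castSucc) ≤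
        κ * ((2 * Rm + 1) * ε) * (t i.succ - t i.castSucc) :=
      mul_le_mul_of_nonneg_right (mul_le_mul_of_nonneg_left h2 hκ0) hΔi
    refine h4.trans ?_
    exact le_mul_of_one_le_right (by positivity) hs
  -- vertices
  set A : Fin N → EuclideanSpace ℝ (Fin 3) := fun i => Crest.Agent.H17Cyl.projAlong (e + w (c i)) a with hA
  set Bv : Fin N → EuclideanSpace ℝ (Fin 3) := fun i => Crest.Agent.H17Cyl.projAlong (e + w (c i)) b with hBv
  set P : Fin N → EuclideanSpace ℝ (Fin 3) := fun i => Crest.Agent.H17Cyl.projAlong (e + w (c i)) p₀ +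
    (-x0 i) • A i + (-x0 i * ((t i.castSucc + t i.succ) / 2)) • Bv i with hP
  have houter : ∀ i, ∀ x ∈ Crest.Agent.H12Radial.piece e a b p₀ L R w (t i.castSucc) (t i.succ),
      Crest.Agent.H17Cyl.projAlong (e + w (c i)) x ∈ convexHull ℝ ({P i, P i + D i • (A i + t i.castSucc • Bv i),
        P i + D i • (A i + t i.succ • Bv i)} : Set (EuclideanSpace ℝ (Fin 3))) := by
    intro i x hx
    obtain ⟨s, _, h⟩ := Crest.Agent.H12Radial.piece_outer e a b p₀ L hL R w he α β lam hlam hw hw' B hB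
      (t i.castSucc) (t i.succ) (c i) (R (c i) + ε) (hmem _).1 (hmem _).2 (hlt i) (hc i)
      (fun τ hτ => by
        have := (abs_le.mp (hRτ i τ hτ)).2
        linarith) (by linarith [hRc0 i]) (x0 i) (D i) rfl rfl x hx
    exact h
  have hareaO : ∀ i, (μHE[2] (convexHull ℝ ({P i, P i + D i • (A i + t i.castSucc • Bv i),
        P i + D i • (A i + t i.succ • Bv i)} : Set (EuclideanSpace ℝ (Fin 3))))).toReal =
        D i ^ 2 * (t i.succ - t i.castSucc) / 2 * (κ / Real.sqrt (1 + ‖w (c i)‖ ^ 2)) := fun i =>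
    Crest.Agent.H12Radial.tri_form_area (P i) a b (w (c i)) e he ha hb (hwi i) (D i) _ _ (hlt i).le
  refine ⟨⟨P, fun i => P i + D i • (A i + t i.castSucc • Bv i), fun i => P i + D i • (A i + t i.succ • Bv i),
    ?_, ?_, ?_, ?_⟩, ?_⟩
  · intro i
    have hp := Crest.Agent.H17Cyl.inner_projAlong (e + w (c i)) p₀ (hne i)
    have hpa := Crest.Agent.H17Cyl.inner_projAlong (e + w (c i)) a (hne i)
    have hpb := Crest.Agent.H17Cyl.inner_projAlong (e + w (c i)) b (hne i)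
    have h1 : inner ℝ (P i) (e + w (c i)) = 0 := by
      simp only [hP, hA, hBv, inner_add_left _ _ (e + w (c i)), inner_smul_left, hp, hpa, hpb]
      simp
    refine ⟨h1, ?_, ?_⟩
    · simp only [hA, hBv, inner_add_left _ _ (e + w (c i)), inner_smul_left, hpa, hpb, h1]
      simp
    · simp only [hA, hBv, inner_add_left _ _ (e + w (c i)), inner_smul_left, hpa, hpb, h1]
      simp
  · intro i
    exact Crest.Agent.H12Radial.tri_affInd (P i) a b (w (c i)) e he ha hb (hwi i) hab (D i) _ _ (hlt i) (hDpos i)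
  · rintro x ⟨τ, hτ, ρ, hρ, s, hs, rfl⟩
    -- locate τ
    have hloc : ∃ i : Fin N, τ ∈ Set.Icc (t i.castSucc) (t i.succ) := by
      by_contra hcon
      push Not at hcon
      have hall : ∀ j : Fin (N + 1), t j ≤ τ := by
        intro j
        induction j using Fin.induction with
        | zero => rw [ht0]; exact hτ.1
        | succ i ih =>
          by_contra h
          push Not at h
          exact hcon i ⟨ih, h.le⟩
      have h1 : t (Fin.last N) = τ := le_antisymm (hall _) (by rw [ht1]; exact hτ.2)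
      rcases Nat.eq_zero_or_pos N with hN | hN
      · subst hN
        have : t 0 = t (Fin.last 0) := rfl
        rw [ht0, ht1] at this
        linarith
      · obtain ⟨M, rfl⟩ : ∃ M, N = M + 1 := ⟨N - 1, by omega⟩
        apply hcon (Fin.last M)
        refine ⟨hall _, ?_⟩
        rw [Fin.succ_last, h1]
    obtain ⟨i, hi⟩ := hloc
    have h1 := houter i (p₀ + ρ • (a + τ • b) + s • (e + w τ)) ⟨τ, hi, ρ, hρ, s, hs, rfl⟩
    rw [Set.mem_iUnion]
    refine ⟨i, _, h1, inner ℝ (p₀ + ρ • (a + τ • b) + s • (e + w τ)) (e + w (c i)) / ‖e + w (c i)‖ ^ 2, ?_⟩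
    rw [Crest.Agent.H17Cyl.projAlong]; abel
  · refine hcomb _ fun i => ?_
    rw [hareaO i]
    exact herr i (D i) (hDpos i).le (hD2 i) (by linarith [hD1 i])
  · refine hcomb _ fun i => ?_
    set V := ((fun y => y - (inner ℝ y (e + w (c i)) / ‖e + w (c i)‖ ^ 2) • (e + w (c i))) ''
            {x : EuclideanSpace ℝ (Fin 3) | ∃ τ ∈ Set.Icc (t i.castSucc) (t i.succ), ∃ ρ ∈ Set.Icc 0 (R τ),
              ∃ s : ℝ, abs s ≤ L ∧ x = p₀ + ρ • (a + τ • b) + s • (e + w τ)}) with hV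
    have hVsub : V ⊆ convexHull ℝ ({P i, P i + D i • (A i + t i.castSucc • Bv i),
        P i + D i • (A i + t i.succ • Bv i)} : Set (EuclideanSpace ℝ (Fin 3))) := by
      rintro _ ⟨x, hx, rfl⟩
      exact houter i x hx
    have hr1 : 0 ≤ r i := le_max_left _ _
    have hr2 : ∀ τ ∈ Set.Icc (t i.castSucc) (t i.succ), r i ≤ R τ := by
      intro τ hτ
      apply max_le
      · exact hR0 _ ⟨(hmem _).1.trans hτ.1, hτ.2.trans (hmem _).2⟩
      · have := (abs_le.mp (hRτ i τ hτ)).1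
        linarith
    have hVsup := Crest.Agent.H12Radial.piece_inner e a b p₀ L hL R w (t i.castSucc) (t i.succ) (c i) (r i)
      (hlt i) hr1 hr2
    have hareaI := Crest.Agent.H12Radial.tri_form_area (Crest.Agent.H17Cyl.projAlong (e + w (c i)) p₀)
      a b (w (c i)) e he ha hb (hwi i) (r i) _ _ (hlt i).le
    have hfin : μHE[2] (convexHull ℝ ({P i, P i + D i • (A i + t i.castSucc • Bv i),
        P i + D i • (A i + t i.succ • Bv i)} : Set (EuclideanSpace ℝ (Fin 3)))) ≠ ⊤ := by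
      rw [Crest.Agent.H17Area.euclideanHausdorff_triangle]
      exact ENNReal.ofReal_ne_top
    have hVfin : μHE[2] V ≠ ⊤ := ne_top_of_le_ne_top hfin (measure_mono hVsub)
    have hle1 : (μHE[2] V).toReal ≤ D i ^ 2 * (t i.succ - t i.castSucc) / 2 *
        (κ / Real.sqrt (1 + ‖w (c i)‖ ^ 2)) := by
      rw [← hareaO i]
      exact ENNReal.toReal_mono hfin (measure_mono hVsub)
    have hle2 : r i ^ 2 * (t i.succ - t i.castSucc) / 2 *
        (κ / Real.sqrt (1 + ‖w (c i)‖ ^ 2)) ≤ (μHE[2] V).toReal := by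
      rw [hκdef, ← hareaI]
      exact ENNReal.toReal_mono hVfin (measure_mono hVsup)
    have hE1 := herr i (D i) (hDpos i).le (hD2 i) (by linarith [hD1 i])
    have hE2 := herr i (r i) hr1 (max_le (by linarith [hRc0 i]) (by linarith)) (le_max_right _ _)
    rw [abs_le] at hE1 hE2 ⊢
    constructor
    · linarith [hE2.1]
    · linarith [hE1.2]

end Crest.Agent.S0328
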