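import Crest.Statements.S0329
import Crest.Agent.H20Open

set_option autoImplicit false
open MeasureTheory
open scoped ENNReal
open Crest Crest.GeometryTopology Crest.GeometryTopology.Convex

namespace Crest.Agent.S0329

open Crest.Agent.H20Local Crest.Agent.H20Global Crest.Agent.H20Open Crest.Agent.H17Cyl

/-- Let h, M > 0, D ⊂ ℝ² be compact with Lebesgue-null boundary, and V : ℝ² → ℝ² be C¹ on an open set containing D with tr DV(p) = 0 and −1/M² < det DV(p) < 0 for p ∈ D. For every ε > 0 the set of points (x, p₁ + x V₁(p), h (p₂ + x V₂(p))) ∈ ℝ³ with p ∈ D, −M ≤ x ≤ M is covered by finitely many cylinders Bᵢ + ℝ uᵢ, ‖uᵢ‖ = 1, with bases Bᵢ bounded relatively open subsets of the planes uᵢ^⊥ and ∑ᵢ area(Bᵢ) ≤ h ∫_D (1 + V₁² + h² V₂²)^(−1/2) + ε (areas: normalised 2-dimensional Hausdorff measure). -/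
theorem result
    (h M : ℝ) (hh : 0 < h) (hM : 0 < M) (D : Set (EuclideanSpace ℝ (Fin 2))) (hD : IsCompact D)
    (hbd : volume (frontier D) = 0)
    (V : EuclideanSpace ℝ (Fin 2) → EuclideanSpace ℝ (Fin 2)) (U : Set (EuclideanSpace ℝ (Fin 2)))
    (hU : IsOpen U) (hDU : D ⊆ U) (hV : ContDiffOn ℝ 1 V U)
    (htr : ∀ p ∈ D, LinearMap.trace ℝ _ (fderiv ℝ V p).toLinearMap = 0)
    (hdet : ∀ p ∈ D, -(M ^ 2)⁻¹ < LinearMap.det (fderiv ℝ V p).toLinearMap ∧
      LinearMap.det (fderiv ℝ V p).toLinearMap < 0)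
    (ε : ℝ) (hε : 0 < ε) :
    ∃ (k : ℕ) (u : Fin k → EuclideanSpace ℝ (Fin 3)) (B : Fin k → Set (EuclideanSpace ℝ (Fin 3))),
      (∀ i, ‖u i‖ = 1) ∧
      (∀ i, Bornology.IsBounded (B i) ∧ ∃ O : Set (EuclideanSpace ℝ (Fin 3)), IsOpen O ∧
        B i = O ∩ {x | inner ℝ x (u i) = 0}) ∧
      {z : EuclideanSpace ℝ (Fin 3) | ∃ p ∈ D, ∃ x : ℝ, abs x ≤ M ∧
          z = !₂[x, p 0 + x * V p 0, h * (p 1 + x * V p 1)]} ⊆
        ⋃ i, {z : EuclideanSpace ℝ (Fin 3) | ∃ y ∈ B i, ∃ τ : ℝ, z = y + τ • u i} ∧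
      ∑ i, (μHE[2] (B i)).toReal ≤
        h * (∫ p in D, 1 / Real.sqrt (1 + (V p 0) ^ 2 + h ^ 2 * (V p 1) ^ 2)) + ε := by
  obtain ⟨k, c, a, b, g, h1, h2, h3⟩ :=
    Crest.Agent.H20Global.CoverCost.toFin (global_cover D hD V U hU hDU hV M h hM htr
      (fun p hp => ⟨(hdet p hp).1, (hdet p hp).2.le⟩) (ε / (2 * h)) (by positivity))
  set A : ℝ := ∫ p in D, J h (V p) with hA
  have hA0 : 0 ≤ A := integral_nonneg fun p => (J_pos h (V p)).le
  obtain ⟨η, hη, hη1⟩ : ∃ η : ℝ, 0 < η ∧ (1 + 2 * η) ^ 2 * (h * A + ε / 2) ≤ h * A + ε := by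
    have hcont : Continuous (fun μ : ℝ => (1 + 2 * μ) ^ 2 * (h * A + ε / 2)) := by fun_prop
    have h0 : (fun μ : ℝ => (1 + 2 * μ) ^ 2 * (h * A + ε / 2)) 0 < h * A + ε := by
      simp only [mul_zero, add_zero, one_pow, one_mul]
      linarith
    have hev := hcont.continuousAt.eventually (gt_mem_nhds h0)
    rw [Metric.eventually_nhds_iff] at hev
    obtain ⟨e, he, hball⟩ := hev
    refine ⟨e / 2, by positivity, ?_⟩
    have := hball (y := e / 2) (by
      rw [Real.dist_eq, sub_zero, abs_of_pos (by positivity)]; linarith)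
    exact this.le
  refine ⟨k, fun i => ‖dir h (g i)‖⁻¹ • dir h (g i), fun i => base h η (c i) (a i) (b i) (g i),
    fun i => unit_dir _ (dir_ne_zero h (g i)), fun i => ⟨base_bounded h η _ _ _ _,
      base_relopen h η hh _ _ _ _ (h1 i).1 (h1 i).2.1 (h1 i).2.2⟩, ?_, ?_⟩
  · rintro z ⟨p, hp, x, hx, rfl⟩
    have hmem : ((x, p + x • V p) : ℝ × EuclideanSpace ℝ (Fin 2)) ∈ Ruled M V D := ⟨p, hp, hx, rfl⟩
    obtain ⟨i, hi⟩ := Set.mem_iUnion.mp (h2 hmem)
    obtain ⟨s, hs, t, ht, hst⟩ := hi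
    simp only at hst
    refine Set.mem_iUnion.mpr ⟨i, projAlong (dir h (g i)) (lift h (c i + s • a i + t • b i)),
      mem_base h η _ _ _ _ s t ⟨by linarith [hs.1], by linarith [hs.2]⟩
        ⟨by linarith [ht.1], by linarith [ht.2]⟩,
      (inner ℝ (lift h (c i + s • a i + t • b i)) (dir h (g i)) / ‖dir h (g i)‖ ^ 2 + x) *
        ‖dir h (g i)‖, ?_⟩
    have hn : ‖dir h (g i)‖ ≠ 0 := norm_ne_zero_iff.mpr (dir_ne_zero h (g i))
    rw [smul_smul, mul_assoc, mul_inv_cancel₀ hn, mul_one, add_smul, projAlong]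
    have key : (!₂[x, p 0 + x * V p 0, h * (p 1 + x * V p 1)] : EuclideanSpace ℝ (Fin 3)) =
        lift h (c i + s • a i + t • b i) + x • dir h (g i) := by
      have e0 := congrArg (fun q : EuclideanSpace ℝ (Fin 2) => q 0) hst
      have e1 := congrArg (fun q : EuclideanSpace ℝ (Fin 2) => q 1) hst
      simp only [PiLp.add_apply, PiLp.smul_apply, smul_eq_mul] at e0 e1
      ext j
      fin_cases j
      · simp [lift, dir]
      · simp [lift, dir]
        linarith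
      · simp [lift, dir]
        rw [e1]; ring
    rw [key]
    abel
  · have e1 : ∀ i, (μHE[2] (base h η (c i) (a i) (b i) (g i))).toReal =
        (1 + 2 * η) ^ 2 * (h * (‖a i‖ ^ 2 * J h (g i))) := fun i =>
      area_base h η hh hη _ _ _ _ (h1 i).2.1 (h1 i).2.2
    simp only [e1]
    rw [← Finset.mul_sum, ← Finset.mul_sum]
    have e2 : h * ∑ i, ‖a i‖ ^ 2 * J h (g i) ≤ h * A + ε / 2 := by
      have := mul_le_mul_of_nonneg_left h3 hh.le
      have e3 : h * (A + ε / (2 * h)) = h * A + ε / 2 := by field_simp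
      linarith
    calc (1 + 2 * η) ^ 2 * (h * ∑ i, ‖a i‖ ^ 2 * J h (g i)) ≤ (1 + 2 * η) ^ 2 * (h * A + ε / 2) :=
          mul_le_mul_of_nonneg_left e2 (by positivity)
      _ ≤ h * A + ε := hη1
      _ = _ := rfl

end Crest.Agent.S0329
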