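import Crest.Agent.ThpSpec

/-! Module KILL of rid 155 (S0222), by helper12. -/

set_option autoImplicit false

open Finset Crest.Agent.Thp

namespace Crest.Agent.ThpKill

variable {D k : ℕ}

/-- permutations supported in `R` -/
noncomputable def SR (R : Finset (X D)) : Finset (Equiv.Perm (X D)) :=
  univ.filter (fun σ : Equiv.Perm (X D) => ∀ z, z ∉ R → σ z = z)

/-- states differing from `x` only in the position of card `i` -/
noncomputable def Fi (i : Fin k) (x : Om k D) : Finset (Om k D) :=
  univ.filter (fun y : Om k D => ∀ j, j ≠ i → y j = x j)

noncomputable def A (f : Om k D → ℝ) (R : Finset (X D)) (x : Om k D) : ℝ :=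
  ∑ σ ∈ SR R, f (act σ x)

theorem act_mul (σ τ : Equiv.Perm (X D)) (x : Om k D) : act σ (act τ x) = act (σ * τ) x := by
  ext i; simp

theorem harmA (f : Om k D → ℝ) (hf : Harm f) (R : Finset (X D)) (i : Fin k) (x : Om k D) :
    ∑ y ∈ Fi i x, A f R y = 0 := by
  unfold A
  rw [Finset.sum_comm]
  apply Finset.sum_eq_zero
  intro σ _
  have h := hf i (act σ x)
  rw [← h]
  apply Finset.sum_bij (fun y _ => act σ y)
  · intro y hy
    simp only [Fi, mem_filter, mem_univ, true_and] at hy ⊢
    intro j hj
    simp [hy j hj]
  · intro y _ y' _ hyy
    ext j
    have := congrArg (fun w : Om k D => w j) hyy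
    simp only [act_apply] at this
    rw [σ.injective this]
  · intro y hy
    simp only [mem_filter, mem_univ, true_and] at hy
    refine ⟨act σ⁻¹ y, ?_, ?_⟩
    · simp only [Fi, mem_filter, mem_univ, true_and]
      intro j hj
      simp [hy j hj]
    · rw [act_mul]; ext j; simp
  · intro y _; rfl

theorem invA (f : Om k D → ℝ) (R : Finset (X D)) (τ : Equiv.Perm (X D)) (hτ : τ ∈ SR R)
    (x : Om k D) : A f R (act τ x) = A f R x := by
  unfold A
  simp only [SR, mem_filter, mem_univ, true_and] at hτ
  have hτ' : ∀ z, z ∉ R → τ⁻¹ z = z := by
    intro z hz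
    rw [Equiv.Perm.inv_eq_iff_eq, hτ z hz]
  apply Finset.sum_bij (fun σ _ => σ * τ)
  · intro σ hσ
    simp only [SR, mem_filter, mem_univ, true_and] at hσ ⊢
    intro z hz
    rw [Equiv.Perm.mul_apply, hτ z hz, hσ z hz]
  · intro σ _ σ' _ h
    exact mul_right_cancel h
  · intro σ hσ
    simp only [SR, mem_filter, mem_univ, true_and] at hσ
    refine ⟨σ * τ⁻¹, ?_, by simp⟩
    simp only [SR, mem_filter, mem_univ, true_and]
    intro z hz
    rw [Equiv.Perm.mul_apply, hτ' z hz, hσ z hz]
  · intro σ _
    rw [act_mul]

/-- free points outside `R` -/
noncomputable def nf (R : Finset (X D)) (x : Om k D) : Finset (X D) :=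
  univ.filter (fun z => z ∉ R ∧ ∀ i, x i ≠ z)

theorem zeroA (f : Om k D → ℝ) (hf : Harm f) (R : Finset (X D)) (hR : 2 ^ D < R.card + k) :
    ∀ (N : ℕ) (x : Om k D), (nf R x).card = N → A f R x = 0 := by
  intro N
  induction N using Nat.strong_induction_on with
  | _ N ih =>
    intro x hx
    -- a card inside R
    have hex : ∃ i, x i ∈ R := by
      by_contra hno
      push Not at hno
      have h1 : k ≤ (univ \ R).card := by
        calc k = (univ : Finset (Fin k)).card := by simp
          _ = (univ.image (fun i => x i)).card := (Finset.card_image_of_injective _ x.injective).symm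
          _ ≤ (univ \ R).card := by
            apply Finset.card_le_card
            intro z hz
            simp only [mem_image, mem_univ, true_and] at hz
            obtain ⟨i, rfl⟩ := hz
            simp [hno i]
      have h2 : (univ \ R).card = 2 ^ D - R.card := by
        rw [Finset.card_sdiff_of_subset (Finset.subset_univ _)]
        simp [X]
      have h3 : R.card ≤ 2 ^ D := by
        calc R.card ≤ (univ : Finset (X D)).card := Finset.card_le_card (Finset.subset_univ _)
          _ = 2 ^ D := by simp [X]
      omega
    obtain ⟨i, hi⟩ := hex
    have h0 := harmA f hf R i x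
    have h1 : ∀ y ∈ Fi i x, A f R y = if y i ∈ R then A f R x else 0 := by
      intro y hy
      simp only [Fi, mem_filter, mem_univ, true_and] at hy
      split_ifs with hyR
      · -- y = act (swap (x i) (y i)) x
        have hsw : Equiv.swap (x i) (y i) ∈ SR R := by
          simp only [SR, mem_filter, mem_univ, true_and]
          intro z hz
          apply Equiv.swap_apply_of_ne_of_ne
          · rintro rfl; exact hz hi
          · rintro rfl; exact hz hyR
        have hy2 : y = act (Equiv.swap (x i) (y i)) x := by
          ext j
          by_cases hj : j = i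
          · subst hj; simp
          · rw [act_apply, Equiv.swap_apply_of_ne_of_ne]
            · rw [hy j hj]
            · exact fun h => hj (x.injective h)
            · rw [← hy j hj]; exact fun h => hj (y.injective h)
        rw [hy2, invA f R _ hsw]
      · -- fewer free points
        apply ih (nf R y).card _ y rfl
        rw [← hx]
        apply Finset.card_lt_card
        rw [Finset.ssubset_iff_of_subset]
        · refine ⟨y i, ?_, ?_⟩
          · simp only [nf, mem_filter, mem_univ, true_and]
            refine ⟨hyR, ?_⟩
            intro j
            by_cases hj : j = i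
            · subst hj; intro h; rw [h] at hi; exact hyR hi
            · rw [← hy j hj]; exact fun h => hj (y.injective h)
          · simp only [nf, mem_filter, mem_univ, true_and, not_and, not_forall]
            intro _
            exact ⟨i, by simp⟩
        · intro z hz
          simp only [nf, mem_filter, mem_univ, true_and] at hz ⊢
          refine ⟨hz.1, ?_⟩
          intro j
          by_cases hj : j = i
          · subst hj; rintro rfl; exact hz.1 hi
          · rw [← hy j hj]; exact hz.2 j
    rw [Finset.sum_congr rfl h1, ← Finset.sum_filter, Finset.sum_const, nsmul_eq_mul] at h0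
    rcases mul_eq_zero.mp h0 with h | h
    · exfalso
      have : ((Fi i x).filter (fun y => y i ∈ R)).card = 0 := by exact_mod_cast h
      rw [Finset.card_eq_zero] at this
      have hxm : x ∈ (Fi i x).filter (fun y => y i ∈ R) := by
        simp [Fi, hi]
      rw [this] at hxm
      simp at hxm
    · exact h

theorem main : Crest.Agent.Thp.Spec.Kill := by
  intro D k f hf R hR x
  exact zeroA f hf R hR _ x rfl

end Crest.Agent.ThpKill
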